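import Crest.Agent.R347.Basic

/-! Consequences of being a limit of power sums of nonnegative numbers. -/

set_option autoImplicit false

namespace Crest.Agent.R347

open Filter Topology

/-! ### finite power sums -/

theorem IsPS.of_finset {ι : Type*} (s : Finset ι) (y : ι → ℝ) (hy : ∀ i ∈ s, 0 ≤ y i)
    (f : ℕ → ℝ) (hf : ∀ l, 1 ≤ l → f l = ∑ i ∈ s, y i ^ l) : IsPS f := by
  classical
  refine ⟨s.card, fun i => y (s.equivFin.symm i), fun i => hy _ (s.equivFin.symm i).2, ?_⟩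
  intro l hl
  rw [hf l hl, ← Finset.sum_coe_sort s (fun i => y i ^ l)]
  exact (Equiv.sum_comp s.equivFin.symm (fun i => y i ^ l)).symm

theorem IsPS.nonneg {f : ℕ → ℝ} (h : IsPS f) {l : ℕ} (hl : 1 ≤ l) : 0 ≤ f l := by
  obtain ⟨m, x, hx, hf⟩ := h
  rw [hf l hl]
  exact Finset.sum_nonneg (fun i _ => pow_nonneg (hx i) l)

theorem IsPS.add {f g : ℕ → ℝ} (hf : IsPS f) (hg : IsPS g) : IsPS (fun l => f l + g l) := by
  obtain ⟨m, x, hx, hfx⟩ := hf
  obtain ⟨m', x', hx', hgx⟩ := hg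
  refine IsPS.of_finset (Finset.univ : Finset (Fin m ⊕ Fin m')) (Sum.elim x x') ?_ _ ?_
  · rintro (i | i) _
    · exact hx i
    · exact hx' i
  · intro l hl
    simp only [Fintype.sum_sum_type, Sum.elim_inl, Sum.elim_inr]
    rw [hfx l hl, hgx l hl]

theorem IsPS.comp_mul {f : ℕ → ℝ} (hf : IsPS f) {k : ℕ} (hk : 1 ≤ k) :
    IsPS (fun l => f (k * l)) := by
  obtain ⟨m, x, hx, hfx⟩ := hf
  refine ⟨m, fun i => x i ^ k, fun i => pow_nonneg (hx i) k, ?_⟩
  intro l hl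
  show f (k * l) = _
  rw [hfx (k * l) (Nat.mul_pos hk hl)]
  simp only [pow_mul]

theorem IsPS.mul_pow {f : ℕ → ℝ} (hf : IsPS f) {c : ℝ} (hc : 0 ≤ c) :
    IsPS (fun l => c ^ l * f l) := by
  obtain ⟨m, x, hx, hfx⟩ := hf
  refine ⟨m, fun i => c * x i, fun i => mul_nonneg hc (hx i), ?_⟩
  intro l hl
  show c ^ l * f l = _
  rw [hfx l hl, Finset.mul_sum]
  simp only [_root_.mul_pow]

theorem IsPS.exists_top {f : ℕ → ℝ} (hf : IsPS f) :
    ∃ x : ℝ, 0 ≤ x ∧ IsPS (fun l => f l - x ^ l) ∧ ∀ l, 1 ≤ l → f (l + 1) ≤ x * f l := by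
  classical
  obtain ⟨m, x, hx, hfx⟩ := hf
  rcases Nat.eq_zero_or_pos m with rfl | hm
  · refine ⟨0, le_rfl, ?_, ?_⟩
    · refine ⟨0, x, hx, ?_⟩
      intro l hl
      show f l - 0 ^ l = _
      rw [hfx l hl, zero_pow (by omega)]
      simp
    · intro l hl
      rw [hfx (l + 1) (by omega)]
      simp
  · have : Nonempty (Fin m) := ⟨⟨0, hm⟩⟩
    obtain ⟨i₀, _, hi₀⟩ := Finset.exists_max_image (Finset.univ : Finset (Fin m)) x
      Finset.univ_nonempty
    refine ⟨x i₀, hx i₀, ?_, ?_⟩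
    · refine IsPS.of_finset (Finset.univ.erase i₀) x (fun i _ => hx i) _ ?_
      intro l hl
      rw [hfx l hl, ← Finset.add_sum_erase Finset.univ (fun i => x i ^ l) (Finset.mem_univ i₀)]
      ring
    · intro l hl
      rw [hfx (l + 1) (by omega), hfx l hl, Finset.mul_sum]
      apply Finset.sum_le_sum
      intro i _
      rw [pow_succ, mul_comm]
      exact mul_le_mul_of_nonneg_right (hi₀ i (Finset.mem_univ i)) (pow_nonneg (hx i) l)

theorem IsPS.hankel {f : ℕ → ℝ} (hf : IsPS f) {l : ℕ} (hl : 1 ≤ l) :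
    f (l + 1) ^ 2 ≤ f l * f (l + 2) := by
  obtain ⟨m, x, hx, hfx⟩ := hf
  rw [hfx l hl, hfx (l + 1) (by omega), hfx (l + 2) (by omega)]
  refine Finset.sum_sq_le_sum_mul_sum_of_sq_le_mul Finset.univ
    (fun i _ => pow_nonneg (hx i) _) (fun i _ => pow_nonneg (hx i) _) ?_
  intro i _
  apply le_of_eq
  ring

theorem IsPS.rpow_le {f : ℕ → ℝ} (hf : IsPS f) {l m : ℕ} (hl : 1 ≤ l) (hm : l ≤ m) :
    f m ≤ (f l) ^ ((m : ℝ) / l) := by
  have hf0 := hf.nonneg hl
  obtain ⟨n, x, hx, hfx⟩ := hf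
  have hl0 : (0 : ℝ) < l := by exact_mod_cast hl
  set p : ℝ := (m : ℝ) / l with hp
  have hp1 : 1 ≤ p := by
    rw [hp, le_div_iff₀ hl0]
    simpa using (by exact_mod_cast hm : (l : ℝ) ≤ m)
  have hle : ∀ i, x i ^ l ≤ f l := by
    intro i
    rw [hfx l hl]
    exact Finset.single_le_sum (f := fun i => x i ^ l) (fun j _ => pow_nonneg (hx j) l)
      (Finset.mem_univ i)
  have hterm : ∀ i, x i ^ m ≤ x i ^ l * (f l) ^ (p - 1) := by
    intro i
    have h0 : (0 : ℝ) ≤ x i ^ l := pow_nonneg (hx i) l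
    have h1 : x i ^ m = (x i ^ l) ^ p := by
      rw [← Real.rpow_natCast (x i) l, ← Real.rpow_natCast (x i) m, ← Real.rpow_mul (hx i)]
      congr 1
      rw [hp]
      field_simp
    have h2 : (x i ^ l) ^ p = x i ^ l * (x i ^ l) ^ (p - 1) := by
      rcases eq_or_lt_of_le h0 with h0' | h0'
      · rw [← h0', Real.zero_rpow (by linarith), zero_mul]
      · rw [Real.rpow_sub_one h0'.ne']
        field_simp
    rw [h1, h2]
    exact mul_le_mul_of_nonneg_left (Real.rpow_le_rpow h0 (hle i) (by linarith)) h0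
  have hsum : f m ≤ f l * (f l) ^ (p - 1) := by
    rw [hfx m (by omega)]
    calc ∑ i, x i ^ m ≤ ∑ i, x i ^ l * (f l) ^ (p - 1) := Finset.sum_le_sum (fun i _ => hterm i)
      _ = f l * (f l) ^ (p - 1) := by rw [← Finset.sum_mul, ← hfx l hl]
  refine hsum.trans (le_of_eq ?_)
  rcases eq_or_lt_of_le hf0 with h0' | h0'
  · rw [← h0', Real.zero_rpow (by linarith : p ≠ 0), zero_mul]
  · rw [Real.rpow_sub_one h0'.ne']
    field_simp

/-! ### limits -/

theorem PSL.nonneg {K : ℕ → ℝ} (h : PSL K) {l : ℕ} (hl : 1 ≤ l) : 0 ≤ K l := by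
  obtain ⟨f, hf, hK⟩ := h
  exact ge_of_tendsto' (hK l hl) (fun n => (hf n).nonneg hl)

theorem PSL.add {K K' : ℕ → ℝ} (h : PSL K) (h' : PSL K') : PSL (fun l => K l + K' l) := by
  obtain ⟨f, hf, hK⟩ := h
  obtain ⟨f', hf', hK'⟩ := h'
  exact ⟨fun n l => f n l + f' n l, fun n => (hf n).add (hf' n),
    fun l hl => (hK l hl).add (hK' l hl)⟩

theorem PSL.zero : PSL (fun _ => 0) := by
  refine ⟨fun _ _ => 0, fun n => ⟨0, fun _ => 0, fun _ => le_rfl, fun l _ => by simp⟩,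
    fun l _ => tendsto_const_nhds⟩

theorem PSL.smul {K : ℕ → ℝ} (h : PSL K) (m : ℕ) : PSL (fun l => m * K l) := by
  induction m with
  | zero =>
    simp only [Nat.cast_zero, zero_mul]
    exact PSL.zero
  | succ m ih =>
    have := ih.add h
    have e : (fun l => ((m + 1 : ℕ) : ℝ) * K l) = fun l => (m : ℝ) * K l + K l := by
      ext l; push_cast; ring
    rw [e]
    exact this

/-- The top of the power sum can be split off; `x` is the top: it dominates the ratios and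
is at most any `K l ^ (1/l)`. -/
theorem PSL.exists_top {K : ℕ → ℝ} (h : PSL K) :
    ∃ x : ℝ, 0 ≤ x ∧ PSL (fun l => K l - x ^ l) ∧ ∀ l, 1 ≤ l → K (l + 1) ≤ x * K l := by
  obtain ⟨f, hf, hK⟩ := h
  choose x hx0 hxps hxr using fun n => (hf n).exists_top
  -- the tops are bounded
  have hx1 : ∀ n, x n ≤ f n 1 := by
    intro n
    have := (hxps n).nonneg (l := 1) le_rfl
    simp only [pow_one] at this
    linarith
  obtain ⟨B, hB⟩ := (hK 1 le_rfl).bddAbove_range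
  have hxB : ∀ n, x n ∈ Set.Icc (0 : ℝ) B := fun n =>
    ⟨hx0 n, (hx1 n).trans (hB ⟨n, rfl⟩)⟩
  obtain ⟨a, ha, φ, hφ, hlim⟩ := isCompact_Icc.tendsto_subseq hxB
  refine ⟨a, ha.1, ?_, ?_⟩
  · refine ⟨fun n l => f (φ n) l - x (φ n) ^ l, fun n => hxps (φ n), ?_⟩
    intro l hl
    exact ((hK l hl).comp hφ.tendsto_atTop).sub (hlim.pow l)
  · intro l hl
    refine le_of_tendsto_of_tendsto ((hK (l + 1) (by omega)).comp hφ.tendsto_atTop)
      (hlim.mul ((hK l hl).comp hφ.tendsto_atTop)) ?_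
    exact Eventually.of_forall (fun n => hxr (φ n) l hl)

theorem PSL.hankel {K : ℕ → ℝ} (h : PSL K) {l : ℕ} (hl : 1 ≤ l) :
    K (l + 1) ^ 2 ≤ K l * K (l + 2) := by
  obtain ⟨f, hf, hK⟩ := h
  exact le_of_tendsto_of_tendsto' ((hK (l + 1) (by omega)).pow 2)
    ((hK l hl).mul (hK (l + 2) (by omega))) (fun n => (hf n).hankel hl)

/-- `ℓ^p` monotonicity: for `1 ≤ l ≤ m`, `K m ≤ (K l)^(m/l)`. -/
theorem PSL.rpow_le {K : ℕ → ℝ} (h : PSL K) {l m : ℕ} (hl : 1 ≤ l) (hm : l ≤ m) :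
    K m ≤ (K l) ^ ((m : ℝ) / l) := by
  obtain ⟨f, hf, hK⟩ := h
  have hl0 : (0 : ℝ) < l := by exact_mod_cast hl
  have hm0 : (0 : ℝ) < m := by exact_mod_cast (lt_of_lt_of_le hl hm)
  exact le_of_tendsto_of_tendsto' (hK m (by omega))
    ((hK l hl).rpow_const (Or.inr (by positivity))) (fun n => (hf n).rpow_le hl hm)

theorem PSL.pow_le {K : ℕ → ℝ} (h : PSL K) {l k : ℕ} (hl : 1 ≤ l) (hk : 1 ≤ k) :
    K (k * l) ≤ K l ^ k := by
  have h1 := h.rpow_le hl (m := k * l) (Nat.le_mul_of_pos_left l hk)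
  have hl0 : (l : ℝ) ≠ 0 := by
    have : (0 : ℝ) < l := by exact_mod_cast hl
    exact this.ne'
  have h2 : ((k * l : ℕ) : ℝ) / l = k := by
    push_cast
    field_simp
  rw [h2, Real.rpow_natCast] at h1
  exact h1

/-- scaling the argument: `K (k l)` as a function of `l` is again of this type. -/
theorem PSL.comp_mul {K : ℕ → ℝ} (h : PSL K) {k : ℕ} (hk : 1 ≤ k) : PSL (fun l => K (k * l)) := by
  obtain ⟨f, hf, hK⟩ := h
  exact ⟨fun n l => f n (k * l), fun n => (hf n).comp_mul hk,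
    fun l hl => hK (k * l) (Nat.mul_pos hk hl)⟩

/-- multiplication by `c^l`. -/
theorem PSL.mul_pow {K : ℕ → ℝ} (h : PSL K) {c : ℝ} (hc : 0 ≤ c) : PSL (fun l => c ^ l * K l) := by
  obtain ⟨f, hf, hK⟩ := h
  exact ⟨fun n l => c ^ l * f n l, fun n => (hf n).mul_pow hc,
    fun l hl => (hK l hl).const_mul _⟩

/-- Purity step.  If `K(2l) ≥ (1+u²)/(1+u)² K(l)²` then `K(4l) ≥ K(2l)²/(1+u²)²`. -/
theorem PSL.purity {K : ℕ → ℝ} (h : PSL K) {l : ℕ} (hl : 1 ≤ l) {u : ℝ} (hu0 : 0 ≤ u)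
    (hu1 : u < 1) (hP : (1 + u ^ 2) * K l ^ 2 ≤ (1 + u) ^ 2 * K (2 * l)) :
    K (2 * l) ^ 2 ≤ (1 + u ^ 2) ^ 2 * K (4 * l) := by
  have hc := h.comp_mul hl
  obtain ⟨a, ha0, hB, hr⟩ := hc.exists_top
  have e1 : K (l * 1) = K l := by rw [mul_one]
  have e2 : K (l * 2) = K (2 * l) := by rw [mul_comm]
  have e4 : K (l * 4) = K (4 * l) := by rw [mul_comm]
  -- data
  have hb0 : 0 ≤ K l - a := by
    have := hB.nonneg (l := 1) le_rfl
    simpa using this
  have h2b : K (2 * l) - a ^ 2 ≤ (K l - a) ^ 2 := by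
    have := hB.pow_le (l := 1) (k := 2) le_rfl (by norm_num)
    simp only [mul_one, pow_one, e2] at this
    exact this
  have h4 : a ^ 4 ≤ K (4 * l) := by
    have := hB.nonneg (l := 4) (by norm_num)
    simp only [e4] at this
    linarith
  have hra : K (2 * l) ≤ a * K l := by
    have := hr 1 le_rfl
    simp only [mul_one] at this
    rw [← e2]
    exact this
  have hK2 : 0 ≤ K (2 * l) := h.nonneg (by omega)
  set b : ℝ := K l - a with hb
  have hKl : K l = a + b := by rw [hb]; ring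
  rw [hKl] at hP hra
  -- b ≤ u a
  have hbu : b ≤ u * a := by
    by_contra hcon
    push Not at hcon
    have h1 : 0 ≤ (u * a - b) * (a - u * b) := by
      have : (1 + u ^ 2) * (a + b) ^ 2 ≤ (1 + u) ^ 2 * (a ^ 2 + b ^ 2) := by
        refine hP.trans (mul_le_mul_of_nonneg_left (by linarith) (by positivity))
      nlinarith
    have h3 : a ≤ u * b := by
      by_contra hc3
      push Not at hc3
      have : (u * a - b) * (a - u * b) < 0 :=
        mul_neg_of_neg_of_pos (by linarith) (by linarith)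
      linarith
    have hb_pos : 0 < b := lt_of_le_of_lt (mul_nonneg hu0 ha0) hcon
    have hab : 0 < a + b := by linarith
    have h2 : (1 + u ^ 2) * (a + b) ≤ (1 + u) ^ 2 * a := by
      have : (1 + u ^ 2) * (a + b) ^ 2 ≤ (1 + u) ^ 2 * (a * (a + b)) :=
        hP.trans (mul_le_mul_of_nonneg_left hra (by positivity))
      have h5 : (a + b) * ((1 + u ^ 2) * (a + b)) ≤ (a + b) * ((1 + u) ^ 2 * a) := by
        nlinarith
      exact le_of_mul_le_mul_left h5 hab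
    have h6 : b * (1 + u ^ 2) ≤ 2 * u * a := by nlinarith
    have h7 : 2 * u * a ≤ 2 * u * (u * b) := mul_le_mul_of_nonneg_left h3 (by positivity)
    have h8 : 0 < b * (1 - u ^ 2) := by
      apply mul_pos hb_pos
      nlinarith
    nlinarith
  have h9 : K (2 * l) ≤ (1 + u ^ 2) * a ^ 2 := by
    have : b ^ 2 ≤ (u * a) ^ 2 := pow_le_pow_left₀ hb0 hbu 2
    nlinarith
  calc K (2 * l) ^ 2 ≤ ((1 + u ^ 2) * a ^ 2) ^ 2 := pow_le_pow_left₀ hK2 h9 2
    _ = (1 + u ^ 2) ^ 2 * a ^ 4 := by ring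
    _ ≤ (1 + u ^ 2) ^ 2 * K (4 * l) := mul_le_mul_of_nonneg_left h4 (by positivity)

end Crest.Agent.R347
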