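import Crest.Agent.R347.Crossing
import Crest.Agent.R347.PSL

/-! Sector sums of the ring partition functions are limits of power sums. -/

set_option autoImplicit false

namespace Crest.Agent.R347

open Matrix Filter Topology Crest.MathPhysics.SpinChain

/-- Trace of a power of a real symmetric matrix as a power sum of its eigenvalues. -/
theorem trace_pow_eq_sum_eigenvalues {m : Type*} [Fintype m] [DecidableEq m] {A : Matrix m m ℝ}
    (hA : A.IsHermitian) (l : ℕ) : (A ^ l).trace = ∑ i, hA.eigenvalues i ^ l := by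
  conv_lhs => rw [hA.spectral_theorem, ← map_pow, diagonal_pow, Unitary.conjStarAlgAut_apply,
    trace_mul_cycle, Unitary.coe_star_mul_self, one_mul, trace_diagonal]
  simp

/-- For a real symmetric matrix `τ` commuting with a symmetric idempotent `P`, the traces
`Tr (P τ^(2l))`, `l ≥ 1`, are power sums of nonnegative numbers. -/
theorem isPS_trace_even {m : Type*} [Fintype m] [DecidableEq m] (P τ : Matrix m m ℝ)
    (hP : Pᵀ = P) (hPP : P * P = P) (hτ : τᵀ = τ) (hc : P * τ = τ * P) :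
    IsPS (fun l => (P * τ ^ (2 * l)).trace) := by
  have hPSD : ((τ * P)ᴴ * (τ * P)).PosSemidef := posSemidef_conjTranspose_mul_self _
  have hA : (τ * P)ᴴ * (τ * P) = P * τ ^ 2 := by
    rw [conjTranspose_eq_transpose_of_trivial, transpose_mul, hP, hτ]
    calc P * τ * (τ * P) = P * τ * (P * τ) := by rw [hc]
      _ = P * (τ * P) * τ := by simp only [mul_assoc]
      _ = P * (P * τ) * τ := by rw [hc]
      _ = (P * P) * (τ * τ) := by simp only [mul_assoc]
      _ = P * τ ^ 2 := by rw [hPP, pow_two]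
  rw [hA] at hPSD
  have hcomm : Commute P (τ ^ 2) := (show Commute P τ from hc).pow_right 2
  have hpow : ∀ l : ℕ, 1 ≤ l → (P * τ ^ 2) ^ l = P * τ ^ (2 * l) := by
    intro l hl
    rw [hcomm.mul_pow, pow_mul]
    congr 1
    exact IsIdempotentElem.pow_eq (n := l) hPP (by omega)
  refine ⟨Fintype.card m, fun i => hPSD.1.eigenvalues ((Fintype.equivFin m).symm i),
    fun i => hPSD.eigenvalues_nonneg _, fun l hl => ?_⟩
  simp only
  rw [← hpow l hl, trace_pow_eq_sum_eigenvalues hPSD.1 l]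
  exact ((Fintype.equivFin m).symm.sum_comp (fun i => hPSD.1.eigenvalues i ^ l)).symm

theorem Dsig_transpose (a : Fin 4) (n : ℕ) : (Dsig a n)ᵀ = Dsig a n := by
  simp [Dsig]

theorem Dsig_comm (a b : Fin 4) (n : ℕ) : Dsig a n * Dsig b n = Dsig b n * Dsig a n := by
  simp only [Dsig, diagonal_mul_diagonal]
  congr 1
  ext ω
  ring

/-- Projection onto a sector of the group `{1, D₁, D₂, D₃}`. -/
noncomputable def Psec (s t : ℝ) (n : ℕ) : Matrix (Fin n → Fin 4) (Fin n → Fin 4) ℝ :=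
  (1 / 4 : ℝ) • (1 + s • Dsig 1 n + t • Dsig 2 n + (s * t) • Dsig 3 n)

theorem Psec_transpose (s t : ℝ) (n : ℕ) : (Psec s t n)ᵀ = Psec s t n := by
  simp [Psec, Dsig_transpose]

theorem Psec_mul_self {s t : ℝ} (hs : s * s = 1) (ht : t * t = 1) (n : ℕ) :
    Psec s t n * Psec s t n = Psec s t n := by
  have h11 := Dsig_mul_self 1 n
  have h22 := Dsig_mul_self 2 n
  have h33 := Dsig_mul_self 3 n
  have h12 := Dsig_one_mul_two n
  have h21 : Dsig 2 n * Dsig 1 n = Dsig 3 n := by rw [Dsig_comm, h12]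
  have h13 : Dsig 1 n * Dsig 3 n = Dsig 2 n := by rw [← h12, ← mul_assoc, h11, one_mul]
  have h31 : Dsig 3 n * Dsig 1 n = Dsig 2 n := by rw [Dsig_comm, h13]
  have h32 : Dsig 3 n * Dsig 2 n = Dsig 1 n := by rw [← h12, mul_assoc, h22, mul_one]
  have h23 : Dsig 2 n * Dsig 3 n = Dsig 1 n := by rw [Dsig_comm, h32]
  simp only [Psec, mul_add, add_mul, mul_smul_comm, smul_mul_assoc, one_mul,
    mul_one, h11, h22, h33, h12, h21, h13, h31, h32, h23, smul_add, smul_smul]
  rcases mul_self_eq_one_iff.mp hs with rfl | rfl <;>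
    rcases mul_self_eq_one_iff.mp ht with rfl | rfl <;> module

theorem Psec_comm (s t : ℝ) (b : Fin 4) (e : ℝ) (n : ℕ) :
    Psec s t n * tauR b e n = tauR b e n * Psec s t n := by
  simp only [Psec, smul_mul_assoc, mul_smul_comm, mul_add, add_mul, one_mul, mul_one,
    Dsig_comm_tauR]

theorem Psec_trace (s t : ℝ) (n : ℕ) (X : Matrix (Fin n → Fin 4) (Fin n → Fin 4) ℝ) :
    (Psec s t n * X).trace = ((Dsig 0 n * X).trace + s * (Dsig 1 n * X).trace +
      t * (Dsig 2 n * X).trace + s * t * (Dsig 3 n * X).trace) / 4 := by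
  simp only [Psec, smul_mul_assoc, add_mul, trace_smul, trace_add, Dsig_zero, smul_eq_mul]
  ring

theorem isPS_Psec {s t : ℝ} (hs : s * s = 1) (ht : t * t = 1) (b : Fin 4) (e : ℝ) (n : ℕ) :
    IsPS (fun l => (Psec s t n * (tauR b e n) ^ (2 * l)).trace) :=
  isPS_trace_even _ _ (Psec_transpose s t n) (Psec_mul_self hs ht n) (tauR_transpose b e n)
    (Psec_comm s t b e n)

/-- Master statement: every sector sum is a limit of power sums. -/
theorem PSL_sector {s t : ℝ} (hs : s * s = 1) (ht : t * t = 1) (b : Fin 4) (β : ℝ) (hβ : 0 < β) :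
    PSL (fun l => (Zab 0 b β (2 * l) + s * Zab 1 b β (2 * l) + t * Zab 2 b β (2 * l) +
      s * t * Zab 3 b β (2 * l)) / 4) := by
  refine ⟨fun n l => (Psec s t n * (tauR b (Real.sqrt (β / n)) n) ^ (2 * l)).trace,
    fun n => isPS_Psec hs ht b _ n, fun l hl => ?_⟩
  simp only [Psec_trace]
  have h := fun a => Zab_tendsto a b β hβ (2 * l) (by omega)
  exact ((((h 0).add ((h 1).const_mul s)).add ((h 2).const_mul t)).add
    ((h 3).const_mul (s * t))).div_const 4

theorem Zab_one_zero (β : ℝ) (hβ : 0 < β) (L : ℕ) (hL : 2 ≤ L) : Zab 1 0 β L = Zab 3 0 β L :=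
  tendsto_nhds_unique (Zab_tendsto 1 0 β hβ L hL)
    ((Zab_tendsto 3 0 β hβ L hL).congr fun n => (trace_tauR_symm_x _ n L).symm)

theorem Zab_two_zero (β : ℝ) (hβ : 0 < β) (L : ℕ) (hL : 2 ≤ L) : Zab 2 0 β L = Zab 3 0 β L :=
  tendsto_nhds_unique (Zab_tendsto 2 0 β hβ L hL)
    ((Zab_tendsto 3 0 β hβ L hL).congr fun n => (trace_tauR_symm_y _ n L).symm)

theorem Zab_two_three (β : ℝ) (hβ : 0 < β) (L : ℕ) (hL : 2 ≤ L) : Zab 2 3 β L = Zab 1 3 β L :=
  tendsto_nhds_unique (Zab_tendsto 2 3 β hβ L hL)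
    ((Zab_tendsto 1 3 β hβ L hL).congr fun n => (trace_tauR_symm_xy _ n L).symm)

theorem PSL.congrCrossing {K K' : ℕ → ℝ} (h : PSL K) (hK : ∀ l, 1 ≤ l → K l = K' l) : PSL K' := by
  obtain ⟨f, hf, hlim⟩ := h
  exact ⟨f, hf, fun l hl => hK l hl ▸ hlim l hl⟩

/-- `K_t`: time-untwisted, trivial crossed sector. -/
theorem PSL_Kt (β : ℝ) (hβ : 0 < β) :
    PSL (fun l => (Zab 0 0 β (2 * l) + 3 * Zab 3 0 β (2 * l)) / 4) := by
  refine (PSL_sector (s := 1) (t := 1) (by norm_num) (by norm_num) 0 β hβ).congrCrossing fun l hl => ?_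
  rw [Zab_one_zero β hβ _ (by omega), Zab_two_zero β hβ _ (by omega)]
  ring

/-- `K_c`: time-untwisted, charged crossed sector. -/
theorem PSL_Kc (β : ℝ) (hβ : 0 < β) :
    PSL (fun l => (Zab 0 0 β (2 * l) - Zab 3 0 β (2 * l)) / 4) := by
  refine (PSL_sector (s := -1) (t := -1) (by norm_num) (by norm_num) 0 β hβ).congrCrossing fun l hl => ?_
  rw [Zab_one_zero β hβ _ (by omega), Zab_two_zero β hβ _ (by omega)]
  ring

/-- `J_z`: time-twisted (axis z), sector containing the vacuum. -/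
theorem PSL_Jz (β : ℝ) (hβ : 0 < β) :
    PSL (fun l => (Zab 0 3 β (2 * l) + Zab 3 3 β (2 * l)) / 4 - Zab 1 3 β (2 * l) / 2) := by
  refine (PSL_sector (s := -1) (t := -1) (by norm_num) (by norm_num) 3 β hβ).congrCrossing fun l hl => ?_
  rw [Zab_two_three β hβ _ (by omega)]
  ring

/-- `J_t`: time-twisted (axis z), trivial sector. -/
theorem PSL_Jt (β : ℝ) (hβ : 0 < β) :
    PSL (fun l => (Zab 0 3 β (2 * l) + Zab 3 3 β (2 * l)) / 4 + Zab 1 3 β (2 * l) / 2) := by
  refine (PSL_sector (s := 1) (t := 1) (by norm_num) (by norm_num) 3 β hβ).congrCrossing fun l hl => ?_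
  rw [Zab_two_three β hβ _ (by omega)]
  ring

/-- `J_x`: time-twisted (axis z), sector `x` (and `y`). -/
theorem PSL_Jx (β : ℝ) (hβ : 0 < β) :
    PSL (fun l => (Zab 0 3 β (2 * l) - Zab 3 3 β (2 * l)) / 4) := by
  refine (PSL_sector (s := 1) (t := -1) (by norm_num) (by norm_num) 3 β hβ).congrCrossing fun l hl => ?_
  rw [Zab_two_three β hβ _ (by omega)]
  ring

/-- The untwisted partition function itself. -/
theorem PSL_Zr (β : ℝ) (hβ : 0 < β) : PSL (fun l => Zr β (2 * l)) := by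
  refine ⟨fun n l => ((1 : Matrix (Fin n → Fin 4) (Fin n → Fin 4) ℝ) *
    (tauR 0 (Real.sqrt (β / n)) n) ^ (2 * l)).trace,
    fun n => isPS_trace_even _ _ (by simp) (by simp) (tauR_transpose _ _ n) (by simp),
    fun l hl => ?_⟩
  have h := Zab_tendsto 0 0 β hβ (2 * l) (by omega)
  simpa only [Dsig_zero, Zr] using h

end Crest.Agent.R347
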