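import Crest.Agent.R347.Gap
import Crest.Agent.R347.PSL
import Crest.Agent.R347.DirectGen

/-! Direct (time) channel of the ring: D2 sectors, Temple's inequality. -/

set_option autoImplicit false

namespace Crest.Agent.R347

open Matrix Crest.MathPhysics.SpinChain DirectGen

theorem DirectGen.finRotate_ne {n : ℕ} (hn : 2 ≤ n) (j : Fin n) : j ≠ finRotate n j := by
  intro h
  obtain ⟨m, rfl⟩ : ∃ m, n = m + 2 := ⟨n - 2, by omega⟩
  have h2 : finRotate (m + 2) j = j + 1 := by simp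
  rw [h2] at h
  have : (1 : Fin (m + 2)) = 0 := by
    have := congrArg (fun x => x - j) h
    simpa using this.symm
  exact absurd this (by simp)

theorem ringTw_isHermitian (a : Fin 4) (L : ℕ) (hL : 2 ≤ L) : (ringTw a L).IsHermitian := by
  unfold ringTw Matrix.IsHermitian
  rw [Matrix.conjTranspose_sum]
  refine Finset.sum_congr rfl fun j _ => ?_
  rw [Matrix.conjTranspose_sum]
  refine Finset.sum_congr rfl fun c _ => ?_
  rw [Matrix.conjTranspose_smul, Matrix.conjTranspose_mul, onSite_herm, onSite_herm, spinOp_herm,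
    onSite_comm _ _ (finRotate_ne hL j)]
  congr 1
  split_ifs
  · simp
  · simp

theorem DirectGen.heis_herm (L : ℕ) (hL : 2 ≤ L) : (heisenbergRing L).IsHermitian := by
  rw [← ringTw_zero]; exact ringTw_isHermitian 0 L hL

theorem DirectGen.Zr_eq_trace (β : ℝ) (L : ℕ) :
    Zr β L = (NormedSpace.exp (-(β : ℂ) • heisenbergRing L)).trace.re := by
  unfold Zr Zab
  rw [ringTw_zero]
  have : piK (fun _ : Fin L => rotC 0) = 1 := by
    rw [show rotC 0 = 1 from rfl, piK_one]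
  rw [this, Matrix.one_mul]

/-- `Zr` is a sum of exponentials. -/
theorem DirectGen.Zr_eq_sum (L : ℕ) (hL : 2 ≤ L) : ∃ d : (Fin L → Fin 3) → ℝ,
    ∃ U, UDiag (heisenbergRing L) U d ∧ ∀ β, Zr β L = ∑ i, Real.exp (-β * d i) := by
  obtain ⟨U, d, h⟩ := UDiag.of_herm (heis_herm L hL)
  refine ⟨d, U, h, fun β => ?_⟩
  rw [Zr_eq_trace, (h.exp β).trace, Complex.ofReal_re]

theorem Zr_pos (β : ℝ) (L : ℕ) (hL : 2 ≤ L) : 0 < Zr β L := by
  obtain ⟨d, U, h, hd⟩ := Zr_eq_sum L hL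
  rw [hd]
  exact Finset.sum_pos (fun i _ => Real.exp_pos _) ⟨fun _ => 0, Finset.mem_univ _⟩

/-- time-direction power-sum structure. -/
theorem PSL_Zr_time (β : ℝ) (L : ℕ) (hL : 2 ≤ L) : PSL (fun k => Zr (k * β) L) := by
  obtain ⟨d, U, h, hd⟩ := Zr_eq_sum L hL
  refine ⟨fun _ k => Zr (k * β) L, fun _ => ?_, fun l _ => tendsto_const_nhds⟩
  refine ⟨Fintype.card (Fin L → Fin 3), fun i =>
    Real.exp (-β * d ((Fintype.equivFin (Fin L → Fin 3)).symm i)), fun i => (Real.exp_pos _).le,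
    fun l _ => ?_⟩
  show Zr (l * β) L = _
  rw [hd, ← Equiv.sum_comp (Fintype.equivFin (Fin L → Fin 3)).symm]
  refine Finset.sum_congr rfl fun i _ => ?_
  rw [← Real.exp_nat_mul]
  congr 1
  ring

/-- Variational lower bound for the partition function. -/
theorem ring_var_bound (L : ℕ) (hL : 2 ≤ L) {β E : ℝ} (hβ : 0 < β)
    (ψ : (Fin L → Fin 3) → ℂ) (hψ : ψ ≠ 0)
    (hE : (star ψ ⬝ᵥ (heisenbergRing L).mulVec ψ).re ≤ E * (star ψ ⬝ᵥ ψ).re) :
    Real.exp (-β * E) ≤ Zr β L := by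
  obtain ⟨d, U, h, hd⟩ := Zr_eq_sum L hL
  rw [h.quad1, h.quad0, Complex.ofReal_re, Complex.ofReal_re] at hE
  have hex : ∃ i, d i ≤ E := by
    by_contra hcon
    push Not at hcon
    have hc0 : ∀ i, 0 ≤ ‖(star U *ᵥ ψ) i‖ ^ 2 := fun i => by positivity
    have hle : ∑ i, (d i - E) * ‖(star U *ᵥ ψ) i‖ ^ 2 ≤ 0 := by
      have : ∑ i, (d i - E) * ‖(star U *ᵥ ψ) i‖ ^ 2 =
          ∑ i, d i * ‖(star U *ᵥ ψ) i‖ ^ 2 - E * ∑ i, ‖(star U *ᵥ ψ) i‖ ^ 2 := by
        rw [Finset.mul_sum, ← Finset.sum_sub_distrib]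
        exact Finset.sum_congr rfl fun i _ => by ring
      rw [this]; linarith
    have hterm : ∀ i, 0 ≤ (d i - E) * ‖(star U *ᵥ ψ) i‖ ^ 2 := fun i =>
      mul_nonneg (by linarith [hcon i]) (hc0 i)
    have hz : ∑ i, (d i - E) * ‖(star U *ᵥ ψ) i‖ ^ 2 = 0 :=
      le_antisymm hle (Finset.sum_nonneg fun i _ => hterm i)
    have h2 := (Finset.sum_eq_zero_iff_of_nonneg fun i _ => hterm i).mp hz
    apply hψ
    have h3 : star U *ᵥ ψ = 0 := by
      ext i
      have h4 := h2 i (Finset.mem_univ i)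
      rcases mul_eq_zero.mp h4 with h5 | h5
      · linarith [hcon i]
      · simpa using h5
    calc ψ = (U * star U) *ᵥ ψ := by rw [h.h1, Matrix.one_mulVec]
      _ = U *ᵥ (star U *ᵥ ψ) := by rw [Matrix.mulVec_mulVec]
      _ = 0 := by rw [h3, Matrix.mulVec_zero]
  obtain ⟨i, hi⟩ := hex
  rw [hd]
  calc Real.exp (-β * E) ≤ Real.exp (-β * d i) := by
        apply Real.exp_le_exp.mpr; nlinarith
    _ ≤ _ := Finset.single_le_sum (f := fun i => Real.exp (-β * d i))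
        (fun i _ => (Real.exp_pos _).le) (Finset.mem_univ i)

/-- Temple + sector bound for the ring at `k β` from bounds at `β`. -/
theorem ring_direct_bound (L : ℕ) (hL : 2 ≤ L) {β Zb Wb E v a b μ : ℝ} (hβ : 0 < β)
    (hZ : Zab 0 0 β L ≤ Zb) (hW : Zab 0 3 β L ≤ Wb)
    (ψ : (Fin L → Fin 3) → ℂ) (hψ : ψ ≠ 0)
    (hE : star ψ ⬝ᵥ (heisenbergRing L).mulVec ψ = (E : ℂ) * (star ψ ⬝ᵥ ψ))
    (hv : (star ((heisenbergRing L).mulVec ψ) ⬝ᵥ (heisenbergRing L).mulVec ψ).re ≤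
      (E ^ 2 + v) * (star ψ ⬝ᵥ ψ).re)
    (h3 : Zb < 3 * Real.exp (-β * E))
    (ha : (Zb + 3 * Wb) / 4 - Real.exp (-β * E) ≤ a)
    (hb : (Zb - Real.exp (-β * E)) / 3 ≤ b)
    (hμE : E < μ) (haμ : a ≤ Real.exp (-β * μ)) (hbμ : b ≤ Real.exp (-β * μ))
    (k : ℕ) (hk : 1 ≤ k) :
    Zr (k * β) L ≤ Real.exp (-(k * β) * (E - v / (μ - E))) + a ^ k + 3 * b ^ k := by
  set H := heisenbergRing L with hH
  set U1 := piK (fun _ : Fin L => rotC 1) with hU1
  set U2 := piK (fun _ : Fin L => rotC 2) with hU2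
  set U3 := piK (fun _ : Fin L => rotC 3) with hU3
  have hU12 : U1 * U2 = U3 := by rw [hU1, hU2, piK_mul, rot12]
  have hcomm : Commute U1 U2 := by
    show U1 * U2 = U2 * U1
    rw [hU12, hU1, hU2, piK_mul, rot21]
  have hU11 : U1 * U1 = 1 := piK_sq rot1_sq
  have hU22 : U2 * U2 = 1 := piK_sq rot2_sq
  have hU1h : U1ᴴ = U1 := by rw [hU1, piK_conjTranspose, rot1_herm]
  have hU2h : U2ᴴ = U2 := by rw [hU2, piK_conjTranspose, rot2_herm]
  have htr : ∀ (γ : ℝ) (χ : Fin 4), (sP U1 U2 χ * NormedSpace.exp (-(γ : ℂ) • H)).trace =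
      (1 / 4 : ℂ) * ((NormedSpace.exp (-(γ : ℂ) • H)).trace +
        ((![1, 1, -1, -1] : Fin 4 → ℂ) χ + (![1, -1, 1, -1] : Fin 4 → ℂ) χ +
          (![1, 1, -1, -1] : Fin 4 → ℂ) χ * (![1, -1, 1, -1] : Fin 4 → ℂ) χ) *
        (U3 * NormedSpace.exp (-(γ : ℂ) • H)).trace) := by
    intro γ χ
    have h13 := trace_rot13 L γ
    have h23 := trace_rot23 L γ
    rw [← hU1, ← hU3, ← hH] at h13
    rw [← hU2, ← hU3, ← hH] at h23
    unfold sP
    have e : (1 + (![1, 1, -1, -1] : Fin 4 → ℂ) χ • U1) *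
      (1 + (![1, -1, 1, -1] : Fin 4 → ℂ) χ • U2) = 1 + (![1, 1, -1, -1] : Fin 4 → ℂ) χ • U1 +
        (![1, -1, 1, -1] : Fin 4 → ℂ) χ • U2 +
        ((![1, 1, -1, -1] : Fin 4 → ℂ) χ * (![1, -1, 1, -1] : Fin 4 → ℂ) χ) • U3 := by
      rw [← hU12, mul_add, add_mul, add_mul, Matrix.one_mul, Matrix.mul_one, Matrix.one_mul,
        Matrix.smul_mul, Matrix.mul_smul, smul_smul]
      abel
    rw [e, Matrix.smul_mul, Matrix.trace_smul, add_mul, add_mul, add_mul, Matrix.trace_add,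
      Matrix.trace_add, Matrix.trace_add, Matrix.smul_mul, Matrix.smul_mul, Matrix.smul_mul,
      Matrix.trace_smul, Matrix.trace_smul, Matrix.trace_smul, h13, h23, Matrix.one_mul]
    simp only [smul_eq_mul]
    ring
  have main := abstract_direct (heis_herm L hL) (sP U1 U2) (sP_herm hU1h hU2h hcomm)
    (sP_idem hU11 hU22 hcomm) (sP_comm (comm_rot1 L) (comm_rot2 L)) sP_sum
    (fun γ c => by
      rw [← hH, htr, htr]
      fin_cases c <;> simp)
    (T := (Zb + 3 * Wb) / 4) hβ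
    (by
      have h := Zr_eq_trace β L
      unfold Zr at h
      rw [← h]; exact hZ)
    (by
      rw [← hH, htr]
      have h := Zr_eq_trace β L
      unfold Zr at h
      have hW' : (U3 * NormedSpace.exp (-(β : ℂ) • H)).trace.re ≤ Wb := by
        have : Zab 0 3 β L = (U3 * NormedSpace.exp (-(β : ℂ) • H)).trace.re := by
          unfold Zab
          rw [ringTw_zero]
        rw [← this]; exact hW
      rw [h] at hZ
      have e : (1 / 4 : ℂ) * ((NormedSpace.exp (-(β : ℂ) • H)).trace +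
        ((![1, 1, -1, -1] : Fin 4 → ℂ) 0 + (![1, -1, 1, -1] : Fin 4 → ℂ) 0 +
          (![1, 1, -1, -1] : Fin 4 → ℂ) 0 * (![1, -1, 1, -1] : Fin 4 → ℂ) 0) *
        (U3 * NormedSpace.exp (-(β : ℂ) • H)).trace) =
        ((1 / 4 : ℝ) : ℂ) * ((NormedSpace.exp (-(β : ℂ) • H)).trace +
        ((3 : ℝ) : ℂ) * (U3 * NormedSpace.exp (-(β : ℂ) • H)).trace) := by
        simp
        norm_num
      rw [e, Complex.re_ofReal_mul, Complex.add_re, Complex.re_ofReal_mul]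
      linarith)
    ψ hψ hE hv h3 ha hb hμE haμ hbμ k hk
  rw [Zr_eq_trace]
  exact main

end Crest.Agent.R347
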