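import Crest.Agent.R347.Recursion
import Crest.Agent.R347.Direct
import Crest.Agent.R347.CrossingPSL

/-! S0545 from the base inequality. -/

set_option autoImplicit false

namespace Crest.Agent.R347

open Matrix Crest.MathPhysics.SpinChain

theorem twoWay_Zr : TwoWay Zr where
  pos := fun β _ L hL => Zr_pos β L hL
  space := fun β hβ => PSL_Zr β hβ
  time := fun β _ L hL => PSL_Zr_time β L hL

theorem log_twenty_le : Real.log 20 ≤ 4 := by
  rw [Real.log_le_iff_le_exp (by norm_num)]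
  have h1 := Real.exp_one_gt_d9
  have h2 : Real.exp 4 = Real.exp 1 ^ 4 := by
    rw [← Real.exp_nat_mul]; norm_num
  rw [h2]
  calc (20 : ℝ) ≤ 2.7182818283 ^ 4 := by norm_num
    _ ≤ Real.exp 1 ^ 4 := by
      apply pow_le_pow_left₀ (by norm_num) h1.le

theorem one_le_log_twenty : 1 ≤ Real.log 20 := by
  rw [Real.le_log_iff_exp_le (by norm_num)]
  have := Real.exp_one_lt_d9
  linarith

/-- the two gap constants compared. -/
theorem gap_const_le : 4 / 105 * Real.log (80 / 79) ≤ Real.log 20 / 784 := by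
  have h1 : Real.log (80 / 79) ≤ 80 / 79 - 1 := Real.log_le_sub_one_of_pos (by norm_num)
  have h2 := one_le_log_twenty
  linarith

/-- the numerical input `(2/3)^(2^n)/8 < exp (-2^n β₀ c)` for `β₀ ≤ 60`, `c ≤ log 20 / 784`. -/
theorem u_lt_exp (β₀ : ℝ) (hβ : 0 < β₀) (hβ60 : β₀ ≤ 60) (c : ℝ) (hc : c ≤ Real.log 20 / 784)
    (n : ℕ) : ((2 : ℝ) / 3) ^ (2 ^ n) / 8 < Real.exp (-(2 ^ n * β₀) * c) := by
  have h3 : (2 : ℝ) / 3 ≤ Real.exp (-β₀ * c) := by
    have h1 : Real.log (2 / 3) ≤ -(1 / 3) := by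
      have := Real.log_le_sub_one_of_pos (show (0 : ℝ) < 2 / 3 by norm_num)
      linarith
    have h2 : β₀ * c ≤ 1 / 3 := by
      have h4 := log_twenty_le
      rcases le_or_gt c 0 with h | h
      · nlinarith
      · nlinarith
    rw [← Real.log_le_iff_le_exp (by norm_num)]
    linarith
  have h4 : Real.exp (-(2 ^ n * β₀) * c) = Real.exp (-β₀ * c) ^ (2 ^ n) := by
    rw [← Real.exp_nat_mul]
    congr 1
    push_cast
    ring
  rw [h4]
  have h5 : ((2 : ℝ) / 3) ^ (2 ^ n) ≤ Real.exp (-β₀ * c) ^ (2 ^ n) :=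
    pow_le_pow_left₀ (by norm_num) h3 _
  have h6 : 0 < ((2 : ℝ) / 3) ^ (2 ^ n) := by positivity
  linarith

theorem ring_gap_of_base (β₀ : ℝ) (hβ : 0 < β₀) (hβ60 : β₀ ≤ 60) (L₀ : ℕ) (hL : 2 ≤ L₀)
    (hLe : Even L₀) (hbase : (145 : ℝ) / 169 * Zr β₀ L₀ ^ 4 ≤ Zr (2 * β₀) (2 * L₀))
    (L : ℕ) (hLev : Even L) (hLL : L₀ ≤ L) (c : ℝ) (hc : c ≤ Real.log 20 / 784) :
    HasSimpleGroundStateWithGap (heisenbergRing L) c := by
  obtain ⟨n, u, hu, hP⟩ := twoWay_Zr.purity_all hβ hL hLe hbase L hLL hLev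
  have hL2 : 2 ≤ L := le_trans hL hLL
  have hH : (heisenbergRing L).IsHermitian := by
    rw [← ringTw_zero]
    exact ringTw_isHermitian 0 L hL2
  have hZ : ∀ β : ℝ, Zr β L = (Matrix.trace (NormedSpace.exp (-(β : ℂ) • heisenbergRing L))).re := by
    intro β
    rw [Zr, Zab, ringTw_zero]
    have : piK (fun _ : Fin L => rotC 0) = 1 := by
      have h0 : rotC 0 = 1 := rfl
      rw [h0, piK_one]
    rw [this, Matrix.one_mul]
  have hu0 : 0 ≤ u := by rw [hu]; positivity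
  have hu1 : u < 1 := by
    rw [hu]
    have : ((2 : ℝ) / 3) ^ (2 ^ n) ≤ 1 := pow_le_one₀ (by norm_num) (by norm_num)
    linarith
  have hlt : u < Real.exp (-(2 ^ n * β₀) * c) := by
    rw [hu]; exact u_lt_exp β₀ hβ hβ60 c hc n
  haveI : Nonempty (Fin L → Fin 3) := ⟨fun _ => 0⟩
  refine gap_of_purity hH (β := 2 ^ n * β₀) (u := u) (c := c) (by positivity) hu0 hu1 ?_ hlt
  rw [hZ, hZ] at hP
  exact hP

theorem S0545_of_base (β₀ : ℝ) (hβ : 0 < β₀) (hβ60 : β₀ ≤ 60) (L₀ : ℕ) (hL : 2 ≤ L₀)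
    (hL60 : L₀ ≤ 60) (hLe : Even L₀)
    (hbase : (145 : ℝ) / 169 * Zr β₀ L₀ ^ 4 ≤ Zr (2 * β₀) (2 * L₀)) :
    (∀ L : ℕ, Even L → 60 ≤ L →
      HasSimpleGroundStateWithGap (heisenbergRing L) (4 / 105 * Real.log (80 / 79))) ∧
    (∀ L : ℕ, Even L → 2304 ≤ L →
      HasSimpleGroundStateWithGap (heisenbergRing L) (Real.log 20 / 784)) :=
  ⟨fun L hLev hLL => ring_gap_of_base β₀ hβ hβ60 L₀ hL hLe hbase L hLev (hL60.trans hLL) _
    gap_const_le,
   fun L hLev hLL => ring_gap_of_base β₀ hβ hβ60 L₀ hL hLe hbase L hLev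
    (hL60.trans (le_trans (by norm_num) hLL)) _ le_rfl⟩

end Crest.Agent.R347
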