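import Crest.Agent.R347.Basic

/-! Spectral gap from purity of the Gibbs state. -/

set_option autoImplicit false

namespace Crest.Agent.R347

open Matrix Crest.MathPhysics.SpinChain

/-- diagonalisation in a convenient form -/
theorem exists_diag {κ : Type*} [Fintype κ] [DecidableEq κ] {H : Matrix κ κ ℂ}
    (hH : H.IsHermitian) : ∃ U : Matrix κ κ ℂ, Uᴴ * U = 1 ∧ U * Uᴴ = 1 ∧
      H = U * diagonal (fun i => ((hH.eigenvalues i : ℝ) : ℂ)) * Uᴴ := by
  refine ⟨(hH.eigenvectorUnitary : Matrix κ κ ℂ), ?_, ?_, ?_⟩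
  · have := Unitary.coe_star_mul_self hH.eigenvectorUnitary
    exact this
  · have := Unitary.coe_mul_star_self hH.eigenvectorUnitary
    exact this
  · have h := hH.spectral_theorem
    rw [Unitary.conjStarAlgAut_apply] at h
    exact h

/-- trace of the exponential of a Hermitian matrix as a sum over eigenvalues. -/
theorem trace_exp_eq_sum {κ : Type*} [Fintype κ] [DecidableEq κ] {H : Matrix κ κ ℂ}
    (hH : H.IsHermitian) (β : ℝ) :
    (Matrix.trace (NormedSpace.exp (-(β : ℂ) • H))) =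
      ((∑ i, Real.exp (-β * hH.eigenvalues i) : ℝ) : ℂ) := by
  obtain ⟨U, h1, h2, h3⟩ := exists_diag hH
  set D : Matrix κ κ ℂ := diagonal (fun i => ((hH.eigenvalues i : ℝ) : ℂ)) with hD
  have hU : IsUnit U := ⟨⟨U, Uᴴ, h2, h1⟩, rfl⟩
  have hinv : U⁻¹ = Uᴴ := Matrix.inv_eq_right_inv h2
  have e1 : -(β : ℂ) • H = U * (-(β : ℂ) • D) * U⁻¹ := by
    rw [hinv, Matrix.mul_smul, Matrix.smul_mul, ← h3]
  rw [e1, Matrix.exp_conj _ _ hU, Matrix.trace_mul_comm, ← mul_assoc, hinv, h1, one_mul]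
  have e2 : -(β : ℂ) • D = diagonal (fun i => -(β : ℂ) * ((hH.eigenvalues i : ℝ) : ℂ)) := by
    rw [hD]
    ext i j
    by_cases h : i = j
    · subst h; simp
    · simp [h]
  rw [e2, Matrix.exp_diagonal, Matrix.trace_diagonal]
  push_cast
  refine Finset.sum_congr rfl fun i _ => ?_
  rw [Pi.coe_exp, ← Complex.exp_eq_exp_ℂ]

/-- the algebraic core -/
theorem purity_aux {A B Z u : ℝ} (hA : 0 < A) (hu0 : 0 ≤ u) (hu1 : u < 1)
    (h1 : Z ≤ A ^ 2 + B ^ 2) (h2 : Z ≤ A * (A + B))
    (hP : (1 + u ^ 2) * (A + B) ^ 2 ≤ (1 + u) ^ 2 * Z) : B ≤ u * A := by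
  by_contra hcon
  push Not at hcon
  have hBpos : 0 < B := lt_of_le_of_lt (mul_nonneg hu0 hA.le) hcon
  have hu2 : (0 : ℝ) < (1 + u) ^ 2 := by positivity
  -- product inequality
  have h3 : (1 + u ^ 2) * (A + B) ^ 2 ≤ (1 + u) ^ 2 * (A ^ 2 + B ^ 2) :=
    hP.trans (mul_le_mul_of_nonneg_left h1 hu2.le)
  have h4 : 0 ≤ (u * A - B) * (A - u * B) := by nlinarith
  have h5 : A - u * B ≤ 0 := by
    by_contra h
    push Not at h
    have : (u * A - B) * (A - u * B) < 0 := mul_neg_of_neg_of_pos (by linarith) h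
    linarith
  have h6 : (1 + u ^ 2) * (A + B) ^ 2 ≤ (1 + u) ^ 2 * (A * (A + B)) :=
    hP.trans (mul_le_mul_of_nonneg_left h2 hu2.le)
  have hAB : 0 < A + B := by linarith
  have h7 : (1 + u ^ 2) * (A + B) ≤ (1 + u) ^ 2 * A := by
    have : (A + B) * ((1 + u ^ 2) * (A + B)) ≤ (A + B) * ((1 + u) ^ 2 * A) := by nlinarith
    exact le_of_mul_le_mul_left this hAB
  have h8 : (1 + u ^ 2) * B ≤ 2 * u * A := by nlinarith
  have h9 : (1 + u ^ 2) * B ≤ 2 * u * (u * B) := by
    refine h8.trans ?_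
    have : A ≤ u * B := by linarith
    have h2u : 0 ≤ 2 * u := by linarith
    exact mul_le_mul_of_nonneg_left this h2u
  have h10 : 0 < (1 - u ^ 2) * B := by
    have : 0 < 1 - u ^ 2 := by nlinarith
    exact mul_pos this hBpos
  nlinarith

/-- If the Gibbs state at inverse temperature `β` has purity at least `(1+u²)/(1+u)²`, `u < 1`,
then the ground state is simple and the gap exceeds every `c` with `u < exp(-β c)`. -/
theorem gap_of_purity {κ : Type*} [Fintype κ] [DecidableEq κ] [Nonempty κ] {H : Matrix κ κ ℂ}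
    (hH : H.IsHermitian) {β u c : ℝ} (hβ : 0 < β) (hu0 : 0 ≤ u) (hu1 : u < 1)
    (hP : (1 + u ^ 2) * (Matrix.trace (NormedSpace.exp (-(β : ℂ) • H))).re ^ 2 ≤
      (1 + u) ^ 2 * (Matrix.trace (NormedSpace.exp (-((2 * β : ℝ) : ℂ) • H))).re)
    (hc : u < Real.exp (-β * c)) :
    HasSimpleGroundStateWithGap H c := by
  classical
  rw [trace_exp_eq_sum hH β, trace_exp_eq_sum hH (2 * β), Complex.ofReal_re,
    Complex.ofReal_re] at hP
  set lam : κ → ℝ := hH.eigenvalues with hlam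
  obtain ⟨i₀, hi₀⟩ := Finite.exists_min lam
  set A : ℝ := Real.exp (-β * lam i₀) with hA
  set B : ℝ := ∑ i ∈ Finset.univ.erase i₀, Real.exp (-β * lam i) with hB
  have hA0 : 0 < A := Real.exp_pos _
  have hB0 : 0 ≤ B := Finset.sum_nonneg fun i _ => (Real.exp_pos _).le
  have hAB : ∑ i, Real.exp (-β * lam i) = A + B :=
    (Finset.add_sum_erase Finset.univ (fun i => Real.exp (-β * lam i)) (Finset.mem_univ i₀)).symm
  have hsq : ∀ i, Real.exp (-(2 * β) * lam i) = Real.exp (-β * lam i) ^ 2 := by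
    intro i
    rw [← Real.exp_nat_mul]
    congr 1
    push_cast
    ring
  have hle : ∀ i, Real.exp (-β * lam i) ≤ A := by
    intro i
    rw [hA, Real.exp_le_exp]
    have := hi₀ i
    nlinarith
  have hZ1 : ∑ i, Real.exp (-(2 * β) * lam i) ≤ A ^ 2 + B ^ 2 := by
    rw [← Finset.add_sum_erase Finset.univ _ (Finset.mem_univ i₀), hsq i₀]
    refine add_le_add le_rfl ?_
    simp only [hsq]
    exact Finset.sum_sq_le_sq_sum_of_nonneg (fun i _ => (Real.exp_pos _).le)
  have hZ2 : ∑ i, Real.exp (-(2 * β) * lam i) ≤ A * (A + B) := by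
    rw [← hAB, Finset.mul_sum]
    refine Finset.sum_le_sum fun i _ => ?_
    rw [hsq i, pow_two]
    exact mul_le_mul_of_nonneg_right (hle i) (Real.exp_pos _).le
  rw [hAB] at hP
  have hBu : B ≤ u * A := purity_aux hA0 hu0 hu1 hZ1 hZ2 hP
  have hgap : ∀ i, i ≠ i₀ → lam i₀ + c < lam i := by
    intro i hi
    have h1 : Real.exp (-β * lam i) ≤ B :=
      Finset.single_le_sum (f := fun i => Real.exp (-β * lam i))
        (fun i _ => (Real.exp_pos _).le) (Finset.mem_erase.mpr ⟨hi, Finset.mem_univ i⟩)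
    have h2 : Real.exp (-β * lam i) < Real.exp (-β * c) * A := by
      refine lt_of_le_of_lt (h1.trans hBu) ?_
      exact mul_lt_mul_of_pos_right hc hA0
    rw [hA, ← Real.exp_add, Real.exp_lt_exp] at h2
    have h3 : β * (lam i₀ + c) < β * lam i := by linarith
    exact lt_of_mul_lt_mul_left h3 hβ.le
  -- the variational statement
  obtain ⟨U, h1, h2, h3⟩ := exists_diag hH
  refine ⟨lam i₀, U.mulVec (Pi.single i₀ 1), ?_, ?_, ?_⟩
  · intro h0
    have : Uᴴ.mulVec (U.mulVec (Pi.single i₀ (1 : ℂ))) = 0 := by rw [h0, Matrix.mulVec_zero]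
    rw [Matrix.mulVec_mulVec, h1, Matrix.one_mulVec] at this
    have := congrFun this i₀
    simp at this
  · conv_lhs => rw [h3]
    rw [Matrix.mulVec_mulVec, mul_assoc, h1, mul_one, ← Matrix.mulVec_mulVec,
      Matrix.diagonal_mulVec_single, ← Matrix.mulVec_smul]
    congr 1
    ext j
    by_cases hj : j = i₀
    · subst hj; simp [hlam]
    · simp [hj]
  · intro ψ hψ horth
    set φ : κ → ℂ := Uᴴ.mulVec ψ with hφ
    have hψφ : ψ = U.mulVec φ := by
      rw [hφ, Matrix.mulVec_mulVec, h2, Matrix.one_mulVec]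
    have hφ0 : φ i₀ = 0 := by
      have e1 : star (U.mulVec (Pi.single i₀ (1 : ℂ))) ⬝ᵥ ψ = φ i₀ := by
        rw [Matrix.star_mulVec, ← Matrix.dotProduct_mulVec, ← hφ]
        simp
      rw [← e1]
      exact horth
    have hnorm : (star ψ ⬝ᵥ ψ).re = ∑ i, Complex.normSq (φ i) := by
      have e1 : star ψ ⬝ᵥ ψ = star φ ⬝ᵥ φ := by
        conv_lhs => rw [hψφ]
        rw [Matrix.star_mulVec, ← Matrix.dotProduct_mulVec, Matrix.mulVec_mulVec, h1,
          Matrix.one_mulVec]
      rw [e1, dotProduct, Complex.re_sum]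
      refine Finset.sum_congr rfl fun i _ => ?_
      rw [Pi.star_apply, Complex.star_def, ← Complex.normSq_eq_conj_mul_self, Complex.ofReal_re]
    have hen : (star ψ ⬝ᵥ H.mulVec ψ).re = ∑ i, lam i * Complex.normSq (φ i) := by
      have e1 : star ψ ⬝ᵥ H.mulVec ψ =
          star φ ⬝ᵥ (diagonal (fun i => ((lam i : ℝ) : ℂ))).mulVec φ := by
        have e2 : H.mulVec ψ = U.mulVec ((diagonal (fun i => ((lam i : ℝ) : ℂ))).mulVec φ) := by
          conv_lhs => rw [h3]
          rw [← Matrix.mulVec_mulVec, ← Matrix.mulVec_mulVec]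
        rw [e2]
        conv_lhs => rw [hψφ]
        rw [Matrix.star_mulVec, ← Matrix.dotProduct_mulVec, Matrix.mulVec_mulVec _ Uᴴ U, h1,
          Matrix.one_mulVec]
      rw [e1, dotProduct, Complex.re_sum]
      refine Finset.sum_congr rfl fun i _ => ?_
      rw [Matrix.mulVec_diagonal, Pi.star_apply, Complex.star_def]
      have : (starRingEnd ℂ) (φ i) * (((lam i : ℝ) : ℂ) * φ i) =
          ((lam i * Complex.normSq (φ i) : ℝ) : ℂ) := by
        rw [Complex.ofReal_mul, Complex.normSq_eq_conj_mul_self]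
        ring
      rw [this, Complex.ofReal_re]
    rw [hnorm, hen, Finset.mul_sum]
    have hex : ∃ j, φ j ≠ 0 := by
      by_contra hcon
      push Not at hcon
      apply hψ
      rw [hψφ]
      have : φ = 0 := funext hcon
      rw [this, Matrix.mulVec_zero]
    obtain ⟨j, hj⟩ := hex
    refine Finset.sum_lt_sum (fun i _ => ?_) ⟨j, Finset.mem_univ j, ?_⟩
    · by_cases hi : i = i₀
      · subst hi; simp [hφ0]
      · exact mul_le_mul_of_nonneg_right (hgap i hi).le (Complex.normSq_nonneg _)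
    · have hji : j ≠ i₀ := fun h => hj (by rw [h]; exact hφ0)
      exact mul_lt_mul_of_pos_right (hgap j hji) (Complex.normSq_pos.mpr hj)

end Crest.Agent.R347
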