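import Crest.Agent.R347.Gap
import Crest.Agent.R347.PSL

/-! Diagonalisation respecting sectors of the basis, Temple's inequality. -/

set_option autoImplicit false

namespace Crest.Agent.R347

open Matrix

section
variable {κ : Type*} [Fintype κ] [DecidableEq κ] {S : Type*} [Fintype S] [DecidableEq S]

/-- A Hermitian matrix which is block diagonal with respect to the labelling `c` can be
diagonalised by a unitary which is block diagonal. -/
theorem exists_diag_sector {H : Matrix κ κ ℂ} (hH : H.IsHermitian) (c : κ → S)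
    (hc : ∀ σ τ, c σ ≠ c τ → H σ τ = 0) :
    ∃ (U : Matrix κ κ ℂ) (lam : κ → ℝ), Uᴴ * U = 1 ∧ U * Uᴴ = 1 ∧
      H = U * diagonal (fun i => ((lam i : ℝ) : ℂ)) * Uᴴ ∧
      ∀ σ i, c σ ≠ c i → U σ i = 0 := by
  classical
  set e := Equiv.sigmaFiberEquiv c with he
  let Hs : ∀ s : S, Matrix {σ // c σ = s} {σ // c σ = s} ℂ :=
    fun s => H.submatrix Subtype.val Subtype.val
  have hHs : ∀ s, (Hs s).IsHermitian := fun s => hH.submatrix Subtype.val
  have hex := fun s => exists_diag (hHs s)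
  choose Us h1 h2 h3 using hex
  let lamS : (Σ s : S, {σ // c σ = s}) → ℝ := fun x => (hHs x.1).eigenvalues x.2
  have hHe : H.submatrix e e = blockDiagonal' Hs := by
    ext ⟨s, σ⟩ ⟨t, τ⟩
    by_cases hst : s = t
    · subst hst
      rw [blockDiagonal'_apply_eq]
      rfl
    · rw [blockDiagonal'_apply_ne _ _ _ hst]
      simp only [submatrix_apply, he, Equiv.sigmaFiberEquiv_apply]
      apply hc
      rw [σ.2, τ.2]
      exact hst
  have hH' : H = (blockDiagonal' Hs).submatrix e.symm e.symm := by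
    rw [← hHe, submatrix_submatrix]
    simp
  have hb1 : (blockDiagonal' Us)ᴴ * blockDiagonal' Us = 1 := by
    rw [blockDiagonal'_conjTranspose, ← blockDiagonal'_mul]
    simp only [h1]
    exact blockDiagonal'_one
  have hb2 : blockDiagonal' Us * (blockDiagonal' Us)ᴴ = 1 := by
    rw [blockDiagonal'_conjTranspose, ← blockDiagonal'_mul]
    simp only [h2]
    exact blockDiagonal'_one
  have hb3 : blockDiagonal' Hs = blockDiagonal' Us *
      diagonal (fun x => ((lamS x : ℝ) : ℂ)) * (blockDiagonal' Us)ᴴ := by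
    have e1 : diagonal (fun x => ((lamS x : ℝ) : ℂ)) =
        blockDiagonal' (fun s => diagonal (fun i => (((hHs s).eigenvalues i : ℝ) : ℂ))) := by
      rw [blockDiagonal'_diagonal]
    rw [e1, blockDiagonal'_conjTranspose, ← blockDiagonal'_mul, ← blockDiagonal'_mul]
    congr 1
    funext s
    exact h3 s
  refine ⟨(blockDiagonal' Us).submatrix e.symm e.symm, fun i => lamS (e.symm i), ?_, ?_, ?_, ?_⟩
  · rw [conjTranspose_submatrix, submatrix_mul_equiv, hb1, submatrix_one_equiv]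
  · rw [conjTranspose_submatrix, submatrix_mul_equiv, hb2, submatrix_one_equiv]
  · have e2 : diagonal (fun i => ((lamS (e.symm i) : ℝ) : ℂ)) =
        (diagonal (fun x => ((lamS x : ℝ) : ℂ))).submatrix e.symm e.symm := by
      rw [submatrix_diagonal_equiv]
      rfl
    rw [hH', hb3, conjTranspose_submatrix, e2, submatrix_mul_equiv, submatrix_mul_equiv]
  · intro σ i hne
    rw [submatrix_apply]
    exact blockDiagonal'_apply_ne Us (k := c σ) (k' := c i) ⟨σ, rfl⟩ ⟨i, rfl⟩ hne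

/-- the exponential in the diagonalising basis -/
theorem exp_of_diag {H U : Matrix κ κ ℂ} {lam : κ → ℝ} (h1 : Uᴴ * U = 1) (h2 : U * Uᴴ = 1)
    (h3 : H = U * diagonal (fun i => ((lam i : ℝ) : ℂ)) * Uᴴ) (β : ℝ) :
    NormedSpace.exp (-(β : ℂ) • H) =
      U * diagonal (fun i => ((Real.exp (-β * lam i) : ℝ) : ℂ)) * Uᴴ := by
  set D : Matrix κ κ ℂ := diagonal (fun i => ((lam i : ℝ) : ℂ)) with hD
  have hU : IsUnit U := ⟨⟨U, Uᴴ, h2, h1⟩, rfl⟩
  have hinv : U⁻¹ = Uᴴ := Matrix.inv_eq_right_inv h2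
  have e1 : -(β : ℂ) • H = U * (-(β : ℂ) • D) * U⁻¹ := by
    rw [hinv, Matrix.mul_smul, Matrix.smul_mul, ← h3]
  rw [e1, Matrix.exp_conj _ _ hU, hinv]
  congr 2
  have e2 : -(β : ℂ) • D = diagonal (fun i => -(β : ℂ) * ((lam i : ℝ) : ℂ)) := by
    rw [hD]
    ext i j
    by_cases h : i = j
    · subst h; simp
    · simp [h]
  rw [e2, Matrix.exp_diagonal]
  congr 1
  funext i
  rw [Pi.coe_exp, ← Complex.exp_eq_exp_ℂ]
  push_cast
  rfl

/-- sector-weighted trace of the exponential -/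
theorem trace_sector_exp {H U : Matrix κ κ ℂ} {lam : κ → ℝ} {c : κ → S} (h1 : Uᴴ * U = 1)
    (h2 : U * Uᴴ = 1) (h3 : H = U * diagonal (fun i => ((lam i : ℝ) : ℂ)) * Uᴴ)
    (h4 : ∀ σ i, c σ ≠ c i → U σ i = 0) (f : S → ℂ) (β : ℝ) :
    Matrix.trace (diagonal (fun σ => f (c σ)) * NormedSpace.exp (-(β : ℂ) • H)) =
      ∑ i, f (c i) * ((Real.exp (-β * lam i) : ℝ) : ℂ) := by
  rw [exp_of_diag h1 h2 h3]
  have hcomm : diagonal (fun σ => f (c σ)) * U = U * diagonal (fun σ => f (c σ)) := by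
    ext σ i
    rw [diagonal_mul, mul_diagonal]
    by_cases h : c σ = c i
    · rw [h, mul_comm]
    · rw [h4 σ i h]; simp
  rw [← mul_assoc, ← mul_assoc, hcomm, mul_assoc U, diagonal_mul_diagonal,
    Matrix.trace_mul_comm, ← mul_assoc, h1, one_mul, trace_diagonal]

/-- quadratic forms in the diagonalising basis -/
theorem forms_of_diag {H U : Matrix κ κ ℂ} {lam : κ → ℝ} (h1 : Uᴴ * U = 1) (h2 : U * Uᴴ = 1)
    (h3 : H = U * diagonal (fun i => ((lam i : ℝ) : ℂ)) * Uᴴ) (ψ : κ → ℂ) :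
    (star ψ ⬝ᵥ ψ = ((∑ i, Complex.normSq ((Uᴴ.mulVec ψ) i) : ℝ) : ℂ)) ∧
    (star ψ ⬝ᵥ H.mulVec ψ = ((∑ i, lam i * Complex.normSq ((Uᴴ.mulVec ψ) i) : ℝ) : ℂ)) ∧
    (star (H.mulVec ψ) ⬝ᵥ H.mulVec ψ =
      ((∑ i, lam i ^ 2 * Complex.normSq ((Uᴴ.mulVec ψ) i) : ℝ) : ℂ)) := by
  set φ : κ → ℂ := Uᴴ.mulVec ψ with hφ
  have hψφ : ψ = U.mulVec φ := by
    rw [hφ, Matrix.mulVec_mulVec, h2, Matrix.one_mulVec]
  set D : Matrix κ κ ℂ := diagonal (fun i => ((lam i : ℝ) : ℂ)) with hD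
  have hHψ : H.mulVec ψ = U.mulVec (D.mulVec φ) := by
    rw [h3, ← Matrix.mulVec_mulVec, ← Matrix.mulVec_mulVec]
  have hip : ∀ a b : κ → ℂ, star (U.mulVec a) ⬝ᵥ U.mulVec b = star a ⬝ᵥ b := by
    intro a b
    rw [Matrix.star_mulVec, ← Matrix.dotProduct_mulVec, Matrix.mulVec_mulVec, h1,
      Matrix.one_mulVec]
  refine ⟨?_, ?_, ?_⟩
  · conv_lhs => rw [hψφ]
    rw [hip, dotProduct, Complex.ofReal_sum]
    refine Finset.sum_congr rfl fun i _ => ?_
    rw [Pi.star_apply, Complex.star_def, Complex.normSq_eq_conj_mul_self]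
  · rw [hHψ]
    conv_lhs => rw [hψφ]
    rw [hip, dotProduct, Complex.ofReal_sum]
    refine Finset.sum_congr rfl fun i _ => ?_
    rw [Matrix.mulVec_diagonal, Pi.star_apply, Complex.star_def, Complex.ofReal_mul,
      Complex.normSq_eq_conj_mul_self]
    ring
  · rw [hHψ, hip, dotProduct, Complex.ofReal_sum]
    refine Finset.sum_congr rfl fun i _ => ?_
    rw [Matrix.mulVec_diagonal, Pi.star_apply, Matrix.mulVec_diagonal, Complex.star_def,
      Complex.ofReal_mul, Complex.normSq_eq_conj_mul_self, map_mul, Complex.conj_ofReal]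
    push_cast
    ring

/-- positivity of the norm -/
theorem norm_pos_of_diag {U : Matrix κ κ ℂ} (h2 : U * Uᴴ = 1) {ψ : κ → ℂ} (hψ : ψ ≠ 0) :
    0 < ∑ i, Complex.normSq ((Uᴴ.mulVec ψ) i) := by
  have hex : ∃ j, (Uᴴ.mulVec ψ) j ≠ 0 := by
    by_contra hcon
    push Not at hcon
    apply hψ
    have h0 : Uᴴ.mulVec ψ = 0 := funext hcon
    have : U.mulVec (Uᴴ.mulVec ψ) = 0 := by rw [h0, Matrix.mulVec_zero]
    rwa [Matrix.mulVec_mulVec, h2, Matrix.one_mulVec] at this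
  obtain ⟨j, hj⟩ := hex
  exact Finset.sum_pos' (fun i _ => Complex.normSq_nonneg _)
    ⟨j, Finset.mem_univ j, Complex.normSq_pos.mpr hj⟩

/-- the variational principle: the least eigenvalue is at most the energy of `ψ` -/
theorem exists_le_of_diag {H U : Matrix κ κ ℂ} {lam : κ → ℝ} (h1 : Uᴴ * U = 1)
    (h2 : U * Uᴴ = 1) (h3 : H = U * diagonal (fun i => ((lam i : ℝ) : ℂ)) * Uᴴ)
    {ψ : κ → ℂ} (hψ : ψ ≠ 0) {E : ℝ}
    (hE : (star ψ ⬝ᵥ H.mulVec ψ).re ≤ E * (star ψ ⬝ᵥ ψ).re) {i₀ : κ}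
    (hi₀ : ∀ i, lam i₀ ≤ lam i) : lam i₀ ≤ E := by
  obtain ⟨hn, hh, -⟩ := forms_of_diag h1 h2 h3 ψ
  have hpos := norm_pos_of_diag h2 hψ
  rw [hn, hh, Complex.ofReal_re, Complex.ofReal_re] at hE
  by_contra hcon
  push Not at hcon
  have : E * ∑ i, Complex.normSq ((Uᴴ.mulVec ψ) i) <
      ∑ i, lam i * Complex.normSq ((Uᴴ.mulVec ψ) i) := by
    calc E * ∑ i, Complex.normSq ((Uᴴ.mulVec ψ) i)
        < lam i₀ * ∑ i, Complex.normSq ((Uᴴ.mulVec ψ) i) := mul_lt_mul_of_pos_right hcon hpos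
      _ ≤ ∑ i, lam i * Complex.normSq ((Uᴴ.mulVec ψ) i) := by
          rw [Finset.mul_sum]
          exact Finset.sum_le_sum fun i _ =>
            mul_le_mul_of_nonneg_right (hi₀ i) (Complex.normSq_nonneg _)
  linarith

/-- Temple's inequality -/
theorem temple_of_diag {H U : Matrix κ κ ℂ} {lam : κ → ℝ} (h1 : Uᴴ * U = 1)
    (h2 : U * Uᴴ = 1) (h3 : H = U * diagonal (fun i => ((lam i : ℝ) : ℂ)) * Uᴴ)
    {ψ : κ → ℂ} (hψ : ψ ≠ 0) {E v μ : ℝ}
    (hE : star ψ ⬝ᵥ H.mulVec ψ = (E : ℂ) * (star ψ ⬝ᵥ ψ))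
    (hv : (star (H.mulVec ψ) ⬝ᵥ H.mulVec ψ).re ≤ (E ^ 2 + v) * (star ψ ⬝ᵥ ψ).re)
    (hμE : E < μ) {i₀ : κ} (hi₀ : ∀ i, lam i₀ ≤ lam i) (hμ : ∀ i, i ≠ i₀ → μ ≤ lam i) :
    E - v / (μ - E) ≤ lam i₀ := by
  obtain ⟨hn, hh, hhh⟩ := forms_of_diag h1 h2 h3 ψ
  have hpos := norm_pos_of_diag h2 hψ
  set n : ℝ := ∑ i, Complex.normSq ((Uᴴ.mulVec ψ) i) with hnn
  have hE' : ∑ i, lam i * Complex.normSq ((Uᴴ.mulVec ψ) i) = E * n := by
    rw [hn, hh, ← Complex.ofReal_mul] at hE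
    exact_mod_cast hE
  rw [hn, hhh, Complex.ofReal_re, Complex.ofReal_re] at hv
  have hkey : 0 ≤ ∑ i, (lam i - lam i₀) * (lam i - μ) * Complex.normSq ((Uᴴ.mulVec ψ) i) := by
    refine Finset.sum_nonneg fun i _ => mul_nonneg ?_ (Complex.normSq_nonneg _)
    by_cases h : i = i₀
    · subst h; simp
    · exact mul_nonneg (by linarith [hi₀ i]) (by linarith [hμ i h])
  have hexp : ∑ i, (lam i - lam i₀) * (lam i - μ) * Complex.normSq ((Uᴴ.mulVec ψ) i) =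
      ∑ i, lam i ^ 2 * Complex.normSq ((Uᴴ.mulVec ψ) i) -
        (lam i₀ + μ) * ∑ i, lam i * Complex.normSq ((Uᴴ.mulVec ψ) i) + lam i₀ * μ * n := by
    rw [hnn, Finset.mul_sum, Finset.mul_sum, ← Finset.sum_sub_distrib, ← Finset.sum_add_distrib]
    refine Finset.sum_congr rfl fun i _ => ?_
    ring
  rw [hexp, hE'] at hkey
  have h5 : 0 ≤ (v - (E - lam i₀) * (μ - E)) * n := by nlinarith
  have h6 : 0 ≤ v - (E - lam i₀) * (μ - E) := nonneg_of_mul_nonneg_left h5 hpos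
  have h7 : 0 < μ - E := by linarith
  have h8 : E - lam i₀ ≤ v / (μ - E) := by
    rw [le_div_iff₀ h7]
    linarith
  linarith

/-- `∑ g^k ≤ (∑ g)^k` over a finset -/
theorem sum_pow_le_pow_sum_of_nonneg {ι : Type*} (s : Finset ι) (g : ι → ℝ)
    (hg : ∀ i ∈ s, 0 ≤ g i) {k : ℕ} (hk : 1 ≤ k) : ∑ i ∈ s, g i ^ k ≤ (∑ i ∈ s, g i) ^ k := by
  obtain ⟨m, rfl⟩ : ∃ m, k = m + 1 := ⟨k - 1, by omega⟩
  have hs : 0 ≤ ∑ i ∈ s, g i := Finset.sum_nonneg hg
  calc ∑ i ∈ s, g i ^ (m + 1) ≤ ∑ i ∈ s, (∑ i ∈ s, g i) ^ m * g i := by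
        refine Finset.sum_le_sum fun i hi => ?_
        rw [pow_succ]
        exact mul_le_mul_of_nonneg_right
          (pow_le_pow_left₀ (hg i hi) (Finset.single_le_sum hg hi) m) (hg i hi)
    _ = (∑ i ∈ s, g i) ^ (m + 1) := by rw [← Finset.mul_sum, pow_succ]

end

end Crest.Agent.R347
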