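import Crest.Agent.R347.Open
import Crest.Agent.R347.Gap
import Crest.Agent.R347.PSL
import Crest.Agent.R347.SectorDiag

/-! Direct (time) channel of the open chain: parity sectors, reflection-flip symmetry, Temple. -/

set_option autoImplicit false

namespace Crest.Agent.R347

open Matrix Crest.MathPhysics.SpinChain

set_option linter.unusedSectionVars false

namespace OD

/-! ### one-site facts -/

section onSite
variable {ι : Type*} [Fintype ι] [DecidableEq ι]

theorem onSite_add (A B : Matrix (Fin 3) (Fin 3) ℂ) (j : ι) :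
    onSite (A + B) j = onSite A j + onSite B j := by
  ext σ τ
  simp only [onSite, Matrix.of_apply, Matrix.add_apply]
  split_ifs <;> simp

theorem onSite_smul (z : ℂ) (A : Matrix (Fin 3) (Fin 3) ℂ) (j : ι) :
    onSite (z • A) j = z • onSite A j := by
  ext σ τ
  simp only [onSite, Matrix.of_apply, Matrix.smul_apply, smul_eq_mul]
  split_ifs <;> simp

theorem onSite_neg (A : Matrix (Fin 3) (Fin 3) ℂ) (j : ι) :
    onSite (-A) j = - onSite A j := by
  ext σ τ
  simp only [onSite, Matrix.of_apply, Matrix.neg_apply]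
  split_ifs <;> simp

theorem onSite_conjTranspose (A : Matrix (Fin 3) (Fin 3) ℂ) (j : ι) :
    (onSite A j)ᴴ = onSite Aᴴ j := by
  ext σ τ
  simp only [onSite, Matrix.of_apply, Matrix.conjTranspose_apply]
  by_cases h : ∀ k, k ≠ j → σ k = τ k
  · rw [if_pos h, if_pos (fun k hk => (h k hk).symm)]
  · rw [if_neg h, if_neg (fun h' => h (fun k hk => (h' k hk).symm)), star_zero]

theorem onSite_mul_comm (A B : Matrix (Fin 3) (Fin 3) ℂ) {j k : ι} (hjk : j ≠ k) :
    onSite A j * onSite B k = onSite B k * onSite A j := by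
  rw [onSite_eq_piK, onSite_eq_piK, piK_mul, piK_mul]
  congr 1
  funext i
  by_cases hi : i = j
  · subst hi
    rw [if_pos rfl, if_neg hjk, mul_one, one_mul]
  · rw [if_neg hi, one_mul, mul_one]

theorem spinX_herm : spinXᴴ = spinX := by
  ext i j
  fin_cases i <;> fin_cases j <;> simp [spinX, spinPlus, spinMinus]

theorem spinZ_herm : spinZᴴ = spinZ := by
  ext i j
  fin_cases i <;> fin_cases j <;> simp [spinZ, magneticNumber]

theorem spinY_herm : spinYᴴ = spinY := by
  ext i j
  fin_cases i <;> fin_cases j <;> simp [spinY, spinPlus, spinMinus]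

theorem spinOp_herm (a : Fin 3) : (spinOp a)ᴴ = spinOp a := by
  fin_cases a
  · exact spinX_herm
  · exact spinY_herm
  · exact spinZ_herm

theorem bond_comm {j k : ι} (hjk : j ≠ k) : bond j k = bond k j := by
  unfold bond
  refine Finset.sum_congr rfl fun a _ => ?_
  exact onSite_mul_comm _ _ hjk

theorem bond_herm {j k : ι} (hjk : j ≠ k) : (bond j k).IsHermitian := by
  unfold Matrix.IsHermitian
  rw [bond_comm hjk]
  unfold bond
  rw [Matrix.conjTranspose_sum]
  refine Finset.sum_congr rfl fun a _ => ?_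
  rw [Matrix.conjTranspose_mul, onSite_conjTranspose, onSite_conjTranspose, spinOp_herm,
    onSite_mul_comm _ _ hjk]

theorem bond_eq (j k : ι) : (bond j k : Matrix (ι → Fin 3) (ι → Fin 3) ℂ) =
    (1 / 2 : ℂ) • (onSite spinPlus j * onSite spinMinus k +
      onSite spinMinus j * onSite spinPlus k) + onSite spinZ j * onSite spinZ k := by
  have hx : (spinOp 0) = (1 / 2 : ℂ) • (spinPlus + spinMinus) := rfl
  have hy : (spinOp 1) = (1 / (2 * Complex.I)) • (spinPlus + (-1 : ℂ) • spinMinus) := by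
    show spinY = _
    rw [spinY, neg_one_smul, sub_eq_add_neg]
  have hz : (spinOp 2) = spinZ := rfl
  have hI : (1 / (2 * Complex.I)) * (1 / (2 * Complex.I)) = -(1 / 4 : ℂ) := by
    have : (2 * Complex.I) * (2 * Complex.I) = -4 := by
      rw [mul_mul_mul_comm, Complex.I_mul_I]; norm_num
    rw [div_mul_div_comm, this]; norm_num
  unfold bond
  rw [Fin.sum_univ_three, hx, hy, hz, onSite_smul, onSite_smul, onSite_smul (1 / (2 * Complex.I)),
    onSite_smul (1 / (2 * Complex.I)), smul_mul_smul_comm, smul_mul_smul_comm, hI]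
  simp only [onSite_smul, onSite_add, smul_mul_assoc, mul_smul_comm, smul_smul, mul_add, add_mul,
    smul_add]
  module

end onSite

/-! ### the label `S^z mod 4` -/

/-- magnetic number modulo four -/
def mz : Fin 3 → ZMod 4 := ![1, 0, -1]

/-- total magnetic number modulo four -/
def lab {ι : Type*} [Fintype ι] (σ : ι → Fin 3) : ZMod 4 := ∑ j, mz (σ j)

def HasCharge (B : Matrix (Fin 3) (Fin 3) ℂ) (q : ZMod 4) : Prop :=
  ∀ p r, B p r ≠ 0 → mz p = mz r + q

theorem charge_one : HasCharge 1 0 := by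
  intro p r h
  by_cases hpr : p = r
  · rw [hpr, add_zero]
  · exact absurd (Matrix.one_apply_ne hpr) h

theorem charge_plus : HasCharge spinPlus 1 := by
  intro p r h
  fin_cases p <;> fin_cases r <;> simp [spinPlus, mz] at h ⊢

theorem charge_minus : HasCharge spinMinus (-1) := by
  intro p r h
  fin_cases p <;> fin_cases r <;> simp [spinMinus, spinPlus, mz] at h ⊢

theorem charge_z : HasCharge spinZ 0 := by
  intro p r h
  by_cases hpr : p = r
  · rw [hpr, add_zero]
  · exact absurd (Matrix.diagonal_apply_ne _ hpr) h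

section lab
variable {ι : Type*} [Fintype ι] [DecidableEq ι]

theorem lab_of_piK (B : ι → Matrix (Fin 3) (Fin 3) ℂ) (q : ι → ZMod 4)
    (hB : ∀ i, HasCharge (B i) (q i)) (hq : ∑ i, q i = 0) (σ τ : ι → Fin 3)
    (h : lab σ ≠ lab τ) : piK B σ τ = 0 := by
  by_contra hne
  rw [piK_apply] at hne
  have h1 : ∀ i, B i (σ i) (τ i) ≠ 0 := fun i => (Finset.prod_ne_zero_iff.mp hne) i (Finset.mem_univ i)
  apply h
  unfold lab
  calc ∑ j, mz (σ j) = ∑ j, (mz (τ j) + q j) :=
        Finset.sum_congr rfl fun j _ => hB j _ _ (h1 j)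
    _ = ∑ j, mz (τ j) := by rw [Finset.sum_add_distrib, hq, add_zero]

theorem lab_two (A B : Matrix (Fin 3) (Fin 3) ℂ) (q : ZMod 4) (hA : HasCharge A q)
    (hB : HasCharge B (-q)) {j k : ι} (hjk : j ≠ k) (σ τ : ι → Fin 3)
    (h : lab σ ≠ lab τ) : (onSite A j * onSite B k) σ τ = 0 := by
  rw [onSite_eq_piK, onSite_eq_piK, piK_mul]
  refine lab_of_piK _ (fun i => if i = j then q else if i = k then -q else 0) ?_ ?_ σ τ h
  · intro i
    by_cases hi : i = j
    · subst hi
      simp only [if_true, if_neg hjk, mul_one]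
      exact hA
    · by_cases hk : i = k
      · subst hk
        simp only [if_neg hi, if_true, one_mul]
        exact hB
      · simp only [if_neg hi, if_neg hk, mul_one]
        exact charge_one
  · have : ∀ i, (if i = j then q else if i = k then -q else 0) =
        (if i = j then q else 0) + (if i = k then -q else 0) := by
      intro i
      by_cases hi : i = j
      · subst hi
        simp [hjk]
      · simp [hi]
    simp only [this, Finset.sum_add_distrib, Finset.sum_ite_eq', Finset.mem_univ, if_true,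
      add_neg_cancel]

theorem lab_bond {j k : ι} (hjk : j ≠ k) (σ τ : ι → Fin 3) (h : lab σ ≠ lab τ) :
    (bond j k : Matrix (ι → Fin 3) (ι → Fin 3) ℂ) σ τ = 0 := by
  rw [bond_eq]
  simp only [Matrix.add_apply, Matrix.smul_apply]
  rw [lab_two spinPlus spinMinus 1 charge_plus charge_minus hjk σ τ h,
    lab_two spinMinus spinPlus (-1) charge_minus (by rw [neg_neg]; exact charge_plus) hjk σ τ h,
    lab_two spinZ spinZ 0 charge_z (by rw [neg_zero]; exact charge_z) hjk σ τ h]
  simp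

theorem lab_z (j : ι) (σ τ : ι → Fin 3) (h : lab σ ≠ lab τ) : onSite spinZ j σ τ = 0 := by
  rw [onSite_eq_piK]
  refine lab_of_piK _ (fun _ => 0) ?_ (by simp) σ τ h
  intro i
  by_cases hi : i = j
  · simp only [hi, if_true]; exact charge_z
  · simp only [if_neg hi]; exact charge_one

end lab

end OD

open OD

theorem castSucc_ne_succ' {n : ℕ} (j : Fin n) : Fin.castSucc j ≠ Fin.succ j :=
  (Fin.castSucc_lt_succ).ne

theorem openH_isHermitian (n : ℕ) (hl hr : ℝ) : (openH n hl hr).IsHermitian := by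
  unfold openH
  refine Matrix.IsHermitian.sub (Matrix.IsHermitian.sub ?_ ?_) ?_
  · unfold Matrix.IsHermitian
    rw [Matrix.conjTranspose_sum]
    exact Finset.sum_congr rfl fun j _ => bond_herm (castSucc_ne_succ' j)
  · unfold Matrix.IsHermitian
    rw [Matrix.conjTranspose_smul, onSite_conjTranspose, spinZ_herm, Complex.star_def,
      Complex.conj_ofReal]
  · unfold Matrix.IsHermitian
    rw [Matrix.conjTranspose_smul, onSite_conjTranspose, spinZ_herm, Complex.star_def,
      Complex.conj_ofReal]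

theorem openH_lab (n : ℕ) (hl hr : ℝ) (σ τ : Fin (n + 1) → Fin 3) (h : lab σ ≠ lab τ) :
    openH n hl hr σ τ = 0 := by
  unfold openH
  simp only [Matrix.sub_apply, Matrix.smul_apply, Matrix.sum_apply]
  rw [lab_z _ σ τ h, lab_z _ σ τ h, Finset.sum_eq_zero
    (fun j _ => lab_bond (castSucc_ne_succ' j) σ τ h)]
  simp

/-! ### reflection and flip -/

namespace OD

/-- reflection of the chain combined with the spin flip -/
def rf (n : ℕ) : (Fin (n + 1) → Fin 3) ≃ (Fin (n + 1) → Fin 3) :=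
  Equiv.arrowCongr Fin.revPerm Fin.revPerm

theorem rf_apply (n : ℕ) (σ : Fin (n + 1) → Fin 3) (j : Fin (n + 1)) :
    rf n σ j = Fin.rev (σ (Fin.rev j)) := rfl

theorem onSite_rf {n : ℕ} (A : Matrix (Fin 3) (Fin 3) ℂ) (j : Fin (n + 1)) :
    (onSite A j).submatrix (rf n) (rf n) = onSite (A.submatrix Fin.rev Fin.rev) (Fin.rev j) := by
  ext σ τ
  simp only [onSite, Matrix.submatrix_apply, Matrix.of_apply]
  have : (∀ k, k ≠ j → rf n σ k = rf n τ k) ↔
      (∀ k, k ≠ Fin.rev j → σ k = τ k) := by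
    constructor
    · intro h k hk
      have h1 := h (Fin.rev k) (fun h' => hk (by rw [← h', Fin.rev_rev]))
      rw [rf_apply, rf_apply, Fin.rev_rev] at h1
      exact Fin.rev_injective h1
    · intro h k hk
      rw [rf_apply, rf_apply, h (Fin.rev k) (fun h' => hk (Fin.rev_injective h'))]
  by_cases hc : ∀ k, k ≠ Fin.rev j → σ k = τ k
  · rw [if_pos (this.mpr hc), if_pos hc, rf_apply, rf_apply]
  · rw [if_neg (fun h => hc (this.mp h)), if_neg hc]

theorem plus_rev : spinPlus.submatrix Fin.rev Fin.rev = spinMinus := by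
  ext i j
  fin_cases i <;> fin_cases j <;> simp [spinPlus, spinMinus, Fin.rev]

theorem minus_rev : spinMinus.submatrix Fin.rev Fin.rev = spinPlus := by
  ext i j
  fin_cases i <;> fin_cases j <;> simp [spinPlus, spinMinus, Fin.rev]

theorem z_rev : spinZ.submatrix Fin.rev Fin.rev = -spinZ := by
  ext i j
  fin_cases i <;> fin_cases j <;> simp [spinZ, magneticNumber, Fin.rev] <;> norm_num

theorem bond_rf {n : ℕ} (j k : Fin (n + 1)) :
    (bond j k).submatrix (rf n) (rf n) = bond (Fin.rev j) (Fin.rev k) := by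
  rw [bond_eq, bond_eq, Matrix.submatrix_add, Matrix.submatrix_smul, Matrix.submatrix_add]
  simp only [Pi.add_apply, Pi.smul_apply]
  rw [← Matrix.submatrix_mul_equiv _ _ _ (rf n) _, ← Matrix.submatrix_mul_equiv _ _ _ (rf n) _,
    ← Matrix.submatrix_mul_equiv _ _ _ (rf n) _]
  simp only [onSite_rf, plus_rev, minus_rev, z_rev, onSite_neg, neg_mul_neg]
  rw [add_comm (onSite spinMinus (Fin.rev j) * _)]

theorem openH_rf (n : ℕ) (h : ℝ) :
    (openH n h (-h)).submatrix (rf n) (rf n) = openH n h (-h) := by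
  unfold openH
  have h1 : (∑ j : Fin n, bond (Fin.castSucc j) (Fin.succ j) :
      Matrix (Fin (n + 1) → Fin 3) (Fin (n + 1) → Fin 3) ℂ).submatrix (rf n) (rf n) =
      ∑ j : Fin n, bond (Fin.castSucc j) (Fin.succ j) := by
    ext σ τ
    rw [Matrix.submatrix_apply, Matrix.sum_apply, Matrix.sum_apply]
    rw [← Equiv.sum_comp Fin.revPerm]
    refine Finset.sum_congr rfl fun j _ => ?_
    have h2 := congrFun (congrFun (bond_rf (Fin.castSucc (Fin.rev j)) (Fin.succ (Fin.rev j))) σ) τ
    rw [Matrix.submatrix_apply, Fin.rev_castSucc, Fin.rev_succ, Fin.rev_rev] at h2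
    rw [Fin.revPerm_apply, h2, bond_comm (castSucc_ne_succ' j).symm]
  rw [Matrix.submatrix_sub, Matrix.submatrix_sub]
  simp only [Pi.sub_apply]
  rw [h1, Matrix.submatrix_smul, Matrix.submatrix_smul]
  simp only [Pi.smul_apply]
  rw [onSite_rf, onSite_rf, z_rev, onSite_neg, onSite_neg, Fin.rev_zero, Fin.rev_last]
  push_cast
  module

theorem exp_submatrix_of_symm {κ : Type*} [Fintype κ] [DecidableEq κ] (e : κ ≃ κ)
    (H : Matrix κ κ ℂ) (hH : H.submatrix e e = H) (z : ℂ) :
    (NormedSpace.exp (z • H)).submatrix e e = NormedSpace.exp (z • H) := by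
  set V : Matrix κ κ ℂ := e.toPEquiv.toMatrix with hV
  have hVm : ∀ M : Matrix κ κ ℂ, V * M = M.submatrix e id :=
    fun M => PEquiv.toMatrix_toPEquiv_mul e M
  have hmV : ∀ M : Matrix κ κ ℂ, M * V = M.submatrix id e.symm :=
    fun M => PEquiv.mul_toMatrix_toPEquiv M e
  have hcomm : Commute V (z • H) := by
    show V * (z • H) = (z • H) * V
    rw [hVm, hmV]
    ext σ τ
    simp only [Matrix.submatrix_apply, Matrix.smul_apply, id]
    have := congrFun (congrFun hH σ) (e.symm τ)
    rw [Matrix.submatrix_apply, Equiv.apply_symm_apply] at this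
    rw [this]
  have h2 : V * NormedSpace.exp (z • H) = NormedSpace.exp (z • H) * V := hcomm.exp_right.eq
  rw [hVm, hmV] at h2
  ext σ τ
  have := congrFun (congrFun h2 σ) (e τ)
  simp only [Matrix.submatrix_apply, id, Equiv.symm_apply_apply] at this
  rw [Matrix.submatrix_apply, this]

theorem mz_rev (p : Fin 3) : mz (Fin.rev p) = -mz p := by
  fin_cases p <;> decide

theorem lab_rf (n : ℕ) (σ : Fin (n + 1) → Fin 3) : lab (rf n σ) = -lab σ := by
  unfold lab
  simp only [rf_apply, mz_rev]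
  rw [Finset.sum_neg_distrib]
  congr 1
  exact Equiv.sum_comp Fin.revPerm (fun j => mz (σ j))

/-! ### parity -/

/-- sign of the label, as an integer -/
def sgnZ (q : ZMod 4) : ℤ := if q = 0 ∨ q = 2 then 1 else -1

/-- sign of the label -/
noncomputable def sgn (q : ZMod 4) : ℂ := ((sgnZ q : ℤ) : ℂ)

theorem sgnZ_add : ∀ p q : ZMod 4, sgnZ (p + q) = sgnZ p * sgnZ q := by decide

theorem sgn_add (p q : ZMod 4) : sgn (p + q) = sgn p * sgn q := by
  unfold sgn
  rw [sgnZ_add]
  push_cast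
  rfl

theorem sgn_zero : sgn 0 = 1 := by
  have : sgnZ 0 = 1 := by decide
  rw [sgn, this, Int.cast_one]

theorem sgn_sum {ι : Type*} (s : Finset ι) (f : ι → ZMod 4) :
    sgn (∑ i ∈ s, f i) = ∏ i ∈ s, sgn (f i) := by
  classical
  induction s using Finset.induction_on with
  | empty => simp [sgn_zero]
  | insert a s ha ih => rw [Finset.sum_insert ha, Finset.prod_insert ha, sgn_add, ih]

theorem rotC_three : rotC 3 = diagonal (fun p => sgn (mz p)) := by
  have h3 : (3 : Fin 4) = Fin.succ 2 := rfl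
  rw [h3]
  show 1 - 2 • (spinOp 2 * spinOp 2) = _
  have hz : (spinOp 2) = spinZ := rfl
  have h0 : sgn (mz 0) = -1 := by
    have : sgnZ (mz 0) = -1 := by decide
    rw [sgn, this]; norm_num
  have h1 : sgn (mz 1) = 1 := by
    have : sgnZ (mz 1) = 1 := by decide
    rw [sgn, this]; norm_num
  have h2 : sgn (mz 2) = -1 := by
    have : sgnZ (mz 2) = -1 := by decide
    rw [sgn, this]; norm_num
  rw [hz, two_nsmul]
  ext i j
  fin_cases i <;> fin_cases j <;>
    simp [spinZ, magneticNumber, h0, h1, h2] <;> norm_num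

theorem piK_rotC (n : ℕ) : piK (fun _ : Fin (n + 1) => rotC 3) =
    diagonal (fun σ => sgn (lab σ)) := by
  rw [rotC_three]
  ext σ τ
  rw [piK_apply]
  by_cases h : σ = τ
  · subst h
    rw [Matrix.diagonal_apply_eq, lab, sgn_sum]
    exact Finset.prod_congr rfl fun j _ => Matrix.diagonal_apply_eq _ _
  · rw [Matrix.diagonal_apply_ne _ h]
    obtain ⟨j, hj⟩ := Function.ne_iff.mp h
    exact Finset.prod_eq_zero (Finset.mem_univ j) (Matrix.diagonal_apply_ne _ hj)

end OD

/-! ### traces -/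

theorem rotC_zero' : rotC 0 = 1 := rfl

theorem Zop_zero_eq (hl hr β : ℝ) (n : ℕ) : Zop 0 hl hr β (n + 1) =
    (Matrix.trace (NormedSpace.exp (-(β : ℂ) • openH n hl hr))).re := by
  show (Matrix.trace (piK (fun _ : Fin (n + 1) => rotC 0) * _)).re = _
  rw [rotC_zero', piK_one, one_mul]

theorem Zop_zero_sum (hl hr β : ℝ) (n : ℕ) : Zop 0 hl hr β (n + 1) =
    ∑ i, Real.exp (-β * (openH_isHermitian n hl hr).eigenvalues i) := by
  rw [Zop_zero_eq, trace_exp_eq_sum (openH_isHermitian n hl hr), Complex.ofReal_re]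

theorem Zop_zero_pos (hl hr β : ℝ) {N : ℕ} (hN : 1 ≤ N) : 0 < Zop 0 hl hr β N := by
  obtain ⟨n, rfl⟩ : ∃ n, N = n + 1 := ⟨N - 1, by omega⟩
  rw [Zop_zero_sum]
  exact Finset.sum_pos (fun i _ => Real.exp_pos _) Finset.univ_nonempty

/-- trace form of `Xo`. -/
theorem Xo_eq (β : ℝ) (n : ℕ) :
    Xo β (n + 1) = (Matrix.trace (NormedSpace.exp (-(β : ℂ) • openChainEndField n (3 / 5)))).re := by
  rw [Xo, Zop_zero_eq, openH_same]

theorem Xo_pos (β : ℝ) (N : ℕ) (hN : 1 ≤ N) : 0 < Xo β N := Zop_zero_pos _ _ _ hN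

theorem Yo_pos (β : ℝ) (N : ℕ) (hN : 1 ≤ N) : 0 < Yo β N := Zop_zero_pos _ _ _ hN

theorem PSL_Yo_time (β : ℝ) (N : ℕ) (hN : 1 ≤ N) : PSL (fun k => Yo (k * β) N) := by
  obtain ⟨n, rfl⟩ : ∃ n, N = n + 1 := ⟨N - 1, by omega⟩
  set lam := (openH_isHermitian n (3 / 5) (-(3 / 5))).eigenvalues with hlam
  refine ⟨fun _ l => Yo (l * β) (n + 1), fun _ => ?_, fun l _ => tendsto_const_nhds⟩
  refine IsPS.of_finset Finset.univ (fun i => Real.exp (-β * lam i))
    (fun i _ => (Real.exp_pos _).le) _ ?_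
  intro l _
  show Yo (l * β) (n + 1) = _
  rw [Yo, Zop_zero_sum]
  refine Finset.sum_congr rfl fun i _ => ?_
  rw [← Real.exp_nat_mul]
  congr 1
  ring

/-- Variational lower bound for the open chain partition function. -/
theorem open_var_bound (n : ℕ) {β E : ℝ} (hβ : 0 < β)
    (ψ : (Fin (n + 1) → Fin 3) → ℂ) (hψ : ψ ≠ 0)
    (hE : (star ψ ⬝ᵥ (openH n (3 / 5) (-(3 / 5))).mulVec ψ).re ≤ E * (star ψ ⬝ᵥ ψ).re) :
    Real.exp (-β * E) ≤ Yo β (n + 1) := by
  have hH := openH_isHermitian n (3 / 5) (-(3 / 5))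
  rw [Yo, Zop_zero_sum]
  obtain ⟨U, h1, h2, h3⟩ := exists_diag hH
  obtain ⟨i₀, hi₀⟩ := Finite.exists_min hH.eigenvalues
  have hle := exists_le_of_diag h1 h2 h3 hψ hE hi₀
  calc Real.exp (-β * E) ≤ Real.exp (-β * hH.eigenvalues i₀) := by
        rw [Real.exp_le_exp]
        nlinarith
    _ ≤ ∑ i, Real.exp (-β * hH.eigenvalues i) :=
        Finset.single_le_sum (f := fun i => Real.exp (-β * hH.eigenvalues i))
          (fun i _ => (Real.exp_pos _).le) (Finset.mem_univ i₀)

/-- Temple + sector bound for the open chain (`n + 1` sites, opposite fields) at `k β` from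
bounds at `β`. Odd sector `S^z` odd splits into two halves with equal spectra by the
reflection-flip symmetry. -/
theorem open_direct_bound (n : ℕ) {β Yb Wb E v a b μ : ℝ} (hβ : 0 < β)
    (hY : Yo β (n + 1) ≤ Yb) (hW : Yp β (n + 1) ≤ Wb)
    (ψ : (Fin (n + 1) → Fin 3) → ℂ) (hψ : ψ ≠ 0)
    (hE : star ψ ⬝ᵥ (openH n (3 / 5) (-(3 / 5))).mulVec ψ = (E : ℂ) * (star ψ ⬝ᵥ ψ))
    (hv : (star ((openH n (3 / 5) (-(3 / 5))).mulVec ψ) ⬝ᵥ
        (openH n (3 / 5) (-(3 / 5))).mulVec ψ).re ≤ (E ^ 2 + v) * (star ψ ⬝ᵥ ψ).re)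
    (h2 : Yb < 2 * Real.exp (-β * E))
    (ha : (Yb + Wb) / 2 - Real.exp (-β * E) ≤ a)
    (hb : (Yb - Real.exp (-β * E)) / 2 ≤ b)
    (hμE : E < μ) (haμ : a ≤ Real.exp (-β * μ)) (hbμ : b ≤ Real.exp (-β * μ))
    (k : ℕ) (hk : 1 ≤ k) :
    Yo (k * β) (n + 1) ≤ Real.exp (-(k * β) * (E - v / (μ - E))) + a ^ k + 2 * b ^ k := by
  classical
  have hH := openH_isHermitian n (3 / 5) (-(3 / 5))
  set H := openH n (3 / 5) (-(3 / 5)) with hHdef
  obtain ⟨U, lam, hU1, hU2, hU3, hU4⟩ := exists_diag_sector hH (lab (ι := Fin (n + 1)))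
    (fun σ τ h => openH_lab n _ _ σ τ h)
  obtain ⟨i₀, hi₀⟩ := Finite.exists_min lam
  -- traces as sums
  have hYs : ∀ t : ℝ, Yo t (n + 1) = ∑ i, Real.exp (-t * lam i) := by
    intro t
    have h := trace_sector_exp hU1 hU2 hU3 hU4 (fun _ => 1) t
    rw [Matrix.diagonal_one, one_mul] at h
    rw [Yo, Zop_zero_eq, h, ← Complex.ofReal_re (∑ i, Real.exp (-t * lam i))]
    congr 1
    push_cast
    simp
  have hWs : Yp β (n + 1) = ∑ i, (sgnZ (lab i) : ℝ) * Real.exp (-β * lam i) := by
    have h := trace_sector_exp hU1 hU2 hU3 hU4 sgn β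
    rw [Yp]
    show (Matrix.trace (piK (fun _ : Fin (n + 1) => rotC 3) *
      NormedSpace.exp (-(β : ℂ) • openH n (3 / 5) (-(3 / 5))))).re = _
    rw [piK_rotC, h, ← Complex.ofReal_re (∑ i, (sgnZ (lab i) : ℝ) * Real.exp (-β * lam i))]
    congr 1
    push_cast
    rfl
  -- the two odd halves
  have hsym : ∑ i ∈ Finset.univ.filter (fun i => lab i = 1), Real.exp (-β * lam i) =
      ∑ i ∈ Finset.univ.filter (fun i => lab i = 3), Real.exp (-β * lam i) := by
    have hs : ∀ q : ZMod 4, ((∑ i ∈ Finset.univ.filter (fun i => lab i = q),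
        Real.exp (-β * lam i) : ℝ) : ℂ) = ∑ σ : Fin (n + 1) → Fin 3,
          (if lab σ = q then (1 : ℂ) else 0) * NormedSpace.exp (-(β : ℂ) • H) σ σ := by
      intro q
      have h := trace_sector_exp hU1 hU2 hU3 hU4 (fun c => if c = q then (1 : ℂ) else 0) β
      rw [Matrix.trace] at h
      simp only [Matrix.diag_apply, Matrix.diagonal_mul] at h
      rw [h, Finset.sum_filter]
      push_cast
      refine Finset.sum_congr rfl fun i _ => ?_
      split_ifs <;> simp
    have hX : ∀ σ, NormedSpace.exp (-(β : ℂ) • H) (rf n σ) (rf n σ) =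
        NormedSpace.exp (-(β : ℂ) • H) σ σ := by
      intro σ
      have h := exp_submatrix_of_symm (rf n) H (openH_rf n (3 / 5)) (-(β : ℂ))
      exact congrFun (congrFun h σ) σ
    have : ((∑ i ∈ Finset.univ.filter (fun i => lab i = 1), Real.exp (-β * lam i) : ℝ) : ℂ) =
        ((∑ i ∈ Finset.univ.filter (fun i => lab i = 3), Real.exp (-β * lam i) : ℝ) : ℂ) := by
      rw [hs 1, hs 3, ← Equiv.sum_comp (rf n)]
      refine Finset.sum_congr rfl fun σ _ => ?_
      rw [hX, lab_rf]
      have : (-lab σ = 1) ↔ (lab σ = 3) := by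
        generalize lab σ = q
        revert q
        decide
      simp only [this]
    exact_mod_cast this
  -- splitting sums into sectors
  have hq4 : ∀ q : ZMod 4, q = 0 ∨ q = 1 ∨ q = 2 ∨ q = 3 := by decide
  have hsplit : ∀ f : (Fin (n + 1) → Fin 3) → ℝ, ∑ i, f i =
      ∑ i ∈ Finset.univ.filter (fun i => lab i = 0 ∨ lab i = 2), f i +
      ∑ i ∈ Finset.univ.filter (fun i => lab i = 1), f i +
      ∑ i ∈ Finset.univ.filter (fun i => lab i = 3), f i := by
    intro f
    rw [Finset.sum_filter, Finset.sum_filter, Finset.sum_filter, ← Finset.sum_add_distrib,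
      ← Finset.sum_add_distrib]
    refine Finset.sum_congr rfl fun i _ => ?_
    generalize lab i = q
    rcases hq4 q with rfl | rfl | rfl | rfl <;> simp (decide := true)
  set g : (Fin (n + 1) → Fin 3) → ℝ := fun i => Real.exp (-β * lam i) with hg
  have hg0 : ∀ i, 0 < g i := fun i => Real.exp_pos _
  set Ev := Finset.univ.filter (fun i : Fin (n + 1) → Fin 3 => lab i = 0 ∨ lab i = 2) with hEv
  set S1 := ∑ i ∈ Finset.univ.filter (fun i : Fin (n + 1) → Fin 3 => lab i = 1), g i with hS1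
  have hS3 : ∑ i ∈ Finset.univ.filter (fun i : Fin (n + 1) → Fin 3 => lab i = 3), g i = S1 :=
    hsym.symm
  have hYsum : Yo β (n + 1) = ∑ i ∈ Ev, g i + S1 + S1 := by
    rw [hYs β]
    show ∑ i, g i = _
    rw [hsplit g, hS3]
  have hWsum : Yp β (n + 1) = ∑ i ∈ Ev, g i - S1 - S1 := by
    rw [hWs, hsplit (fun i => (sgnZ (lab i) : ℝ) * Real.exp (-β * lam i))]
    have e0 : ∑ i ∈ Finset.univ.filter (fun i => lab i = 0 ∨ lab i = 2),
        (sgnZ (lab i) : ℝ) * Real.exp (-β * lam i) = ∑ i ∈ Ev, g i := by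
      refine Finset.sum_congr rfl fun i hi => ?_
      have h1 : sgnZ (lab i) = 1 := by
        have := (Finset.mem_filter.mp hi).2
        rcases this with h | h <;> rw [h] <;> decide
      rw [h1]; simp [hg]
    have e1 : ∑ i ∈ Finset.univ.filter (fun i => lab i = 1),
        (sgnZ (lab i) : ℝ) * Real.exp (-β * lam i) = -S1 := by
      rw [hS1, ← Finset.sum_neg_distrib]
      refine Finset.sum_congr rfl fun i hi => ?_
      have h1 : sgnZ (lab i) = -1 := by
        rw [(Finset.mem_filter.mp hi).2]; decide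
      rw [h1]; simp [hg]
    have e3 : ∑ i ∈ Finset.univ.filter (fun i => lab i = 3),
        (sgnZ (lab i) : ℝ) * Real.exp (-β * lam i) = -S1 := by
      rw [← hS3, ← Finset.sum_neg_distrib]
      refine Finset.sum_congr rfl fun i hi => ?_
      have h1 : sgnZ (lab i) = -1 := by
        rw [(Finset.mem_filter.mp hi).2]; decide
      rw [h1]; simp [hg]
    rw [e0, e1, e3]
    ring
  have hE' : (star ψ ⬝ᵥ H.mulVec ψ).re ≤ E * (star ψ ⬝ᵥ ψ).re := by
    rw [hE, Complex.re_ofReal_mul]
  have hle := exists_le_of_diag hU1 hU2 hU3 hψ hE' hi₀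
  have hgE : Real.exp (-β * E) ≤ g i₀ := by
    show _ ≤ Real.exp (-β * lam i₀)
    rw [Real.exp_le_exp]
    nlinarith
  have hEv0 : 0 ≤ ∑ i ∈ Ev, g i := Finset.sum_nonneg fun i _ => (hg0 i).le
  have hi₀S1 : ∀ q : ZMod 4, lab i₀ = q → g i₀ ≤
      ∑ i ∈ Finset.univ.filter (fun i : Fin (n + 1) → Fin 3 => lab i = q), g i := by
    intro q hq
    exact Finset.single_le_sum (f := g) (fun i _ => (hg0 i).le)
      (Finset.mem_filter.mpr ⟨Finset.mem_univ i₀, hq⟩)
  have hi₀Ev : i₀ ∈ Ev := by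
    rw [hEv, Finset.mem_filter]
    refine ⟨Finset.mem_univ _, ?_⟩
    rcases hq4 (lab i₀) with h | h | h | h
    · exact Or.inl h
    · exfalso
      have := hi₀S1 1 h
      linarith
    · exact Or.inr h
    · exfalso
      have := hi₀S1 3 h
      rw [hS3] at this
      linarith
  have hAsum : ∑ i ∈ Ev, g i = g i₀ + ∑ i ∈ Ev.erase i₀, g i :=
    (Finset.add_sum_erase Ev g hi₀Ev).symm
  set A := ∑ i ∈ Ev.erase i₀, g i with hA
  have hA0 : 0 ≤ A := Finset.sum_nonneg fun i _ => (hg0 i).le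
  have hS0 : 0 ≤ S1 := Finset.sum_nonneg fun i _ => (hg0 i).le
  have hAa : A ≤ a := by linarith
  have hSb : S1 ≤ b := by linarith
  have hμ : ∀ i, i ≠ i₀ → μ ≤ lam i := by
    intro i hi
    have h1 : g i ≤ Real.exp (-β * μ) := by
      rcases hq4 (lab i) with h | h | h | h
      · have : g i ≤ A := Finset.single_le_sum (f := g) (fun i _ => (hg0 i).le)
          (Finset.mem_erase.mpr ⟨hi, Finset.mem_filter.mpr ⟨Finset.mem_univ i, Or.inl h⟩⟩)
        linarith
      · have : g i ≤ S1 := Finset.single_le_sum (f := g) (fun i _ => (hg0 i).le)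
          (Finset.mem_filter.mpr ⟨Finset.mem_univ i, h⟩)
        linarith
      · have : g i ≤ A := Finset.single_le_sum (f := g) (fun i _ => (hg0 i).le)
          (Finset.mem_erase.mpr ⟨hi, Finset.mem_filter.mpr ⟨Finset.mem_univ i, Or.inr h⟩⟩)
        linarith
      · have : g i ≤ ∑ i ∈ Finset.univ.filter (fun i : Fin (n + 1) → Fin 3 => lab i = 3), g i :=
          Finset.single_le_sum (f := g) (fun i _ => (hg0 i).le)
            (Finset.mem_filter.mpr ⟨Finset.mem_univ i, h⟩)
        rw [hS3] at this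
        linarith
    have h2 : -β * lam i ≤ -β * μ := Real.exp_le_exp.mp h1
    have h3 : β * μ ≤ β * lam i := by linarith
    exact le_of_mul_le_mul_left h3 hβ
  have htemple := temple_of_diag hU1 hU2 hU3 hψ hE hv hμE hi₀ hμ
  -- the final estimate
  have hpow : ∀ i, Real.exp (-(k * β) * lam i) = g i ^ k := by
    intro i
    show _ = Real.exp (-β * lam i) ^ k
    rw [← Real.exp_nat_mul]
    congr 1
    ring
  rw [hYs]
  simp only [hpow]
  rw [hsplit (fun i => g i ^ k)]
  have t1 : ∑ i ∈ Ev, g i ^ k = g i₀ ^ k + ∑ i ∈ Ev.erase i₀, g i ^ k :=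
    (Finset.add_sum_erase Ev (fun i => g i ^ k) hi₀Ev).symm
  have t2 : ∑ i ∈ Ev.erase i₀, g i ^ k ≤ a ^ k :=
    (sum_pow_le_pow_sum_of_nonneg _ g (fun i _ => (hg0 i).le) hk).trans
      (pow_le_pow_left₀ hA0 hAa k)
  have t3 : ∑ i ∈ Finset.univ.filter (fun i : Fin (n + 1) → Fin 3 => lab i = 1), g i ^ k ≤
      b ^ k := (sum_pow_le_pow_sum_of_nonneg _ g (fun i _ => (hg0 i).le) hk).trans
      (pow_le_pow_left₀ hS0 hSb k)
  have t4 : ∑ i ∈ Finset.univ.filter (fun i : Fin (n + 1) → Fin 3 => lab i = 3), g i ^ k ≤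
      b ^ k := by
    refine (sum_pow_le_pow_sum_of_nonneg _ g (fun i _ => (hg0 i).le) hk).trans ?_
    rw [hS3]
    exact pow_le_pow_left₀ hS0 hSb k
  have t5 : g i₀ ^ k ≤ Real.exp (-(k * β) * (E - v / (μ - E))) := by
    rw [← hpow, Real.exp_le_exp]
    have hkβ : 0 ≤ (k : ℝ) * β := by positivity
    nlinarith
  rw [t1]
  linarith

end Crest.Agent.R347
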