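import Crest.Agent.R347.OpenCrossing
import Crest.Agent.R347.Joint
import Crest.Agent.R347.CrossingPSL

/-! Joint power-sum structure of the open-chain partition functions. -/

set_option autoImplicit false

namespace Crest.Agent.R347

open Matrix Filter Topology Crest.MathPhysics.SpinChain

/-- Quadratic form of a power of a real symmetric matrix. -/
theorem dotProduct_pow_mulVec_eq_sum {m : Type*} [Fintype m] [DecidableEq m] {A : Matrix m m ℝ}
    (hA : A.IsHermitian) (p : m → ℝ) (l : ℕ) :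
    p ⬝ᵥ (A ^ l).mulVec p =
      ∑ i, (((star (hA.eigenvectorUnitary : Matrix m m ℝ)).mulVec p) i) ^ 2 *
        hA.eigenvalues i ^ l := by
  conv_lhs => rw [hA.spectral_theorem, ← map_pow, diagonal_pow, Unitary.conjStarAlgAut_apply]
  rw [← Matrix.mulVec_mulVec, ← Matrix.mulVec_mulVec, Matrix.dotProduct_mulVec]
  have hv : p ᵥ* (hA.eigenvectorUnitary : Matrix m m ℝ) =
      (star (hA.eigenvectorUnitary : Matrix m m ℝ)).mulVec p := by
    rw [star_eq_conjTranspose, conjTranspose_eq_transpose_of_trivial, mulVec_transpose]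
  rw [hv]
  simp only [dotProduct, Matrix.mulVec_diagonal, Pi.pow_apply, Function.comp]
  refine Finset.sum_congr rfl fun i _ => ?_
  simp
  ring

/-- Sector lemma. -/
theorem jps_trace {m : Type*} [Fintype m] [DecidableEq m] (P τ : Matrix m m ℝ) (p : m → ℝ)
    (hP : Pᵀ = P) (hPP : P * P = P) (hτ : τᵀ = τ) (hc : P * τ = τ * P) (hp : P.mulVec p = p) :
    JPS (fun l => p ⬝ᵥ (τ ^ (2 * l)).mulVec p) (fun l => (P * τ ^ (2 * l)).trace) := by
  have hPSD : ((τ * P)ᴴ * (τ * P)).PosSemidef := posSemidef_conjTranspose_mul_self _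
  have hA : (τ * P)ᴴ * (τ * P) = P * τ ^ 2 := by
    rw [conjTranspose_eq_transpose_of_trivial, transpose_mul, hP, hτ]
    calc P * τ * (τ * P) = P * τ * (P * τ) := by rw [hc]
      _ = P * (τ * P) * τ := by simp only [mul_assoc]
      _ = P * (P * τ) * τ := by rw [hc]
      _ = (P * P) * (τ * τ) := by simp only [mul_assoc]
      _ = P * τ ^ 2 := by rw [hPP, pow_two]
  rw [hA] at hPSD
  have hcomm : Commute P (τ ^ 2) := (show Commute P τ from hc).pow_right 2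
  have hpow : ∀ l : ℕ, 1 ≤ l → (P * τ ^ 2) ^ l = P * τ ^ (2 * l) := by
    intro l hl
    rw [hcomm.mul_pow, pow_mul]
    congr 1
    exact IsIdempotentElem.pow_eq (n := l) hPP (by omega)
  refine ⟨Fintype.card m, fun i => hPSD.1.eigenvalues ((Fintype.equivFin m).symm i),
    fun i => (((star (hPSD.1.eigenvectorUnitary : Matrix m m ℝ)).mulVec p)
      ((Fintype.equivFin m).symm i)) ^ 2,
    fun i => hPSD.eigenvalues_nonneg _, fun i => sq_nonneg _, fun l hl => ⟨?_, ?_⟩⟩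
  · simp only
    rw [← hpow l hl, trace_pow_eq_sum_eigenvalues hPSD.1 l]
    exact ((Fintype.equivFin m).symm.sum_comp (fun i => hPSD.1.eigenvalues i ^ l)).symm
  · simp only
    have h1 : (τ ^ (2 * l)).mulVec p = ((P * τ ^ 2) ^ l).mulVec p := by
      rw [hpow l hl, (((show Commute P τ from hc).pow_right (2 * l)).eq : P * τ ^ (2 * l) = _),
        ← Matrix.mulVec_mulVec, hp]
    rw [h1, dotProduct_pow_mulVec_eq_sum hPSD.1]
    exact ((Fintype.equivFin m).symm.sum_comp (fun i =>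
      (((star (hPSD.1.eigenvectorUnitary : Matrix m m ℝ)).mulVec p) i) ^ 2 *
        hPSD.1.eigenvalues i ^ l)).symm

/-- Data of a symmetric matrix on the range of a commuting projection. -/
theorem sector_data {m : Type*} [Fintype m] [DecidableEq m] (P τ : Matrix m m ℝ)
    (p : m → ℝ) (hP : Pᵀ = P) (hPP : P * P = P) (hτ : τᵀ = τ) (hc : P * τ = τ * P)
    (hp : P.mulVec p = p) :
    ∃ κ w : m → ℝ, (∀ i, 0 ≤ w i) ∧ ∀ N, 1 ≤ N →
      (P * τ ^ N).trace = ∑ i, κ i ^ N ∧ p ⬝ᵥ (τ ^ N).mulVec p = ∑ i, w i * κ i ^ N := by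
  have hH : (P * τ).IsHermitian := by
    rw [IsHermitian, conjTranspose_eq_transpose_of_trivial, transpose_mul, hP, hτ, hc]
  have hcomm : Commute P τ := hc
  have hpow : ∀ l : ℕ, 1 ≤ l → (P * τ) ^ l = P * τ ^ l := by
    intro l hl
    rw [hcomm.mul_pow]
    congr 1
    exact IsIdempotentElem.pow_eq (n := l) hPP (by omega)
  refine ⟨hH.eigenvalues, fun i => (((star (hH.eigenvectorUnitary : Matrix m m ℝ)).mulVec p) i) ^ 2,
    fun i => sq_nonneg _, fun N hN => ⟨?_, ?_⟩⟩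
  · rw [← hpow N hN, trace_pow_eq_sum_eigenvalues hH N]
  · have h1 : (τ ^ N).mulVec p = ((P * τ) ^ N).mulVec p := by
      rw [hpow N hN, ((hcomm.pow_right N).eq : P * τ ^ N = _), ← Matrix.mulVec_mulVec, hp]
    rw [h1, dotProduct_pow_mulVec_eq_sum hH]

/-- Signed sector lemma. -/
theorem jxyzfin_trace {m : Type*} [Fintype m] [DecidableEq m] (D τ : Matrix m m ℝ)
    (p q : m → ℝ) (hD : Dᵀ = D) (hDD : D * D = 1) (hτ : τᵀ = τ) (hc : D * τ = τ * D)
    (hp : D.mulVec p = p) (hq : D.mulVec q = -q) :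
    JXYZfin (fun N => p ⬝ᵥ (τ ^ N).mulVec p - q ⬝ᵥ (τ ^ N).mulVec q)
      (fun N => p ⬝ᵥ (τ ^ N).mulVec p + q ⬝ᵥ (τ ^ N).mulVec q)
      (fun N => (τ ^ N).trace) := by
  obtain ⟨κ₁, w₁, hw₁, h₁⟩ := sector_data ((1 / 2 : ℝ) • (1 + D)) τ p
    (by simp [hD]) (by
      simp only [smul_mul_assoc, mul_smul_comm, mul_add, add_mul, one_mul, mul_one, hDD]
      module) hτ
    (by simp only [smul_mul_assoc, mul_smul_comm, mul_add, add_mul, one_mul, mul_one, hc])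
    (by
      rw [Matrix.smul_mulVec, Matrix.add_mulVec, Matrix.one_mulVec, hp]
      module)
  obtain ⟨κ₂, w₂, hw₂, h₂⟩ := sector_data ((1 / 2 : ℝ) • (1 - D)) τ q
    (by simp [hD]) (by
      simp only [smul_mul_assoc, mul_smul_comm, mul_sub, sub_mul, one_mul, mul_one, hDD]
      module) hτ
    (by simp only [smul_mul_assoc, mul_smul_comm, mul_sub, sub_mul, one_mul, mul_one, hc])
    (by
      rw [Matrix.smul_mulVec, Matrix.sub_mulVec, Matrix.one_mulVec, hq]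
      module)
  let e : m ⊕ m ≃ Fin (Fintype.card (m ⊕ m)) := Fintype.equivFin (m ⊕ m)
  refine ⟨Fintype.card (m ⊕ m), fun i => Sum.elim κ₁ κ₂ (e.symm i),
    fun i => Sum.elim w₁ w₂ (e.symm i), fun i => Sum.elim (fun _ => 1) (fun _ => -1) (e.symm i),
    ?_, ?_, ?_⟩
  · have h0 : ∀ j : m ⊕ m, 0 ≤ Sum.elim w₁ w₂ j := by
      rintro (j | j)
      · exact hw₁ j
      · exact hw₂ j
    exact fun i => h0 _
  · have h0 : ∀ j : m ⊕ m, Sum.elim (fun _ => (1 : ℝ)) (fun _ => -1) j = 1 ∨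
        Sum.elim (fun _ => (1 : ℝ)) (fun _ => -1) j = -1 := by
      rintro (j | j)
      · exact Or.inl rfl
      · exact Or.inr rfl
    exact fun i => h0 _
  · intro N hN
    obtain ⟨a₁, b₁⟩ := h₁ N hN
    obtain ⟨a₂, b₂⟩ := h₂ N hN
    refine ⟨?_, ?_, ?_⟩
    · rw [e.symm.sum_comp (fun i => Sum.elim κ₁ κ₂ i ^ N), Fintype.sum_sum_type]
      simp only [Sum.elim_inl, Sum.elim_inr]
      rw [← a₁, ← a₂]
      simp only [smul_mul_assoc, add_mul, sub_mul, one_mul, trace_smul, trace_add, trace_sub,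
        smul_eq_mul]
      ring
    · rw [e.symm.sum_comp (fun i => Sum.elim w₁ w₂ i * Sum.elim κ₁ κ₂ i ^ N),
        Fintype.sum_sum_type]
      simp only [Sum.elim_inl, Sum.elim_inr]
      rw [← b₁, ← b₂]
    · rw [e.symm.sum_comp (fun i => Sum.elim (fun _ => (1 : ℝ)) (fun _ => -1) i *
        Sum.elim w₁ w₂ i * Sum.elim κ₁ κ₂ i ^ N), Fintype.sum_sum_type]
      simp only [Sum.elim_inl, Sum.elim_inr]
      rw [b₁, b₂, sub_eq_add_neg, ← Finset.sum_neg_distrib]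
      congr 1
      · exact Finset.sum_congr rfl fun i _ => by ring
      · exact Finset.sum_congr rfl fun i _ => by ring

/-! ### boundary vectors -/

theorem etaK_bv_one (h e : ℝ) (c : Fin 4) :
    ((etaK ℝ 1 c : ℝ) : ℂ) * bv h e c = (starRingEnd ℂ) (bv h e c) := by
  fin_cases c
  · simp [bv, etaK]
  · simp [bv]
  · simp [bv]
  · have : etaK ℝ 1 3 = -1 := by
      show ((eta 1 2 : ℤ) : ℝ) = -1
      have : eta 1 2 = -1 := by decide
      rw [this]; norm_num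
    show ((etaK ℝ 1 3 : ℝ) : ℂ) * bv h e 3 = (starRingEnd ℂ) (bv h e 3)
    rw [this]
    simp [bv]

theorem etaK_bv_two (h e : ℝ) (c : Fin 4) :
    ((etaK ℝ 2 c : ℝ) : ℂ) * bv h e c = (starRingEnd ℂ) (bv h e c) := by
  fin_cases c
  · simp [bv, etaK]
  · simp [bv]
  · simp [bv]
  · have : etaK ℝ 2 3 = -1 := by
      show ((eta 2 2 : ℤ) : ℝ) = -1
      have : eta 2 2 = -1 := by decide
      rw [this]; norm_num
    show ((etaK ℝ 2 3 : ℝ) : ℂ) * bv h e 3 = (starRingEnd ℂ) (bv h e 3)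
    rw [this]
    simp [bv]

theorem etaK_bv_three (h e : ℝ) (c : Fin 4) :
    ((etaK ℝ 3 c : ℝ) : ℂ) * bv h e c = bv h e c := by
  fin_cases c
  · simp [bv, etaK]
  · simp [bv]
  · simp [bv]
  · have : etaK ℝ 3 3 = 1 := by
      show ((eta 3 2 : ℤ) : ℝ) = 1
      have : eta 3 2 = 1 := by decide
      rw [this]; norm_num
    show ((etaK ℝ 3 3 : ℝ) : ℂ) * bv h e 3 = bv h e 3
    rw [this]
    simp

theorem prod_etaK_bv_conj (a : Fin 4) (h e : ℝ)
    (ha : ∀ c, ((etaK ℝ a c : ℝ) : ℂ) * bv h e c = (starRingEnd ℂ) (bv h e c))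
    (n : ℕ) (ω : Fin n → Fin 4) :
    ((∏ k, etaK ℝ a (ω k) : ℝ) : ℂ) * ∏ k, bv h e (ω k) =
      (starRingEnd ℂ) (∏ k, bv h e (ω k)) := by
  rw [Complex.ofReal_prod, ← Finset.prod_mul_distrib, map_prod]
  exact Finset.prod_congr rfl fun k _ => ha _

theorem Dsig_bp_of_conj (a : Fin 4) (h e : ℝ)
    (ha : ∀ c, ((etaK ℝ a c : ℝ) : ℂ) * bv h e c = (starRingEnd ℂ) (bv h e c)) (n : ℕ) :
    (Dsig a n).mulVec (bp h e n) = bp h e n := by
  funext ω
  have := congrArg Complex.re (prod_etaK_bv_conj a h e ha n ω)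
  rw [Complex.re_ofReal_mul, Complex.conj_re] at this
  rw [Dsig, Matrix.mulVec_diagonal]
  exact this

theorem Dsig_bq_of_conj (a : Fin 4) (h e : ℝ)
    (ha : ∀ c, ((etaK ℝ a c : ℝ) : ℂ) * bv h e c = (starRingEnd ℂ) (bv h e c)) (n : ℕ) :
    (Dsig a n).mulVec (bq h e n) = -bq h e n := by
  funext ω
  have := congrArg Complex.im (prod_etaK_bv_conj a h e ha n ω)
  rw [Complex.im_ofReal_mul, Complex.conj_im] at this
  rw [Dsig, Matrix.mulVec_diagonal]
  exact this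

theorem Dsig_one_bp (h e : ℝ) (n : ℕ) : (Dsig 1 n).mulVec (bp h e n) = bp h e n :=
  Dsig_bp_of_conj 1 h e (etaK_bv_one h e) n
theorem Dsig_one_bq (h e : ℝ) (n : ℕ) : (Dsig 1 n).mulVec (bq h e n) = -bq h e n :=
  Dsig_bq_of_conj 1 h e (etaK_bv_one h e) n
theorem Dsig_two_bp (h e : ℝ) (n : ℕ) : (Dsig 2 n).mulVec (bp h e n) = bp h e n :=
  Dsig_bp_of_conj 2 h e (etaK_bv_two h e) n
theorem Dsig_two_bq (h e : ℝ) (n : ℕ) : (Dsig 2 n).mulVec (bq h e n) = -bq h e n :=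
  Dsig_bq_of_conj 2 h e (etaK_bv_two h e) n

theorem Dsig_three_bp (h e : ℝ) (n : ℕ) : (Dsig 3 n).mulVec (bp h e n) = bp h e n := by
  rw [← Dsig_one_mul_two, ← Matrix.mulVec_mulVec, Dsig_two_bp, Dsig_one_bp]

theorem Dsig_three_bq (h e : ℝ) (n : ℕ) : (Dsig 3 n).mulVec (bq h e n) = bq h e n := by
  rw [← Dsig_one_mul_two, ← Matrix.mulVec_mulVec, Dsig_two_bq, Matrix.mulVec_neg, Dsig_one_bq,
    neg_neg]

theorem Psec_bp (h e : ℝ) (n : ℕ) : (Psec 1 1 n).mulVec (bp h e n) = bp h e n := by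
  simp only [Psec, Matrix.smul_mulVec, Matrix.add_mulVec, Matrix.one_mulVec, Dsig_one_bp,
    Dsig_two_bp, Dsig_three_bp]
  module

theorem Psec_bq (h e : ℝ) (n : ℕ) : (Psec (-1) (-1) n).mulVec (bq h e n) = bq h e n := by
  simp only [Psec, Matrix.smul_mulVec, Matrix.add_mulVec, Matrix.one_mulVec, Dsig_one_bq,
    Dsig_two_bq, Dsig_three_bq]
  module

theorem JXYZ_open (β : ℝ) (hβ : 0 < β) : JXYZ (Xo β) (Yo β) (Zr β) := by
  refine ⟨fun n N =>
      (bp (3 / 5) (Real.sqrt (β / n)) n) ⬝ᵥ ((tauR 0 (Real.sqrt (β / n)) n) ^ N).mulVec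
        (bp (3 / 5) (Real.sqrt (β / n)) n) -
      (bq (3 / 5) (Real.sqrt (β / n)) n) ⬝ᵥ ((tauR 0 (Real.sqrt (β / n)) n) ^ N).mulVec
        (bq (3 / 5) (Real.sqrt (β / n)) n),
    fun n N =>
      (bp (3 / 5) (Real.sqrt (β / n)) n) ⬝ᵥ ((tauR 0 (Real.sqrt (β / n)) n) ^ N).mulVec
        (bp (3 / 5) (Real.sqrt (β / n)) n) +
      (bq (3 / 5) (Real.sqrt (β / n)) n) ⬝ᵥ ((tauR 0 (Real.sqrt (β / n)) n) ^ N).mulVec
        (bq (3 / 5) (Real.sqrt (β / n)) n),
    fun n N => ((tauR 0 (Real.sqrt (β / n)) n) ^ N).trace, fun n => ?_, fun N hN => ⟨?_, ?_, ?_⟩⟩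
  · exact jxyzfin_trace (Dsig 1 n) _ _ _ (Dsig_transpose 1 n) (Dsig_mul_self 1 n)
      (tauR_transpose 0 _ n) (Dsig_comm_tauR 1 0 _ n) (Dsig_one_bp _ _ n) (Dsig_one_bq _ _ n)
  · have h := Zab_tendsto 0 0 β hβ N hN
    simpa only [Dsig_zero, one_mul, Zr] using h
  · exact Zop_tendsto_opp 0 (3 / 5) β hβ N (by omega)
  · exact Zop_tendsto_same 0 (3 / 5) β hβ N (by omega)

theorem JPSL.congr {A A' K K' : ℕ → ℝ} (h : JPSL A K) (hA : ∀ l, 1 ≤ l → A l = A' l)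
    (hK : ∀ l, 1 ≤ l → K l = K' l) : JPSL A' K' := by
  obtain ⟨a, k, hf, hlim⟩ := h
  exact ⟨a, k, hf, fun l hl => ⟨hK l hl ▸ (hlim l hl).1, hA l hl ▸ (hlim l hl).2⟩⟩

/-- The even sector. -/
theorem JPSL_even (b : Fin 4) (h β : ℝ) (hβ : 0 < β) :
    JPSL (fun l => (Zop b h (-h) β (2 * l) + Zop b h h β (2 * l)) / 2)
      (fun l => (Zab 0 b β (2 * l) + 1 * Zab 1 b β (2 * l) + 1 * Zab 2 b β (2 * l) +
        1 * 1 * Zab 3 b β (2 * l)) / 4) := by
  refine ⟨fun n l =>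
      (bp h (Real.sqrt (β / n)) n) ⬝ᵥ ((tauR b (Real.sqrt (β / n)) n) ^ (2 * l)).mulVec
        (bp h (Real.sqrt (β / n)) n),
    fun n l => (Psec 1 1 n * (tauR b (Real.sqrt (β / n)) n) ^ (2 * l)).trace,
    fun n => jps_trace _ _ _ (Psec_transpose 1 1 n) (Psec_mul_self (by norm_num) (by norm_num) n)
      (tauR_transpose b _ n) (Psec_comm 1 1 b _ n) (Psec_bp h _ n), fun l hl => ⟨?_, ?_⟩⟩
  · simp only [Psec_trace]
    have h := fun a => Zab_tendsto a b β hβ (2 * l) (by omega)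
    exact ((((h 0).add ((h 1).const_mul 1)).add ((h 2).const_mul 1)).add
      ((h 3).const_mul (1 * 1))).div_const 4
  · have h1 := Zop_tendsto_opp b h β hβ (2 * l) (by omega)
    have h2 := Zop_tendsto_same b h β hβ (2 * l) (by omega)
    refine ((h1.add h2).div_const 2).congr fun n => ?_
    ring

/-- The odd sector. -/
theorem JPSL_odd (b : Fin 4) (h β : ℝ) (hβ : 0 < β) :
    JPSL (fun l => (Zop b h (-h) β (2 * l) - Zop b h h β (2 * l)) / 2)
      (fun l => (Zab 0 b β (2 * l) + (-1) * Zab 1 b β (2 * l) + (-1) * Zab 2 b β (2 * l) +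
        (-1) * (-1) * Zab 3 b β (2 * l)) / 4) := by
  refine ⟨fun n l =>
      (bq h (Real.sqrt (β / n)) n) ⬝ᵥ ((tauR b (Real.sqrt (β / n)) n) ^ (2 * l)).mulVec
        (bq h (Real.sqrt (β / n)) n),
    fun n l => (Psec (-1) (-1) n * (tauR b (Real.sqrt (β / n)) n) ^ (2 * l)).trace,
    fun n => jps_trace _ _ _ (Psec_transpose (-1) (-1) n)
      (Psec_mul_self (by norm_num) (by norm_num) n)
      (tauR_transpose b _ n) (Psec_comm (-1) (-1) b _ n) (Psec_bq h _ n), fun l hl => ⟨?_, ?_⟩⟩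
  · simp only [Psec_trace]
    have h := fun a => Zab_tendsto a b β hβ (2 * l) (by omega)
    exact ((((h 0).add ((h 1).const_mul (-1))).add ((h 2).const_mul (-1))).add
      ((h 3).const_mul ((-1) * (-1)))).div_const 4
  · have h1 := Zop_tendsto_opp b h β hβ (2 * l) (by omega)
    have h2 := Zop_tendsto_same b h β hβ (2 * l) (by omega)
    refine ((h1.sub h2).div_const 2).congr fun n => ?_
    ring

/-- `(A_e, K_t)` -/
theorem JPSL_Ae (β : ℝ) (hβ : 0 < β) :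
    JPSL (fun l => (Yo β (2 * l) + Xo β (2 * l)) / 2)
      (fun l => (Zab 0 0 β (2 * l) + 3 * Zab 3 0 β (2 * l)) / 4) := by
  refine (JPSL_even 0 (3 / 5) β hβ).congr (fun l _ => rfl) fun l hl => ?_
  rw [Zab_one_zero β hβ _ (by omega), Zab_two_zero β hβ _ (by omega)]
  ring

/-- `(A_o, K_c)` -/
theorem JPSL_Ao (β : ℝ) (hβ : 0 < β) :
    JPSL (fun l => (Yo β (2 * l) - Xo β (2 * l)) / 2)
      (fun l => (Zab 0 0 β (2 * l) - Zab 3 0 β (2 * l)) / 4) := by
  refine (JPSL_odd 0 (3 / 5) β hβ).congr (fun l _ => rfl) fun l hl => ?_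
  rw [Zab_one_zero β hβ _ (by omega), Zab_two_zero β hβ _ (by omega)]
  ring

/-- `(B_e, J_t)` -/
theorem JPSL_Be (β : ℝ) (hβ : 0 < β) :
    JPSL (fun l => (Yp β (2 * l) + Xp β (2 * l)) / 2)
      (fun l => (Zab 0 3 β (2 * l) + Zab 3 3 β (2 * l)) / 4 + Zab 1 3 β (2 * l) / 2) := by
  refine (JPSL_even 3 (3 / 5) β hβ).congr (fun l _ => rfl) fun l hl => ?_
  rw [Zab_two_three β hβ _ (by omega)]
  ring

/-- `(B_o, J_z)` -/
theorem JPSL_Bo (β : ℝ) (hβ : 0 < β) :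
    JPSL (fun l => (Yp β (2 * l) - Xp β (2 * l)) / 2)
      (fun l => (Zab 0 3 β (2 * l) + Zab 3 3 β (2 * l)) / 4 - Zab 1 3 β (2 * l) / 2) := by
  refine (JPSL_odd 3 (3 / 5) β hβ).congr (fun l _ => rfl) fun l hl => ?_
  rw [Zab_two_three β hβ _ (by omega)]
  ring

end Crest.Agent.R347
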