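import Crest.Agent.R347.PSL

/-! The purity recursion for a positive function with power-sum structure in both directions. -/

set_option autoImplicit false

namespace Crest.Agent.R347

/-- Both-direction power-sum structure of a partition function `Z β L` (even `L`). -/
structure TwoWay (Z : ℝ → ℕ → ℝ) : Prop where
  pos : ∀ β, 0 < β → ∀ L, 2 ≤ L → 0 < Z β L
  space : ∀ β, 0 < β → PSL (fun l => Z β (2 * l))
  time : ∀ β, 0 < β → ∀ L, 2 ≤ L → PSL (fun k => Z (k * β) L)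

theorem rec_pow_le {u : ℝ} (hu0 : 0 ≤ u) (hu : u ≤ 1 / 12) (k : ℕ) :
    u ^ (k + 2) ≤ u ^ 2 * (1 / 12) ^ k := by
  have h1 : u ^ k ≤ (1 / 12) ^ k := pow_le_pow_left₀ hu0 hu k
  calc u ^ (k + 2) = u ^ 2 * u ^ k := by ring
    _ ≤ u ^ 2 * (1 / 12) ^ k := mul_le_mul_of_nonneg_left h1 (by positivity)

theorem rec_poly1 {u : ℝ} (hu0 : 0 ≤ u) (hu : u ≤ 1 / 12) :
    (1 + (2 * u + 9 / 2 * u ^ 2) ^ 2) * (1 + u) ^ 4 ≤ (1 + (2 * u + 9 / 2 * u ^ 2)) ^ 2 := by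
  have h1 := rec_pow_le hu0 hu 1
  have h2 := rec_pow_le hu0 hu 2
  have h3 := rec_pow_le hu0 hu 3
  have h4 := rec_pow_le hu0 hu 4
  have h5 := rec_pow_le hu0 hu 5
  have h6 := rec_pow_le hu0 hu 6
  have h0 : 0 ≤ u ^ 2 := by positivity
  norm_num at h1 h2 h3 h4 h5 h6
  have key : (1 + (2 * u + 9 / 2 * u ^ 2)) ^ 2 - (1 + (2 * u + 9 / 2 * u ^ 2) ^ 2) * (1 + u) ^ 4
      = 3 * u ^ 2 - 20 * u ^ 3 - 97 * u ^ 4 - 205 * u ^ 5 - 395 / 2 * u ^ 6 - 99 * u ^ 7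
        - 81 / 4 * u ^ 8 := by ring
  nlinarith [h1, h2, h3, h4, h5, h6, h0, key]

theorem rec_poly2 {u : ℝ} (hu0 : 0 ≤ u) (hu : u ≤ 1 / 12) :
    (1 + (2 * u + 9 / 2 * u ^ 2) ^ 2) ^ 2 * (1 + u ^ 2) ^ 4 * (1 + (8 * u ^ 2) ^ 2) ≤
      (1 + 8 * u ^ 2) ^ 2 := by
  have h (k : ℕ) := rec_pow_le hu0 hu k
  have h1 := h 1
  have h2 := h 2
  have h3 := h 3
  have h4 := h 4
  have h5 := h 5
  have h6 := h 6
  have h7 := h 7
  have h8 := h 8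
  have h9 := h 9
  have h10 := h 10
  have h11 := h 11
  have h12 := h 12
  have h13 := h 13
  have h14 := h 14
  have h15 := h 15
  have h16 := h 16
  have h17 := h 17
  have h18 := h 18
  have h0 : 0 ≤ u ^ 2 := by positivity
  norm_num at h1 h2 h3 h4 h5 h6 h7 h8 h9 h10 h11 h12 h13 h14 h15 h16 h17 h18
  have key : (1 + 8 * u ^ 2) ^ 2 -
      (1 + (2 * u + 9 / 2 * u ^ 2) ^ 2) ^ 2 * (1 + u ^ 2) ^ 4 * (1 + (8 * u ^ 2) ^ 2)
      = 4 * u ^ 2 - 36 * u ^ 3 - 189 / 2 * u ^ 4 - 288 * u ^ 5 - 1532 * u ^ 6 - 3825 * u ^ 7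
        - 140385 / 16 * u ^ 8 - 22356 * u ^ 9 - 214745 / 4 * u ^ 10 - 102330 * u ^ 11
        - 1431431 / 8 * u ^ 12 - 254196 * u ^ 13 - 1234809 / 4 * u ^ 14 - 319833 * u ^ 15
        - 4574497 / 16 * u ^ 16 - 195840 * u ^ 17 - 136080 * u ^ 18 - 46656 * u ^ 19
        - 26244 * u ^ 20 := by ring
  linarith [h1, h2, h3, h4, h5, h6, h7, h8, h9, h10, h11, h12, h13, h14, h15, h16, h17, h18,
    h0, key]

/-- One step of the recursion `(β, L) → (2β, 2L)`, in terms of `u`: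
`R(β,L) ≥ (1+u²)/(1+u)²`, `u ≤ 1/12` implies `R(2β,2L) ≥ (1+u'²)/(1+u')²` with `u' = 8u²`. -/
theorem TwoWay.step {Z : ℝ → ℕ → ℝ} (h : TwoWay Z) {β : ℝ} (hβ : 0 < β) {L : ℕ} (hL : 2 ≤ L)
    (hLe : Even L) {u : ℝ} (hu0 : 0 ≤ u) (hu : u ≤ 1 / 12)
    (hR : (1 + u ^ 2) * Z β L ^ 4 ≤ (1 + u) ^ 2 * Z (2 * β) (2 * L)) :
    (1 + (8 * u ^ 2) ^ 2) * Z (2 * β) (2 * L) ^ 4 ≤
      (1 + 8 * u ^ 2) ^ 2 * Z (4 * β) (4 * L) := by
  obtain ⟨l, rfl⟩ : ∃ l, L = 2 * l := by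
    obtain ⟨r, hr⟩ := hLe
    exact ⟨r, by omega⟩
  have hl : 1 ≤ l := by omega
  set w : ℝ := 2 * u + 9 / 2 * u ^ 2 with hw
  have hw0 : 0 ≤ w := by positivity
  have hw1 : w < 1 := by nlinarith
  have hu1 : u < 1 := by linarith
  -- the values
  set z11 := Z β (2 * l) with hz11
  set z12 := Z β (2 * (2 * l)) with hz12
  set z14 := Z β (2 * (4 * l)) with hz14
  set z21 := Z (2 * β) (2 * l) with hz21
  set z22 := Z (2 * β) (2 * (2 * l)) with hz22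
  set z24 := Z (2 * β) (2 * (4 * l)) with hz24
  set z42 := Z (4 * β) (2 * (2 * l)) with hz42
  set z44 := Z (4 * β) (2 * (4 * l)) with hz44
  have p11 : 0 < z11 := h.pos _ hβ _ (by omega)
  have p12 : 0 < z12 := h.pos _ hβ _ (by omega)
  have p14 : 0 < z14 := h.pos _ hβ _ (by omega)
  have p21 : 0 < z21 := h.pos _ (by positivity) _ (by omega)
  have p22 : 0 < z22 := h.pos _ (by positivity) _ (by omega)
  have p24 : 0 < z24 := h.pos _ (by positivity) _ (by omega)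
  have p42 : 0 < z42 := h.pos _ (by positivity) _ (by omega)
  have p44 : 0 < z44 := h.pos _ (by positivity) _ (by omega)
  -- purities at most one
  have t12 : z12 ≤ z11 ^ 2 := by
    have := (h.space β hβ).pow_le (l := l) (k := 2) hl (by norm_num)
    simpa using this
  have s11 : z21 ≤ z11 ^ 2 := by
    have := (h.time β hβ (2 * l) (by omega)).pow_le (l := 1) (k := 2) (by norm_num) (by norm_num)
    simpa using this
  -- `P_s(β, 2L) ≥ R`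
  have a1 : (1 + u ^ 2) * z12 ^ 2 ≤ (1 + u) ^ 2 * z22 := by
    have e : z12 ^ 2 ≤ z11 ^ 4 := by
      calc z12 ^ 2 ≤ (z11 ^ 2) ^ 2 := pow_le_pow_left₀ p12.le t12 2
        _ = z11 ^ 4 := by ring
    calc (1 + u ^ 2) * z12 ^ 2 ≤ (1 + u ^ 2) * z11 ^ 4 := by gcongr
      _ ≤ (1 + u) ^ 2 * z22 := hR
  -- `P_t(2β, L) ≥ R`
  have a2 : (1 + u ^ 2) * z21 ^ 2 ≤ (1 + u) ^ 2 * z22 := by
    have e : z21 ^ 2 ≤ z11 ^ 4 := by
      calc z21 ^ 2 ≤ (z11 ^ 2) ^ 2 := pow_le_pow_left₀ p21.le s11 2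
        _ = z11 ^ 4 := by ring
    calc (1 + u ^ 2) * z21 ^ 2 ≤ (1 + u ^ 2) * z11 ^ 4 := by gcongr
      _ ≤ (1 + u) ^ 2 * z22 := hR
  -- purity in time at size `2L`
  have b2 : z22 ^ 2 ≤ (1 + u ^ 2) ^ 2 * z24 := by
    have := (h.space (2 * β) (by positivity)).purity (l := l) hl hu0 hu1 (by
      simpa using a2)
    have e1 : 2 * (4 * l) = 2 * (4 * l) := rfl
    simpa using this
  -- purity in time, size `4L`
  have c1 : z14 ^ 2 ≤ (1 + u) ^ 4 * z24 := by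
    -- z14 ≤ z12 ^ 2
    have t14 : z14 ≤ z12 ^ 2 := by
      have := (h.space β hβ).pow_le (l := 2 * l) (k := 2) (by omega) (by norm_num)
      have e : 2 * (2 * (2 * l)) = 2 * (4 * l) := by ring
      simpa [e] using this
    have h1 : z14 ^ 2 ≤ z12 ^ 4 := by
      calc z14 ^ 2 ≤ (z12 ^ 2) ^ 2 := pow_le_pow_left₀ p14.le t14 2
        _ = z12 ^ 4 := by ring
    have h2 : (1 + u ^ 2) ^ 2 * z12 ^ 4 ≤ (1 + u) ^ 4 * z22 ^ 2 := by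
      calc (1 + u ^ 2) ^ 2 * z12 ^ 4 = ((1 + u ^ 2) * z12 ^ 2) ^ 2 := by ring
        _ ≤ ((1 + u) ^ 2 * z22) ^ 2 := pow_le_pow_left₀ (by positivity) a1 2
        _ = (1 + u) ^ 4 * z22 ^ 2 := by ring
    have h3 : (1 + u ^ 2) ^ 2 * z14 ^ 2 ≤ (1 + u ^ 2) ^ 2 * ((1 + u) ^ 4 * z24) := by
      calc (1 + u ^ 2) ^ 2 * z14 ^ 2 ≤ (1 + u ^ 2) ^ 2 * z12 ^ 4 := by gcongr
        _ ≤ (1 + u) ^ 4 * z22 ^ 2 := h2
        _ ≤ (1 + u) ^ 4 * ((1 + u ^ 2) ^ 2 * z24) := by gcongr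
        _ = (1 + u ^ 2) ^ 2 * ((1 + u) ^ 4 * z24) := by ring
    exact le_of_mul_le_mul_left h3 (by positivity)
  have c2 : (1 + w ^ 2) * z14 ^ 2 ≤ (1 + w) ^ 2 * z24 := by
    calc (1 + w ^ 2) * z14 ^ 2 ≤ (1 + w ^ 2) * ((1 + u) ^ 4 * z24) := by gcongr
      _ = ((1 + w ^ 2) * (1 + u) ^ 4) * z24 := by ring
      _ ≤ (1 + w) ^ 2 * z24 := mul_le_mul_of_nonneg_right (rec_poly1 hu0 hu) p24.le
  have c3 : z24 ^ 2 ≤ (1 + w ^ 2) ^ 2 * z44 := by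
    have := (h.time β hβ (2 * (4 * l)) (by omega)).purity (l := 1) (by norm_num) hw0 hw1 (by
      simpa using c2)
    simpa using this
  -- conclusion
  have d1 : z22 ^ 4 ≤ (1 + u ^ 2) ^ 4 * ((1 + w ^ 2) ^ 2 * z44) := by
    calc z22 ^ 4 = (z22 ^ 2) ^ 2 := by ring
      _ ≤ ((1 + u ^ 2) ^ 2 * z24) ^ 2 := pow_le_pow_left₀ (by positivity) b2 2
      _ = (1 + u ^ 2) ^ 4 * z24 ^ 2 := by ring
      _ ≤ (1 + u ^ 2) ^ 4 * ((1 + w ^ 2) ^ 2 * z44) := by gcongr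
  have e44 : Z (4 * β) (4 * (2 * l)) = z44 := by
    rw [hz44]; congr 1; ring
  rw [e44]
  calc (1 + (8 * u ^ 2) ^ 2) * z22 ^ 4
      ≤ (1 + (8 * u ^ 2) ^ 2) * ((1 + u ^ 2) ^ 4 * ((1 + w ^ 2) ^ 2 * z44)) := by gcongr
    _ = ((1 + w ^ 2) ^ 2 * (1 + u ^ 2) ^ 4 * (1 + (8 * u ^ 2) ^ 2)) * z44 := by ring
    _ ≤ (1 + 8 * u ^ 2) ^ 2 * z44 := mul_le_mul_of_nonneg_right (rec_poly2 hu0 hu) p44.le

/-- The sequence of parameters. -/
theorem rec_u_bounds (n : ℕ) :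
    0 ≤ ((2 / 3 : ℝ) ^ (2 ^ n) / 8) ∧ ((2 / 3 : ℝ) ^ (2 ^ n) / 8) ≤ 1 / 12 := by
  constructor
  · positivity
  · have : (2 / 3 : ℝ) ^ (2 ^ n) ≤ (2 / 3) ^ 1 :=
      pow_le_pow_of_le_one (by norm_num) (by norm_num) (Nat.one_le_two_pow)
    linarith

theorem TwoWay.iterate {Z : ℝ → ℕ → ℝ} (h : TwoWay Z) {β₀ : ℝ} (hβ : 0 < β₀) {L₀ : ℕ}
    (hL : 2 ≤ L₀) (hLe : Even L₀)
    (hR : (145 : ℝ) / 169 * Z β₀ L₀ ^ 4 ≤ Z (2 * β₀) (2 * L₀)) (n : ℕ) :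
    (1 + ((2 / 3 : ℝ) ^ (2 ^ n) / 8) ^ 2) * Z (2 ^ n * β₀) (2 ^ n * L₀) ^ 4 ≤
      (1 + (2 / 3 : ℝ) ^ (2 ^ n) / 8) ^ 2 * Z (2 * (2 ^ n * β₀)) (2 * (2 ^ n * L₀)) := by
  induction n with
  | zero =>
    norm_num
    linarith
  | succ n ih =>
    have hb := rec_u_bounds n
    have hpos : (0 : ℝ) < 2 ^ n * β₀ := by positivity
    have hL' : 2 ≤ 2 ^ n * L₀ := le_trans hL (Nat.le_mul_of_pos_left _ (by positivity))
    have hLe' : Even (2 ^ n * L₀) := hLe.mul_left _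
    have key := h.step hpos hL' hLe' hb.1 hb.2 ih
    have e1 : (2 / 3 : ℝ) ^ (2 ^ (n + 1)) / 8 = 8 * ((2 / 3 : ℝ) ^ (2 ^ n) / 8) ^ 2 := by
      rw [pow_succ 2 n, pow_mul]; ring
    have e2 : (2 : ℝ) ^ (n + 1) * β₀ = 2 * (2 ^ n * β₀) := by ring
    have e3 : 2 ^ (n + 1) * L₀ = 2 * (2 ^ n * L₀) := by ring
    have e4 : 2 * (2 * (2 ^ n * β₀)) = 4 * (2 ^ n * β₀) := by ring
    have e5 : 2 * (2 * (2 ^ n * L₀)) = 4 * (2 ^ n * L₀) := by ring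
    rw [e1, e2, e3, e4, e5]
    exact key

/-- From the base inequality at `(β₀, L₀)` one gets, for every even `L ≥ L₀`, a purity bound for
the Gibbs state of the ring of `L` sites at a suitable inverse temperature. -/
theorem TwoWay.purity_all {Z : ℝ → ℕ → ℝ} (h : TwoWay Z) {β₀ : ℝ} (hβ : 0 < β₀) {L₀ : ℕ}
    (hL : 2 ≤ L₀) (hLe : Even L₀)
    (hR : (145 : ℝ) / 169 * Z β₀ L₀ ^ 4 ≤ Z (2 * β₀) (2 * L₀)) (L : ℕ) (hLL : L₀ ≤ L)
    (hLev : Even L) :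
    ∃ n : ℕ, ∃ u : ℝ, u = (2 / 3) ^ (2 ^ n) / 8 ∧
      (1 + u ^ 2) * Z (2 ^ n * β₀) L ^ 2 ≤ (1 + u) ^ 2 * Z (2 * (2 ^ n * β₀)) L := by
  -- choose `n` with `2^n L₀ ≤ L < 2^(n+1) L₀`
  obtain ⟨n, hn1, hn2⟩ : ∃ n : ℕ, 2 ^ n * L₀ ≤ L ∧ L < 2 ^ (n + 1) * L₀ := by
    have hex : ∃ n : ℕ, L < 2 ^ (n + 1) * L₀ := by
      refine ⟨L, ?_⟩
      have h1 : L < 2 ^ L := Nat.lt_two_pow_self
      have h2 : 2 ^ L ≤ 2 ^ (L + 1) * L₀ := by
        calc 2 ^ L ≤ 2 ^ (L + 1) := Nat.pow_le_pow_right (by norm_num) (by omega)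
          _ ≤ 2 ^ (L + 1) * L₀ := Nat.le_mul_of_pos_right _ (by omega)
      omega
    classical
    refine ⟨Nat.find hex, ?_, Nat.find_spec hex⟩
    rcases Nat.eq_zero_or_pos (Nat.find hex) with h0 | h0
    · rw [h0]; simpa using hLL
    · have := Nat.find_min hex (m := Nat.find hex - 1) (by omega)
      rw [not_lt] at this
      have e : Nat.find hex - 1 + 1 = Nat.find hex := by omega
      rwa [e] at this
  refine ⟨n, (2 / 3) ^ (2 ^ n) / 8, rfl, ?_⟩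
  have hb := rec_u_bounds n
  set u : ℝ := (2 / 3) ^ (2 ^ n) / 8 with hu
  have hit := h.iterate hβ hL hLe hR n
  rw [← hu] at hit
  set β : ℝ := 2 ^ n * β₀ with hβdef
  have hβp : 0 < β := by positivity
  obtain ⟨r, hr⟩ := hLe.mul_left (2 ^ n)
  obtain ⟨q, hq⟩ := hLev
  have hLn : 2 ^ n * L₀ = 2 * r := by omega
  have hLq : L = 2 * q := by omega
  have hrpos : 1 ≤ r := by
    have : 2 ≤ 2 ^ n * L₀ := le_trans hL (Nat.le_mul_of_pos_left _ (by positivity))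
    omega
  have hrq : r ≤ q := by omega
  have hqr : q ≤ 2 * r := by
    have : 2 ^ (n + 1) * L₀ = 2 * (2 ^ n * L₀) := by ring
    omega
  rw [hLn] at hit
  rw [hLq]
  -- values
  have p1 : 0 < Z β (2 * r) := h.pos _ hβp _ (by omega)
  have p2 : 0 < Z (2 * β) (2 * (2 * r)) := h.pos _ (by positivity) _ (by omega)
  have p3 : 0 < Z β (2 * q) := h.pos _ hβp _ (by omega)
  have p4 : 0 < Z (2 * β) (2 * q) := h.pos _ (by positivity) _ (by omega)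
  have g1 : Z (2 * β) (2 * (2 * r)) ≤ Z (2 * β) (2 * q) ^ (((2 * r : ℕ) : ℝ) / q) :=
    (h.space (2 * β) (by positivity)).rpow_le (l := q) (m := 2 * r) (by omega) hqr
  have g2 : Z β (2 * q) ≤ Z β (2 * r) ^ ((q : ℝ) / r) :=
    (h.space β hβp).rpow_le (l := r) (m := q) hrpos hrq
  have hq0 : (0 : ℝ) < q := by exact_mod_cast (by omega : 0 < q)
  have hr0 : (0 : ℝ) < r := by exact_mod_cast (by omega : 0 < r)
  set θ : ℝ := (q : ℝ) / (2 * r) with hθ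
  have hθ0 : 0 < θ := by positivity
  have hθ1 : θ ≤ 1 := by
    rw [hθ, div_le_one (by positivity)]
    exact_mod_cast hqr
  -- `Z(2β, L) ≥ Z(2β, 2Ln)^θ`
  have g1' : Z (2 * β) (2 * (2 * r)) ^ θ ≤ Z (2 * β) (2 * q) := by
    have := Real.rpow_le_rpow p2.le g1 hθ0.le
    rw [← Real.rpow_mul p4.le] at this
    have e : ((2 * r : ℕ) : ℝ) / q * θ = 1 := by
      rw [hθ]; push_cast; field_simp
    rwa [e, Real.rpow_one] at this
  -- `Z(β, L)² ≤ (Z(β, Ln)^4)^θ`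
  have g2' : Z β (2 * q) ^ 2 ≤ (Z β (2 * r) ^ 4) ^ θ := by
    have h1 : Z β (2 * q) ^ 2 ≤ (Z β (2 * r) ^ ((q : ℝ) / r)) ^ 2 :=
      pow_le_pow_left₀ p3.le g2 2
    have e : (Z β (2 * r) ^ ((q : ℝ) / r)) ^ 2 = (Z β (2 * r) ^ 4) ^ θ := by
      rw [← Real.rpow_natCast (Z β (2 * r) ^ ((q : ℝ) / r)) 2, ← Real.rpow_mul p1.le,
        ← Real.rpow_natCast (Z β (2 * r)) 4, ← Real.rpow_mul p1.le]
      congr 1
      rw [hθ]; push_cast; field_simp; ring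
    rwa [e] at h1
  set c : ℝ := (1 + u ^ 2) / (1 + u) ^ 2 with hc
  have hu0 : 0 ≤ u := hb.1
  have hc0 : 0 < c := by positivity
  have hc1 : c ≤ 1 := by
    rw [hc, div_le_one (by positivity)]
    nlinarith
  have hcR : c * Z β (2 * r) ^ 4 ≤ Z (2 * β) (2 * (2 * r)) := by
    rw [hc, div_mul_eq_mul_div, div_le_iff₀ (by positivity)]
    linarith
  have hcθ : c ≤ c ^ θ := by
    calc c = c ^ (1 : ℝ) := (Real.rpow_one c).symm
      _ ≤ c ^ θ := Real.rpow_le_rpow_of_exponent_ge hc0 hc1 hθ1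
  have final : c * Z β (2 * q) ^ 2 ≤ Z (2 * β) (2 * q) := by
    calc c * Z β (2 * q) ^ 2 ≤ c ^ θ * (Z β (2 * r) ^ 4) ^ θ := by
          apply mul_le_mul hcθ g2' (by positivity) (by positivity)
      _ = (c * Z β (2 * r) ^ 4) ^ θ := by
          rw [Real.mul_rpow hc0.le (by positivity)]
      _ ≤ Z (2 * β) (2 * (2 * r)) ^ θ :=
          Real.rpow_le_rpow (by positivity) hcR hθ0.le
      _ ≤ Z (2 * β) (2 * q) := g1'
  rw [hc, div_mul_eq_mul_div, div_le_iff₀ (by positivity)] at final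
  linarith

end Crest.Agent.R347
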