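import Crest.Agent.R347.Joint
import Crest.Agent.R347.Recursion

/-! Recursion for the open chain. -/

set_option autoImplicit false

namespace Crest.Agent.R347

/-- The structure shared by ring (`Z`), opposite-field (`Y`) and same-field (`X`) chains. -/
structure OpenSys (X Y Z : ℝ → ℕ → ℝ) : Prop where
  two : TwoWay Z
  joint : ∀ β, 0 < β → JXYZ (X β) (Y β) (Z β)
  Ypos : ∀ β, 0 < β → ∀ N, 1 ≤ N → 0 < Y β N
  Xpos : ∀ β, 0 < β → ∀ N, 1 ≤ N → 0 < X β N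
  Ytime : ∀ β, 0 < β → ∀ N, 2 ≤ N → PSL (fun k => Y (k * β) N)

namespace OpenRec

/-- Elementary consequences of the two-atom bounds. -/
theorem top_arith {a b y z y2 z2 u ρ : ℝ} (_ha : 0 ≤ a) (hay : a ≤ y) (hb : 0 < b) (hbz : b ≤ z)
    (hy : 0 < y) (hz1 : z2 ≤ b * z) (hz2 : z2 - b ^ 2 ≤ (z - b) ^ 2)
    (hy2 : y2 - a * b ≤ (y - a) * (z - b)) (hu0 : 0 ≤ u) (hu : u < 1) (hρ : ρ < 1 / 2)
    (hR : (1 + u ^ 2) * z ^ 2 ≤ (1 + u) ^ 2 * z2) (hF : (1 - ρ) * (y * z) ≤ y2) :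
    z ≤ (1 + u) * b ∧ (1 - ρ) * z ≤ b ∧ (1 - ρ) * y ≤ a := by
  have hz : 0 < z := by linarith
  have h1 : z ≤ (1 + u) * b := by
    by_contra hcon
    rw [not_le] at hcon
    have hδ : u * b < z - b := by linarith
    have e1 : 0 ≤ (u * b - (z - b)) * (b - u * (z - b)) := by
      have : (1 + u ^ 2) * z ^ 2 ≤ (1 + u) ^ 2 * (b ^ 2 + (z - b) ^ 2) :=
        hR.trans (mul_le_mul_of_nonneg_left (by linarith) (by positivity))
      nlinarith [this]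
    have e2 : b - u * (z - b) ≤ 0 := by
      by_contra h
      rw [not_le] at h
      have : (u * b - (z - b)) * (b - u * (z - b)) < 0 := mul_neg_of_neg_of_pos (by linarith) h
      linarith
    have e3 : (1 + u ^ 2) * z ≤ (1 + u) ^ 2 * b := by
      have : (1 + u ^ 2) * z * z ≤ (1 + u) ^ 2 * b * z := by
        calc (1 + u ^ 2) * z * z = (1 + u ^ 2) * z ^ 2 := by ring
          _ ≤ (1 + u) ^ 2 * z2 := hR
          _ ≤ (1 + u) ^ 2 * (b * z) := mul_le_mul_of_nonneg_left hz1 (by positivity)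
          _ = (1 + u) ^ 2 * b * z := by ring
      exact le_of_mul_le_mul_right this hz
    -- `(1 + u^2) δ ≤ 2 u b ≤ 2 u^2 δ`
    have hδ0 : 0 < z - b := lt_of_le_of_lt (by positivity) hδ
    have e4 : (1 + u ^ 2) * (z - b) ≤ 2 * u * b := by linarith [e3]
    have e5 : 2 * u * b ≤ 2 * u * (u * (z - b)) :=
      mul_le_mul_of_nonneg_left (by linarith) (by positivity)
    have e6 : (1 - u ^ 2) * (z - b) ≤ 0 := by linarith [e4, e5]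
    have e7 : 0 < (1 - u ^ 2) * (z - b) := mul_pos (by nlinarith) hδ0
    linarith
  have hb2 : z < 2 * b := by
    have : (1 + u) * b < 2 * b := mul_lt_mul_of_pos_right (by linarith) hb
    linarith
  have h2 : (1 - ρ) * z ≤ b := by
    have e1 : (1 - ρ) * z * y ≤ b * y := by
      have e2 : (y - a) * (z - b) ≤ (y - a) * b :=
        mul_le_mul_of_nonneg_left (by linarith) (by linarith)
      linarith [hF, hy2, e2]
    exact le_of_mul_le_mul_right e1 hy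
  have h3 : (1 - ρ) * y ≤ a := by
    rcases le_or_gt y (2 * a) with h | h
    · have e1 : (1 - ρ) * y * z ≤ a * z := by
        have e2 : 0 ≤ (2 * a - y) * (z - b) := mul_nonneg (by linarith) (by linarith)
        linarith [hF, hy2, e2]
      exact le_of_mul_le_mul_right e1 hz
    · exfalso
      have e2 : (2 * b - z) * (y - 2 * a) > 0 := mul_pos (by linarith) (by linarith)
      have e3 : (1 / 2 - ρ) * (y * z) > 0 := mul_pos (by linarith) (by positivity)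
      linarith [hF, hy2, e2, e3]
  exact ⟨h1, h2, h3⟩

theorem F_le_one {X Y Z : ℕ → ℝ} {Λ W s : ℝ} (t : IsTop X Y Z Λ W s) {l : ℕ} (hl : 1 ≤ l) :
    Y (4 * l) ≤ Y (2 * l) * Z (2 * l) := by
  have h1 := t.Y_rest l hl
  have h2 := t.Y_ge l hl
  have h3 := t.Z_ge l hl
  have h4 : 0 ≤ W * Λ ^ (2 * l) := mul_nonneg t.W_nonneg (pow_nonneg t.pos.le _)
  have h5 : 0 ≤ Λ ^ (2 * l) := pow_nonneg t.pos.le _
  have e : W * Λ ^ (4 * l) = (W * Λ ^ (2 * l)) * Λ ^ (2 * l) := by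
    rw [mul_assoc, ← pow_add]; congr 2; ring
  rw [e] at h1
  nlinarith [mul_nonneg h4 (sub_nonneg.2 h3), mul_nonneg h5 (sub_nonneg.2 h2)]

/-- The facts at `(β, n)`, `(2β, n)`, shared by the two theorems. -/
structure Base (X Y Z : ℝ → ℕ → ℝ) (β : ℝ) (l : ℕ) (u ρ Λ W s : ℝ) : Prop where
  top : IsTop (X (2 * β)) (Y (2 * β)) (Z (2 * β)) Λ W s
  z_le : Z (2 * β) (2 * l) ≤ (1 + u) * Λ ^ (2 * l)
  p_ge : (1 - ρ) * Z (2 * β) (2 * l) ≤ Λ ^ (2 * l)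
  q_ge : (1 - ρ) * Y (2 * β) (2 * l) ≤ W * Λ ^ (2 * l)
  Ps : Z β (2 * l) ^ 2 ≤ (1 + u) * Z (2 * β) (2 * l)
  Po : (1 - ρ) * Y β (2 * l) ^ 2 ≤ Y (2 * β) (2 * l)

theorem base {X Y Z : ℝ → ℕ → ℝ} (h : OpenSys X Y Z) {β : ℝ} (hβ : 0 < β) {l : ℕ}
    (hl : 1 ≤ l) {u ρ : ℝ} (hu0 : 0 ≤ u) (hu : u < 1) (hρ0 : 0 ≤ ρ) (hρ : ρ < 1 / 2)
    (hR : (1 + u ^ 2) * Z β (2 * l) ^ 4 ≤ (1 + u) ^ 2 * Z (2 * β) (4 * l))
    (hRo : (1 - ρ) * (Y β (2 * l) ^ 2 * Z (2 * β) (2 * l)) ≤ Y (2 * β) (4 * l)) :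
    ∃ Λ W s : ℝ, Base X Y Z β l u ρ Λ W s := by
  have h2β : 0 < 2 * β := by positivity
  obtain ⟨Λ, W, s, t⟩ := (h.joint (2 * β) h2β).exists_top (h.two.pos _ h2β 4 (by norm_num))
  have hZ1 : 0 < Z β (2 * l) := h.two.pos _ hβ _ (by omega)
  have hZ2 : 0 < Z (2 * β) (2 * l) := h.two.pos _ h2β _ (by omega)
  have hZ22 : 0 < Z (2 * β) (4 * l) := h.two.pos _ h2β _ (by omega)
  have hY1 : 0 < Y β (2 * l) := h.Ypos _ hβ _ (by omega)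
  have hY2 : 0 < Y (2 * β) (2 * l) := h.Ypos _ h2β _ (by omega)
  -- `P_s ≤ 1`
  have s11 : Z (2 * β) (2 * l) ≤ Z β (2 * l) ^ 2 := by
    have := (h.two.time β hβ (2 * l) (by omega)).pow_le (l := 1) (k := 2) (by norm_num)
      (by norm_num)
    simpa using this
  -- `P^o ≤ 1`
  have o11 : Y (2 * β) (2 * l) ≤ Y β (2 * l) ^ 2 := by
    have := (h.Ytime β hβ (2 * l) (by omega)).pow_le (l := 1) (k := 2) (by norm_num)
      (by norm_num)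
    simpa using this
  have t12 : Z (2 * β) (4 * l) ≤ Z (2 * β) (2 * l) ^ 2 := by
    have := (h.two.space (2 * β) h2β).pow_le (l := l) (k := 2) hl (by norm_num)
    have e : 2 * (2 * l) = 4 * l := by ring
    simpa [e] using this
  -- `P_t(2β, n) ≥ R`
  have a2 : (1 + u ^ 2) * Z (2 * β) (2 * l) ^ 2 ≤ (1 + u) ^ 2 * Z (2 * β) (4 * l) := by
    have e : Z (2 * β) (2 * l) ^ 2 ≤ Z β (2 * l) ^ 4 := by
      calc Z (2 * β) (2 * l) ^ 2 ≤ (Z β (2 * l) ^ 2) ^ 2 := pow_le_pow_left₀ hZ2.le s11 2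
        _ = Z β (2 * l) ^ 4 := by ring
    calc (1 + u ^ 2) * Z (2 * β) (2 * l) ^ 2 ≤ (1 + u ^ 2) * Z β (2 * l) ^ 4 := by gcongr
      _ ≤ (1 + u) ^ 2 * Z (2 * β) (4 * l) := hR
  -- `F(2β, n) ≥ 1 - ρ`
  have hF : (1 - ρ) * (Y (2 * β) (2 * l) * Z (2 * β) (2 * l)) ≤ Y (2 * β) (4 * l) := by
    refine le_trans ?_ hRo
    have : (0 : ℝ) ≤ 1 - ρ := by linarith
    gcongr
  have eΛ : Λ ^ (4 * l) = (Λ ^ (2 * l)) ^ 2 := by rw [← pow_mul]; congr 1; ring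
  have eW : W * Λ ^ (4 * l) = (W * Λ ^ (2 * l)) * Λ ^ (2 * l) := by
    rw [mul_assoc, ← pow_add]; congr 2; ring
  have k1 := t.Z_ratio l hl
  have k2 := t.Z_rest l hl
  have k3 := t.Y_rest l hl
  rw [eΛ] at k2
  rw [eW] at k3
  obtain ⟨r1, r2, r3⟩ := top_arith (mul_nonneg t.W_nonneg (pow_nonneg t.pos.le _)) (t.Y_ge l hl)
    (pow_pos t.pos _) (t.Z_ge l hl) hY2 k1 k2 k3 hu0 hu hρ a2 hF
  refine ⟨Λ, W, s, t, r1, r2, r3, ?_, ?_⟩
  · -- `P_s(β, n)² ≥ R`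
    have e1 : Z β (2 * l) ^ 4 ≤ ((1 + u) * Z (2 * β) (2 * l)) ^ 2 := by
      calc Z β (2 * l) ^ 4 ≤ (1 + u ^ 2) * Z β (2 * l) ^ 4 :=
            le_mul_of_one_le_left (by positivity) (by nlinarith)
        _ ≤ (1 + u) ^ 2 * Z (2 * β) (4 * l) := hR
        _ ≤ (1 + u) ^ 2 * Z (2 * β) (2 * l) ^ 2 := by gcongr
        _ = ((1 + u) * Z (2 * β) (2 * l)) ^ 2 := by ring
    have e2 : (Z β (2 * l) ^ 2) ^ 2 ≤ ((1 + u) * Z (2 * β) (2 * l)) ^ 2 := by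
      calc (Z β (2 * l) ^ 2) ^ 2 = Z β (2 * l) ^ 4 := by ring
        _ ≤ _ := e1
    exact (abs_le_of_sq_le_sq' e2 (by positivity)).2
  · have e1 : (1 - ρ) * Y β (2 * l) ^ 2 * Z (2 * β) (2 * l) ≤
        Y (2 * β) (2 * l) * Z (2 * β) (2 * l) := by
      calc (1 - ρ) * Y β (2 * l) ^ 2 * Z (2 * β) (2 * l)
          = (1 - ρ) * (Y β (2 * l) ^ 2 * Z (2 * β) (2 * l)) := by ring
        _ ≤ Y (2 * β) (4 * l) := hRo
        _ ≤ Y (2 * β) (2 * l) * Z (2 * β) (2 * l) := F_le_one t hl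
    exact le_of_mul_le_mul_right e1 hZ2

end OpenRec

open OpenRec

/-- One step of the open recursion `(β, n) → (2β, 2n)`, `n` even.
`S` bounds `1 / F(2β, 2n)`. -/
theorem OpenSys.step {X Y Z : ℝ → ℕ → ℝ} (h : OpenSys X Y Z) {β : ℝ} (hβ : 0 < β) {n : ℕ}
    (hn : 2 ≤ n) (hne : Even n) {u ρ w S : ℝ} (hu0 : 0 ≤ u) (hu : u < 1)
    (hρ0 : 0 ≤ ρ) (hρ : ρ < 1 / 2) (hw0 : 0 ≤ w) (hw1 : w < 1)
    (hR : (1 + u ^ 2) * Z β n ^ 4 ≤ (1 + u) ^ 2 * Z (2 * β) (2 * n))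
    (hRo : (1 - ρ) * (Y β n ^ 2 * Z (2 * β) n) ≤ Y (2 * β) (2 * n))
    (hS : S = (1 + ρ * u / (1 - ρ)) * (1 + u ^ 2))
    (hw : (1 + w ^ 2) * S * (1 + u) ^ 3 ≤ (1 + w) ^ 2 * (1 - ρ)) :
    Y (2 * β) (2 * n) ^ 2 * Z (4 * β) (2 * n) ≤ (1 + w ^ 2) ^ 2 * S ^ 2 * Y (4 * β) (4 * n) := by
  obtain ⟨l, rfl⟩ : ∃ l, n = 2 * l := by
    obtain ⟨r, hr⟩ := hne
    exact ⟨r, by omega⟩
  have hl : 1 ≤ l := by omega
  have e2n : 2 * (2 * l) = 4 * l := by ring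
  have e4n : 4 * (2 * l) = 8 * l := by ring
  rw [e2n] at hR hRo ⊢
  rw [e4n]
  have h2β : 0 < 2 * β := by positivity
  have h4β : 0 < 4 * β := by positivity
  obtain ⟨Λ, W, s, B⟩ := base h hβ hl hu0 hu hρ0 hρ hR hRo
  obtain ⟨Λ1, W1, s1, t1⟩ := (h.joint β hβ).exists_top (h.two.pos _ hβ 4 (by norm_num))
  have t := B.top
  have h1ρ : 0 < 1 - ρ := by linarith
  -- positivity
  have z1 : 0 < Z β (2 * l) := h.two.pos _ hβ _ (by omega)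
  have z12 : 0 < Z β (4 * l) := h.two.pos _ hβ _ (by omega)
  have z21 : 0 < Z (2 * β) (2 * l) := h.two.pos _ h2β _ (by omega)
  have z22 : 0 < Z (2 * β) (4 * l) := h.two.pos _ h2β _ (by omega)
  have z42 : 0 < Z (4 * β) (4 * l) := h.two.pos _ h4β _ (by omega)
  have y1 : 0 < Y β (2 * l) := h.Ypos _ hβ _ (by omega)
  have y12 : 0 < Y β (4 * l) := h.Ypos _ hβ _ (by omega)
  have y14 : 0 < Y β (8 * l) := h.Ypos _ hβ _ (by omega)
  have y21 : 0 < Y (2 * β) (2 * l) := h.Ypos _ h2β _ (by omega)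
  have y22 : 0 < Y (2 * β) (4 * l) := h.Ypos _ h2β _ (by omega)
  have y24 : 0 < Y (2 * β) (8 * l) := h.Ypos _ h2β _ (by omega)
  have y44 : 0 < Y (4 * β) (8 * l) := h.Ypos _ h4β _ (by omega)
  have hS1 : 1 ≤ S := by
    rw [hS]
    have : 0 ≤ ρ * u / (1 - ρ) := by positivity
    nlinarith [mul_nonneg this (sq_nonneg u)]
  have hS0 : 0 < S := by linarith
  -- `F(2β, 2n) ≥ 1/S`
  have hFS : Y (2 * β) (4 * l) * Z (2 * β) (4 * l) ≤ S * Y (2 * β) (8 * l) := by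
    set a : ℝ := W * Λ ^ (2 * l) with ha
    set b : ℝ := Λ ^ (2 * l) with hb
    have hb0 : 0 < b := pow_pos t.pos _
    have ha0 : 0 ≤ a := mul_nonneg t.W_nonneg hb0.le
    have eΛ : Λ ^ (4 * l) = b ^ 2 := by rw [hb, ← pow_mul]; congr 1; ring
    have eW : W * Λ ^ (4 * l) = a * b := by
      rw [ha, hb, mul_assoc, ← pow_add]; congr 2; ring
    have eW8 : W * Λ ^ (2 * (4 * l)) = a * b ^ 3 := by
      rw [ha, hb, mul_assoc, ← pow_mul, ← pow_add]; congr 2; ring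
    have k2 := t.Z_rest l hl
    have k3 := t.Y_rest l hl
    have k4 := t.Y_ge (4 * l) (by omega)
    have k5 := t.Y_ge l hl
    have k6 := t.Z_ge l hl
    rw [eΛ] at k2
    rw [eW] at k3
    rw [eW8] at k4
    have e8 : 2 * (4 * l) = 8 * l := by ring
    rw [e8] at k4
    have q1 : Y (2 * β) (2 * l) - a ≤ ρ / (1 - ρ) * a := by
      rw [div_mul_eq_mul_div, le_div_iff₀ h1ρ]
      have := B.q_ge
      nlinarith [this]
    have q2 : Z (2 * β) (2 * l) - b ≤ u * b := by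
      have := B.z_le
      linarith
    have q10 : 0 ≤ Y (2 * β) (2 * l) - a := by linarith
    have q20 : 0 ≤ Z (2 * β) (2 * l) - b := by linarith
    have r1 : Y (2 * β) (4 * l) ≤ a * b * (1 + ρ * u / (1 - ρ)) := by
      have : (Y (2 * β) (2 * l) - a) * (Z (2 * β) (2 * l) - b) ≤ (ρ / (1 - ρ) * a) * (u * b) :=
        mul_le_mul q1 q2 q20 (by positivity)
      calc Y (2 * β) (4 * l) ≤ a * b + (Y (2 * β) (2 * l) - a) * (Z (2 * β) (2 * l) - b) := by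
            linarith
        _ ≤ a * b + (ρ / (1 - ρ) * a) * (u * b) := by linarith
        _ = a * b * (1 + ρ * u / (1 - ρ)) := by ring
    have r2 : Z (2 * β) (4 * l) ≤ b ^ 2 * (1 + u ^ 2) := by
      have : (Z (2 * β) (2 * l) - b) ^ 2 ≤ (u * b) ^ 2 := pow_le_pow_left₀ q20 q2 2
      calc Z (2 * β) (4 * l) ≤ b ^ 2 + (Z (2 * β) (2 * l) - b) ^ 2 := by linarith
        _ ≤ b ^ 2 + (u * b) ^ 2 := by linarith
        _ = b ^ 2 * (1 + u ^ 2) := by ring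
    calc Y (2 * β) (4 * l) * Z (2 * β) (4 * l)
        ≤ (a * b * (1 + ρ * u / (1 - ρ))) * (b ^ 2 * (1 + u ^ 2)) :=
          mul_le_mul r1 r2 z22.le (y22.le.trans r1)
      _ = S * (a * b ^ 3) := by rw [hS]; ring
      _ ≤ S * Y (2 * β) (8 * l) := by gcongr
  -- `P^o(β, 2n)`
  have hA : (1 - ρ) * Y β (4 * l) ^ 2 ≤ (1 + u) * Y (2 * β) (4 * l) := by
    have f1 : Y β (4 * l) ≤ Y β (2 * l) * Z β (2 * l) := F_le_one t1 hl
    calc (1 - ρ) * Y β (4 * l) ^ 2 ≤ (1 - ρ) * (Y β (2 * l) * Z β (2 * l)) ^ 2 := by gcongr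
      _ = (1 - ρ) * (Y β (2 * l) ^ 2 * Z β (2 * l) ^ 2) := by ring
      _ ≤ (1 - ρ) * (Y β (2 * l) ^ 2 * ((1 + u) * Z (2 * β) (2 * l))) := by
          have := B.Ps
          gcongr
      _ = (1 + u) * ((1 - ρ) * (Y β (2 * l) ^ 2 * Z (2 * β) (2 * l))) := by ring
      _ ≤ (1 + u) * Y (2 * β) (4 * l) := by gcongr
  -- `P_s(β, 2n)`
  have hPs2 : Z β (4 * l) ^ 2 ≤ (1 + u) ^ 2 * Z (2 * β) (4 * l) := by
    have t12 : Z β (4 * l) ≤ Z β (2 * l) ^ 2 := by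
      have := (h.two.space β hβ).pow_le (l := l) (k := 2) hl (by norm_num)
      simpa [e2n] using this
    calc Z β (4 * l) ^ 2 ≤ (Z β (2 * l) ^ 2) ^ 2 := by gcongr
      _ = Z β (2 * l) ^ 4 := by ring
      _ ≤ (1 + u ^ 2) * Z β (2 * l) ^ 4 := le_mul_of_one_le_left (by positivity) (by nlinarith)
      _ ≤ (1 + u) ^ 2 * Z (2 * β) (4 * l) := hR
  -- `P^o(β, 4n)`
  have hB : (1 - ρ) * Y β (8 * l) ^ 2 ≤ S * (1 + u) ^ 3 * Y (2 * β) (8 * l) := by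
    have f1 : Y β (8 * l) ≤ Y β (4 * l) * Z β (4 * l) := by
      have := F_le_one t1 (l := 2 * l) (by omega)
      have e8 : 4 * (2 * l) = 8 * l := by ring
      rwa [e8, e2n] at this
    calc (1 - ρ) * Y β (8 * l) ^ 2 ≤ (1 - ρ) * (Y β (4 * l) * Z β (4 * l)) ^ 2 := by gcongr
      _ = ((1 - ρ) * Y β (4 * l) ^ 2) * Z β (4 * l) ^ 2 := by ring
      _ ≤ ((1 + u) * Y (2 * β) (4 * l)) * ((1 + u) ^ 2 * Z (2 * β) (4 * l)) :=
          mul_le_mul hA hPs2 (by positivity) (by positivity)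
      _ = (1 + u) ^ 3 * (Y (2 * β) (4 * l) * Z (2 * β) (4 * l)) := by ring
      _ ≤ (1 + u) ^ 3 * (S * Y (2 * β) (8 * l)) := by gcongr
      _ = S * (1 + u) ^ 3 * Y (2 * β) (8 * l) := by ring
  have hB' : (1 + w ^ 2) * Y β (8 * l) ^ 2 ≤ (1 + w) ^ 2 * Y (2 * β) (8 * l) := by
    have e1 : (1 - ρ) * ((1 + w ^ 2) * Y β (8 * l) ^ 2) ≤
        (1 - ρ) * ((1 + w) ^ 2 * Y (2 * β) (8 * l)) := by
      calc (1 - ρ) * ((1 + w ^ 2) * Y β (8 * l) ^ 2)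
          = (1 + w ^ 2) * ((1 - ρ) * Y β (8 * l) ^ 2) := by ring
        _ ≤ (1 + w ^ 2) * (S * (1 + u) ^ 3 * Y (2 * β) (8 * l)) := by gcongr
        _ = ((1 + w ^ 2) * S * (1 + u) ^ 3) * Y (2 * β) (8 * l) := by ring
        _ ≤ ((1 + w) ^ 2 * (1 - ρ)) * Y (2 * β) (8 * l) := by gcongr
        _ = (1 - ρ) * ((1 + w) ^ 2 * Y (2 * β) (8 * l)) := by ring
    exact le_of_mul_le_mul_left e1 h1ρ
  have hC : Y (2 * β) (8 * l) ^ 2 ≤ (1 + w ^ 2) ^ 2 * Y (4 * β) (8 * l) := by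
    have := (h.Ytime β hβ (8 * l) (by omega)).purity (l := 1) (by norm_num) hw0 hw1 (by
      simpa using hB')
    simpa using this
  have hZ4 : Z (4 * β) (4 * l) ≤ Z (2 * β) (4 * l) ^ 2 := by
    have := (h.two.time (2 * β) h2β (4 * l) (by omega)).pow_le (l := 1) (k := 2) (by norm_num)
      (by norm_num)
    have e : (2 : ℝ) * (2 * β) = 4 * β := by ring
    simpa [e] using this
  calc Y (2 * β) (4 * l) ^ 2 * Z (4 * β) (4 * l)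
      ≤ Y (2 * β) (4 * l) ^ 2 * Z (2 * β) (4 * l) ^ 2 := by gcongr
    _ = (Y (2 * β) (4 * l) * Z (2 * β) (4 * l)) ^ 2 := by ring
    _ ≤ (S * Y (2 * β) (8 * l)) ^ 2 := by gcongr
    _ = S ^ 2 * Y (2 * β) (8 * l) ^ 2 := by ring
    _ ≤ S ^ 2 * ((1 + w ^ 2) ^ 2 * Y (4 * β) (8 * l)) := by gcongr
    _ = (1 + w ^ 2) ^ 2 * S ^ 2 * Y (4 * β) (8 * l) := by ring

namespace OpenRec

theorem Y_ratio_iter {X Y Z : ℕ → ℝ} {Λ W s : ℝ} (t : IsTop X Y Z Λ W s) {l : ℕ} (hl : 1 ≤ l)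
    (k : ℕ) : Y (2 * (l + k)) ≤ Λ ^ (2 * k) * Y (2 * l) := by
  induction k with
  | zero => simp
  | succ k ih =>
    have h1 := t.Y_ratio (l + k) (by omega)
    have e : 2 * (l + (k + 1)) = 2 * (l + k) + 2 := by ring
    rw [e]
    calc Y (2 * (l + k) + 2) ≤ Λ ^ 2 * Y (2 * (l + k)) := h1
      _ ≤ Λ ^ 2 * (Λ ^ (2 * k) * Y (2 * l)) := by gcongr
      _ = Λ ^ (2 * (k + 1)) * Y (2 * l) := by ring

theorem Y_rest_iter {X Y Z : ℕ → ℝ} {Λ W s : ℝ} (t : IsTop X Y Z Λ W s) {l : ℕ} (hl : 1 ≤ l)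
    (k : ℕ) : Y (2 * (l + k)) - W * Λ ^ (2 * (l + k)) ≤
      Λ ^ (2 * k) * (Y (2 * l) - W * Λ ^ (2 * l)) := by
  induction k with
  | zero => simp
  | succ k ih =>
    have h1 := t.Y_rest_ratio (l + k) (by omega)
    have e : 2 * (l + (k + 1)) = 2 * (l + k) + 2 := by ring
    rw [e]
    calc Y (2 * (l + k) + 2) - W * Λ ^ (2 * (l + k) + 2)
        ≤ Λ ^ 2 * (Y (2 * (l + k)) - W * Λ ^ (2 * (l + k))) := h1
      _ ≤ Λ ^ 2 * (Λ ^ (2 * k) * (Y (2 * l) - W * Λ ^ (2 * l))) := by gcongr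
      _ = Λ ^ (2 * (k + 1)) * (Y (2 * l) - W * Λ ^ (2 * l)) := by ring

end OpenRec

/-- Final estimate: purity of the same-field chain of odd length `N ∈ (n, 2n]`. -/
theorem OpenSys.purity_odd {X Y Z : ℝ → ℕ → ℝ} (h : OpenSys X Y Z) {β : ℝ} (hβ : 0 < β) {n : ℕ}
    (hn : 2 ≤ n) (hne : Even n) {u ρ : ℝ} (hu0 : 0 ≤ u) (hu : u < 1)
    (hρ0 : 0 ≤ ρ) (hρ : ρ < 1 / 4)
    (hR : (1 + u ^ 2) * Z β n ^ 4 ≤ (1 + u) ^ 2 * Z (2 * β) (2 * n))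
    (hRo : (1 - ρ) * (Y β n ^ 2 * Z (2 * β) n) ≤ Y (2 * β) (2 * n))
    {N : ℕ} (hN : Odd N) (hN1 : n < N) (hN2 : N ≤ 2 * n) :
    (1 - 2 * ρ) * (1 - ρ) ^ 2 * X β N ^ 2 ≤ (1 + u) * X (2 * β) N := by
  obtain ⟨l, rfl⟩ : ∃ l, n = 2 * l := by
    obtain ⟨r, hr⟩ := hne
    exact ⟨r, by omega⟩
  have hl : 1 ≤ l := by omega
  have e2n : 2 * (2 * l) = 4 * l := by ring
  rw [e2n] at hR hRo
  have h2β : 0 < 2 * β := by positivity
  obtain ⟨Λ, W, s, B⟩ := base h hβ hl hu0 hu hρ0 (by linarith) hR hRo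
  obtain ⟨Λ1, W1, s1, t1⟩ := (h.joint β hβ).exists_top (h.two.pos _ hβ 4 (by norm_num))
  have t := B.top
  obtain ⟨j, hj⟩ := hN
  obtain ⟨k, rfl⟩ : ∃ k, j = l + k := ⟨j - l, by omega⟩
  subst hj
  have h1ρ : 0 < 1 - ρ := by linarith
  have h2ρ : 0 < 1 - 2 * ρ := by linarith
  have z1 : 0 < Z β (2 * l) := h.two.pos _ hβ _ (by omega)
  have z2 : 0 < Z (2 * β) (2 * l) := h.two.pos _ h2β _ (by omega)
  have y1 : 0 < Y β (2 * l) := h.Ypos _ hβ _ (by omega)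
  have y2 : 0 < Y (2 * β) (2 * l) := h.Ypos _ h2β _ (by omega)
  have x2 : 0 < X (2 * β) (2 * (l + k) + 1) := h.Xpos _ h2β _ (by omega)
  have p1 := t1.pos
  have p2 := t.pos
  -- upper bound for `X₁²`
  have u1 : X β (2 * (l + k) + 1) ^ 2 ≤ Y β (2 * l) ^ 2 * (Λ1 ^ (2 * k + 1)) ^ 2 := by
    have c1 := (h.joint β hβ).X_sq_le (l := l + k) (by omega)
    have c2 := Y_ratio_iter t1 hl k
    have c3 := Y_ratio_iter t1 hl (k + 1)
    have e : 2 * (l + k) + 2 = 2 * (l + (k + 1)) := by ring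
    rw [e] at c1
    have y0 : 0 ≤ Y β (2 * (l + (k + 1))) := (h.Ypos _ hβ _ (by omega)).le
    calc X β (2 * (l + k) + 1) ^ 2 ≤ Y β (2 * (l + k)) * Y β (2 * (l + (k + 1))) := c1
      _ ≤ (Λ1 ^ (2 * k) * Y β (2 * l)) * (Λ1 ^ (2 * (k + 1)) * Y β (2 * l)) :=
          mul_le_mul c2 c3 y0 (by positivity)
      _ = Y β (2 * l) ^ 2 * (Λ1 ^ (2 * k + 1)) ^ 2 := by ring
  -- lower bound for `X₂`
  have u2 : (1 - 2 * ρ) * (Λ ^ (2 * k + 1) * Y (2 * β) (2 * l)) ≤ X (2 * β) (2 * (l + k) + 1) := by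
    have c1 := t.X_rest (l + k) (by omega)
    have c2 := Y_rest_iter t hl k
    have c3 := Y_rest_iter t hl (k + 1)
    have e : 2 * (l + k) + 2 = 2 * (l + (k + 1)) := by ring
    rw [e] at c1
    have c30 : 0 ≤ Y (2 * β) (2 * (l + (k + 1))) - W * Λ ^ (2 * (l + (k + 1))) := by
      have := t.Y_ge (l + (k + 1)) (by omega)
      linarith
    have c0 : 0 ≤ Y (2 * β) (2 * l) - W * Λ ^ (2 * l) := by
      have := t.Y_ge l hl
      linarith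
    have c4 : (X (2 * β) (2 * (l + k) + 1) - s * (W * Λ ^ (2 * (l + k) + 1))) ^ 2 ≤
        (Λ ^ (2 * k + 1) * (Y (2 * β) (2 * l) - W * Λ ^ (2 * l))) ^ 2 := by
      calc _ ≤ (Y (2 * β) (2 * (l + k)) - W * Λ ^ (2 * (l + k))) *
            (Y (2 * β) (2 * (l + (k + 1))) - W * Λ ^ (2 * (l + (k + 1)))) := c1
        _ ≤ (Λ ^ (2 * k) * (Y (2 * β) (2 * l) - W * Λ ^ (2 * l))) *
            (Λ ^ (2 * (k + 1)) * (Y (2 * β) (2 * l) - W * Λ ^ (2 * l))) :=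
          mul_le_mul c2 c3 c30 (by positivity)
        _ = (Λ ^ (2 * k + 1) * (Y (2 * β) (2 * l) - W * Λ ^ (2 * l))) ^ 2 := by ring
    obtain ⟨c5, c6⟩ := abs_le_of_sq_le_sq' c4 (by positivity)
    have eΛ : Λ ^ (2 * (l + k) + 1) = Λ ^ (2 * k + 1) * Λ ^ (2 * l) := by
      rw [← pow_add]; congr 1; ring
    have hq := B.q_ge
    have hΛk : 0 < Λ ^ (2 * k + 1) := pow_pos p2 _
    rw [eΛ] at c5 c6
    rcases t.sign with hs | hs
    · rw [hs] at c5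
      have : (1 - 2 * ρ) * Y (2 * β) (2 * l) ≤ 2 * (W * Λ ^ (2 * l)) - Y (2 * β) (2 * l) := by
        linarith
      calc (1 - 2 * ρ) * (Λ ^ (2 * k + 1) * Y (2 * β) (2 * l))
          = Λ ^ (2 * k + 1) * ((1 - 2 * ρ) * Y (2 * β) (2 * l)) := by ring
        _ ≤ Λ ^ (2 * k + 1) * (2 * (W * Λ ^ (2 * l)) - Y (2 * β) (2 * l)) := by gcongr
        _ ≤ X (2 * β) (2 * (l + k) + 1) := by linarith [c5]
    · exfalso
      rw [hs] at c6
      have h1 : X (2 * β) (2 * (l + k) + 1) ≤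
          Λ ^ (2 * k + 1) * (Y (2 * β) (2 * l) - 2 * (W * Λ ^ (2 * l))) := by linarith [c6]
      have h2 : Y (2 * β) (2 * l) - 2 * (W * Λ ^ (2 * l)) < 0 := by
        have : 0 < (1 - 2 * ρ) * Y (2 * β) (2 * l) := by positivity
        linarith
      have h3 : Λ ^ (2 * k + 1) * (Y (2 * β) (2 * l) - 2 * (W * Λ ^ (2 * l))) < 0 :=
        mul_neg_of_pos_of_neg hΛk h2
      linarith
  -- comparison of the tops: `(1-ρ) (Λ₁²)^(N-n) ≤ (1+u) Λ^(N-n)`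
  have u3 : (1 - ρ) * (Λ1 ^ (2 * k + 1)) ^ 2 ≤ (1 + u) * Λ ^ (2 * k + 1) := by
    -- `(Λ₁²/Λ)^(2l) ≤ (1+u)/(1-ρ)`
    set x : ℝ := Λ1 ^ 2 / Λ with hx
    have hx0 : 0 < x := by positivity
    have hxn : x ^ (2 * l) ≤ (1 + u) / (1 - ρ) := by
      have d1 : (Λ1 ^ (2 * l)) ^ 2 ≤ (1 + u) * Z (2 * β) (2 * l) :=
        (pow_le_pow_left₀ (by positivity) (t1.Z_ge l hl) 2).trans B.Ps
      have d2 : (1 - ρ) * (Λ1 ^ (2 * l)) ^ 2 ≤ (1 + u) * Λ ^ (2 * l) := by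
        calc (1 - ρ) * (Λ1 ^ (2 * l)) ^ 2 ≤ (1 - ρ) * ((1 + u) * Z (2 * β) (2 * l)) := by gcongr
          _ = (1 + u) * ((1 - ρ) * Z (2 * β) (2 * l)) := by ring
          _ ≤ (1 + u) * Λ ^ (2 * l) := by
              have := B.p_ge
              gcongr
      rw [hx, div_pow, div_le_div_iff₀ (by positivity) h1ρ]
      have e : (Λ1 ^ 2) ^ (2 * l) = (Λ1 ^ (2 * l)) ^ 2 := by rw [← pow_mul, ← pow_mul, mul_comm]
      rw [e]
      linarith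
    have hxk : x ^ (2 * k + 1) ≤ (1 + u) / (1 - ρ) := by
      rcases le_or_gt x 1 with h1 | h1
      · have : (1 : ℝ) ≤ (1 + u) / (1 - ρ) := by rw [le_div_iff₀ h1ρ]; linarith
        exact (pow_le_one₀ hx0.le h1).trans this
      · exact (pow_le_pow_right₀ h1.le (by omega)).trans hxn
    rw [hx, div_pow, div_le_div_iff₀ (by positivity) h1ρ] at hxk
    have e : (Λ1 ^ 2) ^ (2 * k + 1) = (Λ1 ^ (2 * k + 1)) ^ 2 := by
      rw [← pow_mul, ← pow_mul, mul_comm]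
    rw [e] at hxk
    linarith
  -- conclusion
  have hPo := B.Po
  calc (1 - 2 * ρ) * (1 - ρ) ^ 2 * X β (2 * (l + k) + 1) ^ 2
      ≤ (1 - 2 * ρ) * (1 - ρ) ^ 2 * (Y β (2 * l) ^ 2 * (Λ1 ^ (2 * k + 1)) ^ 2) := by gcongr
    _ = (1 - 2 * ρ) * (((1 - ρ) * Y β (2 * l) ^ 2) * ((1 - ρ) * (Λ1 ^ (2 * k + 1)) ^ 2)) := by ring
    _ ≤ (1 - 2 * ρ) * (Y (2 * β) (2 * l) * ((1 + u) * Λ ^ (2 * k + 1))) := by
        apply mul_le_mul_of_nonneg_left _ h2ρ.le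
        exact mul_le_mul hPo u3 (by positivity) y2.le
    _ = (1 + u) * ((1 - 2 * ρ) * (Λ ^ (2 * k + 1) * Y (2 * β) (2 * l))) := by ring
    _ ≤ (1 + u) * X (2 * β) (2 * (l + k) + 1) := by gcongr

end Crest.Agent.R347
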