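import Crest.Agent.R347.Assemble545
import Crest.Agent.R347.OpenJoint
import Crest.Agent.R347.OpenDirect
import Crest.Agent.R347.OpenRecursion

/-! S0546 from the base inequalities. -/

set_option autoImplicit false

namespace Crest.Agent.R347

open Matrix Crest.MathPhysics.SpinChain

theorem openSys : OpenSys Xo Yo Zr where
  two := twoWay_Zr
  joint := fun β hβ => JXYZ_open β hβ
  Ypos := fun β _ N hN => Yo_pos β N hN
  Xpos := fun β _ N hN => Xo_pos β N hN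
  Ytime := fun β _ N hN => PSL_Yo_time β N (by omega)

/-- Invariant of the joint iteration. -/
structure OInv (Y Z : ℝ → ℕ → ℝ) (u ρ β : ℝ) (n : ℕ) : Prop where
  hβ : 0 < β
  hn : 2 ≤ n
  hne : Even n
  ring : (1 + u ^ 2) * Z β n ^ 4 ≤ (1 + u) ^ 2 * Z (2 * β) (2 * n)
  opn : (1 - ρ) * (Y β n ^ 2 * Z (2 * β) n) ≤ Y (2 * β) (2 * n)

theorem OInv.next {X Y Z : ℝ → ℕ → ℝ} (h : OpenSys X Y Z) {u ρ β : ℝ} {n : ℕ}
    (hI : OInv Y Z u ρ β n) (hu0 : 0 ≤ u) (hu : u ≤ 1 / 12) (hρ0 : 0 ≤ ρ) (hρ : ρ < 1 / 2)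
    (w S : ℝ) (hw0 : 0 ≤ w) (hw1 : w < 1)
    (hS : S = (1 + ρ * u / (1 - ρ)) * (1 + u ^ 2))
    (hw : (1 + w ^ 2) * S * (1 + u) ^ 3 ≤ (1 + w) ^ 2 * (1 - ρ))
    {u' ρ' : ℝ} (hu' : u' = 8 * u ^ 2) (hρ'1 : ρ' ≤ 1)
    (hρ' : (1 - ρ') * ((1 + w ^ 2) ^ 2 * S ^ 2) ≤ 1) :
    OInv Y Z u' ρ' (2 * β) (2 * n) := by
  have hβ := hI.hβ
  have hn := hI.hn
  have e1 : 2 * (2 * β) = 4 * β := by ring
  have e2 : 2 * (2 * n) = 4 * n := by ring
  refine ⟨by linarith, by omega, even_two_mul n, ?_, ?_⟩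
  · have := h.two.step hβ hn hI.hne hu0 hu hI.ring
    rw [hu', e1, e2]
    exact this
  · have := h.step hβ hn hI.hne hu0 (by linarith) hρ0 hρ hw0 hw1 hI.ring hI.opn hS hw
    have hY : 0 < Y (4 * β) (4 * n) := h.Ypos _ (by linarith) _ (by omega)
    rw [e1, e2]
    calc (1 - ρ') * (Y (2 * β) (2 * n) ^ 2 * Z (4 * β) (2 * n))
        ≤ (1 - ρ') * ((1 + w ^ 2) ^ 2 * S ^ 2 * Y (4 * β) (4 * n)) :=
          mul_le_mul_of_nonneg_left this (by linarith)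
      _ = (1 - ρ') * ((1 + w ^ 2) ^ 2 * S ^ 2) * Y (4 * β) (4 * n) := by ring
      _ ≤ 1 * Y (4 * β) (4 * n) := mul_le_mul_of_nonneg_right hρ' hY.le
      _ = Y (4 * β) (4 * n) := one_mul _

/-- the doubly exponential phase of the iteration. -/
theorem OInv.tail {X Y Z : ℝ → ℕ → ℝ} (h : OpenSys X Y Z) {r s β : ℝ} {n : ℕ}
    (hr0 : 0 ≤ r) (hr : r ≤ 1 / 100) (hs0 : 0 ≤ s) (hs : s ≤ r / 100)
    (hI : OInv Y Z (s / 8) (r / 2) β n) :
    OInv Y Z (s ^ 2 / 8) (r ^ 2 / 2) (2 * β) (2 * n) := by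
  have hu : s / 8 ≤ 1 / 12 := by linarith
  have hs1 : s ≤ 1 / 10000 := by linarith
  -- bound on `S`
  have hSb : (1 + (r / 2) * (s / 8) / (1 - r / 2)) * (1 + (s / 8) ^ 2) ≤ 1 + r ^ 2 / 1000 := by
    have h1 : (r / 2) * (s / 8) / (1 - r / 2) ≤ r ^ 2 / 1500 := by
      rw [div_le_iff₀ (by linarith)]
      nlinarith
    have h2 : (s / 8) ^ 2 ≤ r ^ 2 / 100000 := by nlinarith
    have h3 : 0 ≤ (r / 2) * (s / 8) / (1 - r / 2) := by
      apply div_nonneg (by positivity); linarith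
    calc (1 + (r / 2) * (s / 8) / (1 - r / 2)) * (1 + (s / 8) ^ 2)
        ≤ (1 + r ^ 2 / 1500) * (1 + r ^ 2 / 100000) := by gcongr
      _ ≤ 1 + r ^ 2 / 1000 := by
        have hq0 : 0 ≤ r ^ 2 := sq_nonneg r
        have hq1 : r ^ 2 ≤ 1 := by nlinarith
        generalize r ^ 2 = q at hq0 hq1
        nlinarith
  have hS0 : 0 ≤ (1 + (r / 2) * (s / 8) / (1 - r / 2)) * (1 + (s / 8) ^ 2) := by
    have h3 : 0 ≤ (r / 2) * (s / 8) / (1 - r / 2) := by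
      apply div_nonneg (by positivity); linarith
    positivity
  refine OInv.next h hI (by linarith) hu (by linarith) (by linarith) (3 / 10 * r) _ (by linarith)
    (by linarith) rfl ?_ (by ring) (by nlinarith) ?_
  · have h4 : (1 + s / 8) ^ 3 ≤ 1 + r / 200 := by
      have : s / 8 ≤ r / 800 := by linarith
      have h5 : (1 + s / 8) ^ 3 ≤ (1 + r / 800) ^ 3 := by gcongr
      nlinarith [sq_nonneg r, mul_nonneg hr0 (sq_nonneg r)]
    calc (1 + (3 / 10 * r) ^ 2) * ((1 + (r / 2) * (s / 8) / (1 - r / 2)) * (1 + (s / 8) ^ 2)) *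
          (1 + s / 8) ^ 3 ≤ (1 + (3 / 10 * r) ^ 2) * (1 + r ^ 2 / 1000) * (1 + r / 200) := by
            gcongr
      _ ≤ (1 + 3 / 10 * r) ^ 2 * (1 - r / 2) := by
            have e : (1 + 3 / 10 * r) ^ 2 * (1 - r / 2) -
              (1 + (3 / 10 * r) ^ 2) * (1 + r ^ 2 / 1000) * (1 + r / 200) =
              r * (19 / 200) - r ^ 2 * (301 / 1000) - r ^ 3 * (9/200 + 9/20000 + 1/200000)
              - r ^ 4 * (9/100000) - r ^ 5 * (9/20000000) := by ring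
            have e2 : r ^ 2 ≤ r * (1 / 100) := by nlinarith
            have e3 : r ^ 3 ≤ r * (1 / 10000) := by
              calc r ^ 3 = r * r ^ 2 := by ring
                _ ≤ r * (1 / 100) ^ 2 := by gcongr
                _ = _ := by ring
            have e4 : r ^ 4 ≤ r * (1 / 1000000) := by
              calc r ^ 4 = r * r ^ 3 := by ring
                _ ≤ r * (1 / 100) ^ 3 := by gcongr
                _ = _ := by ring
            have e5 : r ^ 5 ≤ r * (1 / 100000000) := by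
              calc r ^ 5 = r * r ^ 4 := by ring
                _ ≤ r * (1 / 100) ^ 4 := by gcongr
                _ = _ := by ring
            nlinarith
  · have h6 : ((1 + (r / 2) * (s / 8) / (1 - r / 2)) * (1 + (s / 8) ^ 2)) ^ 2 ≤
        (1 + r ^ 2 / 1000) ^ 2 := by gcongr
    have hr2 : r ^ 2 ≤ 1 / 10000 := by nlinarith
    have hr20 : 0 ≤ r ^ 2 := by positivity
    calc (1 - r ^ 2 / 2) * ((1 + (3 / 10 * r) ^ 2) ^ 2 *
          ((1 + (r / 2) * (s / 8) / (1 - r / 2)) * (1 + (s / 8) ^ 2)) ^ 2)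
        ≤ (1 - r ^ 2 / 2) * ((1 + (3 / 10 * r) ^ 2) ^ 2 * (1 + r ^ 2 / 1000) ^ 2) := by
          have : 0 ≤ 1 - r ^ 2 / 2 := by linarith
          gcongr
      _ ≤ 1 := by
          have e : (1 - r ^ 2 / 2) * ((1 + (3 / 10 * r) ^ 2) ^ 2 * (1 + r ^ 2 / 1000) ^ 2) =
            (1 - r ^ 2 / 2) * ((1 + 9 / 100 * r ^ 2) ^ 2 * (1 + r ^ 2 / 1000) ^ 2) := by ring
          rw [e]
          set q := r ^ 2 with hq
          have f1 : (1 + 9 / 100 * q) ^ 2 ≤ 1 + 19 / 100 * q := by nlinarith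
          have f2 : (1 + q / 1000) ^ 2 ≤ 1 + 3 / 1000 * q := by nlinarith
          have f3 : (1 + 9 / 100 * q) ^ 2 * (1 + q / 1000) ^ 2 ≤
              (1 + 19 / 100 * q) * (1 + 3 / 1000 * q) := by gcongr
          have f4 : (1 + 19 / 100 * q) * (1 + 3 / 1000 * q) ≤ 1 + q / 4 := by nlinarith
          calc (1 - q / 2) * ((1 + 9 / 100 * q) ^ 2 * (1 + q / 1000) ^ 2)
              ≤ (1 - q / 2) * (1 + q / 4) := by
                apply mul_le_mul_of_nonneg_left (f3.trans f4); linarith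
            _ ≤ 1 := by nlinarith

/-- The first five (explicit) steps. -/
theorem OInv.five {X Y Z : ℝ → ℕ → ℝ} (h : OpenSys X Y Z) {β₀ : ℝ} (hβ : 0 < β₀) {L₀ : ℕ}
    (hL : 2 ≤ L₀) (hLe : Even L₀)
    (hR : (197 : ℝ) / 225 * Z β₀ L₀ ^ 4 ≤ Z (2 * β₀) (2 * L₀))
    (hRo : (78 : ℝ) / 100 * (Y β₀ L₀ ^ 2 * Z (2 * β₀) L₀) ≤ Y (2 * β₀) (2 * L₀)) :
    OInv Y Z ((4 / 7) ^ 32 / 8) (3 / 6250000) (2 ^ 5 * β₀) (2 ^ 5 * L₀) := by
  have i0 : OInv Y Z (1 / 14) (22 / 100) β₀ L₀ :=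
    ⟨hβ, hL, hLe, by nlinarith, by norm_num at hRo ⊢; exact hRo⟩
  have i1 : OInv Y Z (2 / 49) (2407 / 10000) (2 * β₀) (2 * L₀) :=
    OInv.next h i0 (by norm_num) (by norm_num) (by norm_num) (by norm_num) (863 / 2500) _
      (by norm_num) (by norm_num) rfl (by norm_num) (by norm_num) (by norm_num) (by norm_num)
  have i2 : OInv Y Z (32 / 2401) (79 / 500) (2 * (2 * β₀)) (2 * (2 * L₀)) :=
    OInv.next h i1 (by norm_num) (by norm_num) (by norm_num) (by norm_num) (2721 / 10000) _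
      (by norm_num) (by norm_num) rfl (by norm_num) (by norm_num) (by norm_num) (by norm_num)
  have i3 : OInv Y Z (8192 / 5764801) (17 / 500) (2 * (2 * (2 * β₀))) (2 * (2 * (2 * L₀))) :=
    OInv.next h i2 (by norm_num) (by norm_num) (by norm_num) (by norm_num) (1213 / 10000) _
      (by norm_num) (by norm_num) rfl (by norm_num) (by norm_num) (by norm_num) (by norm_num)
  have i4 : OInv Y Z (536870912 / 33232930569601) (223 / 250000) (2 * (2 * (2 * (2 * β₀))))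
      (2 * (2 * (2 * (2 * L₀)))) :=
    OInv.next h i3 (by norm_num) (by norm_num) (by norm_num) (by norm_num) (19843 / 1000000) _
      (by norm_num) (by norm_num) rfl (by norm_num) (by norm_num) (by norm_num) (by norm_num)
  have i5 : OInv Y Z ((4 / 7) ^ 32 / 8) (3 / 6250000) (2 * (2 * (2 * (2 * (2 * β₀)))))
      (2 * (2 * (2 * (2 * (2 * L₀))))) :=
    OInv.next h i4 (by norm_num) (by norm_num) (by norm_num) (by norm_num) (23533 / 50000000) _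
      (by norm_num) (by norm_num) rfl (by norm_num) (by norm_num) (by norm_num) (by norm_num)
  have e1 : 2 ^ 5 * β₀ = 2 * (2 * (2 * (2 * (2 * β₀)))) := by ring
  have e2 : 2 ^ 5 * L₀ = 2 * (2 * (2 * (2 * (2 * L₀)))) := by ring
  rw [e1, e2]
  exact i5

theorem four_seven_le (k : ℕ) (hk : 5 ≤ k) :
    ((4 : ℝ) / 7) ^ (2 ^ k) ≤ (69 / 100) ^ (2 ^ k) / 100 := by
  obtain ⟨m, hm⟩ : ∃ m, 2 ^ k = 32 + m := ⟨2 ^ k - 32, by
    have : 2 ^ 5 ≤ 2 ^ k := Nat.pow_le_pow_right (by norm_num) hk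
    omega⟩
  rw [hm, pow_add, pow_add]
  have h1 : ((4 : ℝ) / 7) ^ 32 ≤ (69 / 100) ^ 32 / 100 := by norm_num
  have h2 : ((4 : ℝ) / 7) ^ m ≤ (69 / 100) ^ m :=
    pow_le_pow_left₀ (by norm_num) (by norm_num) m
  calc ((4 : ℝ) / 7) ^ 32 * (4 / 7) ^ m ≤ (69 / 100) ^ 32 / 100 * (69 / 100) ^ m := by gcongr
    _ = _ := by ring

theorem r_le (k : ℕ) (hk : 5 ≤ k) : ((69 : ℝ) / 100) ^ (2 ^ k) ≤ 1 / 100 := by
  have h5 : 2 ^ 5 ≤ 2 ^ k := Nat.pow_le_pow_right (by norm_num) hk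
  calc ((69 : ℝ) / 100) ^ (2 ^ k) ≤ (69 / 100) ^ (2 ^ 5) :=
        pow_le_pow_of_le_one (by norm_num) (by norm_num) h5
    _ ≤ 1 / 100 := by norm_num

theorem OInv.all {X Y Z : ℝ → ℕ → ℝ} (h : OpenSys X Y Z) {β₀ : ℝ} (hβ : 0 < β₀) {L₀ : ℕ}
    (hL : 2 ≤ L₀) (hLe : Even L₀)
    (hR : (197 : ℝ) / 225 * Z β₀ L₀ ^ 4 ≤ Z (2 * β₀) (2 * L₀))
    (hRo : (78 : ℝ) / 100 * (Y β₀ L₀ ^ 2 * Z (2 * β₀) L₀) ≤ Y (2 * β₀) (2 * L₀))
    (k : ℕ) (hk : 5 ≤ k) :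
    OInv Y Z ((4 / 7) ^ (2 ^ k) / 8) ((69 / 100) ^ (2 ^ k) / 2) (2 ^ k * β₀) (2 ^ k * L₀) := by
  induction k, hk using Nat.le_induction with
  | base =>
    have i5 := OInv.five h hβ hL hLe hR hRo
    refine ⟨i5.hβ, i5.hn, i5.hne, i5.ring, ?_⟩
    have hY : 0 < Y (2 ^ 5 * β₀) (2 ^ 5 * L₀) := h.Ypos _ i5.hβ _ (by have := i5.hn; omega)
    have hZ : 0 < Z (2 * (2 ^ 5 * β₀)) (2 ^ 5 * L₀) :=
      h.two.pos _ (by have := i5.hβ; linarith) _ i5.hn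
    refine le_trans (mul_le_mul_of_nonneg_right ?_ (by positivity)) i5.opn
    norm_num
  | succ k hk ih =>
    have := OInv.tail h (by positivity) (r_le k hk) (by positivity) (four_seven_le k hk) ih
    have e1 : ((4 : ℝ) / 7) ^ (2 ^ (k + 1)) = ((4 / 7) ^ (2 ^ k)) ^ 2 := by
      rw [← pow_mul, pow_succ]
    have e2 : ((69 : ℝ) / 100) ^ (2 ^ (k + 1)) = ((69 / 100) ^ (2 ^ k)) ^ 2 := by
      rw [← pow_mul, pow_succ]
    have e3 : (2 : ℝ) ^ (k + 1) * β₀ = 2 * (2 ^ k * β₀) := by ring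
    have e4 : 2 ^ (k + 1) * L₀ = 2 * (2 ^ k * L₀) := by ring
    rw [e1, e2, e3, e4]
    exact this

/-- Numeric iteration (abstract): from ring `u₀ = 1/14` and open `ρ₀ = 22/100` at `(β₀, L₀)`. -/
theorem open_iterate {X Y Z : ℝ → ℕ → ℝ} (h : OpenSys X Y Z) {β₀ : ℝ} (hβ : 0 < β₀) {L₀ : ℕ}
    (hL : 2 ≤ L₀) (hLe : Even L₀)
    (hR : (197 : ℝ) / 225 * Z β₀ L₀ ^ 4 ≤ Z (2 * β₀) (2 * L₀))
    (hRo : (78 : ℝ) / 100 * (Y β₀ L₀ ^ 2 * Z (2 * β₀) L₀) ≤ Y (2 * β₀) (2 * L₀))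
    (k : ℕ) (hk : 5 ≤ k) :
    ∃ u ρ : ℝ, 0 ≤ u ∧ 0 ≤ ρ ∧ u ≤ (69 / 100) ^ (2 ^ k) / 8 ∧ ρ ≤ (69 / 100) ^ (2 ^ k) / 2 ∧
      (1 + u ^ 2) * Z (2 ^ k * β₀) (2 ^ k * L₀) ^ 4 ≤
        (1 + u) ^ 2 * Z (2 * (2 ^ k * β₀)) (2 * (2 ^ k * L₀)) ∧
      (1 - ρ) * (Y (2 ^ k * β₀) (2 ^ k * L₀) ^ 2 * Z (2 * (2 ^ k * β₀)) (2 ^ k * L₀)) ≤
        Y (2 * (2 ^ k * β₀)) (2 * (2 ^ k * L₀)) := by
  have hI := OInv.all h hβ hL hLe hR hRo k hk
  refine ⟨_, _, by positivity, by positivity, ?_, le_rfl, hI.ring, hI.opn⟩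
  have := four_seven_le k hk
  have h0 : (0 : ℝ) ≤ (69 / 100) ^ (2 ^ k) := by positivity
  linarith

theorem seven_tenths_lt (β₀ : ℝ) (hβ60 : β₀ ≤ 60) (k : ℕ) :
    ((7 : ℝ) / 10) ^ (2 ^ k) < Real.exp (-(2 ^ k * β₀) * (Real.log 10 / 392)) := by
  have h1 : 15 * Real.log 10 < 98 * Real.log (10 / 7) := by
    have : Real.log ((10 : ℝ) ^ 15) < Real.log ((10 / 7) ^ 98) :=
      Real.log_lt_log (by positivity) (by norm_num)
    rw [Real.log_pow, Real.log_pow] at this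
    exact_mod_cast this
  have h0 : 0 < Real.log 10 := Real.log_pos (by norm_num)
  have h2 : β₀ * (Real.log 10 / 392) < Real.log (10 / 7) := by
    have : β₀ * Real.log 10 ≤ 60 * Real.log 10 := by gcongr
    linarith
  have h3 : (7 : ℝ) / 10 < Real.exp (-β₀ * (Real.log 10 / 392)) := by
    rw [← Real.log_lt_iff_lt_exp (by norm_num)]
    have e : Real.log (7 / 10) = -Real.log (10 / 7) := by
      rw [← Real.log_inv]; norm_num
    rw [e]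
    linarith
  have h4 : Real.exp (-(2 ^ k * β₀) * (Real.log 10 / 392)) =
      Real.exp (-β₀ * (Real.log 10 / 392)) ^ (2 ^ k) := by
    rw [← Real.exp_nat_mul]
    congr 1
    push_cast
    ring
  rw [h4]
  exact pow_lt_pow_left₀ h3 (by norm_num) (by positivity)

theorem three_halves_r (k : ℕ) (hk : 5 ≤ k) :
    3 / 2 * ((69 : ℝ) / 100) ^ (2 ^ k) ≤ (7 / 10) ^ (2 ^ k) := by
  obtain ⟨m, hm⟩ : ∃ m, 2 ^ k = 32 + m := ⟨2 ^ k - 32, by
    have : 2 ^ 5 ≤ 2 ^ k := Nat.pow_le_pow_right (by norm_num) hk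
    omega⟩
  rw [hm, pow_add, pow_add]
  have h1 : 3 / 2 * ((69 : ℝ) / 100) ^ 32 ≤ (7 / 10) ^ 32 := by norm_num
  have h2 : ((69 : ℝ) / 100) ^ m ≤ (7 / 10) ^ m :=
    pow_le_pow_left₀ (by norm_num) (by norm_num) m
  calc 3 / 2 * (((69 : ℝ) / 100) ^ 32 * (69 / 100) ^ m)
      = 3 / 2 * ((69 : ℝ) / 100) ^ 32 * (69 / 100) ^ m := by ring
    _ ≤ (7 / 10) ^ 32 * (7 / 10) ^ m := by gcongr

theorem final_numeric {ρ u v a b : ℝ} (hρ0 : 0 ≤ ρ) (hu0 : 0 ≤ u) (hv : v ≤ 1 / 10)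
    (hρ : 3 * ρ ≤ v) (hu : 12 * u ≤ v) (ha : 0 ≤ a)
    (h : (1 - 2 * ρ) * (1 - ρ) ^ 2 * a ≤ (1 + u) * b) :
    (1 + v ^ 2) * a ≤ (1 + v) ^ 2 * b := by
  have hv0 : 0 ≤ v := by linarith
  have h1 : 1 - 4 * ρ ≤ (1 - 2 * ρ) * (1 - ρ) ^ 2 := by nlinarith [mul_nonneg hρ0 (sq_nonneg ρ)]
  have h2 : (1 - 4 / 3 * v) * a ≤ (1 + v / 12) * b := by
    have hb : 0 ≤ b := by
      have : 0 ≤ (1 - 2 * ρ) * (1 - ρ) ^ 2 * a := by
        apply mul_nonneg (mul_nonneg (by linarith) (sq_nonneg _)) ha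
      nlinarith
    calc (1 - 4 / 3 * v) * a ≤ (1 - 2 * ρ) * (1 - ρ) ^ 2 * a :=
          mul_le_mul_of_nonneg_right (by linarith) ha
      _ ≤ (1 + u) * b := h
      _ ≤ (1 + v / 12) * b := mul_le_mul_of_nonneg_right (by linarith) hb
  have h3 : (1 + v ^ 2) * (1 + v / 12) ≤ (1 + v) ^ 2 * (1 - 4 / 3 * v) := by
    have e : (1 + v) ^ 2 * (1 - 4 / 3 * v) - (1 + v ^ 2) * (1 + v / 12) =
      v * (7 / 12 - 8 / 3 * v - 17 / 12 * v ^ 2) := by ring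
    have : 0 ≤ v * (7 / 12 - 8 / 3 * v - 17 / 12 * v ^ 2) := by
      apply mul_nonneg hv0; nlinarith
    linarith
  have h4 : (1 + v / 12) * ((1 + v ^ 2) * a) ≤ (1 + v / 12) * ((1 + v) ^ 2 * b) := by
    calc (1 + v / 12) * ((1 + v ^ 2) * a) = (1 + v ^ 2) * (1 + v / 12) * a := by ring
      _ ≤ (1 + v) ^ 2 * (1 - 4 / 3 * v) * a := mul_le_mul_of_nonneg_right h3 ha
      _ = (1 + v) ^ 2 * ((1 - 4 / 3 * v) * a) := by ring
      _ ≤ (1 + v) ^ 2 * ((1 + v / 12) * b) := mul_le_mul_of_nonneg_left h2 (sq_nonneg _)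
      _ = (1 + v / 12) * ((1 + v) ^ 2 * b) := by ring
  exact le_of_mul_le_mul_left h4 (by linarith)

theorem exists_scale (L₀ N : ℕ) (hL : 2 ≤ L₀) (hL60 : L₀ ≤ 60) (hN : 1921 ≤ N) :
    ∃ k, 5 ≤ k ∧ 2 ^ k * L₀ < N ∧ N ≤ 2 * (2 ^ k * L₀) := by
  -- take `k` maximal with `2 ^ k * L₀ < N`
  have hfin : ∃ k, N ≤ 2 * (2 ^ k * L₀) := by
    refine ⟨N, ?_⟩
    have : N < 2 ^ N := Nat.lt_two_pow_self
    nlinarith
  classical
  refine ⟨Nat.find hfin, ?_, ?_, Nat.find_spec hfin⟩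
  · by_contra hlt
    push Not at hlt
    have h1 := Nat.find_spec hfin
    have h2 : 2 ^ (Nat.find hfin) ≤ 2 ^ 4 := Nat.pow_le_pow_right (by norm_num) (by omega)
    have : 2 ^ (Nat.find hfin) * L₀ ≤ 16 * 60 := Nat.mul_le_mul h2 hL60
    omega
  · rcases Nat.eq_zero_or_pos (Nat.find hfin) with h0 | hpos
    · rw [h0]; omega
    · have := Nat.find_min hfin (m := Nat.find hfin - 1) (by omega)
      push Not at this
      have e : 2 * (2 ^ (Nat.find hfin - 1) * L₀) = 2 ^ (Nat.find hfin) * L₀ := by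
        rw [← mul_assoc, mul_comm 2, ← pow_succ]
        congr 2
        omega
      omega

theorem S0546_of_base (β₀ : ℝ) (hβ : 0 < β₀) (hβ60 : β₀ ≤ 60) (L₀ : ℕ) (hL : 2 ≤ L₀)
    (hL60 : L₀ ≤ 60) (hLe : Even L₀)
    (hR : (197 : ℝ) / 225 * Zr β₀ L₀ ^ 4 ≤ Zr (2 * β₀) (2 * L₀))
    (hRo : (78 : ℝ) / 100 * (Yo β₀ L₀ ^ 2 * Zr (2 * β₀) L₀) ≤ Yo (2 * β₀) (2 * L₀))
    (L : ℕ) (hLL : 960 ≤ L) :
    HasSimpleGroundStateWithGap (openChainEndField (2 * L) (3 / 5)) (Real.log 10 / 392) := by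
  obtain ⟨k, hk5, hk1, hk2⟩ := exists_scale L₀ (2 * L + 1) hL hL60 (by omega)
  obtain ⟨u, ρ, hu0, hρ0, hu, hρ, h1, h2⟩ := open_iterate openSys hβ hL hLe hR hRo k hk5
  have hr := r_le k hk5
  have h2k : (0 : ℝ) < 2 ^ k := by positivity
  have hX := openSys.purity_odd (β := 2 ^ k * β₀) (by positivity) (n := 2 ^ k * L₀)
    (by
      have : 1 ≤ 2 ^ k := Nat.one_le_two_pow
      nlinarith)
    (Even.mul_left hLe _) hu0 (by linarith) hρ0 (by linarith) h1 h2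
    (N := 2 * L + 1) ⟨L, rfl⟩ hk1 hk2
  have h3 := three_halves_r k hk5
  have hv : ((7 : ℝ) / 10) ^ (2 ^ k) ≤ 1 / 10 := by
    have h5 : 2 ^ 5 ≤ 2 ^ k := Nat.pow_le_pow_right (by norm_num) hk5
    calc ((7 : ℝ) / 10) ^ (2 ^ k) ≤ (7 / 10) ^ (2 ^ 5) :=
          pow_le_pow_of_le_one (by norm_num) (by norm_num) h5
      _ ≤ 1 / 10 := by norm_num
  have hr0 : (0 : ℝ) ≤ (69 / 100) ^ (2 ^ k) := by positivity
  have hP := final_numeric (v := ((7 : ℝ) / 10) ^ (2 ^ k)) hρ0 hu0 hv (by linarith) (by linarith)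
    (sq_nonneg _) hX
  have hH : (openChainEndField (2 * L) (3 / 5)).IsHermitian := by
    rw [← openH_same]
    exact openH_isHermitian _ _ _
  have : Nonempty (Fin (2 * L + 1) → Fin 3) := ⟨fun _ => 0⟩
  refine gap_of_purity hH (β := 2 ^ k * β₀) (u := (7 / 10) ^ (2 ^ k)) (by positivity)
    (by positivity) (by linarith) ?_ (seven_tenths_lt β₀ hβ60 k)
  rw [Xo_eq, Xo_eq] at hP
  exact hP

end Crest.Agent.R347
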