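import Crest.Prelude.Def_SpinChain

/-!
R347 (Haldane gap, S0545/S0546): basic definitions shared by all modules.
-/

set_option autoImplicit false

namespace Crest.Agent.R347

open Matrix Crest.MathPhysics.SpinChain

section piK
variable {ι κ R : Type*}

/-- Tensor product (over sites `ι`) of one-site matrices, in the product basis. -/
def piK [Fintype ι] [CommSemiring R] (A : ι → Matrix κ κ R) :
    Matrix (ι → κ) (ι → κ) R :=
  Matrix.of fun σ τ => ∏ j, A j (σ j) (τ j)

@[simp] theorem piK_apply [Fintype ι] [CommSemiring R] (A : ι → Matrix κ κ R) (σ τ : ι → κ) :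
    piK A σ τ = ∏ j, A j (σ j) (τ j) := rfl

theorem piK_mul [Fintype ι] [DecidableEq ι] [Fintype κ] [CommSemiring R]
    (A B : ι → Matrix κ κ R) : piK A * piK B = piK (fun j => A j * B j) := by
  ext σ τ
  simp only [Matrix.mul_apply, piK_apply]
  rw [Finset.prod_univ_sum]
  simp [Fintype.piFinset_univ, Finset.prod_mul_distrib]

theorem piK_one [Fintype ι] [DecidableEq ι] [DecidableEq κ] [CommSemiring R] :
    piK (fun _ : ι => (1 : Matrix κ κ R)) = 1 := by
  ext σ τ
  simp only [piK_apply, Matrix.one_apply]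
  by_cases h : σ = τ
  · subst h; simp
  · rw [if_neg h]
    obtain ⟨j, hj⟩ := Function.ne_iff.mp h
    exact Finset.prod_eq_zero (Finset.mem_univ j) (if_neg hj)

theorem trace_piK [Fintype ι] [DecidableEq ι] [Fintype κ] [CommSemiring R]
    (A : ι → Matrix κ κ R) : (piK A).trace = ∏ j, (A j).trace := by
  simp only [Matrix.trace, Matrix.diag, piK_apply]
  rw [Finset.prod_univ_sum]
  simp [Fintype.piFinset_univ]

theorem piK_list_prod [Fintype ι] [DecidableEq ι] [Fintype κ] [DecidableEq κ] [CommSemiring R]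
    (l : List (ι → Matrix κ κ R)) :
    (l.map piK).prod = piK (fun j => (l.map (fun A => A j)).prod) := by
  induction l with
  | nil => simp [piK_one]
  | cons a l ih => simp [ih, piK_mul]

theorem piK_conjTranspose [Fintype ι] [CommSemiring R] [StarRing R]
    (A : ι → Matrix κ κ R) : (piK A)ᴴ = piK (fun j => (A j)ᴴ) := by
  ext σ τ
  simp [Matrix.conjTranspose_apply, star_prod]

theorem onSite_eq_piK {ι : Type*} [Fintype ι] [DecidableEq ι]
    (A : Matrix (Fin 3) (Fin 3) ℂ) (j : ι) :
    onSite A j = piK (fun k => if k = j then A else 1) := by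
  ext σ τ
  simp only [onSite, Matrix.of_apply, piK_apply]
  by_cases h : ∀ k, k ≠ j → σ k = τ k
  · rw [if_pos h]
    rw [Finset.prod_eq_single j]
    · simp
    · intro k _ hk
      rw [if_neg hk, h k hk, Matrix.one_apply_eq]
    · simp
  · rw [if_neg h]
    push Not at h
    obtain ⟨k, hk, hne⟩ := h
    refine (Finset.prod_eq_zero (Finset.mem_univ k) ?_).symm
    simp [hk, hne]

end piK

/-- `eta a c`: sign of the space twist. `a = 0` no twist; `a = 1,2,3` twist by the
π-rotation about the axis x,y,z: components `c ≠ a - 1` get a minus sign. -/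
def eta (a : Fin 4) (c : Fin 3) : ℤ := if a = 0 then 1 else if c.succ = a then 1 else -1

/-- π-rotation about axis `b - 1` in the spin-one representation (`b = 0`: identity),
`exp (iπ S) = 1 - 2 S²`. -/
noncomputable def rotC (b : Fin 4) : Matrix (Fin 3) (Fin 3) ℂ :=
  Fin.cases 1 (fun c => 1 - 2 • (spinOp c * spinOp c)) b

/-- Ring of `n` sites in which the last bond (from site `n-1` to site `0`) is twisted. -/
noncomputable def ringTw (a : Fin 4) (n : ℕ) : Matrix (Fin n → Fin 3) (Fin n → Fin 3) ℂ :=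
  ∑ j : Fin n, ∑ c : Fin 3,
    (if j.val + 1 = n then ((eta a c : ℤ) : ℂ) else 1) •
      (onSite (spinOp c) j * onSite (spinOp c) (finRotate n j))

/-- Twisted partition function `Tr (U_b e^{-β H^{(a)}_L})`. -/
noncomputable def Zab (a b : Fin 4) (β : ℝ) (L : ℕ) : ℝ :=
  (Matrix.trace (piK (fun _ : Fin L => rotC b) *
    NormedSpace.exp (-(β : ℂ) • ringTw a L))).re

theorem ringTw_zero (n : ℕ) : ringTw 0 n = heisenbergRing n := by
  simp [ringTw, heisenbergRing, bond, eta]

/-- Untwisted partition function of the ring. -/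
noncomputable def Zr (β : ℝ) (L : ℕ) : ℝ := Zab 0 0 β L

/-- Finite power sums of nonnegative numbers. -/
def IsPS (f : ℕ → ℝ) : Prop :=
  ∃ (m : ℕ) (x : Fin m → ℝ), (∀ i, 0 ≤ x i) ∧ ∀ l, 1 ≤ l → f l = ∑ i, x i ^ l

/-- Limits of finite power sums of nonnegative numbers. -/
def PSL (K : ℕ → ℝ) : Prop :=
  ∃ f : ℕ → ℕ → ℝ, (∀ n, IsPS (f n)) ∧
    ∀ l, 1 ≤ l → Filter.Tendsto (fun n => f n l) Filter.atTop (nhds (K l))

end Crest.Agent.R347
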