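import Crest.Agent.R347.Path

/-! Real (Cartesian) form of the site tensors and of the space-direction transfer matrices. -/

set_option autoImplicit false

namespace Crest.Agent.R347

open Matrix Crest.MathPhysics.SpinChain

section
variable {κ R : Type*} [DecidableEq κ] [CommRing R]

/-- Site tensor. Labels: `0` = no bond operator, `c.succ` = component `c`. -/
def Mten (B : Fin 3 → Matrix κ κ R) (e : R) (a b : Fin 4) : Matrix κ κ R :=
  Fin.cases (motive := fun _ => Matrix κ κ R)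
    (Fin.cases (motive := fun _ => Matrix κ κ R) 1 (fun d => e • B d) b)
    (fun c => Fin.cases (motive := fun _ => Matrix κ κ R) (e • B c) (fun _ => 0) b) a

@[simp] theorem Mten_zero_zero (B : Fin 3 → Matrix κ κ R) (e : R) : Mten B e 0 0 = 1 := rfl
@[simp] theorem Mten_zero_succ (B : Fin 3 → Matrix κ κ R) (e : R) (d : Fin 3) :
    Mten B e 0 d.succ = e • B d := rfl
@[simp] theorem Mten_succ_zero (B : Fin 3 → Matrix κ κ R) (e : R) (d : Fin 3) :
    Mten B e d.succ 0 = e • B d := rfl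
@[simp] theorem Mten_succ_succ (B : Fin 3 → Matrix κ κ R) (e : R) (c d : Fin 3) :
    Mten B e c.succ d.succ = 0 := rfl

theorem Mten_comm (B : Fin 3 → Matrix κ κ R) (e : R) (a b : Fin 4) :
    Mten B e a b = Mten B e b a := by
  refine Fin.cases ?_ (fun a => ?_) a <;> refine Fin.cases ?_ (fun b => ?_) b <;> simp

end

/-- Signs `eta` extended to the four labels (label `0` has sign `1`). -/
def etaK (R : Type*) [Ring R] (a : Fin 4) (c : Fin 4) : R :=
  Fin.cases (motive := fun _ => R) 1 (fun c => ((eta a c : ℤ) : R)) c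

/-- `i S^c` in the Cartesian basis: real antisymmetric. -/
def Treal : Fin 3 → Matrix (Fin 3) (Fin 3) ℝ :=
  ![!![0, 0, 0; 0, 0, 1; 0, -1, 0],
    !![0, 0, -1; 0, 0, 0; 1, 0, 0],
    !![0, 1, 0; -1, 0, 0; 0, 0, 0]]

/-- Real π-rotations `1 + 2 T²`, diagonal with entries ±1. -/
def rotR (b : Fin 4) : Matrix (Fin 3) (Fin 3) ℝ :=
  Fin.cases (motive := fun _ => Matrix (Fin 3) (Fin 3) ℝ) 1
    (fun c => 1 + 2 • (Treal c * Treal c)) b

/-- Space-direction transfer matrix at bond coupling `e² = β/n`, time twist `b`, real form. -/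
noncomputable def tauR (b : Fin 4) (e : ℝ) (n : ℕ) : Matrix (Fin n → Fin 4) (Fin n → Fin 4) ℝ :=
  tau (rotR b) (Mten Treal e) n

/-- Sign operator of the space twist. -/
def Dsig (a : Fin 4) (n : ℕ) : Matrix (Fin n → Fin 4) (Fin n → Fin 4) ℝ :=
  Matrix.diagonal fun ω => ∏ k, etaK ℝ a (ω k)

section general
variable {K κ R S : Type*} [Fintype K] [DecidableEq K] [Fintype κ] [DecidableEq κ]
  [CommRing R] [CommRing S]

/-- Intertwining a list of matrices. -/
theorem list_prod_intertwine (V : Matrix κ κ R) (l : List ℕ) (A B : ℕ → Matrix κ κ R)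
    (h : ∀ i, A i * V = V * B i) : (l.map A).prod * V = V * (l.map B).prod := by
  induction l with
  | nil => simp
  | cons i l ih =>
    simp only [List.map_cons, List.prod_cons]
    rw [Matrix.mul_assoc, ih, ← Matrix.mul_assoc, h, Matrix.mul_assoc]

theorem ofFn_prod_intertwine (V : Matrix κ κ R) (n : ℕ) (A B : Fin n → Matrix κ κ R)
    (h : ∀ i, A i * V = V * B i) : (List.ofFn A).prod * V = V * (List.ofFn B).prod := by
  induction n with
  | zero => simp
  | succ n ih =>
    rw [List.ofFn_succ, List.ofFn_succ, List.prod_cons, List.prod_cons, Matrix.mul_assoc,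
      ih (fun i => A i.succ) (fun i => B i.succ) (fun i => h _), ← Matrix.mul_assoc, h,
      Matrix.mul_assoc]

theorem ofFn_prod_smul (n : ℕ) (s : Fin n → R) (A : Fin n → Matrix κ κ R) :
    (List.ofFn fun i => s i • A i).prod = (∏ i, s i) • (List.ofFn A).prod := by
  induction n with
  | zero => simp
  | succ n ih =>
    rw [List.ofFn_succ, List.ofFn_succ, List.prod_cons, List.prod_cons,
      ih (fun i => s i.succ) (fun i => A i.succ), Fin.prod_univ_succ,
      Matrix.smul_mul, Matrix.mul_smul, smul_smul]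

omit [Fintype K] [DecidableEq K] in
/-- Symmetry of the space-direction transfer matrix induced by a site matrix `V`. -/
theorem tau_symm (V V' : Matrix κ κ R) (hV : V * V' = 1) (Q Q' : Matrix κ κ R)
    (M M' : K → K → Matrix κ κ R) (s t : K → R) (π : K → K) (hQ : Q * V = V * Q')
    (hM : ∀ a b, M a b * V = V * ((s a * t b) • M' (π a) (π b))) (n : ℕ) (ω ω' : Fin n → K) :
    tau Q M n ω ω' = ((∏ k, s (ω k)) * ∏ k, t (ω' k)) *
      tau Q' M' n (fun k => π (ω k)) (fun k => π (ω' k)) := by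
  simp only [tau, Matrix.of_apply]
  have h1 : (List.ofFn fun k => M (ω k) (ω' k)).prod * V =
      V * (((∏ k, s (ω k)) * ∏ k, t (ω' k)) •
        (List.ofFn fun k => M' (π (ω k)) (π (ω' k))).prod) := by
    rw [← Finset.prod_mul_distrib, ← ofFn_prod_smul]
    exact ofFn_prod_intertwine V n _ _ (fun i => hM _ _)
  have hV' : V' * V = 1 := by
    exact mul_eq_one_comm.mp hV
  calc (Q * (List.ofFn fun k => M (ω k) (ω' k)).prod).trace
      = (Q * ((List.ofFn fun k => M (ω k) (ω' k)).prod * V) * V').trace := by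
        rw [Matrix.mul_assoc, Matrix.mul_assoc, hV, Matrix.mul_one]
    _ = (V * (Q' * (((∏ k, s (ω k)) * ∏ k, t (ω' k)) •
        (List.ofFn fun k => M' (π (ω k)) (π (ω' k))).prod)) * V').trace := by
        rw [h1, ← Matrix.mul_assoc Q V, hQ, Matrix.mul_assoc V Q']
    _ = _ := by
        rw [Matrix.trace_mul_comm, ← Matrix.mul_assoc, hV', Matrix.one_mul, Matrix.mul_smul,
          Matrix.trace_smul, smul_eq_mul]

theorem diagonal_mul_submatrix_pow {m : Type*} [Fintype m] [DecidableEq m] (S : m → R)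
    (hS : ∀ i, S i * S i = 1) (f : m ≃ m) (A A' : Matrix m m R)
    (h : ∀ i j, A i j = S i * S j * A' (f i) (f j)) (L : ℕ) (i j : m) :
    (A ^ L) i j = S i * S j * (A' ^ L) (f i) (f j) := by
  induction L generalizing i j with
  | zero =>
    simp only [pow_zero, Matrix.one_apply, f.injective.eq_iff]
    by_cases hij : i = j
    · subst hij; simp [hS]
    · simp [hij]
  | succ L ih =>
    rw [pow_succ, pow_succ, Matrix.mul_apply, Matrix.mul_apply, Finset.mul_sum,
      ← Equiv.sum_comp f (fun k => S i * S j * ((A' ^ L) (f i) k * A' k (f j)))]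
    refine Finset.sum_congr rfl fun k _ => ?_
    rw [ih, h]
    linear_combination (S i * S j * (A' ^ L) (f i) (f k) * A' (f k) (f j)) * hS k

/-- Traces of powers of related matrices, weighted by diagonal operators. -/
theorem trace_diagonal_pow_symm {m : Type*} [Fintype m] [DecidableEq m] (S : m → R)
    (hS : ∀ i, S i * S i = 1) (f : m ≃ m) (A A' : Matrix m m R)
    (h : ∀ i j, A i j = S i * S j * A' (f i) (f j)) (d d' : m → R) (hd : ∀ i, d i = d' (f i))
    (L : ℕ) :
    (Matrix.diagonal d * A ^ L).trace = (Matrix.diagonal d' * A' ^ L).trace := by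
  simp only [Matrix.trace, Matrix.diag, Matrix.diagonal_mul]
  rw [← Equiv.sum_comp f (fun i => d' i * (A' ^ L) i i)]
  refine Finset.sum_congr rfl fun i _ => ?_
  rw [diagonal_mul_submatrix_pow S hS f A A' h L, hd, hS, one_mul]

end general

theorem etaK_sq (a c : Fin 4) : etaK ℝ a c * etaK ℝ a c = 1 := by
  refine Fin.cases ?_ (fun c => ?_) c
  · simp [etaK]
  · simp only [etaK, Fin.cases_succ, eta]
    split_ifs <;> norm_num

theorem rotR_one : rotR 1 = !![1, 0, 0; 0, -1, 0; 0, 0, -1] := by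
  show 1 + 2 • (Treal 0 * Treal 0) = _
  ext i j; fin_cases i <;> fin_cases j <;> simp [Treal] <;> norm_num

theorem rotR_two : rotR 2 = !![-1, 0, 0; 0, 1, 0; 0, 0, -1] := by
  show 1 + 2 • (Treal 1 * Treal 1) = _
  ext i j; fin_cases i <;> fin_cases j <;> simp [Treal] <;> norm_num

theorem rotR_three : rotR 3 = !![-1, 0, 0; 0, -1, 0; 0, 0, 1] := by
  show 1 + 2 • (Treal 2 * Treal 2) = _
  ext i j; fin_cases i <;> fin_cases j <;> simp [Treal] <;> norm_num

theorem rotR_zero : rotR 0 = 1 := rfl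


section labels
variable {κ R : Type*} [Fintype κ] [DecidableEq κ] [CommRing R]

/-- Extend a sign function on components to labels. -/
def labS (u : Fin 3 → R) : Fin 4 → R := Fin.cases (motive := fun _ => R) 1 u

/-- Extend a map on components to labels. -/
def labP (ρ : Fin 3 → Fin 3) : Fin 4 → Fin 4 :=
  Fin.cases (motive := fun _ => Fin 4) 0 (fun c => (ρ c).succ)

@[simp] theorem labS_zero (u : Fin 3 → R) : labS u 0 = 1 := rfl
@[simp] theorem labS_succ (u : Fin 3 → R) (c : Fin 3) : labS u c.succ = u c := rfl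
@[simp] theorem labP_zero (ρ : Fin 3 → Fin 3) : labP ρ 0 = 0 := rfl
@[simp] theorem labP_succ (ρ : Fin 3 → Fin 3) (c : Fin 3) : labP ρ c.succ = (ρ c).succ := rfl

theorem Mten_intertwine (V : Matrix κ κ R) (B B' : Fin 3 → Matrix κ κ R) (u : Fin 3 → R)
    (ρ : Fin 3 → Fin 3) (h : ∀ c, B c * V = V * (u c • B' (ρ c))) (e : R) (a b : Fin 4) :
    Mten B e a b * V = V * ((labS u a * labS u b) • Mten B' e (labP ρ a) (labP ρ b)) := by
  refine Fin.cases ?_ (fun a => ?_) a <;> refine Fin.cases ?_ (fun b => ?_) b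
  · simp
  · simp only [Mten_zero_succ, labS_zero, labS_succ, labP_zero, labP_succ, one_mul,
      Matrix.smul_mul, h, Matrix.mul_smul, smul_comm e]
  · simp only [Mten_succ_zero, labS_zero, labS_succ, labP_zero, labP_succ, mul_one,
      Matrix.smul_mul, h, Matrix.mul_smul, smul_comm e]
  · simp

end labels

theorem tauR_symm (V V' : Matrix (Fin 3) (Fin 3) ℝ) (hV : V * V' = 1) (b b' : Fin 4)
    (u : Fin 3 → ℝ) (ρ : Fin 3 → Fin 3) (hQ : rotR b * V = V * rotR b')
    (h : ∀ c, Treal c * V = V * (u c • Treal (ρ c))) (e : ℝ) (n : ℕ) (ω ω' : Fin n → Fin 4) :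
    tauR b e n ω ω' = (∏ k, labS u (ω k)) * (∏ k, labS u (ω' k)) *
      tauR b' e n (fun k => labP ρ (ω k)) (fun k => labP ρ (ω' k)) :=
  tau_symm V V' hV (rotR b) (rotR b') (Mten Treal e) (Mten Treal e) (labS u) (labS u) (labP ρ) hQ
    (Mten_intertwine V Treal Treal u ρ h e) n ω ω'

/-- `tauR` is symmetric. -/
theorem tauR_transpose (b : Fin 4) (e : ℝ) (n : ℕ) : (tauR b e n)ᵀ = tauR b e n := by
  ext ω ω'
  simp only [Matrix.transpose_apply, tauR, tau, Matrix.of_apply, Mten_comm Treal e (ω' _)]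

/-- `Dsig` is an involution commuting with `tauR`. -/
theorem Dsig_mul_self (a : Fin 4) (n : ℕ) : Dsig a n * Dsig a n = 1 := by
  rw [Dsig, Matrix.diagonal_mul_diagonal, ← Matrix.diagonal_one]
  congr 1
  funext ω
  rw [← Finset.prod_mul_distrib]
  exact Finset.prod_eq_one fun k _ => etaK_sq a _

theorem Treal_rotR (a : Fin 4) (c : Fin 3) :
    Treal c * rotR a = rotR a * (((eta a c : ℤ) : ℝ) • Treal c) := by
  fin_cases a
  · simp [rotR_zero, eta]
  · show Treal c * rotR 1 = rotR 1 * (((eta 1 c : ℤ) : ℝ) • Treal c)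
    rw [rotR_one]
    fin_cases c <;> ext i j <;> fin_cases i <;> fin_cases j <;> simp [Treal, eta]
  · show Treal c * rotR 2 = rotR 2 * (((eta 2 c : ℤ) : ℝ) • Treal c)
    rw [rotR_two]
    fin_cases c <;> ext i j <;> fin_cases i <;> fin_cases j <;> simp [Treal, eta]
  · show Treal c * rotR 3 = rotR 3 * (((eta 3 c : ℤ) : ℝ) • Treal c)
    rw [rotR_three]
    fin_cases c <;> ext i j <;> fin_cases i <;> fin_cases j <;> simp [Treal, eta]

theorem rotR_comm (a b : Fin 4) : rotR b * rotR a = rotR a * rotR b := by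
  have h : ∀ a : Fin 4, ∃ d, rotR a = Matrix.diagonal d := by
    intro a
    fin_cases a
    · exact ⟨fun _ => 1, by simp [rotR_zero]⟩
    · exact ⟨![1, -1, -1], by
        show rotR 1 = _
        rw [rotR_one]; ext i j; fin_cases i <;> fin_cases j <;> simp⟩
    · exact ⟨![-1, 1, -1], by
        show rotR 2 = _
        rw [rotR_two]; ext i j; fin_cases i <;> fin_cases j <;> simp⟩
    · exact ⟨![-1, -1, 1], by
        show rotR 3 = _
        rw [rotR_three]; ext i j; fin_cases i <;> fin_cases j <;> simp⟩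
  obtain ⟨d, hd⟩ := h a
  obtain ⟨d', hd'⟩ := h b
  rw [hd, hd', Matrix.diagonal_mul_diagonal, Matrix.diagonal_mul_diagonal]
  congr 1
  funext i
  ring

theorem rotR_sq (a : Fin 4) : rotR a * rotR a = 1 := by
  fin_cases a
  · simp [rotR_zero]
  · show rotR 1 * rotR 1 = 1
    rw [rotR_one]; ext i j; fin_cases i <;> fin_cases j <;> simp
  · show rotR 2 * rotR 2 = 1
    rw [rotR_two]; ext i j; fin_cases i <;> fin_cases j <;> simp
  · show rotR 3 * rotR 3 = 1
    rw [rotR_three]; ext i j; fin_cases i <;> fin_cases j <;> simp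

theorem labS_eta (a : Fin 4) : labS (fun c => ((eta a c : ℤ) : ℝ)) = etaK ℝ a := rfl

theorem labP_id : labP id = id := by
  funext c
  refine Fin.cases rfl (fun c => rfl) c

theorem Dsig_comm_tauR (a b : Fin 4) (e : ℝ) (n : ℕ) :
    Dsig a n * tauR b e n = tauR b e n * Dsig a n := by
  ext ω ω'
  rw [Dsig, Matrix.diagonal_mul, Matrix.mul_diagonal]
  have h := tauR_symm (rotR a) (rotR a) (rotR_sq a) b b (fun c => ((eta a c : ℤ) : ℝ)) id
    (rotR_comm a b) (Treal_rotR a) e n ω ω'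
  rw [labS_eta, labP_id] at h
  simp only [id] at h
  have hs : ∀ ω : Fin n → Fin 4, (∏ k, etaK ℝ a (ω k)) * (∏ k, etaK ℝ a (ω k)) = 1 := by
    intro ω
    rw [← Finset.prod_mul_distrib]
    exact Finset.prod_eq_one fun k _ => etaK_sq a _
  calc (∏ k, etaK ℝ a (ω k)) * tauR b e n ω ω'
      = (∏ k, etaK ℝ a (ω k)) * ((∏ k, etaK ℝ a (ω k)) * (∏ k, etaK ℝ a (ω' k)) *
        tauR b e n ω ω') := by rw [← h]
    _ = ((∏ k, etaK ℝ a (ω k)) * (∏ k, etaK ℝ a (ω k))) * (tauR b e n ω ω' *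
        (∏ k, etaK ℝ a (ω' k))) := by ring
    _ = _ := by rw [hs, one_mul]

/-- product of the sign operators: `D_x D_y = D_z`. -/
theorem Dsig_one_mul_two (n : ℕ) : Dsig 1 n * Dsig 2 n = Dsig 3 n := by
  rw [Dsig, Dsig, Dsig, Matrix.diagonal_mul_diagonal]
  congr 1
  funext ω
  rw [← Finset.prod_mul_distrib]
  refine Finset.prod_congr rfl fun k _ => ?_
  generalize ω k = c
  refine Fin.cases ?_ (fun c => ?_) c
  · simp [etaK]
  · show ((eta 1 c : ℤ) : ℝ) * ((eta 2 c : ℤ) : ℝ) = ((eta 3 c : ℤ) : ℝ)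
    rw [← Int.cast_mul]
    congr 1
    revert c
    decide

theorem Dsig_zero (n : ℕ) : Dsig 0 n = 1 := by
  rw [Dsig, ← Matrix.diagonal_one]
  congr 1
  funext ω
  refine Finset.prod_eq_one fun k _ => ?_
  generalize ω k = c
  refine Fin.cases ?_ (fun c => ?_) c
  · simp [etaK]
  · simp [etaK, eta]

theorem trace_tauR_general (V V' : Matrix (Fin 3) (Fin 3) ℝ) (hV : V * V' = 1)
    (a a' b b' : Fin 4) (u : Fin 3 → ℝ) (ρ : Fin 3 → Fin 3) (hu : ∀ c, u c * u c = 1)
    (hρ : ∀ c, ρ (ρ c) = c) (hQ : rotR b * V = V * rotR b')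
    (h : ∀ c, Treal c * V = V * (u c • Treal (ρ c))) (hη : ∀ c, eta a c = eta a' (ρ c))
    (e : ℝ) (n L : ℕ) :
    (Dsig a n * (tauR b e n) ^ L).trace = (Dsig a' n * (tauR b' e n) ^ L).trace := by
  have hinv : Function.Involutive (fun (ω : Fin n → Fin 4) k => labP ρ (ω k)) := by
    intro ω
    funext k
    show labP ρ (labP ρ (ω k)) = ω k
    generalize ω k = c
    refine Fin.cases ?_ (fun c => ?_) c
    · simp
    · simp [hρ]
  have hS : ∀ ω : Fin n → Fin 4, (∏ k, labS u (ω k)) * (∏ k, labS u (ω k)) = 1 := by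
    intro ω
    rw [← Finset.prod_mul_distrib]
    refine Finset.prod_eq_one fun k _ => ?_
    generalize ω k = c
    refine Fin.cases ?_ (fun c => ?_) c
    · simp
    · simp [hu]
  refine trace_diagonal_pow_symm (fun ω => ∏ k, labS u (ω k)) hS hinv.toPerm _ _
    (fun ω ω' => tauR_symm V V' hV b b' u ρ hQ h e n ω ω') _ _ (fun ω => ?_) L
  refine Finset.prod_congr rfl fun k _ => ?_
  show etaK ℝ a (ω k) = etaK ℝ a' (labP ρ (ω k))
  generalize ω k = c
  refine Fin.cases ?_ (fun c => ?_) c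
  · simp [etaK]
  · simp [etaK, hη]

/-- permutation matrix exchanging x and z. -/
def Vxz : Matrix (Fin 3) (Fin 3) ℝ := !![0, 0, 1; 0, 1, 0; 1, 0, 0]
/-- permutation matrix exchanging y and z. -/
def Vyz : Matrix (Fin 3) (Fin 3) ℝ := !![1, 0, 0; 0, 0, 1; 0, 1, 0]
/-- permutation matrix exchanging x and y. -/
def Vxy : Matrix (Fin 3) (Fin 3) ℝ := !![0, 1, 0; 1, 0, 0; 0, 0, 1]

theorem Vxz_sq : Vxz * Vxz = 1 := by
  ext i j; fin_cases i <;> fin_cases j <;> simp [Vxz]
theorem Vyz_sq : Vyz * Vyz = 1 := by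
  ext i j; fin_cases i <;> fin_cases j <;> simp [Vyz]
theorem Vxy_sq : Vxy * Vxy = 1 := by
  ext i j; fin_cases i <;> fin_cases j <;> simp [Vxy]

theorem Treal_Vxz (c : Fin 3) : Treal c * Vxz = Vxz * ((-1 : ℝ) • Treal (![2, 1, 0] c)) := by
  fin_cases c <;> ext i j <;> fin_cases i <;> fin_cases j <;> simp [Treal, Vxz]
theorem Treal_Vyz (c : Fin 3) : Treal c * Vyz = Vyz * ((-1 : ℝ) • Treal (![0, 2, 1] c)) := by
  fin_cases c <;> ext i j <;> fin_cases i <;> fin_cases j <;> simp [Treal, Vyz]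
theorem Treal_Vxy (c : Fin 3) : Treal c * Vxy = Vxy * ((-1 : ℝ) • Treal (![1, 0, 2] c)) := by
  fin_cases c <;> ext i j <;> fin_cases i <;> fin_cases j <;> simp [Treal, Vxy]

/-- Symmetries of the finite-`n` twisted traces. -/
theorem trace_tauR_symm_x (e : ℝ) (n L : ℕ) :
    (Dsig 1 n * (tauR 0 e n) ^ L).trace = (Dsig 3 n * (tauR 0 e n) ^ L).trace :=
  trace_tauR_general Vxz Vxz Vxz_sq 1 3 0 0 (fun _ => -1) ![2, 1, 0] (by norm_num) (by decide)
    (by simp [rotR_zero]) Treal_Vxz (by decide) e n L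

theorem trace_tauR_symm_y (e : ℝ) (n L : ℕ) :
    (Dsig 2 n * (tauR 0 e n) ^ L).trace = (Dsig 3 n * (tauR 0 e n) ^ L).trace :=
  trace_tauR_general Vyz Vyz Vyz_sq 2 3 0 0 (fun _ => -1) ![0, 2, 1] (by norm_num) (by decide)
    (by simp [rotR_zero]) Treal_Vyz (by decide) e n L

theorem trace_tauR_symm_bx (e : ℝ) (n L : ℕ) :
    ((tauR 1 e n) ^ L).trace = ((tauR 3 e n) ^ L).trace := by
  have h := trace_tauR_general Vxz Vxz Vxz_sq 0 0 1 3 (fun _ => -1) ![2, 1, 0] (by norm_num)
    (by decide) (by rw [rotR_one, rotR_three]; ext i j; fin_cases i <;> fin_cases j <;> simp [Vxz])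
    Treal_Vxz (by decide) e n L
  simpa [Dsig_zero] using h

theorem trace_tauR_symm_by (e : ℝ) (n L : ℕ) :
    ((tauR 2 e n) ^ L).trace = ((tauR 3 e n) ^ L).trace := by
  have h := trace_tauR_general Vyz Vyz Vyz_sq 0 0 2 3 (fun _ => -1) ![0, 2, 1] (by norm_num)
    (by decide) (by rw [rotR_two, rotR_three]; ext i j; fin_cases i <;> fin_cases j <;> simp [Vyz])
    Treal_Vyz (by decide) e n L
  simpa [Dsig_zero] using h

theorem trace_tauR_symm_xy (e : ℝ) (n L : ℕ) :
    (Dsig 2 n * (tauR 3 e n) ^ L).trace = (Dsig 1 n * (tauR 3 e n) ^ L).trace :=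
  trace_tauR_general Vxy Vxy Vxy_sq 2 1 3 3 (fun _ => -1) ![1, 0, 2] (by norm_num) (by decide)
    (by rw [rotR_three]; ext i j; fin_cases i <;> fin_cases j <;> simp [Vxy]) Treal_Vxy
    (by decide) e n L

/-- Real matrices inside complex ones. -/
noncomputable def rcHom : Matrix (Fin 3) (Fin 3) ℝ →+* Matrix (Fin 3) (Fin 3) ℂ :=
  (Complex.ofRealHom).mapMatrix

theorem tau_map {K : Type*} (Q : Matrix (Fin 3) (Fin 3) ℝ)
    (M : K → K → Matrix (Fin 3) (Fin 3) ℝ) (n : ℕ) :
    tau (rcHom Q) (fun a b => rcHom (M a b)) n = (tau Q M n).map (fun x : ℝ => (x : ℂ)) := by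
  ext ω ω'
  simp only [tau, Matrix.of_apply, Matrix.map_apply]
  have h : (List.ofFn fun k => rcHom (M (ω k) (ω' k))).prod =
      rcHom (List.ofFn fun k => M (ω k) (ω' k)).prod := by
    rw [map_list_prod, List.map_ofFn]; rfl
  rw [h, ← map_mul]
  generalize Q * (List.ofFn fun k => M (ω k) (ω' k)).prod = A
  simp [rcHom, Matrix.trace, RingHom.mapMatrix_apply]

/-- The change of basis to the Cartesian basis. -/
noncomputable def Vc : Matrix (Fin 3) (Fin 3) ℂ :=
  !![-(((Real.sqrt 2 : ℝ) : ℂ) / 2), Complex.I * (((Real.sqrt 2 : ℝ) : ℂ) / 2), 0;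
     0, 0, 1;
     ((Real.sqrt 2 : ℝ) : ℂ) / 2, Complex.I * (((Real.sqrt 2 : ℝ) : ℂ) / 2), 0]

/-- Its inverse. -/
noncomputable def Vc' : Matrix (Fin 3) (Fin 3) ℂ :=
  !![-(((Real.sqrt 2 : ℝ) : ℂ) / 2), 0, ((Real.sqrt 2 : ℝ) : ℂ) / 2;
     -(Complex.I * (((Real.sqrt 2 : ℝ) : ℂ) / 2)), 0, -(Complex.I * (((Real.sqrt 2 : ℝ) : ℂ) / 2));
     0, 1, 0]

theorem sqrt2_mul : ((Real.sqrt 2 : ℝ) : ℂ) * ((Real.sqrt 2 : ℝ) : ℂ) = 2 := by
  rw [← Complex.ofReal_mul, Real.mul_self_sqrt (by norm_num)]; norm_num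

theorem Vc_mul : Vc * Vc' = 1 := by
  have h := sqrt2_mul
  have hI := Complex.I_mul_I
  ext i j
  fin_cases i <;> fin_cases j <;> simp [Vc, Vc', Matrix.mul_apply, Fin.sum_univ_three] <;>
    generalize ((Real.sqrt 2 : ℝ) : ℂ) = r at h ⊢ <;> ring_nf <;> simp [Complex.I_sq] <;> ring_nf <;>
    linear_combination (1 / 2 : ℂ) * h

theorem spin_Vc (c : Fin 3) :
    (Complex.I • spinOp c) * Vc = Vc * rcHom (Treal c) := by
  have h := sqrt2_mul
  have hI := Complex.I_mul_I
  fin_cases c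
  · show (Complex.I • spinX) * Vc = Vc * rcHom (Treal 0)
    ext i j
    fin_cases i <;> fin_cases j <;>
    simp [spinX, spinPlus, spinMinus, Vc, rcHom, Treal, Matrix.mul_apply, Fin.sum_univ_three,
      Matrix.conjTranspose_apply] <;>
    generalize ((Real.sqrt 2 : ℝ) : ℂ) = r at h ⊢ <;>
    first
      | ring1
      | linear_combination (r * r / 2) * hI - (1 / 2) * h
  · show (Complex.I • spinY) * Vc = Vc * rcHom (Treal 1)
    ext i j
    fin_cases i <;> fin_cases j <;>
    simp [spinY, spinPlus, spinMinus, Vc, rcHom, Treal, Matrix.mul_apply, Fin.sum_univ_three,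
      Matrix.conjTranspose_apply] <;>
    generalize ((Real.sqrt 2 : ℝ) : ℂ) = r at h ⊢ <;>
    first
      | ring1
      | linear_combination (-r / 2) * hI
      | linear_combination (r / 2) * hI
      | linear_combination (-(r * r) / 2) * hI + (1 / 2) * h
  · show (Complex.I • spinZ) * Vc = Vc * rcHom (Treal 2)
    ext i j
    fin_cases i <;> fin_cases j <;>
    simp [spinZ, magneticNumber, Vc, rcHom, Treal, Matrix.mul_apply, Fin.sum_univ_three] <;>
    generalize ((Real.sqrt 2 : ℝ) : ℂ) = r at h ⊢ <;>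
    first
      | ring1
      | linear_combination (-r / 2) * hI
      | linear_combination (r / 2) * hI

theorem rotC_Vc (b : Fin 4) : rotC b * Vc = Vc * rcHom (rotR b) := by
  refine Fin.cases ?_ (fun c => ?_) b
  · simp [rotC, rotR]
  · show (1 - 2 • (spinOp c * spinOp c)) * Vc = Vc * rcHom (1 + 2 • (Treal c * Treal c))
    have h1 : (1 - 2 • (spinOp c * spinOp c) : Matrix (Fin 3) (Fin 3) ℂ) =
        1 + 2 • ((Complex.I • spinOp c) * (Complex.I • spinOp c)) := by
      rw [Matrix.smul_mul, Matrix.mul_smul, smul_smul, Complex.I_mul_I, neg_one_smul, smul_neg,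
        sub_eq_add_neg]
    have h2 := spin_Vc c
    rw [h1, map_add, map_one, map_nsmul, map_mul]
    generalize Complex.I • spinOp c = A at h2 ⊢
    generalize rcHom (Treal c) = B at h2 ⊢
    have h3 : A * A * Vc = Vc * (B * B) := by
      rw [Matrix.mul_assoc, h2, ← Matrix.mul_assoc, h2, Matrix.mul_assoc]
    rw [Matrix.add_mul, Matrix.mul_add, Matrix.one_mul, Matrix.mul_one, Matrix.smul_mul, h3,
      Matrix.mul_smul]

/-- The complex transfer matrix is the real one. -/
theorem tau_complex_eq (b : Fin 4) (e : ℝ) (n : ℕ) :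
    tau (rotC b) (Mten (fun c => Complex.I • spinOp c) (e : ℂ)) n =
      (tauR b e n).map (fun x : ℝ => (x : ℂ)) := by
  have hM : ∀ a b : Fin 4, Mten (fun c => rcHom (Treal c)) (e : ℂ) a b = rcHom (Mten Treal e a b) := by
    have hs : ∀ A : Matrix (Fin 3) (Fin 3) ℝ, (e : ℂ) • rcHom A = rcHom (e • A) := by
      intro A
      ext i j
      simp [rcHom]
    intro a b
    refine Fin.cases ?_ (fun a => ?_) a <;> refine Fin.cases ?_ (fun b => ?_) b
    · simp
    · simp [hs]
    · simp [hs]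
    · simp
  have h1 : tau (rotC b) (Mten (fun c => Complex.I • spinOp c) (e : ℂ)) n =
      tau (rcHom (rotR b)) (Mten (fun c => rcHom (Treal c)) (e : ℂ)) n := by
    ext ω ω'
    have h := tau_symm Vc Vc' Vc_mul (rotC b) (rcHom (rotR b))
      (Mten (fun c => Complex.I • spinOp c) (e : ℂ)) (Mten (fun c => rcHom (Treal c)) (e : ℂ))
      (labS fun _ => 1) (labS fun _ => 1) (labP id) (rotC_Vc b)
      (Mten_intertwine Vc (fun c => Complex.I • spinOp c) (fun c => rcHom (Treal c)) (fun _ => 1) id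
        (fun c => by rw [one_smul]; exact spin_Vc c) (e : ℂ)) n ω ω'
    have h2 : labS (fun _ : Fin 3 => (1 : ℂ)) = fun _ => 1 := by
      funext c
      refine Fin.cases rfl (fun c => rfl) c
    rw [h2, labP_id] at h
    simpa using h
  rw [h1, tauR, ← tau_map]
  congr 1
  funext a b
  exact hM a b

end Crest.Agent.R347
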