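import Crest.Agent.R347.Data
import Crest.Agent.R347.CrossingPSL

/-! Numerical closure for the ring: from the certified data to the base inequality. -/

set_option autoImplicit false

namespace Crest.Agent.R347

open Matrix Crest.MathPhysics.SpinChain

/-- What is used of the power-sum structure at `l = 2, 3, 4, 20`. -/
theorem PSL.l20 {K : ℕ → ℝ} (h : PSL K) : ∃ x, 0 ≤ x ∧ x ^ 2 ≤ K 2 ∧ x ^ 3 ≤ K 3 ∧ x ^ 4 ≤ K 4 ∧
    K 4 ≤ x * K 3 ∧ (K 3 - x ^ 3) ^ 2 ≤ (K 2 - x ^ 2) * (K 4 - x ^ 4) ∧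
    K 20 ≤ x ^ 20 + (K 4 - x ^ 4) ^ 5 := by
  obtain ⟨x, hx, hr, hq⟩ := h.exists_top
  refine ⟨x, hx, ?_, ?_, ?_, ?_, ?_, ?_⟩
  · have := hr.nonneg (l := 2) (by norm_num); simpa using this
  · have := hr.nonneg (l := 3) (by norm_num); simpa using this
  · have := hr.nonneg (l := 4) (by norm_num); simpa using this
  · exact hq 3 (by norm_num)
  · exact hr.hankel (l := 2) (by norm_num)
  · have := hr.pow_le (l := 4) (k := 5) (by norm_num) (by norm_num)
    norm_num at this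
    linarith

/-- A linear-in-`y` bound for `y⁵ + (K - y)⁵`. -/
theorem pow5_bound {y y0 y1 K : ℝ} (h0 : 0 ≤ y0) (hy0 : y0 ≤ y) (hy1 : y ≤ y1) (hyK : y ≤ K)
    (h : (K - y0) ^ 4 ≤ y1 ^ 4) : y ^ 5 + (K - y) ^ 5 ≤ y1 ^ 5 + (K - y1) * (K - y0) ^ 4 := by
  have hy : 0 ≤ y := h0.trans hy0
  have e1 : y ^ 5 ≤ y * y1 ^ 4 := by
    have : y ^ 4 ≤ y1 ^ 4 := pow_le_pow_left₀ hy hy1 4
    nlinarith
  have e2 : (K - y) ^ 5 ≤ (K - y) * (K - y0) ^ 4 := by
    have : (K - y) ^ 4 ≤ (K - y0) ^ 4 := pow_le_pow_left₀ (by linarith) (by linarith) 4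
    have h3 : 0 ≤ K - y := by linarith
    nlinarith
  nlinarith [mul_nonneg (sub_nonneg.2 hy1) (sub_nonneg.2 h)]

/-- Top bound from the Hankel inequality, trivial crossed sector. -/
theorem top_kt {a b c x : ℝ} (hx : 0 ≤ x) (ha1 : a ≤ 29073 / 10000)
    (hb0 : 13600 / 10000 ≤ b) (hc1 : c ≤ 11725 / 10000)
    (h2 : x ^ 2 ≤ a) (_h3 : x ^ 3 ≤ b) (h4 : x ^ 4 ≤ c)
    (hH : (b - x ^ 3) ^ 2 ≤ (a - x ^ 2) * (c - x ^ 4)) : x ≤ 1033 / 1000 := by
  by_contra hcon
  push Not at hcon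
  have hx2 : x ≤ 10406 / 10000 := by
    by_contra h5
    push Not at h5
    have : (10406 / 10000 : ℝ) ^ 4 < x ^ 4 := pow_lt_pow_left₀ h5 (by norm_num) (by norm_num)
    norm_num at this
    linarith
  have e1 : (a - x ^ 2) * (c - x ^ 4) ≤ (29073 / 10000 - x ^ 2) * (11725 / 10000 - x ^ 4) := by
    apply mul_le_mul (by linarith) (by linarith) (by linarith) (by nlinarith)
  have e2 : (13600 / 10000 - x ^ 3) ^ 2 ≤ (b - x ^ 3) ^ 2 := by
    have : x ^ 3 ≤ (10406 / 10000) ^ 3 := pow_le_pow_left₀ hx hx2 3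
    norm_num at this
    apply pow_le_pow_left₀ (by linarith) (by linarith)
  have e3 := e2.trans (hH.trans e1)
  set t := x - 1033 / 1000 with ht
  have hxt : x = 1033 / 1000 + t := by rw [ht]; ring
  have ht0 : 0 < t := by rw [ht]; linarith
  rw [hxt] at e3
  nlinarith [pow_pos ht0 2, pow_pos ht0 3, pow_pos ht0 4, pow_pos ht0 5, pow_pos ht0 6]

/-- Top bound from the Hankel inequality, time-twisted sector containing the vacuum. -/
theorem top_jz {a b c x : ℝ} (hx : 0 ≤ x) (ha1 : a ≤ 28373 / 10000)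
    (hb0 : 12503 / 10000 ≤ b) (hc1 : c ≤ 10314 / 10000)
    (h2 : x ^ 2 ≤ a) (_h3 : x ^ 3 ≤ b) (h4 : x ^ 4 ≤ c)
    (hH : (b - x ^ 3) ^ 2 ≤ (a - x ^ 2) * (c - x ^ 4)) : x ≤ 9997 / 10000 := by
  by_contra hcon
  push Not at hcon
  have hx2 : x ≤ 10078 / 10000 := by
    by_contra h5
    push Not at h5
    have : (10078 / 10000 : ℝ) ^ 4 < x ^ 4 := pow_lt_pow_left₀ h5 (by norm_num) (by norm_num)
    norm_num at this
    linarith
  have e1 : (a - x ^ 2) * (c - x ^ 4) ≤ (28373 / 10000 - x ^ 2) * (10314 / 10000 - x ^ 4) := by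
    apply mul_le_mul (by linarith) (by linarith) (by linarith) (by nlinarith)
  have e2 : (12503 / 10000 - x ^ 3) ^ 2 ≤ (b - x ^ 3) ^ 2 := by
    have : x ^ 3 ≤ (10078 / 10000) ^ 3 := pow_le_pow_left₀ hx hx2 3
    norm_num at this
    apply pow_le_pow_left₀ (by linarith) (by linarith)
  have e3 := e2.trans (hH.trans e1)
  set t := x - 9997 / 10000 with ht
  have hxt : x = 9997 / 10000 + t := by rw [ht]; ring
  have ht0 : 0 < t := by rw [ht]; linarith
  rw [hxt] at e3
  nlinarith [pow_pos ht0 2, pow_pos ht0 3, pow_pos ht0 4, pow_pos ht0 5, pow_pos ht0 6]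

/-- Normalised sector sums. -/
noncomputable def kt (l : ℕ) : ℝ := (nZ 0 0 (2 * l) + 3 * nZ 3 0 (2 * l)) / 4
noncomputable def kc (l : ℕ) : ℝ := (nZ 0 0 (2 * l) - nZ 3 0 (2 * l)) / 4
noncomputable def jz (l : ℕ) : ℝ := (nZ 0 3 (2 * l) + nZ 3 3 (2 * l)) / 4 - nZ 1 3 (2 * l) / 2
noncomputable def jt (l : ℕ) : ℝ := (nZ 0 3 (2 * l) + nZ 3 3 (2 * l)) / 4 + nZ 1 3 (2 * l) / 2
noncomputable def jx (l : ℕ) : ℝ := (nZ 0 3 (2 * l) - nZ 3 3 (2 * l)) / 4

theorem nZ_eq (a b : Fin 4) (l : ℕ) :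
    nZ a b (2 * l) = Real.exp (12 * e0) ^ l * Zab a b 6 (2 * l) := by
  unfold nZ
  congr 1
  rw [← Real.exp_nat_mul]
  congr 1
  push_cast
  ring

theorem PSL_kt : PSL kt := by
  have h := (PSL_Kt 6 (by norm_num)).mul_pow (Real.exp_pos (12 * e0)).le
  convert h using 1
  funext l
  simp only [kt, nZ_eq]
  ring

theorem PSL_kc : PSL kc := by
  have h := (PSL_Kc 6 (by norm_num)).mul_pow (Real.exp_pos (12 * e0)).le
  convert h using 1
  funext l
  simp only [kc, nZ_eq]
  ring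

theorem PSL_jz : PSL jz := by
  have h := (PSL_Jz 6 (by norm_num)).mul_pow (Real.exp_pos (12 * e0)).le
  convert h using 1
  funext l
  simp only [jz, nZ_eq]
  ring

theorem PSL_jt : PSL jt := by
  have h := (PSL_Jt 6 (by norm_num)).mul_pow (Real.exp_pos (12 * e0)).le
  convert h using 1
  funext l
  simp only [jt, nZ_eq]
  ring

theorem PSL_jx : PSL jx := by
  have h := (PSL_Jx 6 (by norm_num)).mul_pow (Real.exp_pos (12 * e0)).le
  convert h using 1
  funext l
  simp only [jx, nZ_eq]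
  ring

/-- Bound of `kt 20`. -/
theorem kt_20 (hT : RingTraces) : kt 20 ≤ 19195 / 10000 := by
  obtain ⟨x, hx, h2, h3, h4, hr, hH, h20⟩ := PSL_kt.l20
  have a1 := abs_le.1 hT.z00_4
  have a2 := abs_le.1 hT.z30_4
  have b1 := abs_le.1 hT.z00_6
  have b2 := abs_le.1 hT.z30_6
  have c1 := abs_le.1 hT.z00_8
  have c2 := abs_le.1 hT.z30_8
  have k2 : kt 2 ≤ 29073 / 10000 := by
    simp only [kt, show 2 * 2 = 4 from rfl]; linarith
  have k3 : 13600 / 10000 ≤ kt 3 := by
    simp only [kt, show 2 * 3 = 6 from rfl]; linarith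
  have k3' : kt 3 ≤ 13603 / 10000 := by
    simp only [kt, show 2 * 3 = 6 from rfl]; linarith
  have k4 : kt 4 ≤ 11725 / 10000 := by
    simp only [kt, show 2 * 4 = 8 from rfl]; linarith
  have k4' : 11722 / 10000 ≤ kt 4 := by
    simp only [kt, show 2 * 4 = 8 from rfl]; linarith
  have hx1 : x ≤ 1033 / 1000 := top_kt hx k2 k3 k4 h2 h3 h4 hH
  have hx0 : 86 / 100 ≤ x := by
    by_contra hc
    push Not at hc
    have : x * kt 3 ≤ 86 / 100 * (13603 / 10000) := by
      apply mul_le_mul hc.le k3' (by linarith) (by norm_num)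
    norm_num at this
    linarith
  have hy0 : (86 / 100 : ℝ) ^ 4 ≤ x ^ 4 := pow_le_pow_left₀ (by norm_num) hx0 4
  have hy1 : x ^ 4 ≤ (1033 / 1000 : ℝ) ^ 4 := pow_le_pow_left₀ hx hx1 4
  have hp := pow5_bound (y := x ^ 4) (y0 := (86 / 100) ^ 4) (y1 := (1033 / 1000) ^ 4)
    (K := kt 4) (by positivity) hy0 hy1 h4 (by
      apply pow_le_pow_left₀ (by norm_num; linarith)
      norm_num; linarith)
  have e : x ^ 20 = (x ^ 4) ^ 5 := by ring
  rw [e] at h20
  have h6 : (kt 4 - (1033 / 1000) ^ 4) * (kt 4 - (86 / 100) ^ 4) ^ 4 ≤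
      (11725 / 10000 - (1033 / 1000) ^ 4) * (11725 / 10000 - (86 / 100) ^ 4) ^ 4 := by
    apply mul_le_mul (by linarith)
    · apply pow_le_pow_left₀ (by norm_num; linarith) (by linarith)
    · apply pow_nonneg; norm_num; linarith
    · norm_num
  norm_num at hp h6 ⊢
  linarith

/-- Bound of `jz 20`. -/
theorem jz_20 (hT : RingTraces) : jz 20 ≤ 998 / 1000 := by
  obtain ⟨x, hx, h2, h3, h4, hr, hH, h20⟩ := PSL_jz.l20
  have a1 := abs_le.1 hT.z03_4
  have a2 := abs_le.1 hT.z33_4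
  have a3 := abs_le.1 hT.z13_4
  have b1 := abs_le.1 hT.z03_6
  have b2 := abs_le.1 hT.z33_6
  have b3 := abs_le.1 hT.z13_6
  have c1 := abs_le.1 hT.z03_8
  have c2 := abs_le.1 hT.z33_8
  have c3 := abs_le.1 hT.z13_8
  have k2 : jz 2 ≤ 28373 / 10000 := by
    simp only [jz, show 2 * 2 = 4 from rfl]; linarith
  have k3 : 12503 / 10000 ≤ jz 3 := by
    simp only [jz, show 2 * 3 = 6 from rfl]; linarith
  have k3' : jz 3 ≤ 12506 / 10000 := by
    simp only [jz, show 2 * 3 = 6 from rfl]; linarith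
  have k4 : jz 4 ≤ 10314 / 10000 := by
    simp only [jz, show 2 * 4 = 8 from rfl]; linarith
  have k4' : 10311 / 10000 ≤ jz 4 := by
    simp only [jz, show 2 * 4 = 8 from rfl]; linarith
  have hx1 : x ≤ 9997 / 10000 := top_jz hx k2 k3 k4 h2 h3 h4 hH
  have hx0 : 82 / 100 ≤ x := by
    by_contra hc
    push Not at hc
    have : x * jz 3 ≤ 82 / 100 * (12506 / 10000) := by
      apply mul_le_mul hc.le k3' (by linarith) (by norm_num)
    norm_num at this
    linarith
  have hy0 : (82 / 100 : ℝ) ^ 4 ≤ x ^ 4 := pow_le_pow_left₀ (by norm_num) hx0 4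
  have hy1 : x ^ 4 ≤ (9997 / 10000 : ℝ) ^ 4 := pow_le_pow_left₀ hx hx1 4
  have hp := pow5_bound (y := x ^ 4) (y0 := (82 / 100) ^ 4) (y1 := (9997 / 10000) ^ 4)
    (K := jz 4) (by positivity) hy0 hy1 h4 (by
      apply pow_le_pow_left₀ (by norm_num; linarith)
      norm_num; linarith)
  have e : x ^ 20 = (x ^ 4) ^ 5 := by ring
  rw [e] at h20
  have h6 : (jz 4 - (9997 / 10000) ^ 4) * (jz 4 - (82 / 100) ^ 4) ^ 4 ≤
      (10314 / 10000 - (9997 / 10000) ^ 4) * (10314 / 10000 - (82 / 100) ^ 4) ^ 4 := by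
    apply mul_le_mul (by linarith)
    · apply pow_le_pow_left₀ (by norm_num; linarith) (by linarith)
    · apply pow_nonneg; norm_num; linarith
    · norm_num
  norm_num at hp h6 ⊢
  linarith

theorem kc_20 (hT : RingTraces) : kc 20 ≤ 75 / 10000 := by
  have h := PSL_kc.pow_le (l := 4) (k := 5) (by norm_num) (by norm_num)
  have h0 := PSL_kc.nonneg (l := 4) (by norm_num)
  have c1 := abs_le.1 hT.z00_8
  have c2 := abs_le.1 hT.z30_8
  have k4 : kc 4 ≤ 37560 / 100000 := by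
    simp only [kc, show 2 * 4 = 8 from rfl]; linarith
  have := pow_le_pow_left₀ h0 k4 5
  norm_num at h this ⊢
  linarith

theorem jt_20 (hT : RingTraces) : jt 20 ≤ 87 / 10000 := by
  have h := PSL_jt.pow_le (l := 4) (k := 5) (by norm_num) (by norm_num)
  have h0 := PSL_jt.nonneg (l := 4) (by norm_num)
  have c1 := abs_le.1 hT.z03_8
  have c2 := abs_le.1 hT.z33_8
  have c3 := abs_le.1 hT.z13_8
  have k4 : jt 4 ≤ 38630 / 100000 := by
    simp only [jt, show 2 * 4 = 8 from rfl]; linarith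
  have := pow_le_pow_left₀ h0 k4 5
  norm_num at h this ⊢
  linarith

theorem jx_20 (hT : RingTraces) : jx 20 ≤ 34 / 10000 := by
  have h := PSL_jx.pow_le (l := 4) (k := 5) (by norm_num) (by norm_num)
  have h0 := PSL_jx.nonneg (l := 4) (by norm_num)
  have c1 := abs_le.1 hT.z03_8
  have c2 := abs_le.1 hT.z33_8
  have k4 : jx 4 ≤ 32030 / 100000 := by
    simp only [jx, show 2 * 4 = 8 from rfl]; linarith
  have := pow_le_pow_left₀ h0 k4 5
  norm_num at h this ⊢
  linarith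

/-- Normalised bound for the untwisted ring of 40 sites at `β = 6`. -/
theorem nZ00_40 (hT : RingTraces) : nZ 0 0 40 ≤ 1942 / 1000 := by
  have h1 := kt_20 hT
  have h2 := kc_20 hT
  simp only [kt, kc, show 2 * 20 = 40 from rfl] at h1 h2
  linarith

/-- Normalised bound for the time-twisted ring of 40 sites at `β = 6`. -/
theorem nZ03_40 (hT : RingTraces) : nZ 0 3 40 ≤ 1014 / 1000 := by
  have h1 := jz_20 hT
  have h2 := jt_20 hT
  have h3 := jx_20 hT
  simp only [jz, jt, jx, show 2 * 20 = 40 from rfl] at h1 h2 h3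
  linarith

theorem exp_mul_le {x y c : ℝ} (h : Real.exp x * y ≤ c) : y ≤ Real.exp (-x) * c := by
  have h1 : Real.exp (-x) * (Real.exp x * y) ≤ Real.exp (-x) * c :=
    mul_le_mul_of_nonneg_left h (Real.exp_pos _).le
  rwa [← mul_assoc, ← Real.exp_add, neg_add_cancel, Real.exp_zero, one_mul] at h1

/-- Upper bound for the ring of 40 sites at inverse temperature `6 k`, normalised. -/
theorem Zr40_le (hT : RingTraces) (hM : RingMPS) (k : ℕ) (hk : 8 ≤ k) :
    Real.exp (k * 6 * e0 * 40) * Zr (k * 6) 40 ≤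
      Real.exp (k * 6 * (587 / 1000000)) + 3 / 10000 := by
  obtain ⟨ψ, E, v, hψ, hE, hv, hE1, hE2, hv1⟩ := hM.ex40
  set q := Real.exp (-(6 * e0 * 40)) with hq
  have hq0 : 0 < q := Real.exp_pos _
  have hZ : Zab 0 0 6 40 ≤ q * (1942 / 1000) := by
    have := nZ00_40 hT
    unfold nZ at this
    exact exp_mul_le (by exact_mod_cast this)
  have hW : Zab 0 3 6 40 ≤ q * (1014 / 1000) := by
    have := nZ03_40 hT
    unfold nZ at this
    exact exp_mul_le (by exact_mod_cast this)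
  have hvac : q * (100144 / 100000) ≤ Real.exp (-6 * E) := by
    have h1 : -(6 * e0 * 40) + 144 / 100000 ≤ -6 * E := by linarith
    have h2 : Real.exp (-(6 * e0 * 40) + 144 / 100000) ≤ Real.exp (-6 * E) :=
      Real.exp_le_exp.2 h1
    rw [Real.exp_add] at h2
    have h3 : (100144 / 100000 : ℝ) ≤ Real.exp (144 / 100000) := by
      have := Real.add_one_le_exp (144 / 100000 : ℝ)
      linarith
    calc q * (100144 / 100000) ≤ q * Real.exp (144 / 100000) :=
          mul_le_mul_of_nonneg_left h3 hq0.le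
      _ ≤ _ := h2
  have hb1 : Real.exp (-6 * (40 * e0 + 19 / 100)) ≥ q * (3137 / 10000) := by
    have h1 : -6 * (40 * e0 + 19 / 100) = -(6 * e0 * 40) + -(114 / 100) := by ring
    rw [h1, Real.exp_add]
    apply mul_le_mul_of_nonneg_left _ hq0.le
    rw [Real.exp_neg]
    have h2 : Real.exp (114 / 100) ≤ 3161 / 1000 := by
      have h3 : Real.exp (114 / 100) = Real.exp 1 * Real.exp (14 / 100) := by
        rw [← Real.exp_add]; norm_num
      have h4 : Real.exp (14 / 100) ≤ 1 / (1 - 14 / 100) :=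
        Real.exp_bound_div_one_sub_of_interval' (by norm_num) (by norm_num) |>.le
      have h5 := Real.exp_one_lt_d9
      rw [h3]
      calc Real.exp 1 * Real.exp (14 / 100) ≤ 2.7182818286 * (1 / (1 - 14 / 100)) := by
            apply mul_le_mul h5.le h4 (Real.exp_pos _).le (by norm_num)
        _ ≤ _ := by norm_num
    have h6 : (0 : ℝ) < Real.exp (114 / 100) := Real.exp_pos _
    rw [le_inv_comm₀ (by norm_num) h6]
    calc Real.exp (114 / 100) ≤ 3161 / 1000 := h2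
      _ ≤ _ := by norm_num
  have key := ring_direct_bound 40 (by norm_num) (β := 6) (Zb := q * (1942 / 1000))
    (Wb := q * (1014 / 1000)) (E := E) (v := v) (a := q * (2446 / 10000))
    (b := q * (3136 / 10000)) (μ := 40 * e0 + 19 / 100) (by norm_num) hZ hW ψ hψ hE hv
    (by nlinarith) (by nlinarith) (by nlinarith) (by linarith) (by nlinarith) (by nlinarith)
    k (by omega)
  have hqk : Real.exp (k * 6 * e0 * 40) * q ^ k = 1 := by
    rw [hq, ← Real.exp_nat_mul, ← Real.exp_add]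
    rw [show (k : ℝ) * 6 * e0 * 40 + k * -(6 * e0 * 40) = 0 by ring, Real.exp_zero]
  have hexp : Real.exp (k * 6 * e0 * 40) *
      Real.exp (-(k * 6) * (E - v / (40 * e0 + 19 / 100 - E))) ≤
      Real.exp (k * 6 * (587 / 1000000)) := by
    rw [← Real.exp_add]
    apply Real.exp_le_exp.2
    have hd : 19024 / 100000 ≤ 40 * e0 + 19 / 100 - E := by linarith
    have hdv : v / (40 * e0 + 19 / 100 - E) ≤ 316 / 1000000 := by
      rw [div_le_iff₀ (by linarith)]
      linarith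
    have hk0 : (0 : ℝ) ≤ k * 6 := by positivity
    have h7 : e0 * 40 - (E - v / (40 * e0 + 19 / 100 - E)) ≤ 587 / 1000000 := by linarith
    have h8 := mul_le_mul_of_nonneg_left h7 hk0
    linarith
  have hk8 : ∀ c : ℝ, 0 ≤ c → c ≤ 1 → c ^ k ≤ c ^ 8 := fun c h0 h1 =>
    pow_le_pow_of_le_one h0 h1 hk
  have ha := hk8 (2446 / 10000) (by norm_num) (by norm_num)
  have hb := hk8 (3136 / 10000) (by norm_num) (by norm_num)
  calc Real.exp (k * 6 * e0 * 40) * Zr (k * 6) 40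
      ≤ Real.exp (k * 6 * e0 * 40) * (Real.exp (-(k * 6) *
          (E - v / (40 * e0 + 19 / 100 - E))) + (q * (2446 / 10000)) ^ k +
          3 * (q * (3136 / 10000)) ^ k) :=
        mul_le_mul_of_nonneg_left key (Real.exp_pos _).le
    _ = Real.exp (k * 6 * e0 * 40) * Real.exp (-(k * 6) *
          (E - v / (40 * e0 + 19 / 100 - E))) +
          (Real.exp (k * 6 * e0 * 40) * q ^ k) * (2446 / 10000) ^ k +
          3 * ((Real.exp (k * 6 * e0 * 40) * q ^ k) * (3136 / 10000) ^ k) := by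
        rw [mul_pow, mul_pow]; ring
    _ ≤ Real.exp (k * 6 * (587 / 1000000)) + 3 / 10000 := by
        rw [hqk]
        have ha' : (2446 / 10000 : ℝ) ^ 8 ≤ 13 / 1000000 := by norm_num
        have hb' : (3136 / 10000 : ℝ) ^ 8 ≤ 936 / 10000000 := by norm_num
        linarith

/-- The base inequality for the rings of 40 and 80 sites (`β₀ = 48`). -/
theorem base545 (hT : RingTraces) (hM : RingMPS) :
    (197 : ℝ) / 225 * Zr 48 40 ^ 4 ≤ Zr (2 * 48) (2 * 40) := by
  have h40 := Zr40_le hT hM 8 le_rfl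
  norm_num at h40
  obtain ⟨ψ, hψ, hE⟩ := hM.ex80
  have h80 := ring_var_bound 80 (by norm_num) (β := 96) (E := 80 * e0 + 3 / 100000)
    (by norm_num) ψ hψ hE
  have hZ0 : 0 < Zr 48 40 := Zr_pos _ _ (by norm_num)
  set X := Real.exp (48 * e0 * 40) * Zr 48 40 with hX
  have hX0 : 0 < X := mul_pos (Real.exp_pos _) hZ0
  have hX1 : X ≤ 10296 / 10000 := by
    have h1 : Real.exp (3522 / 125000) ≤ 1 / (1 - 3522 / 125000) :=
      Real.exp_bound_div_one_sub_of_interval' (by norm_num) (by norm_num) |>.le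
    norm_num at h1
    linarith
  have hX4 : X ^ 4 ≤ (10296 / 10000) ^ 4 := pow_le_pow_left₀ hX0.le hX1 4
  have hlow : (1 - 96 * 3 / 100000 : ℝ) ≤ Real.exp (96 * e0 * 80) * Zr 96 80 := by
    have h1 : Real.exp (96 * e0 * 80) * Real.exp (-96 * (80 * e0 + 3 / 100000)) ≤
        Real.exp (96 * e0 * 80) * Zr 96 80 :=
      mul_le_mul_of_nonneg_left h80 (Real.exp_pos _).le
    rw [← Real.exp_add] at h1
    have h2 := Real.add_one_le_exp (96 * e0 * 80 + -96 * (80 * e0 + 3 / 100000))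
    linarith
  have hXr : X ^ 4 = Real.exp (96 * e0 * 80) * Zr 48 40 ^ 4 := by
    rw [hX, mul_pow, ← Real.exp_nat_mul]
    congr 2
    push_cast; ring
  have hfin : 197 / 225 * (Real.exp (96 * e0 * 80) * Zr 48 40 ^ 4) ≤
      Real.exp (96 * e0 * 80) * Zr 96 80 := by
    rw [← hXr]
    norm_num at hX4 hlow ⊢
    linarith
  have hep : (0 : ℝ) < Real.exp (96 * e0 * 80) := Real.exp_pos _
  have : Real.exp (96 * e0 * 80) * (197 / 225 * Zr 48 40 ^ 4) ≤
      Real.exp (96 * e0 * 80) * Zr 96 80 := by linarith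
  have := le_of_mul_le_mul_left this hep
  norm_num
  linarith

end Crest.Agent.R347
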