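import Crest.Agent.R347.Closure545
import Crest.Agent.R347.OpenJoint

/-! Numerical closure for the open chain. -/

set_option autoImplicit false

namespace Crest.Agent.R347

open Matrix Crest.MathPhysics.SpinChain

theorem JPSL.mul_pow {A K : ℕ → ℝ} (h : JPSL A K) {c : ℝ} (hc : 0 ≤ c) :
    JPSL (fun l => c ^ l * A l) (fun l => c ^ l * K l) := by
  obtain ⟨a, k, hf, hK⟩ := h
  refine ⟨fun n l => c ^ l * a n l, fun n l => c ^ l * k n l, fun n => ?_, fun l hl =>
    ⟨(hK l hl).1.const_mul _, (hK l hl).2.const_mul _⟩⟩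
  obtain ⟨m, x, w, hx, hw, hl⟩ := hf n
  refine ⟨m, fun i => c * x i, w, fun i => mul_nonneg hc (hx i), hw, fun l hl1 => ?_⟩
  obtain ⟨h1, h2⟩ := hl l hl1
  simp only [h1, h2, _root_.mul_pow, Finset.mul_sum]
  exact ⟨trivial, Finset.sum_congr rfl fun i _ => by ring⟩

/-- Normalised open sector sums. -/
noncomputable def ae (l : ℕ) : ℝ := (nO Yo (2 * l) + nO Xo (2 * l)) / 2
noncomputable def ao (l : ℕ) : ℝ := (nO Yo (2 * l) - nO Xo (2 * l)) / 2
noncomputable def be (l : ℕ) : ℝ := (nO Yp (2 * l) + nO Xp (2 * l)) / 2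
noncomputable def bo (l : ℕ) : ℝ := (nO Yp (2 * l) - nO Xp (2 * l)) / 2

theorem nO_eq (f : ℝ → ℕ → ℝ) (l : ℕ) :
    nO f (2 * l) = Real.exp (12 * e0) ^ l * f 6 (2 * l) := by
  unfold nO
  congr 1
  rw [← Real.exp_nat_mul]
  congr 1
  push_cast
  ring

theorem JPSL_ae : JPSL ae kt := by
  have h := (JPSL_Ae 6 (by norm_num)).mul_pow (Real.exp_pos (12 * e0)).le
  convert h using 1
  · funext l; simp only [ae, nO_eq]; ring
  · funext l; simp only [kt, nZ_eq]; ring

theorem JPSL_ao : JPSL ao kc := by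
  have h := (JPSL_Ao 6 (by norm_num)).mul_pow (Real.exp_pos (12 * e0)).le
  convert h using 1
  · funext l; simp only [ao, nO_eq]; ring
  · funext l; simp only [kc, nZ_eq]; ring

theorem JPSL_be : JPSL be jt := by
  have h := (JPSL_Be 6 (by norm_num)).mul_pow (Real.exp_pos (12 * e0)).le
  convert h using 1
  · funext l; simp only [be, nO_eq]; ring
  · funext l; simp only [jt, nZ_eq]; ring

theorem JPSL_bo : JPSL bo jz := by
  have h := (JPSL_Bo 6 (by norm_num)).mul_pow (Real.exp_pos (12 * e0)).le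
  convert h using 1
  · funext l; simp only [bo, nO_eq]; ring
  · funext l; simp only [jz, nZ_eq]; ring

/-- `A 20 ≤ x ^ 16 * A 4` when the ratio bound `x` holds. -/
theorem ratio16 {A : ℕ → ℝ} {x : ℝ} (hx : 0 ≤ x) (h : ∀ l, 1 ≤ l → A (l + 1) ≤ x * A l) :
    A 20 ≤ x ^ 16 * A 4 := by
  have h1 : ∀ k, A (4 + k) ≤ x ^ k * A 4 := by
    intro k
    induction k with
    | zero => simp
    | succ k ih =>
      calc A (4 + (k + 1)) ≤ x * A (4 + k) := h (4 + k) (by omega)
        _ ≤ x * (x ^ k * A 4) := mul_le_mul_of_nonneg_left ih hx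
        _ = x ^ (k + 1) * A 4 := by ring
  exact h1 16

/-- the top of `kt` (ratio bound) in joint form: `x ≤ 1.033`. -/
theorem ae_20 (hT : RingTraces) (hO : OpenTraces) : ae 20 ≤ 16242 / 100000 := by
  have k2pos : 0 < kt 2 := by
    have a1 := abs_le.1 hT.z00_4
    have a2 := abs_le.1 hT.z30_4
    simp only [kt, show 2 * 2 = 4 from rfl]; linarith
  obtain ⟨x, w, hx, hw, hr, hq, hA⟩ := JPSL_ae.exists_top k2pos
  have hr' := hr.psl
  have a1 := abs_le.1 hT.z00_4
  have a2 := abs_le.1 hT.z30_4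
  have b1 := abs_le.1 hT.z00_6
  have b2 := abs_le.1 hT.z30_6
  have c1 := abs_le.1 hT.z00_8
  have c2 := abs_le.1 hT.z30_8
  have k2 : kt 2 ≤ 29073 / 10000 := by
    simp only [kt, show 2 * 2 = 4 from rfl]; linarith
  have k3 : 13600 / 10000 ≤ kt 3 := by
    simp only [kt, show 2 * 3 = 6 from rfl]; linarith
  have k4 : kt 4 ≤ 11725 / 10000 := by
    simp only [kt, show 2 * 4 = 8 from rfl]; linarith
  have h2 : x ^ 2 ≤ kt 2 := by
    have := hr'.nonneg (l := 2) (by norm_num); simpa using this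
  have h3 : x ^ 3 ≤ kt 3 := by
    have := hr'.nonneg (l := 3) (by norm_num); simpa using this
  have h4 : x ^ 4 ≤ kt 4 := by
    have := hr'.nonneg (l := 4) (by norm_num); simpa using this
  have hx1 : x ≤ 1033 / 1000 :=
    top_kt hx.le k2 k3 k4 h2 h3 h4 (hr'.hankel (l := 2) (by norm_num))
  have h20 := ratio16 hx.le hA
  have o1 := abs_le.1 hO.y_8
  have o2 := abs_le.1 hO.x_8
  have hae : ae 4 ≤ 966057 / 10000000 := by
    simp only [ae, show 2 * 4 = 8 from rfl]; linarith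
  have hae0 : 0 ≤ ae 4 := JPSL_ae.nonneg (by norm_num)
  have hx16 : x ^ 16 ≤ (1033 / 1000) ^ 16 := pow_le_pow_left₀ hx.le hx1 16
  calc ae 20 ≤ x ^ 16 * ae 4 := h20
    _ ≤ (1033 / 1000) ^ 16 * (966057 / 10000000) := by
        apply mul_le_mul hx16 hae hae0 (by norm_num)
    _ ≤ _ := by norm_num

theorem bo_20 (hT : RingTraces) (hO : OpenTraces) : bo 20 ≤ 8579 / 100000 := by
  have k2pos : 0 < jz 2 := by
    have a1 := abs_le.1 hT.z03_4
    have a2 := abs_le.1 hT.z33_4
    have a3 := abs_le.1 hT.z13_4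
    simp only [jz, show 2 * 2 = 4 from rfl]; linarith
  obtain ⟨x, w, hx, hw, hr, hq, hA⟩ := JPSL_bo.exists_top k2pos
  have hr' := hr.psl
  have a1 := abs_le.1 hT.z03_4
  have a2 := abs_le.1 hT.z33_4
  have a3 := abs_le.1 hT.z13_4
  have b1 := abs_le.1 hT.z03_6
  have b2 := abs_le.1 hT.z33_6
  have b3 := abs_le.1 hT.z13_6
  have c1 := abs_le.1 hT.z03_8
  have c2 := abs_le.1 hT.z33_8
  have c3 := abs_le.1 hT.z13_8
  have k2 : jz 2 ≤ 28373 / 10000 := by
    simp only [jz, show 2 * 2 = 4 from rfl]; linarith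
  have k3 : 12503 / 10000 ≤ jz 3 := by
    simp only [jz, show 2 * 3 = 6 from rfl]; linarith
  have k4 : jz 4 ≤ 10314 / 10000 := by
    simp only [jz, show 2 * 4 = 8 from rfl]; linarith
  have h2 : x ^ 2 ≤ jz 2 := by
    have := hr'.nonneg (l := 2) (by norm_num); simpa using this
  have h3 : x ^ 3 ≤ jz 3 := by
    have := hr'.nonneg (l := 3) (by norm_num); simpa using this
  have h4 : x ^ 4 ≤ jz 4 := by
    have := hr'.nonneg (l := 4) (by norm_num); simpa using this
  have hx1 : x ≤ 9997 / 10000 :=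
    top_jz hx.le k2 k3 k4 h2 h3 h4 (hr'.hankel (l := 2) (by norm_num))
  have h20 := ratio16 hx.le hA
  have o1 := abs_le.1 hO.yp_8
  have o2 := abs_le.1 hO.xp_8
  have hbo : bo 4 ≤ 8579 / 100000 := by
    simp only [bo, show 2 * 4 = 8 from rfl]; linarith
  have hbo0 : 0 ≤ bo 4 := JPSL_bo.nonneg (by norm_num)
  have hx16 : x ^ 16 ≤ 1 := pow_le_one₀ hx.le (by linarith)
  calc bo 20 ≤ x ^ 16 * bo 4 := h20
    _ ≤ 1 * (8579 / 100000) := by
        apply mul_le_mul hx16 hbo hbo0 (by norm_num)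
    _ ≤ _ := by norm_num

theorem ao_20 (hT : RingTraces) (hO : OpenTraces) : ao 20 ≤ 100 / 100000 := by
  have h := JPSL_ao.le_mul (l := 4) (m := 16) (by norm_num) (by norm_num)
  have h16 := PSL_kc.pow_le (l := 4) (k := 4) (by norm_num) (by norm_num)
  have h0 := PSL_kc.nonneg (l := 4) (by norm_num)
  have c1 := abs_le.1 hT.z00_8
  have c2 := abs_le.1 hT.z30_8
  have k4 : kc 4 ≤ 37560 / 100000 := by
    simp only [kc, show 2 * 4 = 8 from rfl]; linarith
  have hp := pow_le_pow_left₀ h0 k4 4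
  have o1 := abs_le.1 hO.y_8
  have o2 := abs_le.1 hO.x_8
  have hao : ao 4 ≤ 498 / 10000 := by
    simp only [ao, show 2 * 4 = 8 from rfl]; linarith
  have hao0 : 0 ≤ ao 4 := JPSL_ao.nonneg (by norm_num)
  have hkc16 : 0 ≤ kc 16 := PSL_kc.nonneg (by norm_num)
  norm_num at h h16 hp
  calc ao 20 ≤ ao 4 * kc 16 := h
    _ ≤ (498 / 10000) * (kc 4 ^ 4) := mul_le_mul hao h16 hkc16 (by norm_num)
    _ ≤ (498 / 10000) * (777796321 / 39062500000) := by linarith
    _ ≤ _ := by norm_num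

theorem be_20 (hT : RingTraces) (hO : OpenTraces) : be 20 ≤ 120 / 100000 := by
  have h := JPSL_be.le_mul (l := 4) (m := 16) (by norm_num) (by norm_num)
  have h16 := PSL_jt.pow_le (l := 4) (k := 4) (by norm_num) (by norm_num)
  have h0 := PSL_jt.nonneg (l := 4) (by norm_num)
  have c1 := abs_le.1 hT.z03_8
  have c2 := abs_le.1 hT.z33_8
  have c3 := abs_le.1 hT.z13_8
  have k4 : jt 4 ≤ 38630 / 100000 := by
    simp only [jt, show 2 * 4 = 8 from rfl]; linarith
  have hp := pow_le_pow_left₀ h0 k4 4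
  have o1 := abs_le.1 hO.yp_8
  have o2 := abs_le.1 hO.xp_8
  have hbe : be 4 ≤ 524 / 10000 := by
    simp only [be, show 2 * 4 = 8 from rfl]; linarith
  have hbe0 : 0 ≤ be 4 := JPSL_be.nonneg (by norm_num)
  have hjt16 : 0 ≤ jt 16 := PSL_jt.nonneg (by norm_num)
  norm_num at h h16
  calc be 20 ≤ be 4 * jt 16 := h
    _ ≤ (524 / 10000) * (jt 4 ^ 4) := mul_le_mul hbe h16 hjt16 (by norm_num)
    _ ≤ (524 / 10000) * ((38630 / 100000) ^ 4) := by linarith
    _ ≤ _ := by norm_num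

theorem nYo_40 (hT : RingTraces) (hO : OpenTraces) : nO Yo 40 ≤ 16342 / 100000 := by
  have h1 := ae_20 hT hO
  have h2 := ao_20 hT hO
  simp only [ae, ao, show 2 * 20 = 40 from rfl] at h1 h2
  linarith

theorem nYp_40 (hT : RingTraces) (hO : OpenTraces) : nO Yp 40 ≤ 8699 / 100000 := by
  have h1 := bo_20 hT hO
  have h2 := be_20 hT hO
  simp only [be, bo, show 2 * 20 = 40 from rfl] at h1 h2
  linarith

/-- numerical exponential bounds. -/
theorem exp_24135 : Real.exp (24135 / 10000) ≤ 11185 / 1000 := by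
  have h3 : Real.exp (24135 / 10000) = Real.exp 1 ^ 2 * Real.exp (4135 / 10000) := by
    rw [← Real.exp_nat_mul, ← Real.exp_add]; norm_num
  have h4 := Real.exp_bound' (x := 4135 / 10000) (by norm_num) (by norm_num) (n := 6)
    (by norm_num)
  norm_num [Finset.sum_range_succ, Nat.factorial] at h4
  have h5 := Real.exp_one_lt_d9
  have h6 : Real.exp 1 ^ 2 ≤ 2.7182818286 ^ 2 := pow_le_pow_left₀ (Real.exp_pos _).le h5.le 2
  rw [h3]
  calc Real.exp 1 ^ 2 * Real.exp (4135 / 10000)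
      ≤ 2.7182818286 ^ 2 * Real.exp (4135 / 10000) :=
        mul_le_mul_of_nonneg_right h6 (Real.exp_pos _).le
    _ ≤ _ := by
        norm_num at h4 ⊢
        nlinarith [h4]

theorem exp_3294 : Real.exp (3294 / 1000) ≤ 2702 / 100 := by
  have h3 : Real.exp (3294 / 1000) = Real.exp 1 ^ 3 * Real.exp (294 / 1000) := by
    rw [← Real.exp_nat_mul, ← Real.exp_add]; norm_num
  have h4 := Real.exp_bound' (x := 294 / 1000) (by norm_num) (by norm_num) (n := 6)
    (by norm_num)
  norm_num [Finset.sum_range_succ, Nat.factorial] at h4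
  have h5 := Real.exp_one_lt_d9
  have h6 : Real.exp 1 ^ 3 ≤ 2.7182818286 ^ 3 := pow_le_pow_left₀ (Real.exp_pos _).le h5.le 3
  rw [h3]
  calc Real.exp 1 ^ 3 * Real.exp (294 / 1000)
      ≤ 2.7182818286 ^ 3 * Real.exp (294 / 1000) :=
        mul_le_mul_of_nonneg_right h6 (Real.exp_pos _).le
    _ ≤ _ := by
        norm_num at h4 ⊢
        nlinarith [h4]

theorem exp_24096 : Real.exp (24096 / 10000) ≤ 1113 / 100 := by
  have h3 : Real.exp (24096 / 10000) = Real.exp 1 ^ 2 * Real.exp (4096 / 10000) := by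
    rw [← Real.exp_nat_mul, ← Real.exp_add]; norm_num
  have h4 := Real.exp_bound' (x := 4096 / 10000) (by norm_num) (by norm_num) (n := 6)
    (by norm_num)
  norm_num [Finset.sum_range_succ, Nat.factorial] at h4
  have h5 := Real.exp_one_lt_d9
  have h6 : Real.exp 1 ^ 2 ≤ 2.7182818286 ^ 2 := pow_le_pow_left₀ (Real.exp_pos _).le h5.le 2
  rw [h3]
  calc Real.exp 1 ^ 2 * Real.exp (4096 / 10000)
      ≤ 2.7182818286 ^ 2 * Real.exp (4096 / 10000) :=
        mul_le_mul_of_nonneg_right h6 (Real.exp_pos _).le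
    _ ≤ _ := by
        norm_num at h4 ⊢
        nlinarith [h4]

/-- Upper bound for the open chain of 40 sites (opposite fields) at `β = 48`, normalised. -/
theorem Yo48_le (hT : RingTraces) (hO : OpenTraces) (hM : OpenMPS) :
    Real.exp (48 * e0 * 40) * Yo 48 40 ≤
      Real.exp (-(48 * (4016 / 10000))) * (10024 / 10000) := by
  obtain ⟨ψ, E, v, hψ, hE, hv, hE1, hE2, hv1⟩ := hM.ex40
  set q := Real.exp (-(6 * e0 * 40)) with hq
  have hq0 : 0 < q := Real.exp_pos _
  have hY : Yo 6 (39 + 1) ≤ q * (16342 / 100000) := by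
    have := nYo_40 hT hO
    unfold nO at this
    exact exp_mul_le (by exact_mod_cast this)
  have hW : Yp 6 (39 + 1) ≤ q * (8699 / 100000) := by
    have := nYp_40 hT hO
    unfold nO at this
    exact exp_mul_le (by exact_mod_cast this)
  have hvac : q * (89405 / 1000000) ≤ Real.exp (-6 * E) := by
    have h1 : -(6 * e0 * 40) + -(24135 / 10000) ≤ -6 * E := by linarith
    have h2 : Real.exp (-(6 * e0 * 40) + -(24135 / 10000)) ≤ Real.exp (-6 * E) :=
      Real.exp_le_exp.2 h1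
    rw [Real.exp_add] at h2
    have h3 : (89405 / 1000000 : ℝ) ≤ Real.exp (-(24135 / 10000)) := by
      rw [Real.exp_neg, le_inv_comm₀ (by norm_num) (Real.exp_pos _)]
      exact exp_24135.trans (by norm_num)
    calc q * (89405 / 1000000) ≤ q * Real.exp (-(24135 / 10000)) :=
          mul_le_mul_of_nonneg_left h3 hq0.le
      _ ≤ _ := h2
  have hb1 : q * (370095 / 10000000) ≤ Real.exp (-6 * (40 * e0 + 549 / 1000)) := by
    have h1 : -6 * (40 * e0 + 549 / 1000) = -(6 * e0 * 40) + -(3294 / 1000) := by ring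
    rw [h1, Real.exp_add]
    apply mul_le_mul_of_nonneg_left _ hq0.le
    rw [Real.exp_neg, le_inv_comm₀ (by norm_num) (Real.exp_pos _)]
    exact exp_3294.trans (by norm_num)
  have key := open_direct_bound 39 (β := 6) (Yb := q * (16342 / 100000))
    (Wb := q * (8699 / 100000)) (E := E) (v := v) (a := q * (359 / 10000))
    (b := q * (37008 / 1000000)) (μ := 40 * e0 + 549 / 1000) (by norm_num) hY hW ψ hψ hE hv
    (by nlinarith) (by nlinarith) (by nlinarith) (by linarith) (by nlinarith) (by nlinarith)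
    8 (by norm_num)
  have key' : Yo 48 40 ≤ Real.exp (-48 * (E - v / (40 * e0 + 549 / 1000 - E))) +
      (q * (359 / 10000)) ^ 8 + 2 * (q * (37008 / 1000000)) ^ 8 := by
    have e1 : ((8 : ℕ) : ℝ) * 6 = 48 := by norm_num
    rw [e1] at key
    have e2 : -48 * (E - v / (40 * e0 + 549 / 1000 - E)) =
      -(48 : ℝ) * (E - v / (40 * e0 + 549 / 1000 - E)) := by ring
    rw [e2]
    exact key
  set W := Real.exp (-(48 * (4016 / 10000))) with hWdef
  have hW0 : 0 < W := Real.exp_pos _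
  have hexp : Real.exp (48 * e0 * 40) *
      Real.exp (-48 * (E - v / (40 * e0 + 549 / 1000 - E))) ≤ W := by
    rw [← Real.exp_add]
    apply Real.exp_le_exp.2
    have hd : 14675 / 100000 ≤ 40 * e0 + 549 / 1000 - E := by linarith
    have hdv : v / (40 * e0 + 549 / 1000 - E) ≤ 546 / 1000000 := by
      rw [div_le_iff₀ (by linarith)]
      linarith
    linarith
  have hq8 : Real.exp (48 * e0 * 40) * q ^ 8 = 1 := by
    rw [hq, ← Real.exp_nat_mul, ← Real.exp_add]
    rw [show (48 : ℝ) * e0 * 40 + ((8 : ℕ) : ℝ) * -(6 * e0 * 40) = 0 by push_cast; ring,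
      Real.exp_zero]
  -- compare with `W`
  have hWr : 1 ≤ W * (1113 / 100) ^ 8 := by
    have h1 : Real.exp (24096 / 10000) ^ 8 ≤ (1113 / 100) ^ 8 :=
      pow_le_pow_left₀ (Real.exp_pos _).le exp_24096 8
    have h2 : W * Real.exp (24096 / 10000) ^ 8 = 1 := by
      rw [hWdef, ← Real.exp_nat_mul, ← Real.exp_add]
      rw [show -(48 * (4016 / 10000) : ℝ) + ((8 : ℕ) : ℝ) * (24096 / 10000) = 0 by
        push_cast; ring, Real.exp_zero]
    calc (1 : ℝ) = W * Real.exp (24096 / 10000) ^ 8 := h2.symm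
      _ ≤ _ := mul_le_mul_of_nonneg_left h1 hW0.le
  have hc1 : ((359 / 10000 : ℝ)) ^ 8 ≤ W * (66 / 100000) := by
    calc ((359 / 10000 : ℝ)) ^ 8 = 1 * (359 / 10000) ^ 8 := by ring
      _ ≤ (W * (1113 / 100) ^ 8) * (359 / 10000) ^ 8 :=
          mul_le_mul_of_nonneg_right hWr (by positivity)
      _ = W * ((1113 / 100) ^ 8 * (359 / 10000) ^ 8) := by ring
      _ ≤ W * (66 / 100000) := mul_le_mul_of_nonneg_left (by norm_num) hW0.le
  have hc2 : ((37008 / 1000000 : ℝ)) ^ 8 ≤ W * (84 / 100000) := by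
    calc ((37008 / 1000000 : ℝ)) ^ 8 = 1 * (37008 / 1000000) ^ 8 := by ring
      _ ≤ (W * (1113 / 100) ^ 8) * (37008 / 1000000) ^ 8 :=
          mul_le_mul_of_nonneg_right hWr (by positivity)
      _ = W * ((1113 / 100) ^ 8 * (37008 / 1000000) ^ 8) := by ring
      _ ≤ W * (84 / 100000) := mul_le_mul_of_nonneg_left (by norm_num) hW0.le
  calc Real.exp (48 * e0 * 40) * Yo 48 40
      ≤ Real.exp (48 * e0 * 40) * (Real.exp (-48 * (E - v / (40 * e0 + 549 / 1000 - E))) +
      (q * (359 / 10000)) ^ 8 + 2 * (q * (37008 / 1000000)) ^ 8) :=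
        mul_le_mul_of_nonneg_left key' (Real.exp_pos _).le
    _ = Real.exp (48 * e0 * 40) * Real.exp (-48 * (E - v / (40 * e0 + 549 / 1000 - E))) +
      (Real.exp (48 * e0 * 40) * q ^ 8) * (359 / 10000) ^ 8 +
      2 * ((Real.exp (48 * e0 * 40) * q ^ 8) * (37008 / 1000000) ^ 8) := by
        rw [mul_pow, mul_pow]; ring
    _ ≤ W * (10024 / 10000) := by
        rw [hq8]
        linarith

/-- The base inequality for the open chains. -/
theorem base546 (hT : RingTraces) (hR : RingMPS) (hO : OpenTraces) (hM : OpenMPS) :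
    (78 : ℝ) / 100 * (Yo 48 40 ^ 2 * Zr (2 * 48) 40) ≤ Yo (2 * 48) (2 * 40) := by
  have hY := Yo48_le hT hO hM
  have hZ := Zr40_le hT hR 16 (by norm_num)
  norm_num at hZ
  obtain ⟨ψ, hψ, hE⟩ := hM.ex80
  have h80 := open_var_bound 79 (β := 96) (E := 80 * e0 + 4028 / 10000) (by norm_num) ψ hψ hE
  norm_num at h80
  set W := Real.exp (-(48 * (4016 / 10000))) with hWdef
  have hW0 : 0 < W := Real.exp_pos _
  have hY0 : 0 < Yo 48 40 := Yo_pos _ _ (by norm_num)
  have hZ0 : 0 < Zr 96 40 := Zr_pos _ _ (by norm_num)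
  set X := Real.exp (48 * e0 * 40) * Yo 48 40 with hX
  have hX0 : 0 < X := mul_pos (Real.exp_pos _) hY0
  set V := Real.exp (96 * e0 * 40) * Zr 96 40 with hV
  have hV0 : 0 < V := mul_pos (Real.exp_pos _) hZ0
  have hV1 : V ≤ 1061 / 1000 := by
    have h1 : Real.exp (3522 / 62500) ≤ 1 / (1 - 3522 / 62500) :=
      Real.exp_bound_div_one_sub_of_interval' (by norm_num) (by norm_num) |>.le
    norm_num at h1
    linarith
  have hX2 : X ^ 2 ≤ (W * (10024 / 10000)) ^ 2 := pow_le_pow_left₀ hX0.le hY 2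
  have hprod : X ^ 2 * V ≤ (W * (10024 / 10000)) ^ 2 * (1061 / 1000) :=
    mul_le_mul hX2 hV1 hV0.le (by positivity)
  have hlow : W ^ 2 * (8848 / 10000) ≤ Real.exp (96 * e0 * 80) * Yo 96 80 := by
    have h1 : Real.exp (96 * e0 * 80) * Real.exp (-(96 * (80 * e0 + 1007 / 2500))) ≤
        Real.exp (96 * e0 * 80) * Yo 96 80 :=
      mul_le_mul_of_nonneg_left h80 (Real.exp_pos _).le
    rw [← Real.exp_add] at h1
    have h2 : Real.exp (96 * e0 * 80 + -(96 * (80 * e0 + 1007 / 2500))) =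
        W ^ 2 * Real.exp (-(1152 / 10000)) := by
      rw [hWdef, ← Real.exp_nat_mul, ← Real.exp_add]
      congr 1
      push_cast; ring
    rw [h2] at h1
    have h3 := Real.add_one_le_exp (-(1152 / 10000) : ℝ)
    have h4 : W ^ 2 * (8848 / 10000) ≤ W ^ 2 * Real.exp (-(1152 / 10000)) :=
      mul_le_mul_of_nonneg_left (by linarith) (by positivity)
    linarith
  have hfin : 78 / 100 * (X ^ 2 * V) ≤ Real.exp (96 * e0 * 80) * Yo 96 80 := by
    have hW2 : 0 < W ^ 2 := by positivity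
    nlinarith
  have hXV : X ^ 2 * V = Real.exp (96 * e0 * 80) * (Yo 48 40 ^ 2 * Zr 96 40) := by
    rw [hX, hV, mul_pow, ← Real.exp_nat_mul]
    rw [show Real.exp (((2 : ℕ) : ℝ) * (48 * e0 * 40)) * Yo 48 40 ^ 2 *
      (Real.exp (96 * e0 * 40) * Zr 96 40) =
      (Real.exp (((2 : ℕ) : ℝ) * (48 * e0 * 40)) * Real.exp (96 * e0 * 40)) *
        (Yo 48 40 ^ 2 * Zr 96 40) by ring, ← Real.exp_add]
    congr 2
    push_cast; ring
  rw [hXV] at hfin
  have hep : (0 : ℝ) < Real.exp (96 * e0 * 80) := Real.exp_pos _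
  have h9 : Real.exp (96 * e0 * 80) * (78 / 100 * (Yo 48 40 ^ 2 * Zr 96 40)) ≤
      Real.exp (96 * e0 * 80) * Yo 96 80 := by linarith
  have := le_of_mul_le_mul_left h9 hep
  norm_num
  linarith

end Crest.Agent.R347
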