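import Crest.Agent.R347.Basic

/-! Trotter-type limit in a Banach algebra. -/

set_option autoImplicit false

namespace Crest.Agent.R347

open Filter Topology

namespace TrotterAux

variable {A : Type*} [NormedRing A]

theorem pow_mul_bound (Y Z : A) (k : ℕ) : ‖(1 + Y) ^ k * Z‖ ≤ (1 + ‖Y‖) ^ k * ‖Z‖ := by
  induction k with
  | zero => simp
  | succ k ih =>
    have h1 : (1 + Y) ^ (k + 1) * Z = (1 + Y) ^ k * Z + Y * ((1 + Y) ^ k * Z) := by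
      rw [pow_succ', mul_assoc, add_mul, one_mul]
    rw [h1]
    calc ‖(1 + Y) ^ k * Z + Y * ((1 + Y) ^ k * Z)‖
        ≤ ‖(1 + Y) ^ k * Z‖ + ‖Y * ((1 + Y) ^ k * Z)‖ := norm_add_le _ _
      _ ≤ ‖(1 + Y) ^ k * Z‖ + ‖Y‖ * ‖(1 + Y) ^ k * Z‖ := by
          gcongr
          exact norm_mul_le _ _
      _ = (1 + ‖Y‖) * ‖(1 + Y) ^ k * Z‖ := by ring
      _ ≤ (1 + ‖Y‖) * ((1 + ‖Y‖) ^ k * ‖Z‖) := by
          gcongr
      _ = (1 + ‖Y‖) ^ (k + 1) * ‖Z‖ := by ring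

theorem one_mul_norm_le (Y Z : A) : ‖(1 + Y) * Z‖ ≤ (1 + ‖Y‖) * ‖Z‖ := by
  have := pow_mul_bound Y Z 1
  simpa using this

theorem pow_sub_pow_bound (Y W : A) (k : ℕ) :
    ‖(1 + Y) ^ k - (1 + W) ^ k‖ ≤
      k * ((1 + ‖Y‖) ^ k * ((1 + ‖W‖) ^ k * ‖(1 : A)‖)) * ‖Y - W‖ := by
  induction k with
  | zero => simp
  | succ k ih =>
    have h1 : (1 + Y) ^ (k + 1) - (1 + W) ^ (k + 1) =
        (1 + Y) * ((1 + Y) ^ k - (1 + W) ^ k) + (Y - W) * (1 + W) ^ k := by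
      rw [pow_succ' (1 + Y), pow_succ' (1 + W)]
      noncomm_ring
    have hB : ‖(1 + W) ^ k‖ ≤ (1 + ‖W‖) ^ k * ‖(1 : A)‖ := by
      have := pow_mul_bound W 1 k
      simpa using this
    have hY1 : (1 : ℝ) ≤ 1 + ‖Y‖ := by have := norm_nonneg Y; linarith
    have hW1 : (1 : ℝ) ≤ 1 + ‖W‖ := by have := norm_nonneg W; linarith
    have h2 : (1 + ‖W‖) ^ k ≤ (1 + ‖W‖) ^ (k + 1) := pow_le_pow_right₀ hW1 (Nat.le_succ k)
    have h3 : (1 : ℝ) ≤ (1 + ‖Y‖) ^ (k + 1) := one_le_pow₀ hY1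
    rw [h1]
    calc ‖(1 + Y) * ((1 + Y) ^ k - (1 + W) ^ k) + (Y - W) * (1 + W) ^ k‖
        ≤ ‖(1 + Y) * ((1 + Y) ^ k - (1 + W) ^ k)‖ + ‖(Y - W) * (1 + W) ^ k‖ := norm_add_le _ _
      _ ≤ (1 + ‖Y‖) * ‖(1 + Y) ^ k - (1 + W) ^ k‖ + ‖Y - W‖ * ‖(1 + W) ^ k‖ :=
          add_le_add (one_mul_norm_le _ _) (norm_mul_le _ _)
      _ ≤ (1 + ‖Y‖) * (k * ((1 + ‖Y‖) ^ k * ((1 + ‖W‖) ^ k * ‖(1 : A)‖)) * ‖Y - W‖)
            + ‖Y - W‖ * ((1 + ‖W‖) ^ k * ‖(1 : A)‖) := by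
          gcongr
      _ ≤ (1 + ‖Y‖) * (k * ((1 + ‖Y‖) ^ k * ((1 + ‖W‖) ^ (k + 1) * ‖(1 : A)‖)) * ‖Y - W‖)
            + (1 + ‖Y‖) ^ (k + 1) * (‖Y - W‖ * ((1 + ‖W‖) ^ (k + 1) * ‖(1 : A)‖)) := by
          refine add_le_add ?_ ?_
          · gcongr
          · calc ‖Y - W‖ * ((1 + ‖W‖) ^ k * ‖(1 : A)‖)
                ≤ ‖Y - W‖ * ((1 + ‖W‖) ^ (k + 1) * ‖(1 : A)‖) := by gcongr
              _ = 1 * (‖Y - W‖ * ((1 + ‖W‖) ^ (k + 1) * ‖(1 : A)‖)) := by ring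
              _ ≤ (1 + ‖Y‖) ^ (k + 1) * (‖Y - W‖ * ((1 + ‖W‖) ^ (k + 1) * ‖(1 : A)‖)) := by
                  gcongr
      _ = ((k + 1 : ℕ) : ℝ) * ((1 + ‖Y‖) ^ (k + 1) * ((1 + ‖W‖) ^ (k + 1) * ‖(1 : A)‖))
            * ‖Y - W‖ := by
          push_cast
          ring

end TrotterAux

/-- If `G n = 1 + X/n + O(1/n²)` then `(G n)^n → exp X`. -/
theorem trotter_limit {A : Type*} [NormedRing A] [NormedAlgebra ℂ A] [CompleteSpace A]
    (X : A) (G : ℕ → A) (C : ℝ)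
    (h : ∀ n : ℕ, 1 ≤ n → ‖G n - (1 + ((1 / (n : ℂ)) • X))‖ ≤ C / (n : ℝ) ^ 2) :
    Tendsto (fun n => (G n) ^ n) atTop (𝓝 (NormedSpace.exp X)) := by
  classical
  have hC : 0 ≤ C := by
    have := h 1 le_rfl
    have h0 := norm_nonneg (G 1 - (1 + ((1 / ((1 : ℕ) : ℂ)) • X)))
    simp only [Nat.cast_one, one_pow, div_one] at this h0
    exact le_trans h0 this
  -- derivative of exp at 0
  have hd : HasFDerivAt (NormedSpace.exp : A → A) (1 : A →L[ℂ] A) 0 := hasFDerivAt_exp_zero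
  have hlo := hd.isLittleO
  -- the sequence X/n tends to 0
  have hXn : Tendsto (fun n : ℕ => (1 / (n : ℂ)) • X) atTop (𝓝 0) := by
    have h1 : Tendsto (fun n : ℕ => (1 / (n : ℂ))) atTop (𝓝 0) :=
      tendsto_one_div_atTop_nhds_zero_nat
    simpa using h1.smul_const X
  set W : ℕ → A := fun n => NormedSpace.exp ((1 / (n : ℂ)) • X) - 1 with hWdef
  set Y : ℕ → A := fun n => G n - 1 with hYdef
  have hWlo : ∀ ε : ℝ, 0 < ε → ∀ᶠ n : ℕ in atTop,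
      ‖W n - (1 / (n : ℂ)) • X‖ ≤ ε * ((1 / (n : ℝ)) * ‖X‖) := by
    intro ε hε
    have h1 := (hlo.comp_tendsto hXn).def hε
    filter_upwards [h1] with n hn
    simp only [Function.comp_apply, NormedSpace.exp_zero, sub_zero,
      one_apply_eq_self, norm_smul, norm_div, norm_one, Complex.norm_natCast] at hn
    exact hn
  have hnorm : ∀ n : ℕ, ‖(1 / (n : ℂ)) • X‖ = (1 / (n : ℝ)) * ‖X‖ := by
    intro n
    simp [norm_smul]
  -- bounds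
  have hWb : ∀ᶠ n : ℕ in atTop, ‖W n‖ ≤ (2 * ‖X‖) / n := by
    filter_upwards [hWlo 1 one_pos] with n hn
    calc ‖W n‖ = ‖(W n - (1 / (n : ℂ)) • X) + (1 / (n : ℂ)) • X‖ := by rw [sub_add_cancel]
      _ ≤ ‖W n - (1 / (n : ℂ)) • X‖ + ‖(1 / (n : ℂ)) • X‖ := norm_add_le _ _
      _ ≤ 1 * ((1 / (n : ℝ)) * ‖X‖) + (1 / (n : ℝ)) * ‖X‖ := by
          rw [hnorm n] ; gcongr
      _ = (2 * ‖X‖) / n := by ring
  have hYX : ∀ n : ℕ, 1 ≤ n → ‖Y n - (1 / (n : ℂ)) • X‖ ≤ C / (n : ℝ) ^ 2 := by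
    intro n hn
    have : Y n - (1 / (n : ℂ)) • X = G n - (1 + ((1 / (n : ℂ)) • X)) := by
      simp only [hYdef]; abel
    rw [this]
    exact h n hn
  have hYb : ∀ᶠ n : ℕ in atTop, ‖Y n‖ ≤ (‖X‖ + C) / n := by
    filter_upwards [eventually_ge_atTop 1] with n hn
    have hn' : (1 : ℝ) ≤ n := by exact_mod_cast hn
    calc ‖Y n‖ = ‖(Y n - (1 / (n : ℂ)) • X) + (1 / (n : ℂ)) • X‖ := by rw [sub_add_cancel]
      _ ≤ ‖Y n - (1 / (n : ℂ)) • X‖ + ‖(1 / (n : ℂ)) • X‖ := norm_add_le _ _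
      _ ≤ C / (n : ℝ) ^ 2 + (1 / (n : ℝ)) * ‖X‖ := by
          rw [hnorm n]
          gcongr
          exact hYX n hn
      _ ≤ C / (n : ℝ) + (1 / (n : ℝ)) * ‖X‖ := by
          gcongr
          nlinarith
      _ = (‖X‖ + C) / n := by ring
  -- power bounds
  have hpow : ∀ (a : ℝ) (n : ℕ) (Z : A), 0 ≤ a → 1 ≤ n → ‖Z‖ ≤ a / n →
      (1 + ‖Z‖) ^ n ≤ Real.exp a := by
    intro a n Z ha hn hZ
    have hn' : (0 : ℝ) < n := by exact_mod_cast hn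
    calc (1 + ‖Z‖) ^ n ≤ (Real.exp (a / n)) ^ n := by
          gcongr
          have := Real.add_one_le_exp (a / n)
          linarith
      _ = Real.exp a := by
          rw [← Real.exp_nat_mul]
          congr 1
          field_simp
  -- main estimate
  have hexp : ∀ n : ℕ, 1 ≤ n → (1 + W n) ^ n = NormedSpace.exp X := by
    intro n hn
    have hn' : (n : ℂ) ≠ 0 := by exact_mod_cast (by omega : n ≠ 0)
    simp only [hWdef, add_sub_cancel]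
    let _ : NormedAlgebra ℚ A := NormedAlgebra.restrictScalars ℚ ℂ A
    rw [← NormedSpace.exp_nsmul]
    congr 1
    rw [← Nat.cast_smul_eq_nsmul ℂ, smul_smul]
    rw [mul_one_div_cancel hn', one_smul]
  set K : ℝ := Real.exp (‖X‖ + C) * (Real.exp (2 * ‖X‖) * ‖(1 : A)‖) with hK
  have hK0 : 0 ≤ K := by positivity
  have hmain : ∀ᶠ n : ℕ in atTop,
      ‖(G n) ^ n - NormedSpace.exp X‖ ≤ K * ((n : ℝ) * ‖Y n - W n‖) := by
    filter_upwards [hWb, hYb, eventually_ge_atTop 1] with n h1 h2 h3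
    have h4 := TrotterAux.pow_sub_pow_bound (Y n) (W n) n
    rw [hexp n h3] at h4
    have h5 : (1 : A) + Y n = G n := by simp only [hYdef, add_sub_cancel]
    rw [h5] at h4
    refine h4.trans ?_
    have h6 := hpow (‖X‖ + C) n (Y n) (by positivity) h3 h2
    have h7 := hpow (2 * ‖X‖) n (W n) (by positivity) h3 h1
    calc (n : ℝ) * ((1 + ‖Y n‖) ^ n * ((1 + ‖W n‖) ^ n * ‖(1 : A)‖)) * ‖Y n - W n‖
        ≤ (n : ℝ) * (Real.exp (‖X‖ + C) * (Real.exp (2 * ‖X‖) * ‖(1 : A)‖)) * ‖Y n - W n‖ := by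
          gcongr
      _ = K * ((n : ℝ) * ‖Y n - W n‖) := by rw [hK]; ring
  have hlim : Tendsto (fun n : ℕ => K * ((n : ℝ) * ‖Y n - W n‖)) atTop (𝓝 0) := by
    rw [← mul_zero K]
    refine Tendsto.const_mul K ?_
    rw [Metric.tendsto_atTop']
    intro ε hε
    -- choose δ with δ ‖X‖ ≤ ε/4
    have hδ : 0 < ε / (4 * (‖X‖ + 1)) := by positivity
    have hev1 := hWlo _ hδ
    have hev2 : ∀ᶠ n : ℕ in atTop, C / (n : ℝ) < ε / 2 := by
      have : Tendsto (fun n : ℕ => C / (n : ℝ)) atTop (𝓝 0) :=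
        tendsto_const_div_atTop_nhds_zero_nat C
      exact this.eventually (gt_mem_nhds (by positivity))
    have hev := (hev1.and (hev2.and (eventually_ge_atTop 1)))
    obtain ⟨N, hN⟩ := eventually_atTop.1 hev
    refine ⟨N, fun n hn => ?_⟩
    obtain ⟨e1, e2, e3⟩ := hN n hn.le
    have hn' : (0 : ℝ) < n := by exact_mod_cast e3
    rw [dist_zero_right, Real.norm_of_nonneg (by positivity)]
    have e4 : ‖Y n - W n‖ ≤ C / (n : ℝ) ^ 2 + ε / (4 * (‖X‖ + 1)) * ((1 / (n : ℝ)) * ‖X‖) := by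
      calc ‖Y n - W n‖ = ‖(Y n - (1 / (n : ℂ)) • X) - (W n - (1 / (n : ℂ)) • X)‖ := by
            congr 1; abel
        _ ≤ ‖Y n - (1 / (n : ℂ)) • X‖ + ‖W n - (1 / (n : ℂ)) • X‖ := norm_sub_le _ _
        _ ≤ _ := add_le_add (hYX n e3) e1
    calc (n : ℝ) * ‖Y n - W n‖
        ≤ n * (C / (n : ℝ) ^ 2 + ε / (4 * (‖X‖ + 1)) * ((1 / (n : ℝ)) * ‖X‖)) := by
          gcongr
      _ = C / n + ε / 4 * (‖X‖ / (‖X‖ + 1)) := by
          field_simp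
      _ ≤ C / n + ε / 4 * 1 := by
          gcongr
          rw [div_le_one (by positivity)]
          linarith
      _ < ε := by linarith
  rw [tendsto_iff_norm_sub_tendsto_zero]
  exact squeeze_zero' (Eventually.of_forall fun n => norm_nonneg _) hmain hlim

end Crest.Agent.R347
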