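import Crest.Agent.R347.Cartesian
import Crest.Agent.R347.Trotter

/-! Crossing: twisted partition functions as limits of traces of powers of real symmetric
transfer matrices; sector sums are limits of power sums. -/

set_option autoImplicit false

namespace Crest.Agent.R347

open Matrix Filter Topology Crest.MathPhysics.SpinChain

/-- number of operator slots of a label. -/
def wt (a : Fin 4) : ℕ := if a = 0 then 0 else 1

@[simp] theorem wt_zero : wt 0 = 0 := rfl
@[simp] theorem wt_succ (c : Fin 3) : wt c.succ = 1 := by simp [wt, Fin.succ_ne_zero]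

theorem Mten_scale (S : Fin 3 → Matrix (Fin 3) (Fin 3) ℂ) (e : ℂ) (a b : Fin 4) :
    Mten (fun c => Complex.I • S c) e a b = (Complex.I * e) ^ (wt a + wt b) • Mten S 1 a b := by
  refine Fin.cases ?_ (fun a => ?_) a <;> refine Fin.cases ?_ (fun b => ?_) b
  · simp
  · simp [smul_smul, mul_comm]
  · simp [smul_smul, mul_comm]
  · simp

theorem piK_smul {ι κ : Type*} [Fintype ι] (z : ι → ℂ) (A : ι → Matrix κ κ ℂ) :
    piK (fun j => z j • A j) = (∏ j, z j) • piK A := by
  ext σ τ
  simp [piK_apply, Matrix.smul_apply, Finset.prod_mul_distrib]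

/-- number of nonzero labels. -/
def NN {ι : Type*} [Fintype ι] (a : ι → Fin 4) : ℕ := ∑ j, wt (a j)

/-- The operator attached to a label configuration. -/
noncomputable def Yop (L : ℕ) (a : Fin (L + 1) → Fin 4) :
    Matrix (Fin (L + 1) → Fin 3) (Fin (L + 1) → Fin 3) ℂ :=
  piK (fun j => Mten spinOp 1 (a ((finRotate (L + 1)).symm j)) (a j))

theorem Gop_eq_sum (s : Fin 4 → ℂ) (e : ℂ) (L : ℕ) :
    Gop s (Mten (fun c => Complex.I • spinOp c) e) L =
      ∑ a : Fin (L + 1) → Fin 4, (s (a (Fin.last L)) * (-(e ^ 2)) ^ NN a) • Yop L a := by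
  unfold Gop Yop
  refine Finset.sum_congr rfl fun a _ => ?_
  have h1 : (fun j => Mten (fun c => Complex.I • spinOp c) e
      (a ((finRotate (L + 1)).symm j)) (a j)) =
      fun j => ((Complex.I * e) ^ (wt (a ((finRotate (L + 1)).symm j)) + wt (a j))) •
        Mten spinOp 1 (a ((finRotate (L + 1)).symm j)) (a j) := by
    funext j
    exact Mten_scale _ _ _ _
  rw [h1, piK_smul, smul_smul]
  congr 1
  congr 1
  rw [Finset.prod_pow_eq_pow_sum, Finset.sum_add_distrib]
  have h2 : ∑ j, wt (a ((finRotate (L + 1)).symm j)) = ∑ j, wt (a j) :=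
    Equiv.sum_comp (finRotate (L + 1)).symm (fun j => wt (a j))
  rw [h2, ← two_mul, pow_mul]
  congr 1
  rw [mul_pow, Complex.I_sq]
  ring

theorem NN_eq_zero_iff {ι : Type*} [Fintype ι] (a : ι → Fin 4) : NN a = 0 ↔ a = 0 := by
  unfold NN
  rw [Finset.sum_eq_zero_iff]
  constructor
  · intro h
    funext j
    have := h j (Finset.mem_univ j)
    unfold wt at this
    by_contra hne
    simp only [Pi.zero_apply] at hne
    rw [if_neg hne] at this
    exact one_ne_zero this
  · intro h j _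
    rw [h]
    rfl

theorem NN_single {ι : Type*} [Fintype ι] [DecidableEq ι] (j : ι) (c : Fin 3) :
    NN (Pi.single j c.succ : ι → Fin 4) = 1 := by
  unfold NN
  rw [Finset.sum_eq_single j]
  · simp
  · intro k _ hk
    rw [Pi.single_eq_of_ne hk]
    rfl
  · simp

theorem exists_single_of_NN_eq_one {ι : Type*} [Fintype ι] [DecidableEq ι] (a : ι → Fin 4)
    (h : NN a = 1) : ∃ j : ι, ∃ c : Fin 3, a = Pi.single j c.succ := by
  unfold NN at h
  have hex : ∃ j, a j ≠ 0 := by
    by_contra hcon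
    push Not at hcon
    have : ∑ j, wt (a j) = 0 := Finset.sum_eq_zero fun j _ => by rw [hcon j]; rfl
    omega
  obtain ⟨j, hj⟩ := hex
  obtain ⟨c, hc⟩ := Fin.exists_succ_eq.mpr hj
  refine ⟨j, c, ?_⟩
  funext k
  by_cases hk : k = j
  · subst hk
    rw [Pi.single_eq_same, hc]
  · rw [Pi.single_eq_of_ne hk]
    by_contra hne
    have h2 : wt (a j) + wt (a k) ≤ ∑ j, wt (a j) := by
      have : ∑ i ∈ ({j, k} : Finset ι), wt (a i) ≤ ∑ j, wt (a j) :=
        Finset.sum_le_sum_of_subset (Finset.subset_univ _)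
      rwa [Finset.sum_pair (Ne.symm hk)] at this
    have h3 : wt (a j) = 1 := if_neg hj
    have h4 : wt (a k) = 1 := if_neg hne
    omega

/-- splitting a sum over label configurations by the number of nonzero labels. -/
theorem sum_split {ι M : Type*} [Fintype ι] [DecidableEq ι] [AddCommMonoid M]
    (f : (ι → Fin 4) → M) :
    ∑ a, f a = f 0 + ∑ j : ι, ∑ c : Fin 3, f (Pi.single j c.succ) +
      ∑ a ∈ Finset.univ.filter (fun a => 2 ≤ NN a), f a := by
  classical
  have h0 : ∑ a ∈ Finset.univ.filter (fun a : ι → Fin 4 => NN a = 0), f a = f 0 := by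
    have : Finset.univ.filter (fun a : ι → Fin 4 => NN a = 0) = {0} := by
      ext a
      simp [NN_eq_zero_iff]
    rw [this, Finset.sum_singleton]
  have h1 : ∑ a ∈ Finset.univ.filter (fun a : ι → Fin 4 => NN a = 1), f a =
      ∑ j : ι, ∑ c : Fin 3, f (Pi.single j c.succ) := by
    rw [← Fintype.sum_prod_type' (f := fun (j : ι) (c : Fin 3) => f (Pi.single j c.succ))]
    symm
    refine Finset.sum_bij (fun (p : ι × Fin 3) _ => (Pi.single p.1 p.2.succ : ι → Fin 4))
      ?_ ?_ ?_ ?_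
    · intro p _
      simp [NN_single]
    · intro p _ q _ hpq
      have hj : p.1 = q.1 := by
        by_contra hne
        have := congrFun hpq p.1
        simp only [Pi.single_eq_same] at this
        rw [Pi.single_eq_of_ne hne] at this
        exact Fin.succ_ne_zero _ this
      have hc : p.2 = q.2 := by
        have := congrFun hpq p.1
        simp only [Pi.single_eq_same] at this
        rw [hj, Pi.single_eq_same] at this
        exact Fin.succ_injective _ this
      exact Prod.ext hj hc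
    · intro a ha
      obtain ⟨j, c, hjc⟩ := exists_single_of_NN_eq_one a (Finset.mem_filter.mp ha).2
      exact ⟨(j, c), Finset.mem_univ _, hjc.symm⟩
    · intro p _
      rfl
  rw [← h0, ← h1]
  rw [← Finset.sum_filter_add_sum_filter_not Finset.univ (fun a : ι → Fin 4 => NN a = 0) f]
  rw [add_assoc]
  congr 1
  rw [← Finset.sum_filter_add_sum_filter_not
    (Finset.univ.filter (fun a : ι → Fin 4 => ¬ NN a = 0)) (fun a : ι → Fin 4 => NN a = 1) f]
  congr 1
  · refine Finset.sum_congr ?_ fun _ _ => rfl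
    ext a
    simp only [Finset.mem_filter, Finset.mem_univ, true_and]
    omega
  · refine Finset.sum_congr ?_ fun _ _ => rfl
    ext a
    simp only [Finset.mem_filter, Finset.mem_univ, true_and]
    omega

theorem Yop_zero (L : ℕ) : Yop L 0 = 1 := by
  unfold Yop
  have : (fun j : Fin (L + 1) => Mten spinOp (1 : ℂ)
      ((0 : Fin (L + 1) → Fin 4) ((finRotate (L + 1)).symm j))
      ((0 : Fin (L + 1) → Fin 4) j)) = fun _ => 1 := by
    funext j
    simp
  rw [this, piK_one]

theorem finRotate_ne (L : ℕ) (hL : 1 ≤ L) (j : Fin (L + 1)) : finRotate (L + 1) j ≠ j := by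
  intro h
  have h2 : (finRotate (L + 1) j).val = j.val := by rw [h]
  rcases Fin.eq_castSucc_or_eq_last j with ⟨i, rfl⟩ | rfl
  · rw [finRotate_of_lt (by simp)] at h2
    simp at h2
  · rw [finRotate_last] at h2
    simp at h2
    omega

theorem Yop_single (L : ℕ) (hL : 1 ≤ L) (j : Fin (L + 1)) (c : Fin 3) :
    Yop L (Pi.single j c.succ) =
      onSite (spinOp c) j * onSite (spinOp c) (finRotate (L + 1) j) := by
  unfold Yop
  rw [onSite_eq_piK, onSite_eq_piK, piK_mul]
  congr 1
  funext k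
  have hne := finRotate_ne L hL j
  by_cases h1 : k = j
  · subst h1
    have h2 : (finRotate (L + 1)).symm k ≠ k := by
      intro h
      rw [Equiv.symm_apply_eq] at h
      exact finRotate_ne L hL k h.symm
    rw [Pi.single_eq_of_ne h2, Pi.single_eq_same, if_pos rfl, if_neg (Ne.symm hne)]
    simp
  · by_cases h3 : k = finRotate (L + 1) j
    · subst h3
      rw [Equiv.symm_apply_apply, Pi.single_eq_same, Pi.single_eq_of_ne h1, if_neg h1, if_pos rfl]
      simp
    · have h2 : (finRotate (L + 1)).symm k ≠ j := by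
        intro h
        rw [Equiv.symm_apply_eq] at h
        exact h3 h
      rw [Pi.single_eq_of_ne h2, Pi.single_eq_of_ne h1, if_neg h1, if_neg h3]
      simp

/-- `Gop` with coupling `e` is `1 - e² H + O(e⁴)`, entrywise. -/
theorem Gop_expand (a : Fin 4) (L : ℕ) (hL : 1 ≤ L) :
    ∃ C : ℝ, ∀ e : ℝ, 0 ≤ e → e ≤ 1 → ∀ σ τ,
      ‖(Gop (etaK ℂ a) (Mten (fun c => Complex.I • spinOp c) (e : ℂ)) L
        - (1 - ((e : ℂ) ^ 2) • ringTw a (L + 1))) σ τ‖ ≤ C * e ^ 4 := by
  classical
  refine ⟨∑ σ, ∑ τ, ∑ ω : Fin (L + 1) → Fin 4, ‖etaK ℂ a (ω (Fin.last L)) * Yop L ω σ τ‖, ?_⟩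
  intro e he0 he1 σ τ
  have hsplit : Gop (etaK ℂ a) (Mten (fun c => Complex.I • spinOp c) (e : ℂ)) L
        - (1 - ((e : ℂ) ^ 2) • ringTw a (L + 1)) =
      ∑ ω ∈ Finset.univ.filter (fun ω : Fin (L + 1) → Fin 4 => 2 ≤ NN ω),
        (etaK ℂ a (ω (Fin.last L)) * (-((e : ℂ) ^ 2)) ^ NN ω) • Yop L ω := by
    rw [Gop_eq_sum, sum_split]
    have h0 : (etaK ℂ a ((0 : Fin (L + 1) → Fin 4) (Fin.last L)) *
        (-((e : ℂ) ^ 2)) ^ NN (0 : Fin (L + 1) → Fin 4)) • Yop L 0 = 1 := by
      have : NN (0 : Fin (L + 1) → Fin 4) = 0 := (NN_eq_zero_iff _).mpr rfl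
      rw [this, Yop_zero]
      simp [etaK]
    have h1 : ∑ j : Fin (L + 1), ∑ c : Fin 3,
        (etaK ℂ a ((Pi.single j c.succ : Fin (L + 1) → Fin 4) (Fin.last L)) *
          (-((e : ℂ) ^ 2)) ^ NN (Pi.single j c.succ : Fin (L + 1) → Fin 4)) •
          Yop L (Pi.single j c.succ) = -(((e : ℂ) ^ 2) • ringTw a (L + 1)) := by
      unfold ringTw
      rw [Finset.smul_sum, ← Finset.sum_neg_distrib]
      refine Finset.sum_congr rfl fun j _ => ?_
      rw [Finset.smul_sum, ← Finset.sum_neg_distrib]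
      refine Finset.sum_congr rfl fun c _ => ?_
      rw [NN_single, Yop_single L hL, pow_one, smul_smul, ← neg_smul]
      congr 1
      by_cases hj : j = Fin.last L
      · subst hj
        simp only [Pi.single_eq_same, Fin.val_last, if_true]
        simp [etaK, mul_comm]
      · have hj' : ¬ (j.val + 1 = L + 1) := by
          intro h
          apply hj
          ext
          simp only [Fin.val_last]
          omega
        rw [if_neg hj', Pi.single_eq_of_ne (Ne.symm hj)]
        simp [etaK]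
    rw [h0, h1]
    abel
  rw [hsplit, Matrix.sum_apply]
  calc ‖∑ ω ∈ Finset.univ.filter (fun ω : Fin (L + 1) → Fin 4 => 2 ≤ NN ω),
        ((etaK ℂ a (ω (Fin.last L)) * (-((e : ℂ) ^ 2)) ^ NN ω) • Yop L ω) σ τ‖
      ≤ ∑ ω ∈ Finset.univ.filter (fun ω : Fin (L + 1) → Fin 4 => 2 ≤ NN ω),
        ‖((etaK ℂ a (ω (Fin.last L)) * (-((e : ℂ) ^ 2)) ^ NN ω) • Yop L ω) σ τ‖ :=
        norm_sum_le _ _
    _ ≤ ∑ ω ∈ Finset.univ.filter (fun ω : Fin (L + 1) → Fin 4 => 2 ≤ NN ω),
        ‖etaK ℂ a (ω (Fin.last L)) * Yop L ω σ τ‖ * e ^ 4 := by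
        refine Finset.sum_le_sum fun ω hω => ?_
        have h2 : 2 ≤ NN ω := (Finset.mem_filter.mp hω).2
        rw [Matrix.smul_apply, smul_eq_mul]
        have hre : etaK ℂ a (ω (Fin.last L)) * (-((e : ℂ) ^ 2)) ^ NN ω * Yop L ω σ τ =
            (etaK ℂ a (ω (Fin.last L)) * Yop L ω σ τ) * (-((e : ℂ) ^ 2)) ^ NN ω := by ring
        rw [hre, norm_mul]
        refine mul_le_mul_of_nonneg_left ?_ (norm_nonneg _)
        rw [norm_pow, norm_neg, norm_pow, Complex.norm_real, Real.norm_of_nonneg he0]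
        calc (e ^ 2) ^ NN ω ≤ (e ^ 2) ^ 2 :=
              pow_le_pow_of_le_one (by positivity) (pow_le_one₀ he0 he1) h2
          _ = e ^ 4 := by ring
    _ ≤ ∑ ω : Fin (L + 1) → Fin 4, ‖etaK ℂ a (ω (Fin.last L)) * Yop L ω σ τ‖ * e ^ 4 := by
        refine Finset.sum_le_sum_of_subset_of_nonneg (Finset.subset_univ _) ?_
        intro ω _ _
        positivity
    _ = (∑ ω : Fin (L + 1) → Fin 4, ‖etaK ℂ a (ω (Fin.last L)) * Yop L ω σ τ‖) * e ^ 4 := by
        rw [Finset.sum_mul]
    _ ≤ _ := by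
        refine mul_le_mul_of_nonneg_right ?_ (by positivity)
        calc ∑ ω : Fin (L + 1) → Fin 4, ‖etaK ℂ a (ω (Fin.last L)) * Yop L ω σ τ‖
            ≤ ∑ τ, ∑ ω : Fin (L + 1) → Fin 4, ‖etaK ℂ a (ω (Fin.last L)) * Yop L ω σ τ‖ :=
              Finset.single_le_sum (f := fun τ => ∑ ω : Fin (L + 1) → Fin 4,
                ‖etaK ℂ a (ω (Fin.last L)) * Yop L ω σ τ‖)
                (fun τ _ => Finset.sum_nonneg fun ω _ => norm_nonneg _) (Finset.mem_univ τ)
          _ ≤ _ := Finset.single_le_sum (f := fun σ => ∑ τ, ∑ ω : Fin (L + 1) → Fin 4,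
                ‖etaK ℂ a (ω (Fin.last L)) * Yop L ω σ τ‖)
                (fun σ _ => Finset.sum_nonneg fun τ _ => Finset.sum_nonneg fun ω _ =>
                  norm_nonneg _) (Finset.mem_univ σ)

section norm
attribute [local instance] Matrix.linftyOpNormedRing Matrix.linftyOpNormedAlgebra

theorem norm_le_of_entries {κ : Type*} [Fintype κ] [DecidableEq κ] (M : Matrix κ κ ℂ) {B : ℝ}
    (hB : 0 ≤ B) (h : ∀ σ τ, ‖M σ τ‖ ≤ B) : ‖M‖ ≤ Fintype.card κ * B := by
  rw [Matrix.linfty_opNorm_def]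
  let B' : NNReal := ⟨B, hB⟩
  have : ((Finset.univ : Finset κ).sup fun i => ∑ j, ‖M i j‖₊) ≤
      (Fintype.card κ : NNReal) * B' := by
    refine Finset.sup_le fun i _ => ?_
    have h1 : ∑ j, ‖M i j‖₊ ≤ ∑ _j : κ, B' := Finset.sum_le_sum fun j _ => h i j
    refine h1.trans (le_of_eq ?_)
    simp
  exact_mod_cast this

theorem Gop_pow_tendsto (a : Fin 4) (β : ℝ) (hβ : 0 < β) (L : ℕ) (hL : 1 ≤ L) :
    Tendsto (fun n : ℕ => (Gop (etaK ℂ a)
        (Mten (fun c => Complex.I • spinOp c) ((Real.sqrt (β / n) : ℝ) : ℂ)) L) ^ n) atTop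
      (𝓝 (NormedSpace.exp (-(β : ℂ) • ringTw a (L + 1)))) := by
  obtain ⟨C, hC⟩ := Gop_expand a L hL
  set X : Matrix (Fin (L + 1) → Fin 3) (Fin (L + 1) → Fin 3) ℂ :=
    -(β : ℂ) • ringTw a (L + 1) with hX
  let G : ℕ → Matrix (Fin (L + 1) → Fin 3) (Fin (L + 1) → Fin 3) ℂ := fun n =>
    if β ≤ n then Gop (etaK ℂ a)
        (Mten (fun c => Complex.I • spinOp c) ((Real.sqrt (β / n) : ℝ) : ℂ)) L
    else 1 + ((1 / (n : ℂ)) • X)
  have hC0 : 0 ≤ |C| * β ^ 2 := by positivity
  have key := trotter_limit X G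
    (Fintype.card (Fin (L + 1) → Fin 3) * (|C| * β ^ 2)) (by
      intro n hn
      have hn0 : (0 : ℝ) < n := by exact_mod_cast hn
      by_cases hb : β ≤ n
      · simp only [G, if_pos hb]
        have hnn : (0 : ℝ) ≤ β / n := by positivity
        have he1 : Real.sqrt (β / n) ≤ 1 := by
          rw [Real.sqrt_le_one]
          rw [div_le_one hn0]
          exact hb
        have hsq : ((Real.sqrt (β / n) : ℝ) : ℂ) ^ 2 = (β : ℂ) / n := by
          rw [← Complex.ofReal_pow, Real.sq_sqrt hnn]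
          push_cast
          rfl
        have hent := hC (Real.sqrt (β / n)) (Real.sqrt_nonneg _) he1
        have hmat : (1 : Matrix (Fin (L + 1) → Fin 3) (Fin (L + 1) → Fin 3) ℂ) +
            ((1 / (n : ℂ)) • X) =
            1 - (((Real.sqrt (β / n) : ℝ) : ℂ) ^ 2) • ringTw a (L + 1) := by
          rw [hsq, hX, smul_smul, sub_eq_add_neg, ← neg_smul]
          congr 2
          ring
        rw [hmat]
        have hfour : Real.sqrt (β / n) ^ 4 = β ^ 2 / n ^ 2 := by
          have : Real.sqrt (β / n) ^ 4 = (Real.sqrt (β / n) ^ 2) ^ 2 := by ring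
          rw [this, Real.sq_sqrt hnn, div_pow]
        calc _ ≤ (Fintype.card (Fin (L + 1) → Fin 3) : ℝ) * (|C| * (β ^ 2 / n ^ 2)) := by
              refine norm_le_of_entries _ (by positivity) fun σ τ => ?_
              refine (hent σ τ).trans ?_
              rw [hfour]
              exact mul_le_mul_of_nonneg_right (le_abs_self C) (by positivity)
          _ = _ := by ring
      · simp only [G, if_neg hb, sub_self, norm_zero]
        positivity)
  refine key.congr' ?_
  filter_upwards [eventually_ge_atTop ⌈β⌉₊] with n hn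
  have : β ≤ n := (Nat.le_ceil β).trans (by exact_mod_cast hn)
  simp only [G, if_pos this]

end norm

theorem map_ofReal_pow {κ : Type*} [Fintype κ] [DecidableEq κ] (M : Matrix κ κ ℝ) (l : ℕ) :
    (M.map (fun x : ℝ => (x : ℂ))) ^ l = (M ^ l).map (fun x : ℝ => (x : ℂ)) := by
  have := map_pow (Complex.ofRealHom.mapMatrix : Matrix κ κ ℝ →+* Matrix κ κ ℂ) M l
  exact this.symm

theorem trace_map_ofReal {κ : Type*} [Fintype κ] (M : Matrix κ κ ℝ) :
    (M.map (fun x : ℝ => (x : ℂ))).trace = ((M.trace : ℝ) : ℂ) := by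
  simp [Matrix.trace]

theorem Dsig_map (a : Fin 4) (n : ℕ) :
    Matrix.diagonal (fun ω : Fin n → Fin 4 => ∏ k, etaK ℂ a (ω k)) =
      (Dsig a n).map (fun x : ℝ => (x : ℂ)) := by
  have h : ∀ c : Fin 4, etaK ℂ a c = ((etaK ℝ a c : ℝ) : ℂ) := by
    intro c
    refine Fin.cases ?_ (fun c => ?_) c <;> simp [etaK]
  unfold Dsig
  ext ω ω'
  by_cases hω : ω = ω'
  · subst hω
    simp [h]
  · simp [Matrix.diagonal_apply_ne _ hω, Matrix.map_apply]

theorem crossing_finite (a b : Fin 4) (e : ℝ) (n L : ℕ) :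
    ((piK (fun _ : Fin (L + 1) => rotC b) *
      (Gop (etaK ℂ a) (Mten (fun c => Complex.I • spinOp c) (e : ℂ)) L) ^ n).trace).re =
      (Dsig a n * (tauR b e n) ^ (L + 1)).trace := by
  rw [transfer_identity, tau_complex_eq, Dsig_map, map_ofReal_pow]
  have : (Dsig a n).map (fun x : ℝ => (x : ℂ)) *
      ((tauR b e n) ^ (L + 1)).map (fun x : ℝ => (x : ℂ)) =
      (Dsig a n * (tauR b e n) ^ (L + 1)).map (fun x : ℝ => (x : ℂ)) := by
    have := map_mul (Complex.ofRealHom.mapMatrix :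
      Matrix (Fin n → Fin 4) (Fin n → Fin 4) ℝ →+* Matrix (Fin n → Fin 4) (Fin n → Fin 4) ℂ)
      (Dsig a n) ((tauR b e n) ^ (L + 1))
    exact this.symm
  rw [this, trace_map_ofReal, Complex.ofReal_re]

/-- Crossing for the ring. -/
theorem Zab_tendsto (a b : Fin 4) (β : ℝ) (hβ : 0 < β) (L : ℕ) (hL : 2 ≤ L) :
    Tendsto (fun n : ℕ => (Dsig a n * (tauR b (Real.sqrt (β / n)) n) ^ L).trace) atTop
      (𝓝 (Zab a b β L)) := by
  obtain ⟨L, rfl⟩ : ∃ L', L = L' + 1 := ⟨L - 1, by omega⟩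
  have hlim := Gop_pow_tendsto a β hβ L (by omega)
  have hcont : Continuous fun M : Matrix (Fin (L + 1) → Fin 3) (Fin (L + 1) → Fin 3) ℂ =>
      ((piK (fun _ : Fin (L + 1) => rotC b) * M).trace).re :=
    Complex.continuous_re.comp
      (Continuous.matrix_trace (Continuous.matrix_mul continuous_const continuous_id))
  have h2 := (hcont.tendsto _).comp hlim
  unfold Zab
  refine h2.congr fun n => ?_
  simp only [Function.comp]
  exact crossing_finite a b _ n L

end Crest.Agent.R347
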