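import Crest.Agent.R347.Direct
import Crest.Agent.R347.OpenDirect

/-! Interface between the certified numerics and the analysis. -/

set_option autoImplicit false

namespace Crest.Agent.R347

open Matrix Crest.MathPhysics.SpinChain

/-- Reference energy per site. -/
noncomputable def e0 : ℝ := -(1401484 / 1000000)

/-- Normalised twisted ring partition function at `β = 6`. -/
noncomputable def nZ (a b : Fin 4) (L : ℕ) : ℝ := Real.exp (6 * e0 * L) * Zab a b 6 L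

/-- Certified twisted ring traces at `β = 6`, rings of 4, 6, 8 sites. -/
structure RingTraces : Prop where
  z00_4 : |nZ 0 0 4 - 107165890 / 10000000| ≤ 1 / 10000
  z30_4 : |nZ 3 0 4 - 3040642 / 10000000| ≤ 1 / 10000
  z03_4 : |nZ 0 3 4 - 106111163 / 10000000| ≤ 1 / 10000
  z33_4 : |nZ 3 3 4 - 3038659 / 10000000| ≤ 1 / 10000
  z13_4 : |nZ 1 3 4 - (-2167156) / 10000000| ≤ 1 / 10000
  z00_6 : |nZ 0 0 6 - 36331863 / 10000000| ≤ 1 / 10000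
  z30_6 : |nZ 3 0 6 - 6024213 / 10000000| ≤ 1 / 10000
  z03_6 : |nZ 0 3 6 - 34479433 / 10000000| ≤ 1 / 10000
  z33_6 : |nZ 3 3 6 - 5983426 / 10000000| ≤ 1 / 10000
  z13_6 : |nZ 1 3 6 - (-4777829) / 10000000| ≤ 1 / 10000
  z00_8 : |nZ 0 0 8 - 22989639 / 10000000| ≤ 1 / 10000
  z30_8 : |nZ 3 0 8 - 7968261 / 10000000| ≤ 1 / 10000
  z03_8 : |nZ 0 3 8 - 20579350 / 10000000| ≤ 1 / 10000
  z33_8 : |nZ 3 3 8 - 7769644 / 10000000| ≤ 1 / 10000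
  z13_8 : |nZ 1 3 8 - (-6451328) / 10000000| ≤ 1 / 10000

/-- Certified matrix product states on the rings of 40 and 80 sites. -/
structure RingMPS : Prop where
  ex40 : ∃ (ψ : (Fin 40 → Fin 3) → ℂ) (E v : ℝ), ψ ≠ 0 ∧
    star ψ ⬝ᵥ (heisenbergRing 40).mulVec ψ = (E : ℂ) * (star ψ ⬝ᵥ ψ) ∧
    (star ((heisenbergRing 40).mulVec ψ) ⬝ᵥ (heisenbergRing 40).mulVec ψ).re ≤
      (E ^ 2 + v) * (star ψ ⬝ᵥ ψ).re ∧
    40 * e0 - 27 / 100000 ≤ E ∧ E ≤ 40 * e0 - 24 / 100000 ∧ v ≤ 6 / 100000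
  ex80 : ∃ (ψ : (Fin 80 → Fin 3) → ℂ), ψ ≠ 0 ∧
    (star ψ ⬝ᵥ (heisenbergRing 80).mulVec ψ).re ≤
      (80 * e0 + 3 / 100000) * (star ψ ⬝ᵥ ψ).re

/-- Normalised open-chain partition function at `β = 6`. -/
noncomputable def nO (f : ℝ → ℕ → ℝ) (N : ℕ) : ℝ := Real.exp (6 * e0 * N) * f 6 N

/-- Certified open-chain traces at `β = 6`, chain of 8 sites, end fields `3/5`. -/
structure OpenTraces : Prop where
  y_8 : |nO Yo 8 - 14632918 / 100000000| ≤ 2 / 100000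
  x_8 : |nO Xo 8 - 4684215 / 100000000| ≤ 2 / 100000
  yp_8 : |nO Yp 8 - 13811772 / 100000000| ≤ 2 / 100000
  xp_8 : |nO Xp 8 - (-3341867) / 100000000| ≤ 2 / 100000

/-- Certified matrix product states on the open chains of 40 and 80 sites, opposite fields. -/
structure OpenMPS : Prop where
  ex40 : ∃ (ψ : (Fin 40 → Fin 3) → ℂ) (E v : ℝ), ψ ≠ 0 ∧
    star ψ ⬝ᵥ (openH 39 (3 / 5) (-(3 / 5))).mulVec ψ = (E : ℂ) * (star ψ ⬝ᵥ ψ) ∧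
    (star ((openH 39 (3 / 5) (-(3 / 5))).mulVec ψ) ⬝ᵥ
        (openH 39 (3 / 5) (-(3 / 5))).mulVec ψ).re ≤
      (E ^ 2 + v) * (star ψ ⬝ᵥ ψ).re ∧
    40 * e0 + 40215 / 100000 ≤ E ∧ E ≤ 40 * e0 + 40225 / 100000 ∧ v ≤ 8 / 100000
  ex80 : ∃ (ψ : (Fin 80 → Fin 3) → ℂ), ψ ≠ 0 ∧
    (star ψ ⬝ᵥ (openH 79 (3 / 5) (-(3 / 5))).mulVec ψ).re ≤
      (80 * e0 + 4028 / 10000) * (star ψ ⬝ᵥ ψ).re

end Crest.Agent.R347
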