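import Mathlib

/-!
Certified polynomial approximation of the exponential on `[-1,1]` in the basis of Chebyshev
polynomials of the second kind.
-/

set_option autoImplicit false

namespace Crest.Agent.R347.ExpApprox

open Polynomial Polynomial.Chebyshev

/-- `|U_k(x)| ≤ k + 1` on `[-1,1]`. -/
theorem abs_U_le (k : ℕ) {x : ℝ} (hx : |x| ≤ 1) : |(U ℝ (k : ℤ)).eval x| ≤ k + 1 := by
  induction k with
  | zero => simp
  | succ k ih =>
    have h := U_eq_X_mul_U_add_T ℝ (k : ℤ)
    have h2 := abs_eval_T_real_le_one ((k : ℤ) + 1) hx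
    have h3 : (U ℝ ((k : ℤ) + 1)).eval x = x * (U ℝ (k : ℤ)).eval x + (T ℝ ((k : ℤ) + 1)).eval x := by
      rw [h]; simp
    push_cast
    rw [h3]
    calc |x * (U ℝ (k : ℤ)).eval x + (T ℝ ((k : ℤ) + 1)).eval x|
        ≤ |x * (U ℝ (k : ℤ)).eval x| + |(T ℝ ((k : ℤ) + 1)).eval x| := abs_add_le _ _
      _ = |x| * |(U ℝ (k : ℤ)).eval x| + |(T ℝ ((k : ℤ) + 1)).eval x| := by rw [abs_mul]
      _ ≤ 1 * (k + 1) + 1 := by
          gcongr
      _ = k + 1 + 1 := by ring

/-- `U_{k+2}' = U_k' + 2 (k+2) U_{k+1}`. -/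
theorem derivative_U_add_two (k : ℤ) :
    derivative (U ℝ (k + 2)) = derivative (U ℝ k) + C (2 * ((k : ℝ) + 2)) * U ℝ (k + 1) := by
  have h := two_mul_T_eq_U_sub_U ℝ k
  have h2 := congrArg derivative h
  have h3 : derivative (2 * T ℝ (k + 2)) = 2 * derivative (T ℝ (k + 2)) := by
    rw [derivative_mul]
    simp
  rw [h3, derivative_sub, T_derivative_eq_U] at h2
  have e : k + 2 - 1 = k + 1 := by ring
  rw [e] at h2
  have h4 : derivative (U ℝ (k + 2)) =
      derivative (U ℝ k) + 2 * (((k + 2 : ℤ) : ℝ[X]) * U ℝ (k + 1)) := by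
    rw [h2]; ring
  rw [h4]
  simp only [map_mul, map_add, map_ofNat, map_intCast]
  push_cast
  ring

/-- Partial summation for the derivative of `∑ (s_k - s_{k+2}) U_k`. -/
theorem derivative_sum_aux (s : ℕ → ℝ) (K : ℕ) :
    derivative (∑ k ∈ Finset.range (K + 1), C (s k - s (k + 2)) * U ℝ (k : ℤ)) =
      (∑ k ∈ Finset.range K, C (2 * ((k : ℝ) + 1) * s (k + 1)) * U ℝ (k : ℤ))
        - C (s (K + 1)) * derivative (U ℝ ((K : ℤ) - 1)) - C (s (K + 2)) * derivative (U ℝ (K : ℤ)) := by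
  induction K with
  | zero => simp
  | succ K ih =>
    rw [Finset.sum_range_succ, derivative_add, ih, Finset.sum_range_succ]
    have h := derivative_U_add_two ((K : ℤ) - 1)
    have e1 : (K : ℤ) - 1 + 2 = ((K + 1 : ℕ) : ℤ) := by push_cast; ring
    have e2 : (K : ℤ) - 1 + 1 = (K : ℤ) := by ring
    rw [e1, e2] at h
    rw [derivative_mul, derivative_C, zero_mul, zero_add, h]
    have e3 : ((K + 1 : ℕ) : ℤ) - 1 = (K : ℤ) := by push_cast; ring
    rw [e3]
    push_cast
    simp only [map_mul, map_add, map_sub, map_ofNat, map_natCast, map_one]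
    ring

theorem derivative_sum (s : ℕ → ℝ) (K : ℕ) (h1 : s (K + 1) = 0) (h2 : s (K + 2) = 0) :
    derivative (∑ k ∈ Finset.range (K + 1), C (s k - s (k + 2)) * U ℝ (k : ℤ)) =
      ∑ k ∈ Finset.range K, C (2 * ((k : ℝ) + 1) * s (k + 1)) * U ℝ (k : ℤ) := by
  rw [derivative_sum_aux, h1, h2]
  simp

/-- ODE comparison: if `|P' + a P| ≤ B` on `[-1,1]` then `P` is `P(-1) e^{-a(x+1)}` up to `B/a`. -/
theorem ode_compare (P : ℝ[X]) {a B : ℝ} (ha : 0 < a)
    (hB : ∀ x : ℝ, |x| ≤ 1 → |(derivative P).eval x + a * P.eval x| ≤ B)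
    {x : ℝ} (hx : |x| ≤ 1) :
    |P.eval x - P.eval (-1) * Real.exp (-(a * (x + 1)))| ≤ B / a := by
  have hx1 : -1 ≤ x := (abs_le.mp hx).1
  have hx2 : x ≤ 1 := (abs_le.mp hx).2
  have hB0 : 0 ≤ B := (abs_nonneg _).trans (hB 0 (by simp))
  -- comparison functions
  have key : ∀ s : ℝ, s = 1 ∨ s = -1 →
      MonotoneOn (fun t : ℝ => (B / a + s * P.eval t) * Real.exp (a * (t + 1))) (Set.Icc (-1) 1) := by
    intro s hs
    have hd : ∀ t : ℝ, HasDerivAt (fun t : ℝ => (B / a + s * P.eval t) * Real.exp (a * (t + 1)))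
        ((s * (derivative P).eval t) * Real.exp (a * (t + 1)) +
          (B / a + s * P.eval t) * (Real.exp (a * (t + 1)) * a)) t := by
      intro t
      have h1 : HasDerivAt (fun t : ℝ => B / a + s * P.eval t) (s * (derivative P).eval t) t := by
        simpa using ((P.hasDerivAt t).const_mul s).const_add (B / a)
      have h2 : HasDerivAt (fun t : ℝ => Real.exp (a * (t + 1))) (Real.exp (a * (t + 1)) * a) t := by
        have : HasDerivAt (fun t : ℝ => a * (t + 1)) a t := by
          simpa using ((hasDerivAt_id t).add_const (1 : ℝ)).const_mul a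
        exact this.exp
      exact h1.mul h2
    refine monotoneOn_of_deriv_nonneg (convex_Icc _ _) ?_ ?_ ?_
    · exact fun t _ => (hd t).continuousAt.continuousWithinAt
    · exact fun t _ => (hd t).differentiableAt.differentiableWithinAt
    · intro t ht
      rw [interior_Icc] at ht
      rw [(hd t).deriv]
      have habs : |t| ≤ 1 := abs_le.mpr ⟨ht.1.le, ht.2.le⟩
      have hb := abs_le.mp (hB t habs)
      have he : 0 < Real.exp (a * (t + 1)) := Real.exp_pos _
      have h3 : (s * (derivative P).eval t) * Real.exp (a * (t + 1)) +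
          (B / a + s * P.eval t) * (Real.exp (a * (t + 1)) * a) =
          (B + s * ((derivative P).eval t + a * P.eval t)) * Real.exp (a * (t + 1)) := by
        field_simp
        ring
      rw [h3]
      apply mul_nonneg _ he.le
      rcases hs with rfl | rfl <;> linarith [hb.1, hb.2]
  have hE : Real.exp (-(a * (x + 1))) * Real.exp (a * (x + 1)) = 1 := by
    rw [← Real.exp_add]; simp
  have he : 0 < Real.exp (a * (x + 1)) := Real.exp_pos _
  have he' : 0 < Real.exp (-(a * (x + 1))) := Real.exp_pos _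
  have m1 := key 1 (Or.inl rfl) (show (-1 : ℝ) ∈ Set.Icc (-1) 1 by simp) (show x ∈ Set.Icc (-1) 1 from ⟨hx1, hx2⟩) hx1
  have m2 := key (-1) (Or.inr rfl) (show (-1 : ℝ) ∈ Set.Icc (-1) 1 by simp) (show x ∈ Set.Icc (-1) 1 from ⟨hx1, hx2⟩) hx1
  simp only [neg_add_cancel, mul_zero, Real.exp_zero, mul_one] at m1 m2
  have hBa : 0 ≤ B / a := by positivity
  -- multiply by exp(-a(x+1))
  have n1 : (B / a + 1 * P.eval (-1)) * Real.exp (-(a * (x + 1))) ≤ B / a + 1 * P.eval x := by
    calc (B / a + 1 * P.eval (-1)) * Real.exp (-(a * (x + 1)))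
        ≤ ((B / a + 1 * P.eval x) * Real.exp (a * (x + 1))) * Real.exp (-(a * (x + 1))) :=
          mul_le_mul_of_nonneg_right m1 he'.le
      _ = (B / a + 1 * P.eval x) * (Real.exp (-(a * (x + 1))) * Real.exp (a * (x + 1))) := by ring
      _ = _ := by rw [hE, mul_one]
  have n2 : (B / a + -1 * P.eval (-1)) * Real.exp (-(a * (x + 1))) ≤ B / a + -1 * P.eval x := by
    calc (B / a + -1 * P.eval (-1)) * Real.exp (-(a * (x + 1)))
        ≤ ((B / a + -1 * P.eval x) * Real.exp (a * (x + 1))) * Real.exp (-(a * (x + 1))) :=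
          mul_le_mul_of_nonneg_right m2 he'.le
      _ = (B / a + -1 * P.eval x) * (Real.exp (-(a * (x + 1))) * Real.exp (a * (x + 1))) := by ring
      _ = _ := by rw [hE, mul_one]
  have n3 : 0 ≤ B / a * Real.exp (-(a * (x + 1))) := by positivity
  rw [abs_le]
  constructor <;> nlinarith

/-- Main statement with a real coefficient function. -/
theorem exp_approx (s : ℕ → ℝ) (K : ℕ) (h1 : s (K + 1) = 0) (h2 : s (K + 2) = 0)
    {a B : ℝ} (ha : 0 < a)
    (hB : ∑ k ∈ Finset.range (K + 1),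
      |2 * ((k : ℝ) + 1) * s (k + 1) + a * (s k - s (k + 2))| * (k + 1) ≤ B)
    {x : ℝ} (hx : |x| ≤ 1) :
    |(∑ k ∈ Finset.range (K + 1), (s k - s (k + 2)) * (U ℝ (k : ℤ)).eval x) -
      (∑ k ∈ Finset.range (K + 1), (s k - s (k + 2)) * ((-1) ^ k * ((k : ℝ) + 1))) *
        Real.exp (-(a * (x + 1)))| ≤ B / a := by
  set P : ℝ[X] := ∑ k ∈ Finset.range (K + 1), C (s k - s (k + 2)) * U ℝ (k : ℤ) with hP
  have hPx : ∀ y : ℝ, P.eval y =
      ∑ k ∈ Finset.range (K + 1), (s k - s (k + 2)) * (U ℝ (k : ℤ)).eval y := by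
    intro y
    rw [hP, eval_finsetSum]
    simp
  have hPm : P.eval (-1) =
      ∑ k ∈ Finset.range (K + 1), (s k - s (k + 2)) * ((-1) ^ k * ((k : ℝ) + 1)) := by
    rw [hPx]
    refine Finset.sum_congr rfl fun k _ => ?_
    rw [U_eval_neg_one]
    congr 2
    · rw [Int.cast_negOnePow_natCast]
  have hD : derivative P =
      ∑ k ∈ Finset.range (K + 1), C (2 * ((k : ℝ) + 1) * s (k + 1)) * U ℝ (k : ℤ) := by
    rw [Finset.sum_range_succ, h1, mul_zero, map_zero, zero_mul, add_zero]
    exact derivative_sum s K h1 h2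
  have := ode_compare P ha (B := B) (fun y hy => ?_) hx
  · rw [← hPx, ← hPm]
    exact this
  · refine le_trans ?_ hB
    rw [hD, eval_finsetSum, hPx, Finset.mul_sum, ← Finset.sum_add_distrib]
    refine (Finset.abs_sum_le_sum_abs _ _).trans (Finset.sum_le_sum fun k _ => ?_)
    have e : eval y (C (2 * ((k : ℝ) + 1) * s (k + 1)) * U ℝ (k : ℤ)) +
        a * ((s k - s (k + 2)) * eval y (U ℝ (k : ℤ))) =
        (2 * ((k : ℝ) + 1) * s (k + 1) + a * (s k - s (k + 2))) * eval y (U ℝ (k : ℤ)) := by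
      simp only [eval_mul, eval_C]
      ring
    rw [e, abs_mul]
    exact mul_le_mul_of_nonneg_left (abs_U_le k hy) (abs_nonneg _)

/-! ### List version (kernel checkable) -/

/-- For the list `u = [u_k, u_{k+1}, …]` and `rk = r^k` returns
`(S_k, S_{k+1}, acc_k, pm_k)` with `v_j = u_j r^j`, `S_k = v_k + v_{k+2} + …`,
`acc_k = ∑_{j ≥ k} |2 den (j+1) S_{j+1} + num v_j| (j+1)`,
`pm_k = ∑_{j ≥ k} (-1)^(j-k) v_j (j+1)`. -/
def go (r num den : ℤ) : ℕ → ℤ → List ℤ → ℤ × ℤ × ℤ × ℤ
  | _, _, [] => (0, 0, 0, 0)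
  | k, rk, (u :: l) =>
    match go r num den (k + 1) (rk * r) l with
    | (s1, s2, acc, pm) =>
      (u * rk + s2, s1, acc + |2 * den * ((k : ℤ) + 1) * s1 + num * (u * rk)| * ((k : ℤ) + 1),
        u * rk * ((k : ℤ) + 1) - pm)

theorem go_nil (r num den : ℤ) (k : ℕ) (rk : ℤ) : go r num den k rk [] = (0, 0, 0, 0) := rfl

theorem go_cons (r num den : ℤ) (k : ℕ) (rk u : ℤ) (l : List ℤ) :
    go r num den k rk (u :: l) =
      (u * rk + (go r num den (k + 1) (rk * r) l).2.1, (go r num den (k + 1) (rk * r) l).1,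
        (go r num den (k + 1) (rk * r) l).2.2.1 +
          |2 * den * ((k : ℤ) + 1) * (go r num den (k + 1) (rk * r) l).1 + num * (u * rk)| *
            ((k : ℤ) + 1),
        u * rk * ((k : ℤ) + 1) - (go r num den (k + 1) (rk * r) l).2.2.2) := rfl

theorem go_snd (r num den : ℤ) (k : ℕ) (rk : ℤ) (l : List ℤ) :
    (go r num den k rk l).2.1 = (go r num den (k + 1) (rk * r) l.tail).1 := by
  cases l with
  | nil => simp [go_nil]
  | cons u l => simp [go_cons]

/-- the coefficient sequence `S_j` attached to a list. -/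
def sq (r num den : ℤ) (u : List ℤ) (j : ℕ) : ℤ := (go r num den j (r ^ j) (u.drop j)).1

theorem sq_rec (r num den : ℤ) (u : List ℤ) (j : ℕ) (hj : j < u.length) :
    sq r num den u j = u.getD j 0 * r ^ j + sq r num den u (j + 2) := by
  unfold sq
  rw [List.drop_eq_getElem_cons hj, go_cons, go_snd]
  simp only [List.tail_drop]
  rw [List.getD_eq_getElem _ _ hj]
  congr 3
  ring

theorem sq_zero (r num den : ℤ) (u : List ℤ) (j : ℕ) (hj : u.length ≤ j) :
    sq r num den u j = 0 := by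
  unfold sq
  rw [List.drop_eq_nil_of_le hj, go_nil]

theorem go_acc (r num den : ℤ) (l : List ℤ) : ∀ (u : List ℤ) (k : ℕ), l = u.drop k →
    k ≤ u.length →
    (go r num den k (r ^ k) l).2.2.1 = ∑ j ∈ Finset.Ico k u.length,
      |2 * den * ((j : ℤ) + 1) * sq r num den u (j + 1) + num * (u.getD j 0 * r ^ j)| *
        ((j : ℤ) + 1) := by
  induction l with
  | nil =>
    intro u k hl hk
    have : u.length ≤ k := by
      by_contra h
      push Not at h
      rw [List.drop_eq_getElem_cons h] at hl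
      exact List.cons_ne_nil _ _ hl.symm
    rw [Finset.Ico_eq_empty (by omega), go_nil]
    simp
  | cons a l ih =>
    intro u k hl hk
    have hlt : k < u.length := by
      by_contra h
      push Not at h
      rw [List.drop_eq_nil_of_le h] at hl
      exact absurd hl (by simp)
    rw [List.drop_eq_getElem_cons hlt] at hl
    obtain ⟨h1, h2⟩ := List.cons.inj hl
    rw [go_cons, Finset.sum_eq_sum_Ico_succ_bot hlt, ← pow_succ, ih u (k + 1) h2 hlt]
    have h3 : (go r num den (k + 1) (r ^ (k + 1)) l).1 = sq r num den u (k + 1) := by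
      unfold sq
      rw [h2]
    have h4 : a = u.getD k 0 := by rw [List.getD_eq_getElem _ _ hlt, h1]
    simp only [h3, h4]
    ring

theorem go_pm (r num den : ℤ) (l : List ℤ) : ∀ (u : List ℤ) (k : ℕ), l = u.drop k →
    k ≤ u.length →
    (go r num den k (r ^ k) l).2.2.2 = ∑ j ∈ Finset.Ico k u.length,
      (-1) ^ (j - k) * (u.getD j 0 * r ^ j * ((j : ℤ) + 1)) := by
  induction l with
  | nil =>
    intro u k hl hk
    have : u.length ≤ k := by
      by_contra h
      push Not at h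
      rw [List.drop_eq_getElem_cons h] at hl
      exact List.cons_ne_nil _ _ hl.symm
    rw [Finset.Ico_eq_empty (by omega), go_nil]
    simp
  | cons a l ih =>
    intro u k hl hk
    have hlt : k < u.length := by
      by_contra h
      push Not at h
      rw [List.drop_eq_nil_of_le h] at hl
      exact absurd hl (by simp)
    rw [List.drop_eq_getElem_cons hlt] at hl
    obtain ⟨h1, h2⟩ := List.cons.inj hl
    rw [go_cons, Finset.sum_eq_sum_Ico_succ_bot hlt, ← pow_succ, ih u (k + 1) h2 hlt]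
    have h4 : a = u.getD k 0 := by rw [List.getD_eq_getElem _ _ hlt, h1]
    simp only [h4, Nat.sub_self, pow_zero, one_mul]
    rw [sub_eq_add_neg, ← Finset.sum_neg_distrib]
    congr 1
    refine Finset.sum_congr rfl fun j hj => ?_
    rw [Finset.mem_Ico] at hj
    have : j - k = j - (k + 1) + 1 := by omega
    rw [this, pow_succ]
    ring

/-- **Certified approximation.**  With `P(x) = ∑ u_k r^k U_k(x)` (real `x ∈ [-1,1]`),
`|P(x) - pm * exp (-(num/den) (x+1))| ≤ acc / num`. -/
theorem exp_approx_list (r num den : ℤ) (hnum : 0 < num) (hden : 0 < den) (u : List ℤ)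
    (hne : u ≠ []) {acc pm : ℤ}
    (h : (go r num den 0 1 u).2.2 = (acc, pm)) {x : ℝ} (hx : |x| ≤ 1) :
    |(∑ k ∈ Finset.range u.length, ((u.getD k 0 : ℤ) : ℝ) * (r : ℝ) ^ k * (U ℝ (k : ℤ)).eval x) -
      (pm : ℝ) * Real.exp (-((num : ℝ) / den * (x + 1)))| ≤ (acc : ℝ) / num := by
  obtain ⟨K, hK⟩ : ∃ K, u.length = K + 1 := by
    cases u with
    | nil => exact absurd rfl hne
    | cons a l => exact ⟨l.length, rfl⟩
  have hnumR : (0 : ℝ) < num := by exact_mod_cast hnum
  have hdenR : (0 : ℝ) < den := by exact_mod_cast hden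
  have hacc : acc = (go r num den 0 (r ^ 0) u).2.2.1 := by rw [pow_zero, h]
  have hpm : pm = (go r num den 0 (r ^ 0) u).2.2.2 := by rw [pow_zero, h]
  rw [go_acc r num den u u 0 (by simp) (by omega)] at hacc
  rw [go_pm r num den u u 0 (by simp) (by omega)] at hpm
  set s : ℕ → ℝ := fun j => ((sq r num den u j : ℤ) : ℝ) with hs
  have hsub : ∀ k ∈ Finset.range (K + 1),
      s k - s (k + 2) = ((u.getD k 0 : ℤ) : ℝ) * (r : ℝ) ^ k := by
    intro k hk
    rw [Finset.mem_range] at hk
    simp only [hs]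
    rw [sq_rec r num den u k (by omega)]
    push_cast
    ring
  have key := exp_approx s K (by simp only [hs]; rw [sq_zero _ _ _ _ _ (by omega)]; simp)
    (by simp only [hs]; rw [sq_zero _ _ _ _ _ (by omega)]; simp)
    (a := (num : ℝ) / den) (B := (acc : ℝ) / den) (by positivity) ?_ hx
  · have e1 : (∑ k ∈ Finset.range (K + 1), (s k - s (k + 2)) * (U ℝ (k : ℤ)).eval x) =
        ∑ k ∈ Finset.range u.length,
          ((u.getD k 0 : ℤ) : ℝ) * (r : ℝ) ^ k * (U ℝ (k : ℤ)).eval x := by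
      rw [hK]
      exact Finset.sum_congr rfl fun k hk => by rw [hsub k hk]
    have e2 : (∑ k ∈ Finset.range (K + 1), (s k - s (k + 2)) * ((-1) ^ k * ((k : ℝ) + 1))) =
        (pm : ℝ) := by
      rw [hpm, hK, ← Finset.range_eq_Ico]
      push_cast
      refine Finset.sum_congr rfl fun k hk => ?_
      rw [hsub k hk, Nat.sub_zero]
      ring
    rw [e1, e2] at key
    have e3 : (acc : ℝ) / den / ((num : ℝ) / den) = (acc : ℝ) / num := by
      field_simp
    rw [e3] at key
    exact key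
  · rw [le_div_iff₀ hdenR, Finset.sum_mul, hacc, hK, ← Finset.range_eq_Ico]
    push_cast
    refine Finset.sum_le_sum fun k hk => ?_
    rw [hsub k hk]
    simp only [hs]
    have e4 : |2 * ((k : ℝ) + 1) * ((sq r num den u (k + 1) : ℤ) : ℝ) +
        (num : ℝ) / den * (((u.getD k 0 : ℤ) : ℝ) * (r : ℝ) ^ k)| * (k + 1) * den =
        |2 * (den : ℝ) * ((k : ℝ) + 1) * ((sq r num den u (k + 1) : ℤ) : ℝ) +
        num * (((u.getD k 0 : ℤ) : ℝ) * (r : ℝ) ^ k)| * (k + 1) := by
      have : 2 * (den : ℝ) * ((k : ℝ) + 1) * ((sq r num den u (k + 1) : ℤ) : ℝ) +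
        num * (((u.getD k 0 : ℤ) : ℝ) * (r : ℝ) ^ k) =
        (2 * ((k : ℝ) + 1) * ((sq r num den u (k + 1) : ℤ) : ℝ) +
        (num : ℝ) / den * (((u.getD k 0 : ℤ) : ℝ) * (r : ℝ) ^ k)) * den := by
        field_simp
      rw [this, abs_mul, abs_of_pos hdenR]
      ring
    rw [e4]

end Crest.Agent.R347.ExpApprox
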