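import Crest.Agent.R347.Closure546
import Crest.Agent.R347.Assemble546

/-! S0545 and S0546 from the four certified data structures. -/

set_option autoImplicit false

namespace Crest.Agent.R347

open Matrix Crest.MathPhysics.SpinChain

theorem S0545_final (hT : RingTraces) (hM : RingMPS) :
    (∀ L : ℕ, Even L → 60 ≤ L →
      HasSimpleGroundStateWithGap (heisenbergRing L) (4 / 105 * Real.log (80 / 79))) ∧
    (∀ L : ℕ, Even L → 2304 ≤ L →
      HasSimpleGroundStateWithGap (heisenbergRing L) (Real.log 20 / 784)) := by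
  refine S0545_of_base 48 (by norm_num) (by norm_num) 40 (by norm_num) (by norm_num)
    (by exact ⟨20, rfl⟩) ?_
  have h := base545 hT hM
  have h0 : 0 ≤ Zr 48 40 ^ 4 := pow_nonneg (Zr_pos 48 40 (by norm_num)).le 4
  refine le_trans ?_ h
  exact mul_le_mul_of_nonneg_right (by norm_num) h0

theorem S0546_final (hT : RingTraces) (hM : RingMPS) (hO : OpenTraces) (hP : OpenMPS)
    (L : ℕ) (hLL : 960 ≤ L) :
    HasSimpleGroundStateWithGap (openChainEndField (2 * L) (3 / 5)) (Real.log 10 / 392) :=
  S0546_of_base 48 (by norm_num) (by norm_num) 40 (by norm_num) (by norm_num)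
    (by exact ⟨20, rfl⟩) (base545 hT hM) (base546 hT hM hO hP) L hLL

end Crest.Agent.R347
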