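import Crest.Agent.R347.PSL

/-! Row 347, open chain (S0546): the top of the joint spectrum (compactness limit).
Definitions copied from `Joint.lean` statements; this file proves the analytic core for
`JXYZ.exists_top` and `JXYZ.X_sq_le`. -/

set_option autoImplicit false

namespace Crest.Agent.R347

open Filter Topology

/-- Finite signed joint power sums. -/
def JXYZfin (X Y Z : ℕ → ℝ) : Prop :=
  ∃ (m : ℕ) (κ w s : Fin m → ℝ), (∀ i, 0 ≤ w i) ∧ (∀ i, s i = 1 ∨ s i = -1) ∧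
    ∀ N, 1 ≤ N → Z N = ∑ i, κ i ^ N ∧ Y N = ∑ i, w i * κ i ^ N ∧
      X N = ∑ i, s i * w i * κ i ^ N

/-- Limits of finite signed joint power sums (`N ≥ 2`). -/
def JXYZ (X Y Z : ℕ → ℝ) : Prop :=
  ∃ x y z : ℕ → ℕ → ℝ, (∀ n, JXYZfin (x n) (y n) (z n)) ∧
    ∀ N, 2 ≤ N → Tendsto (fun n => z n N) atTop (𝓝 (Z N)) ∧
      Tendsto (fun n => y n N) atTop (𝓝 (Y N)) ∧ Tendsto (fun n => x n N) atTop (𝓝 (X N))

/-- Properties of the top (largest `|κ|`), of modulus `Λ`, weight `W`, sign `s`. -/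
structure IsTop (X Y Z : ℕ → ℝ) (Λ W s : ℝ) : Prop where
  pos : 0 < Λ
  W_nonneg : 0 ≤ W
  sign : s = 1 ∨ s = -1
  Z_ge : ∀ l, 1 ≤ l → Λ ^ (2 * l) ≤ Z (2 * l)
  Z_rest : ∀ l, 1 ≤ l → Z (4 * l) - Λ ^ (4 * l) ≤ (Z (2 * l) - Λ ^ (2 * l)) ^ 2
  Z_ratio : ∀ l, 1 ≤ l → Z (4 * l) ≤ Λ ^ (2 * l) * Z (2 * l)
  Y_ge : ∀ l, 1 ≤ l → W * Λ ^ (2 * l) ≤ Y (2 * l)
  Y_ratio : ∀ l, 1 ≤ l → Y (2 * l + 2) ≤ Λ ^ 2 * Y (2 * l)
  Y_rest_ratio : ∀ l, 1 ≤ l →
    Y (2 * l + 2) - W * Λ ^ (2 * l + 2) ≤ Λ ^ 2 * (Y (2 * l) - W * Λ ^ (2 * l))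
  Y_rest : ∀ l, 1 ≤ l → Y (4 * l) - W * Λ ^ (4 * l) ≤
    (Y (2 * l) - W * Λ ^ (2 * l)) * (Z (2 * l) - Λ ^ (2 * l))
  X_rest : ∀ l, 1 ≤ l → (X (2 * l + 1) - s * (W * Λ ^ (2 * l + 1))) ^ 2 ≤
    (Y (2 * l) - W * Λ ^ (2 * l)) * (Y (2 * l + 2) - W * Λ ^ (2 * l + 2))

theorem even_pow_nonneg' (x : ℝ) (l : ℕ) : 0 ≤ x ^ (2 * l) := by
  rw [pow_mul]; positivity

/-- The top of finite joint data. -/
theorem JXYZfin.exists_top {X Y Z : ℕ → ℝ} (h : JXYZfin X Y Z) (hZ : 0 < Z 2) :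
    ∃ Λ W s, IsTop X Y Z Λ W s ∧ Z 4 ≤ Λ ^ 2 * Z 2 := by
  classical
  obtain ⟨m, x, w, s, hw, hs, hd⟩ := h
  have hm : 0 < m := by
    rcases Nat.eq_zero_or_pos m with rfl | hm
    · have := (hd 2 (by norm_num)).1
      simp at this
      linarith
    · exact hm
  have : Nonempty (Fin m) := ⟨⟨0, hm⟩⟩
  obtain ⟨i₀, _, hi₀⟩ := Finset.exists_max_image (Finset.univ : Finset (Fin m))
    (fun i => |x i|) Finset.univ_nonempty
  have hi : ∀ i, |x i| ≤ |x i₀| := fun i => hi₀ i (Finset.mem_univ i)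
  have heven : ∀ i l, x i ^ (2 * l) = |x i| ^ (2 * l) := by
    intro i l
    rw [pow_mul, pow_mul, sq_abs]
  have hpow : ∀ i l, x i ^ (2 * l) ≤ |x i₀| ^ (2 * l) := by
    intro i l
    rw [heven]
    exact pow_le_pow_left₀ (abs_nonneg _) (hi i) _
  set Λ : ℝ := |x i₀| with hΛ
  -- the remainders
  have hzr : ∀ l, 1 ≤ l → Z (2 * l) - Λ ^ (2 * l) = ∑ i ∈ Finset.univ.erase i₀, x i ^ (2 * l) := by
    intro l hl
    rw [(hd (2 * l) (by omega)).1,
      ← Finset.add_sum_erase Finset.univ (fun i => x i ^ (2 * l)) (Finset.mem_univ i₀),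
      heven i₀ l]
    ring
  have hyr : ∀ l, 1 ≤ l → Y (2 * l) - w i₀ * Λ ^ (2 * l) =
      ∑ i ∈ Finset.univ.erase i₀, w i * x i ^ (2 * l) := by
    intro l hl
    rw [(hd (2 * l) (by omega)).2.1,
      ← Finset.add_sum_erase Finset.univ (fun i => w i * x i ^ (2 * l)) (Finset.mem_univ i₀),
      heven i₀ l]
    ring
  obtain ⟨ε, hε, hxε⟩ : ∃ ε : ℝ, (ε = 1 ∨ ε = -1) ∧ x i₀ = ε * Λ := by
    rcases abs_cases (x i₀) with ⟨h1, _⟩ | ⟨h1, _⟩
    · exact ⟨1, Or.inl rfl, by rw [hΛ, h1]; ring⟩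
    · exact ⟨-1, Or.inr rfl, by rw [hΛ, h1]; ring⟩
  have hεodd : ∀ l : ℕ, ε ^ (2 * l + 1) = ε := by
    intro l
    rcases hε with rfl | rfl
    · simp
    · rw [pow_add, pow_mul]; norm_num
  have hxr : ∀ l, 1 ≤ l → X (2 * l + 1) - (s i₀ * ε) * (w i₀ * Λ ^ (2 * l + 1)) =
      ∑ i ∈ Finset.univ.erase i₀, s i * w i * x i ^ (2 * l + 1) := by
    intro l hl
    rw [(hd (2 * l + 1) (by omega)).2.2,
      ← Finset.add_sum_erase Finset.univ (fun i => s i * w i * x i ^ (2 * l + 1))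
        (Finset.mem_univ i₀)]
    have : x i₀ ^ (2 * l + 1) = ε * Λ ^ (2 * l + 1) := by
      rw [hxε, mul_pow, hεodd]
    rw [this]
    ring
  have hΛpos : 0 < Λ := by
    rcases eq_or_lt_of_le (abs_nonneg (x i₀)) with h0 | h0
    · exfalso
      have : ∀ i, x i = 0 := by
        intro i
        have := hi i
        rw [hΛ, ← h0] at this
        exact abs_eq_zero.mp (le_antisymm this (abs_nonneg _))
      rw [(hd 2 (by norm_num)).1] at hZ
      simp [this] at hZ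
    · exact h0
  have hyn : ∀ l, 1 ≤ l → 0 ≤ Y (2 * l) - w i₀ * Λ ^ (2 * l) := by
    intro l hl
    rw [hyr l hl]
    exact Finset.sum_nonneg fun i _ => mul_nonneg (hw i) (even_pow_nonneg' _ _)
  have hyrr : ∀ l, 1 ≤ l → Y (2 * l + 2) - w i₀ * Λ ^ (2 * l + 2) ≤
      Λ ^ 2 * (Y (2 * l) - w i₀ * Λ ^ (2 * l)) := by
    intro l hl
    have h2 := hyr (l + 1) (by omega)
    rw [show 2 * (l + 1) = 2 * l + 2 by ring] at h2
    rw [hyr l hl, h2, Finset.mul_sum]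
    refine Finset.sum_le_sum fun i hi' => ?_
    have h1 := hpow i 1
    simp only [mul_one] at h1
    rw [pow_add]
    have := mul_le_mul_of_nonneg_left h1 (mul_nonneg (hw i) (even_pow_nonneg' (x i) l))
    linarith
  refine ⟨Λ, w i₀, s i₀ * ε, ⟨hΛpos, hw i₀, ?_, ?_, ?_, ?_, ?_, ?_, hyrr, ?_, ?_⟩, ?_⟩
  · rcases hs i₀ with h1 | h1 <;> rcases hε with h2 | h2 <;> rw [h1, h2] <;> simp
  · intro l hl
    have := hzr l hl
    have h2 : 0 ≤ ∑ i ∈ Finset.univ.erase i₀, x i ^ (2 * l) :=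
      Finset.sum_nonneg fun i _ => even_pow_nonneg' _ _
    linarith
  · intro l hl
    have h2 := hzr (2 * l) (by omega)
    rw [show 2 * (2 * l) = 4 * l by ring] at h2
    rw [h2, hzr l hl, sq, Finset.sum_mul]
    refine Finset.sum_le_sum fun i hi' => ?_
    rw [show 4 * l = 2 * l + 2 * l by ring, pow_add]
    exact mul_le_mul_of_nonneg_left (Finset.single_le_sum (f := fun j => x j ^ (2 * l))
      (fun j _ => even_pow_nonneg' _ _) hi') (even_pow_nonneg' _ _)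
  · intro l hl
    rw [(hd (4 * l) (by omega)).1, (hd (2 * l) (by omega)).1, Finset.mul_sum]
    refine Finset.sum_le_sum fun i _ => ?_
    rw [show 4 * l = 2 * l + 2 * l by ring, pow_add]
    exact mul_le_mul_of_nonneg_right (hpow i l) (even_pow_nonneg' _ _)
  · intro l hl
    have := hyn l hl
    linarith
  · intro l hl
    rw [(hd (2 * l + 2) (by omega)).2.1, (hd (2 * l) (by omega)).2.1, Finset.mul_sum]
    refine Finset.sum_le_sum fun i _ => ?_
    have h1 := hpow i 1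
    simp only [mul_one] at h1
    rw [pow_add]
    have := mul_le_mul_of_nonneg_left h1 (mul_nonneg (hw i) (even_pow_nonneg' (x i) l))
    linarith
  · intro l hl
    have h2 := hyr (2 * l) (by omega)
    rw [show 2 * (2 * l) = 4 * l by ring] at h2
    rw [h2, hyr l hl, hzr l hl, Finset.sum_mul]
    refine Finset.sum_le_sum fun i hi' => ?_
    rw [show 4 * l = 2 * l + 2 * l by ring, pow_add, ← mul_assoc]
    exact mul_le_mul_of_nonneg_left (Finset.single_le_sum (f := fun j => x j ^ (2 * l))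
      (fun j _ => even_pow_nonneg' _ _) hi') (mul_nonneg (hw i) (even_pow_nonneg' _ _))
  · intro l hl
    have h2 := hyr (l + 1) (by omega)
    rw [show 2 * (l + 1) = 2 * l + 2 by ring] at h2
    rw [hxr l hl, hyr l hl, h2]
    refine Finset.sum_sq_le_sum_mul_sum_of_sq_le_mul _
      (fun i _ => mul_nonneg (hw i) (even_pow_nonneg' _ _))
      (fun i _ => mul_nonneg (hw i) (by
        rw [show 2 * l + 2 = 2 * (l + 1) by ring]; exact even_pow_nonneg' _ _)) ?_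
    intro i _
    have : s i ^ 2 = 1 := by rcases hs i with h1 | h1 <;> rw [h1] <;> ring
    refine le_of_eq ?_
    calc (s i * w i * x i ^ (2 * l + 1)) ^ 2 =
        s i ^ 2 * (w i ^ 2 * (x i ^ (2 * l) * x i ^ (2 * l + 2))) := by ring
      _ = w i * x i ^ (2 * l) * (w i * x i ^ (2 * l + 2)) := by rw [this]; ring
  · rw [(hd 4 (by norm_num)).1, (hd 2 (by norm_num)).1, Finset.mul_sum]
    refine Finset.sum_le_sum fun i _ => ?_
    have h1 := hpow i 1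
    simp only [mul_one] at h1
    calc x i ^ 4 = x i ^ 2 * x i ^ 2 := by ring
      _ ≤ Λ ^ 2 * x i ^ 2 := mul_le_mul_of_nonneg_right h1 (sq_nonneg _)

/-- The top of limits of joint data. -/
theorem JXYZ.exists_top {X Y Z : ℕ → ℝ} (h : JXYZ X Y Z) (hZ4 : 0 < Z 4) :
    ∃ Λ W s : ℝ, IsTop X Y Z Λ W s := by
  obtain ⟨k, g, f, hJ, hlim⟩ := h
  have hf2 := (hlim 2 le_rfl).1
  have hf4 := (hlim 4 (by norm_num)).1
  have hg2 := (hlim 2 le_rfl).2.1
  have hZ2 : 0 < Z 2 := by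
    have hsq : ∀ n, f n 4 ≤ f n 2 ^ 2 := by
      intro n
      obtain ⟨m, x, w, s, hw, hs, hd⟩ := hJ n
      rw [(hd 4 (by norm_num)).1, (hd 2 (by norm_num)).1, sq, Finset.sum_mul]
      refine Finset.sum_le_sum fun i hi' => ?_
      rw [show (4 : ℕ) = 2 + 2 by norm_num, pow_add]
      exact mul_le_mul_of_nonneg_left (Finset.single_le_sum (f := fun j => x j ^ 2)
        (fun j _ => sq_nonneg _) hi') (sq_nonneg _)
    have hnn : 0 ≤ Z 2 := by
      refine ge_of_tendsto' hf2 fun n => ?_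
      obtain ⟨m, x, w, s, hw, hs, hd⟩ := hJ n
      rw [(hd 2 (by norm_num)).1]
      exact Finset.sum_nonneg fun i _ => sq_nonneg _
    have h4 : Z 4 ≤ Z 2 ^ 2 := le_of_tendsto_of_tendsto' hf4 (hf2.pow 2) hsq
    rcases eq_or_lt_of_le hnn with h0 | h0
    · rw [← h0] at h4
      norm_num at h4
      linarith
    · exact h0
  -- pass to indices where `f n 2`, `f n 4` are close to the limits
  have hev : ∀ᶠ n in atTop, Z 2 / 2 < f n 2 ∧ f n 2 < 2 * Z 2 ∧ Z 4 / 2 < f n 4 ∧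
      g n 2 < |Y 2| + 1 := by
    have e1 := hf2.eventually (lt_mem_nhds (show Z 2 / 2 < Z 2 by linarith))
    have e2 := hf2.eventually (gt_mem_nhds (show Z 2 < 2 * Z 2 by linarith))
    have e3 := hf4.eventually (lt_mem_nhds (show Z 4 / 2 < Z 4 by linarith))
    have e4 := hg2.eventually (gt_mem_nhds (show Y 2 < |Y 2| + 1 by
      have := le_abs_self (Y 2); linarith))
    filter_upwards [e1, e2, e3, e4] with n h1 h2 h3 h4 using ⟨h1, h2, h3, h4⟩
  obtain ⟨n₀, hn₀⟩ := eventually_atTop.mp hev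
  have hex : ∀ n, ∃ Λ W s, IsTop (k (n + n₀)) (g (n + n₀)) (f (n + n₀)) Λ W s ∧
      f (n + n₀) 4 ≤ Λ ^ 2 * f (n + n₀) 2 := fun n =>
    (hJ (n + n₀)).exists_top (by have := (hn₀ (n + n₀) (by omega)).1; linarith)
  choose Λ W S hT hΛ using hex
  set c : ℝ := Z 4 / (4 * Z 2) with hc
  have hc0 : 0 < c := by positivity
  have hb1 : ∀ n, c ≤ Λ n ^ 2 := by
    intro n
    obtain ⟨a1, a2, a3, _⟩ := hn₀ (n + n₀) (by omega)
    have := hΛ n
    rw [hc, div_le_iff₀ (by positivity)]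
    nlinarith [sq_nonneg (Λ n)]
  have hb2 : ∀ n, Λ n ^ 2 ≤ 2 * Z 2 := by
    intro n
    obtain ⟨_, a2, _, _⟩ := hn₀ (n + n₀) (by omega)
    have := (hT n).Z_ge 1 le_rfl
    simp only [mul_one] at this
    linarith
  have hb3 : ∀ n, W n * Λ n ^ 2 ≤ |Y 2| + 1 := by
    intro n
    obtain ⟨_, _, _, a4⟩ := hn₀ (n + n₀) (by omega)
    have := (hT n).Y_ge 1 le_rfl
    simp only [mul_one] at this
    linarith
  have hΛB : ∀ n, Λ n ∈ Set.Icc (Real.sqrt c) (Real.sqrt (2 * Z 2)) := by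
    intro n
    constructor
    · exact Real.sqrt_le_iff.mpr ⟨(hT n).pos.le, hb1 n⟩
    · exact Real.le_sqrt_of_sq_le (hb2 n)
  have hWB : ∀ n, W n ∈ Set.Icc (0 : ℝ) ((|Y 2| + 1) / c) := by
    intro n
    refine ⟨(hT n).W_nonneg, ?_⟩
    rw [le_div_iff₀ hc0]
    exact (mul_le_mul_of_nonneg_left (hb1 n) (hT n).W_nonneg).trans (hb3 n)
  have hSB : ∀ n, S n ∈ Set.Icc (-1 : ℝ) 1 := by
    intro n
    rcases (hT n).sign with h | h <;> rw [h] <;> constructor <;> norm_num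
  obtain ⟨⟨a, b⟩, hab, φ, hφ, hlimφ⟩ := (isCompact_Icc.prod
    (isCompact_Icc.prod isCompact_Icc)).tendsto_subseq
    (x := fun n => (Λ n, (W n, S n))) (fun n => ⟨hΛB n, hWB n, hSB n⟩)
  obtain ⟨b, e⟩ := b
  obtain ⟨ha, hb, he⟩ := hab
  have hlΛ : Tendsto (fun n => Λ (φ n)) atTop (𝓝 a) := by
    have := (continuous_fst.tendsto _).comp hlimφ
    simpa [Function.comp_def] using this
  have hlW : Tendsto (fun n => W (φ n)) atTop (𝓝 b) := by
    have := ((continuous_fst.comp continuous_snd).tendsto _).comp hlimφ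
    simpa [Function.comp_def] using this
  have hlS : Tendsto (fun n => S (φ n)) atTop (𝓝 e) := by
    have := ((continuous_snd.comp continuous_snd).tendsto _).comp hlimφ
    simpa [Function.comp_def] using this
  have hψ : Tendsto (fun n => φ n + n₀) atTop atTop :=
    (tendsto_add_atTop_nat n₀).comp hφ.tendsto_atTop
  have lZ : ∀ l, 2 ≤ l → Tendsto (fun n => f (φ n + n₀) l) atTop (𝓝 (Z l)) := fun l hl =>
    (hlim l hl).1.comp hψ
  have lY : ∀ l, 2 ≤ l → Tendsto (fun n => g (φ n + n₀) l) atTop (𝓝 (Y l)) := fun l hl =>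
    (hlim l hl).2.1.comp hψ
  have lX : ∀ l, 2 ≤ l → Tendsto (fun n => k (φ n + n₀) l) atTop (𝓝 (X l)) := fun l hl =>
    (hlim l hl).2.2.comp hψ
  have lz : ∀ l, 2 ≤ l → Tendsto (fun n => f (φ n + n₀) l - Λ (φ n) ^ l) atTop
      (𝓝 (Z l - a ^ l)) := fun l hl => (lZ _ hl).sub (hlΛ.pow _)
  have ly : ∀ l, 2 ≤ l → Tendsto (fun n => g (φ n + n₀) l -
      W (φ n) * Λ (φ n) ^ l) atTop (𝓝 (Y l - b * a ^ l)) := fun l hl =>
    (lY _ hl).sub (hlW.mul (hlΛ.pow _))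
  refine ⟨a, b, e, ⟨lt_of_lt_of_le (Real.sqrt_pos.mpr hc0) ha.1, hb.1, ?_, ?_, ?_, ?_, ?_, ?_,
    ?_, ?_, ?_⟩⟩
  · have h2 : e ^ 2 = 1 ^ 2 := by
      refine tendsto_nhds_unique (hlS.pow 2) ?_
      refine tendsto_const_nhds.congr fun n => ?_
      rcases (hT (φ n)).sign with h | h <;> rw [h] <;> ring
    exact sq_eq_sq_iff_eq_or_eq_neg.mp h2
  · intro l hl
    exact le_of_tendsto_of_tendsto' (hlΛ.pow _) (lZ (2 * l) (by omega))
      fun n => (hT (φ n)).Z_ge l hl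
  · intro l hl
    exact le_of_tendsto_of_tendsto' (lz (4 * l) (by omega)) ((lz (2 * l) (by omega)).pow 2)
      fun n => (hT (φ n)).Z_rest l hl
  · intro l hl
    exact le_of_tendsto_of_tendsto' (lZ (4 * l) (by omega)) ((hlΛ.pow _).mul (lZ (2 * l) (by omega)))
      fun n => (hT (φ n)).Z_ratio l hl
  · intro l hl
    exact le_of_tendsto_of_tendsto' (hlW.mul (hlΛ.pow _)) (lY (2 * l) (by omega))
      fun n => (hT (φ n)).Y_ge l hl
  · intro l hl
    exact le_of_tendsto_of_tendsto' (lY (2 * l + 2) (by omega)) ((hlΛ.pow _).mul (lY (2 * l) (by omega)))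
      fun n => (hT (φ n)).Y_ratio l hl
  · intro l hl
    exact le_of_tendsto_of_tendsto' (ly (2 * l + 2) (by omega))
      ((hlΛ.pow _).mul (ly (2 * l) (by omega)))
      fun n => (hT (φ n)).Y_rest_ratio l hl
  · intro l hl
    exact le_of_tendsto_of_tendsto' (ly (4 * l) (by omega))
      ((ly (2 * l) (by omega)).mul (lz (2 * l) (by omega)))
      fun n => (hT (φ n)).Y_rest l hl
  · intro l hl
    exact le_of_tendsto_of_tendsto' (((lX (2 * l + 1) (by omega)).sub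
      (hlS.mul (hlW.mul (hlΛ.pow _)))).pow 2)
      ((ly (2 * l) (by omega)).mul (ly (2 * l + 2) (by omega)))
      fun n => (hT (φ n)).X_rest l hl

/-- For odd `N = 2 l + 1`: `X(N)² ≤ Y(N-1) Y(N+1)`. -/
theorem JXYZ.X_sq_le {X Y Z : ℕ → ℝ} (h : JXYZ X Y Z) {l : ℕ} (hl : 1 ≤ l) :
    X (2 * l + 1) ^ 2 ≤ Y (2 * l) * Y (2 * l + 2) := by
  obtain ⟨k, g, f, hJ, hlim⟩ := h
  refine le_of_tendsto_of_tendsto' ((hlim (2 * l + 1) (by omega)).2.2.pow 2)
    ((hlim (2 * l) (by omega)).2.1.mul (hlim (2 * l + 2) (by omega)).2.1) fun n => ?_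
  obtain ⟨m, x, w, s, hw, hs, hd⟩ := hJ n
  rw [(hd (2 * l + 1) (by omega)).2.2, (hd (2 * l) (by omega)).2.1,
    (hd (2 * l + 2) (by omega)).2.1]
  refine Finset.sum_sq_le_sum_mul_sum_of_sq_le_mul _
    (fun i _ => mul_nonneg (hw i) (even_pow_nonneg' _ _))
    (fun i _ => mul_nonneg (hw i) (by
      rw [show 2 * l + 2 = 2 * (l + 1) by ring]; exact even_pow_nonneg' _ _)) ?_
  intro i _
  have : s i ^ 2 = 1 := by rcases hs i with h1 | h1 <;> rw [h1] <;> ring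
  refine le_of_eq ?_
  calc (s i * w i * x i ^ (2 * l + 1)) ^ 2 =
      s i ^ 2 * (w i ^ 2 * (x i ^ (2 * l) * x i ^ (2 * l + 2))) := by ring
    _ = w i * x i ^ (2 * l) * (w i * x i ^ (2 * l + 2)) := by rw [this]; ring

end Crest.Agent.R347
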