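import Crest.Agent.R347.Basic

/-!
Matrix product states: expectation values through transfer matrices.
`mpsVec A B s = Tr (B ∏ᵢ A i (s i))`; product operators `piK o`;
`Eop A o = ∑ o s s' • (A s ⊗ₖ A s')`.
-/

set_option autoImplicit false

namespace Crest.Agent.R347

open Matrix
open scoped Kronecker

section lists
variable {M : Type*}

/-- Ordered product `F 0 * F 1 * ⋯ * F (n-1)`. -/
def nprod [Monoid M] (F : ℕ → M) : ℕ → M
  | 0 => 1
  | n + 1 => nprod F n * F n

@[simp] theorem nprod_zero [Monoid M] (F : ℕ → M) : nprod F 0 = 1 := rfl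
theorem nprod_succ [Monoid M] (F : ℕ → M) (n : ℕ) : nprod F (n + 1) = nprod F n * F n := rfl

theorem nprod_add [Monoid M] (F : ℕ → M) (n k : ℕ) :
    nprod F (n + k) = nprod F n * nprod (fun i => F (n + i)) k := by
  induction k with
  | zero => simp
  | succ k ih => rw [← add_assoc, nprod_succ, ih, nprod_succ, mul_assoc]

theorem nprod_succ' [Monoid M] (F : ℕ → M) (n : ℕ) :
    nprod F (n + 1) = F 0 * nprod (fun i => F (i + 1)) n := by
  rw [add_comm, nprod_add]
  simp [nprod_succ, add_comm]

theorem nprod_congr [Monoid M] {F G : ℕ → M} {n : ℕ} (h : ∀ i < n, F i = G i) :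
    nprod F n = nprod G n := by
  induction n with
  | zero => rfl
  | succ n ih =>
    rw [nprod_succ, nprod_succ, ih fun i hi => h i (by omega), h n (by omega)]

theorem nprod_const [Monoid M] {F : ℕ → M} {T : M} {n : ℕ} (h : ∀ i < n, F i = T) :
    nprod F n = T ^ n := by
  induction n with
  | zero => simp
  | succ n ih => rw [nprod_succ, ih fun i hi => h i (by omega), h n (by omega), pow_succ]

theorem ofFn_prod_eq_nprod [Monoid M] (F : ℕ → M) (n : ℕ) :
    (List.ofFn fun i : Fin n => F i.val).prod = nprod F n := by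
  induction n generalizing F with
  | zero => simp
  | succ n ih =>
    rw [List.ofFn_succ, List.prod_cons, nprod_succ', ← ih]
    simp

/-- Ordered product of sums as a sum over words. -/
theorem ofFn_sum_prod {S ι : Type*} [Semiring S] [Fintype ι] (n : ℕ) (X : Fin n → ι → S) :
    (List.ofFn fun k => ∑ a, X k a).prod = ∑ w : Fin n → ι, (List.ofFn fun k => X k (w k)).prod := by
  induction n with
  | zero => simp
  | succ n ih =>
    rw [List.ofFn_succ, List.prod_cons, ih, ← (Fin.consEquiv (fun _ => ι)).sum_comp,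
      Fintype.sum_prod_type, Finset.sum_mul]
    refine Finset.sum_congr rfl fun a _ => ?_
    rw [Finset.mul_sum]
    refine Finset.sum_congr rfl fun A _ => ?_
    simp [List.ofFn_succ, Fin.consEquiv]

end lists

section mps
variable {m κ R : Type*} [Fintype m] [DecidableEq m] [Fintype κ] [DecidableEq κ] [CommRing R]

/-- Matrix product state with site tensors `A i` and boundary matrix `B`. -/
def mpsVec {L : ℕ} (A : Fin L → κ → Matrix m m R) (B : Matrix m m R) (s : Fin L → κ) : R :=
  (B * (List.ofFn fun i => A i (s i)).prod).trace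

/-- Transfer matrix with an operator inserted. -/
def Eop (A : κ → Matrix m m R) (o : Matrix κ κ R) : Matrix (m × m) (m × m) R :=
  ∑ s, ∑ s', o s s' • (A s ⊗ₖ A s')

theorem ofFn_smul_kron (n : ℕ) (c : Fin n → R) (X Y : Fin n → Matrix m m R) :
    (List.ofFn fun k => c k • (X k ⊗ₖ Y k)).prod =
      (∏ k, c k) • ((List.ofFn X).prod ⊗ₖ (List.ofFn Y).prod) := by
  induction n with
  | zero => simp
  | succ n ih =>
    rw [List.ofFn_succ, List.prod_cons, ih, Fin.prod_univ_succ, List.ofFn_succ (f := X),
      List.ofFn_succ (f := Y), List.prod_cons, List.prod_cons, smul_mul_assoc, mul_smul_comm,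
      smul_smul, ← Matrix.mul_kronecker_mul]

/-- Expectation value of a product operator. -/
theorem mps_expect {L : ℕ} (A : Fin L → κ → Matrix m m R) (B : Matrix m m R)
    (o : Fin L → Matrix κ κ R) :
    mpsVec A B ⬝ᵥ (piK o).mulVec (mpsVec A B) =
      ((B ⊗ₖ B) * (List.ofFn fun i => Eop (A i) (o i)).prod).trace := by
  have h1 : (List.ofFn fun i => Eop (A i) (o i)).prod =
      ∑ w : Fin L → κ × κ, (∏ i, o i (w i).1 (w i).2) •
        ((List.ofFn fun i => A i (w i).1).prod ⊗ₖ (List.ofFn fun i => A i (w i).2).prod) := by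
    have : (fun i => Eop (A i) (o i)) =
        fun i => ∑ p : κ × κ, o i p.1 p.2 • (A i p.1 ⊗ₖ A i p.2) := by
      funext i
      rw [Eop, Fintype.sum_prod_type]
    rw [this, ofFn_sum_prod]
    refine Finset.sum_congr rfl fun w _ => ?_
    rw [ofFn_smul_kron]
  rw [h1, Finset.mul_sum, Matrix.trace_sum]
  rw [← (Equiv.arrowProdEquivProdArrow (Fin L) (fun _ => κ) (fun _ => κ)).symm.sum_comp,
    Fintype.sum_prod_type]
  simp only [dotProduct, Matrix.mulVec, Finset.mul_sum]
  refine Finset.sum_congr rfl fun σ _ => Finset.sum_congr rfl fun τ _ => ?_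
  rw [mul_smul_comm, Matrix.trace_smul, ← Matrix.mul_kronecker_mul, Matrix.trace_kronecker,
    smul_eq_mul]
  simp only [piK_apply, mpsVec, Equiv.arrowProdEquivProdArrow]
  simp
  ring

end mps

section rot
variable {m R : Type*} [Fintype m] [DecidableEq m] [CommRing R]

/-- Cyclic invariance of the trace of an ordered product over the ring. -/
theorem trace_ofFn_rotate (n : ℕ) (f : Fin (n + 1) → Matrix m m R) :
    (List.ofFn fun i => f (i + 1)).prod.trace = (List.ofFn f).prod.trace := by
  rw [List.ofFn_succ', List.ofFn_succ (f := f), List.concat_eq_append, List.prod_append,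
    List.prod_cons, List.prod_cons, List.prod_nil, mul_one]
  rw [Matrix.trace_mul_comm]
  simp

end rot

section pair
variable {κ R I : Type*} [Fintype κ] [DecidableEq κ] [CommRing R] [Fintype I]

/-- Site function of the two-site operator `u ⊗ v` placed at the sites `j`, `k`. -/
def pairFn {ι : Type*} [DecidableEq ι] (u v : Matrix κ κ R) (j k : ι) (i : ι) : Matrix κ κ R :=
  (if i = j then u else 1) * (if i = k then v else 1)

omit [Fintype κ] in
theorem pairFn_val [Fintype κ] {n : ℕ} (u v : Matrix κ κ R) (j k i : Fin n) :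
    pairFn u v j k i = pairFn u v j.val k.val i.val := by
  unfold pairFn
  simp only [Fin.ext_iff]

/-- Two-site operator `∑ a, u a ⊗ v a` at the sites `j`, `k`. -/
def pairOp {ι : Type*} [Fintype ι] [DecidableEq ι] (u v : I → Matrix κ κ R) (j k : ι) :
    Matrix (ι → κ) (ι → κ) R :=
  ∑ a, piK (pairFn (u a) (v a) j k)

theorem pairOp_mul_pairOp {ι : Type*} [Fintype ι] [DecidableEq ι] (u v : I → Matrix κ κ R)
    (j k j' k' : ι) :
    pairOp u v j k * pairOp u v j' k' =
      ∑ a, ∑ b, piK (fun i => pairFn (u a) (v a) j k i * pairFn (u b) (v b) j' k' i) := by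
  simp only [pairOp, Finset.sum_mul, Finset.mul_sum]
  rw [Finset.sum_comm]
  refine Finset.sum_congr rfl fun a _ => Finset.sum_congr rfl fun b _ => ?_
  rw [piK_mul]

/-- Sum of the two-site operators over all bonds of the ring of `n + 1` sites. -/
def ringOp (u v : I → Matrix κ κ R) (n : ℕ) :
    Matrix (Fin (n + 1) → κ) (Fin (n + 1) → κ) R :=
  ∑ j : Fin (n + 1), pairOp u v j (j + 1)

end pair

section ring
variable {m κ R I : Type*} [Fintype m] [DecidableEq m] [Fintype κ] [DecidableEq κ] [CommRing R]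
  [Fintype I]

/-- transfer matrix of `∑ a, u a ⊗ v a` on two neighbouring sites -/
def TK (A : κ → Matrix m m R) (u v : I → Matrix κ κ R) : Matrix (m × m) (m × m) R :=
  ∑ a, Eop A (u a) * Eop A (v a)

/-- transfer matrix of the square of the two-site operator -/
def TKK (A : κ → Matrix m m R) (u v : I → Matrix κ κ R) : Matrix (m × m) (m × m) R :=
  ∑ a, ∑ b, Eop A (u a * u b) * Eop A (v a * v b)

/-- transfer matrix of `K₁₂ K₂₃ + K₂₃ K₁₂` -/
def T3 (A : κ → Matrix m m R) (u v : I → Matrix κ κ R) : Matrix (m × m) (m × m) R :=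
  ∑ a, ∑ b, (Eop A (u a) * Eop A (v a * u b) * Eop A (v b) +
    Eop A (u a) * Eop A (u b * v a) * Eop A (v b))

theorem ring_N0 (A : κ → Matrix m m R) (L : ℕ) :
    mpsVec (fun _ : Fin L => A) 1 ⬝ᵥ mpsVec (fun _ : Fin L => A) 1 =
      (Eop A 1 ^ L).trace := by
  have h := mps_expect (fun _ : Fin L => A) 1 (fun _ => 1)
  rw [piK_one, Matrix.one_mulVec] at h
  rw [h]
  simp [List.ofFn_const, List.prod_replicate]

/-- one-bond correlator at position `j` -/
theorem ring_t1 (A : κ → Matrix m m R) (u v : I → Matrix κ κ R) (n : ℕ) (j : Fin (n + 2)) :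
    mpsVec (fun _ : Fin (n + 2) => A) 1 ⬝ᵥ
      (pairOp u v j (j + 1)).mulVec (mpsVec (fun _ : Fin (n + 2) => A) 1) =
      (TK A u v * Eop A 1 ^ n).trace := by
  have key : ∀ (a : I) (j : Fin (n + 2)),
      (List.ofFn fun i : Fin (n + 2) => Eop A (pairFn (u a) (v a) j (j + 1) i)).prod.trace =
        (Eop A (u a) * Eop A (v a) * Eop A 1 ^ n).trace := by
    intro a j
    have hshift : ∀ j : Fin (n + 2),
        (List.ofFn fun i : Fin (n + 2) =>
          Eop A (pairFn (u a) (v a) (j + 1) (j + 1 + 1) i)).prod.trace =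
        (List.ofFn fun i : Fin (n + 2) =>
          Eop A (pairFn (u a) (v a) j (j + 1) i)).prod.trace := by
      intro j
      rw [← trace_ofFn_rotate (n + 1) (fun i : Fin (n + 2) =>
          Eop A (pairFn (u a) (v a) (j + 1) (j + 1 + 1) i))]
      congr 3
      funext i
      simp only [pairFn, add_left_inj]
    have h1 : (List.ofFn fun i : Fin (n + 2) =>
          Eop A (pairFn (u a) (v a) j (j + 1) i)).prod.trace =
        (List.ofFn fun i : Fin (n + 2) =>
          Eop A (pairFn (u a) (v a) (0 : Fin (n + 2)) (0 + 1) i)).prod.trace := by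
      induction j using Fin.induction with
      | zero => rfl
      | succ i ih =>
        rw [← Fin.coeSucc_eq_succ, hshift, ih]
    rw [h1]
    have h2 : (fun i : Fin (n + 2) => Eop A (pairFn (u a) (v a) (0 : Fin (n + 2)) (0 + 1) i)) =
        fun i : Fin (n + 2) => (fun k : ℕ => Eop A (pairFn (u a) (v a) 0 1 k)) i.val := by
      funext i
      simp only [zero_add]
      rw [pairFn_val, Fin.val_zero, Fin.val_one]
    rw [h2, ofFn_prod_eq_nprod (fun k : ℕ => Eop A (pairFn (u a) (v a) 0 1 k)), add_comm n 2,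
      nprod_add]
    rw [nprod_const (T := Eop A 1) (n := n)]
    · simp [nprod_succ, pairFn]
    · intro i hi
      rw [pairFn, if_neg (by omega), if_neg (by omega), one_mul]
  have h0 : mpsVec (fun _ : Fin (n + 2) => A) 1 ⬝ᵥ
      (pairOp u v j (j + 1)).mulVec (mpsVec (fun _ : Fin (n + 2) => A) 1) =
      ∑ a, (List.ofFn fun i : Fin (n + 2) =>
        Eop A (pairFn (u a) (v a) j (j + 1) i)).prod.trace := by
    rw [pairOp, Matrix.sum_mulVec, dotProduct_sum]
    refine Finset.sum_congr rfl fun a _ => ?_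
    rw [mps_expect]
    simp
  rw [h0, TK, Finset.sum_mul, Matrix.trace_sum]
  exact Finset.sum_congr rfl fun a _ => key a j

theorem ring_N1 (A : κ → Matrix m m R) (u v : I → Matrix κ κ R) (n : ℕ) :
    mpsVec (fun _ : Fin (n + 2) => A) 1 ⬝ᵥ
      (ringOp u v (n + 1)).mulVec (mpsVec (fun _ : Fin (n + 2) => A) 1) =
      ((n + 2 : ℕ) : R) * (TK A u v * Eop A 1 ^ n).trace := by
  rw [ringOp, Matrix.sum_mulVec, dotProduct_sum]
  rw [Finset.sum_congr rfl fun j _ => ring_t1 A u v n j]
  simp

/-- two-bond correlator, as a function of the distance -/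
private def gg (A : κ → Matrix m m R) (u v : I → Matrix κ κ R) (n d : ℕ) : R :=
  ∑ a, ∑ b, (nprod (fun i => Eop A (pairFn (u a) (v a) 0 1 i *
    pairFn (u b) (v b) d (if d = n + 3 then 0 else d + 1) i)) (n + 4)).trace

private theorem pf_left (u v : Matrix κ κ R) {j k i : ℕ} (h : i = j) (h' : i ≠ k) :
    pairFn u v j k i = u := by
  rw [pairFn, if_pos h, if_neg h', mul_one]

private theorem pf_right (u v : Matrix κ κ R) {j k i : ℕ} (h : i ≠ j) (h' : i = k) :
    pairFn u v j k i = v := by
  rw [pairFn, if_neg h, if_pos h', one_mul]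

private theorem pf_none (u v : Matrix κ κ R) {j k i : ℕ} (h : i ≠ j) (h' : i ≠ k) :
    pairFn u v j k i = 1 := by
  rw [pairFn, if_neg h, if_neg h', mul_one]

private theorem nprod_two {M : Type*} [Monoid M] (F : ℕ → M) : nprod F 2 = F 0 * F 1 := by
  simp [nprod_succ]

private theorem nprod_three {M : Type*} [Monoid M] (F : ℕ → M) :
    nprod F 3 = F 0 * F 1 * F 2 := by
  simp [nprod_succ]

private theorem gg_zero (A : κ → Matrix m m R) (u v : I → Matrix κ κ R) (n : ℕ) :
    gg A u v n 0 = (TKK A u v * Eop A 1 ^ (n + 2)).trace := by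
  rw [gg, TKK, Finset.sum_mul, Matrix.trace_sum]
  refine Finset.sum_congr rfl fun a _ => ?_
  rw [Finset.sum_mul, Matrix.trace_sum]
  refine Finset.sum_congr rfl fun b _ => ?_
  rw [if_neg (show ¬ (0 = n + 3) by omega), show n + 4 = 2 + (n + 2) by omega, nprod_add,
    nprod_const (T := Eop A 1) (n := n + 2), nprod_two]
  · rw [pf_left (u a) (v a) (by omega) (by omega), pf_left (u b) (v b) (by omega) (by omega),
      pf_right (u a) (v a) (by omega) (by omega), pf_right (u b) (v b) (by omega) (by omega)]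
  · intro i hi
    rw [pf_none (u a) (v a) (by omega) (by omega), pf_none (u b) (v b) (by omega) (by omega),
      one_mul]

private theorem gg_one (A : κ → Matrix m m R) (u v : I → Matrix κ κ R) (n : ℕ) :
    gg A u v n 1 = ∑ a, ∑ b,
      (Eop A (u a) * Eop A (v a * u b) * Eop A (v b) * Eop A 1 ^ (n + 1)).trace := by
  rw [gg]
  refine Finset.sum_congr rfl fun a _ => Finset.sum_congr rfl fun b _ => ?_
  rw [if_neg (show ¬ (1 = n + 3) by omega), show n + 4 = 3 + (n + 1) by omega, nprod_add,
    nprod_const (T := Eop A 1) (n := n + 1), nprod_three]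
  · rw [pf_left (u a) (v a) (i := 0) (by omega) (by omega),
      pf_none (u b) (v b) (i := 0) (by omega) (by omega),
      pf_right (u a) (v a) (i := 1) (by omega) (by omega),
      pf_left (u b) (v b) (i := 1) (by omega) (by omega),
      pf_none (u a) (v a) (i := 2) (by omega) (by omega),
      pf_right (u b) (v b) (i := 2) (by omega) (by omega), one_mul, mul_one]
  · intro i hi
    rw [pf_none (u a) (v a) (by omega) (by omega), pf_none (u b) (v b) (by omega) (by omega),
      one_mul]

private theorem gg_last (A : κ → Matrix m m R) (u v : I → Matrix κ κ R) (n : ℕ) :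
    gg A u v n (n + 3) = ∑ a, ∑ b,
      (Eop A (u a) * Eop A (u b * v a) * Eop A (v b) * Eop A 1 ^ (n + 1)).trace := by
  rw [gg, Finset.sum_comm]
  refine Finset.sum_congr rfl fun a _ => Finset.sum_congr rfl fun b _ => ?_
  rw [if_pos rfl, show n + 4 = 2 + (n + 1) + 1 by omega, nprod_succ, nprod_add,
    nprod_const (T := Eop A 1) (n := n + 1), nprod_two]
  · rw [Matrix.trace_mul_comm,
      pf_left (u b) (v b) (i := 0) (by omega) (by omega),
      pf_right (u a) (v a) (i := 0) (by omega) (by omega),
      pf_right (u b) (v b) (i := 1) (by omega) (by omega),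
      pf_none (u a) (v a) (i := 1) (by omega) (by omega),
      pf_none (u b) (v b) (i := 2 + (n + 1)) (by omega) (by omega),
      pf_left (u a) (v a) (i := 2 + (n + 1)) (by omega) (by omega), one_mul, mul_one]
    simp only [mul_assoc]
  · intro i hi
    rw [pf_none (u b) (v b) (by omega) (by omega), pf_none (u a) (v a) (by omega) (by omega),
      one_mul]

private theorem gg_mid (A : κ → Matrix m m R) (u v : I → Matrix κ κ R) (n d : ℕ) (hd : d ≤ n) :
    gg A u v n (d + 2) = (TK A u v * Eop A 1 ^ d * TK A u v * Eop A 1 ^ (n - d)).trace := by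
  have hrhs : TK A u v * Eop A 1 ^ d * TK A u v * Eop A 1 ^ (n - d) = ∑ a, ∑ b,
      (Eop A (u a) * Eop A (v a) * Eop A 1 ^ d * (Eop A (u b) * Eop A (v b)) *
        Eop A 1 ^ (n - d)) := by
    simp only [TK, Finset.sum_mul, Finset.mul_sum]
    rw [Finset.sum_comm]
  rw [hrhs, Matrix.trace_sum, gg]
  refine Finset.sum_congr rfl fun a _ => ?_
  rw [Matrix.trace_sum]
  refine Finset.sum_congr rfl fun b _ => ?_
  rw [if_neg (show ¬ (d + 2 = n + 3) by omega), show n + 4 = (2 + d) + 2 + (n - d) by omega,
    nprod_add, nprod_add, nprod_add,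
    nprod_const (T := Eop A 1) (n := n - d), nprod_const (T := Eop A 1) (n := d), nprod_two,
    nprod_two]
  · rw [pf_left (u a) (v a) (i := 0) (by omega) (by omega),
      pf_none (u b) (v b) (i := 0) (by omega) (by omega),
      pf_right (u a) (v a) (i := 1) (by omega) (by omega),
      pf_none (u b) (v b) (i := 1) (by omega) (by omega),
      pf_none (u a) (v a) (i := 2 + d + 0) (by omega) (by omega),
      pf_left (u b) (v b) (i := 2 + d + 0) (by omega) (by omega),
      pf_none (u a) (v a) (i := 2 + d + 1) (by omega) (by omega),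
      pf_right (u b) (v b) (i := 2 + d + 1) (by omega) (by omega), one_mul, one_mul, mul_one,
      mul_one]
  · intro i hi
    rw [pf_none (u a) (v a) (by omega) (by omega), pf_none (u b) (v b) (by omega) (by omega),
      one_mul]
  · intro i hi
    rw [pf_none (u a) (v a) (by omega) (by omega), pf_none (u b) (v b) (by omega) (by omega),
      one_mul]

private theorem ring_t2 (A : κ → Matrix m m R) (u v : I → Matrix κ κ R) (n : ℕ)
    (j d : Fin (n + 4)) :
    mpsVec (fun _ : Fin (n + 4) => A) 1 ⬝ᵥ
      (pairOp u v j (j + 1) * pairOp u v (j + d) (j + d + 1)).mulVec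
        (mpsVec (fun _ : Fin (n + 4) => A) 1) = gg A u v n d.val := by
  have hshift : ∀ (a b : I) (j k : Fin (n + 4)),
      (List.ofFn fun i : Fin (n + 4) =>
        Eop A (pairFn (u a) (v a) (j + 1) (j + 1 + 1) i *
          pairFn (u b) (v b) (k + 1) (k + 1 + 1) i)).prod.trace =
      (List.ofFn fun i : Fin (n + 4) =>
        Eop A (pairFn (u a) (v a) j (j + 1) i * pairFn (u b) (v b) k (k + 1) i)).prod.trace := by
    intro a b j k
    rw [← trace_ofFn_rotate (n + 3) (fun i : Fin (n + 4) =>
        Eop A (pairFn (u a) (v a) (j + 1) (j + 1 + 1) i *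
          pairFn (u b) (v b) (k + 1) (k + 1 + 1) i))]
    congr 3
    funext i
    simp only [pairFn, add_left_inj]
  have h1 : ∀ (a b : I), (List.ofFn fun i : Fin (n + 4) =>
        Eop A (pairFn (u a) (v a) j (j + 1) i *
          pairFn (u b) (v b) (j + d) (j + d + 1) i)).prod.trace =
      (List.ofFn fun i : Fin (n + 4) =>
        Eop A (pairFn (u a) (v a) 0 (0 + 1) i * pairFn (u b) (v b) (0 + d) (0 + d + 1) i)).prod.trace := by
    intro a b
    induction j using Fin.induction with
    | zero => rfl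
    | succ i ih =>
      rw [← Fin.coeSucc_eq_succ, add_right_comm (Fin.castSucc i) 1 d, hshift, ih]
  have h0 : mpsVec (fun _ : Fin (n + 4) => A) 1 ⬝ᵥ
      (pairOp u v j (j + 1) * pairOp u v (j + d) (j + d + 1)).mulVec
        (mpsVec (fun _ : Fin (n + 4) => A) 1) =
      ∑ a, ∑ b, (List.ofFn fun i : Fin (n + 4) =>
        Eop A (pairFn (u a) (v a) j (j + 1) i *
          pairFn (u b) (v b) (j + d) (j + d + 1) i)).prod.trace := by
    rw [pairOp_mul_pairOp, Matrix.sum_mulVec, dotProduct_sum]
    refine Finset.sum_congr rfl fun a _ => ?_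
    rw [Matrix.sum_mulVec, dotProduct_sum]
    refine Finset.sum_congr rfl fun b _ => ?_
    rw [mps_expect]
    simp
  rw [h0, gg]
  refine Finset.sum_congr rfl fun a _ => Finset.sum_congr rfl fun b _ => ?_
  rw [h1]
  have h2 : (fun i : Fin (n + 4) => Eop A (pairFn (u a) (v a) 0 (0 + 1) i *
      pairFn (u b) (v b) (0 + d) (0 + d + 1) i)) =
      fun i : Fin (n + 4) => (fun k : ℕ => Eop A (pairFn (u a) (v a) 0 1 k *
        pairFn (u b) (v b) d.val (if d.val = n + 3 then 0 else d.val + 1) k)) i.val := by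
    funext i
    simp only [zero_add]
    rw [pairFn_val, Fin.val_zero, Fin.val_one, pairFn_val (u b) (v b), Fin.val_add_one]
    simp only [Fin.ext_iff, Fin.val_last]
  rw [h2, ofFn_prod_eq_nprod (fun k : ℕ => Eop A (pairFn (u a) (v a) 0 1 k *
        pairFn (u b) (v b) d.val (if d.val = n + 3 then 0 else d.val + 1) k))]

/-- Second moment of the sum of the two-site operators over the ring. -/
theorem ring_N2 (A : κ → Matrix m m R) (u v : I → Matrix κ κ R) (n : ℕ) :
    mpsVec (fun _ : Fin (n + 4) => A) 1 ⬝ᵥ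
      (ringOp u v (n + 3) * ringOp u v (n + 3)).mulVec (mpsVec (fun _ : Fin (n + 4) => A) 1) =
      ((n + 4 : ℕ) : R) * ((TKK A u v * Eop A 1 ^ (n + 2)).trace +
        (T3 A u v * Eop A 1 ^ (n + 1)).trace +
        ∑ d ∈ Finset.range (n + 1),
          (TK A u v * Eop A 1 ^ d * TK A u v * Eop A 1 ^ (n - d)).trace) := by
  have hT3 : (T3 A u v * Eop A 1 ^ (n + 1)).trace = gg A u v n 1 + gg A u v n (n + 3) := by
    rw [gg_one, gg_last, T3, Finset.sum_mul, Matrix.trace_sum, ← Finset.sum_add_distrib]
    refine Finset.sum_congr rfl fun a _ => ?_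
    rw [Finset.sum_mul, Matrix.trace_sum, ← Finset.sum_add_distrib]
    refine Finset.sum_congr rfl fun b _ => ?_
    rw [add_mul, Matrix.trace_add]
  have hmid : ∑ d ∈ Finset.range (n + 1),
      (TK A u v * Eop A 1 ^ d * TK A u v * Eop A 1 ^ (n - d)).trace =
      ∑ d ∈ Finset.range (n + 1), gg A u v n (d + 2) := by
    refine Finset.sum_congr rfl fun d hd => ?_
    rw [gg_mid A u v n d (by have := Finset.mem_range.mp hd; omega)]
  have hsum : ∑ d : Fin (n + 4), gg A u v n d.val =
      gg A u v n 0 + gg A u v n 1 + (∑ d ∈ Finset.range (n + 1), gg A u v n (d + 2)) +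
        gg A u v n (n + 3) := by
    rw [Fin.sum_univ_eq_sum_range (fun d => gg A u v n d) (n + 4),
      show n + 4 = (n + 1 + 1 + 1) + 1 by omega, Finset.sum_range_succ, Finset.sum_range_succ',
      Finset.sum_range_succ']
    simp only [zero_add]
    ring_nf
  rw [hT3, hmid, ← gg_zero]
  have hexp : ringOp u v (n + 3) * ringOp u v (n + 3) =
      ∑ j : Fin (n + 4), ∑ d : Fin (n + 4),
        pairOp u v j (j + 1) * pairOp u v (j + d) (j + d + 1) := by
    rw [ringOp, Finset.sum_mul]
    refine Finset.sum_congr rfl fun j _ => ?_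
    rw [Finset.mul_sum]
    exact (Equiv.sum_comp (Equiv.addLeft j) (fun k => pairOp u v j (j + 1) *
      pairOp u v k (k + 1))).symm
  rw [hexp, Matrix.sum_mulVec, dotProduct_sum]
  have h3 : ∀ j : Fin (n + 4), mpsVec (fun _ : Fin (n + 4) => A) 1 ⬝ᵥ
      (∑ d : Fin (n + 4), pairOp u v j (j + 1) * pairOp u v (j + d) (j + d + 1)).mulVec
        (mpsVec (fun _ : Fin (n + 4) => A) 1) = ∑ d : Fin (n + 4), gg A u v n d.val := by
    intro j
    rw [Matrix.sum_mulVec, dotProduct_sum]
    exact Finset.sum_congr rfl fun d _ => ring_t2 A u v n j d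
  rw [Finset.sum_congr rfl fun j _ => h3 j, hsum, Finset.sum_const, Finset.card_univ,
    Fintype.card_fin, nsmul_eq_mul]
  ring

end ring

end Crest.Agent.R347
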