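import Crest.Agent.R347.MPSRing

/-!
Open chains: moments of a sum of site-dependent nearest-neighbour operators in a
site-dependent matrix product state, by a recursion over the sites.
-/

set_option autoImplicit false

namespace Crest.Agent.R347

open Matrix
open scoped Kronecker

section openrec
variable {m κ R I : Type*} [Fintype m] [DecidableEq m] [Fintype κ] [DecidableEq κ] [CommRing R]
  [Fintype I]

/-- transfer matrix at site `j` -/
def oT (A : ℕ → κ → Matrix m m R) (j : ℕ) : Matrix (m × m) (m × m) R := Eop (A j) 1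

/-- transfer matrix of the bond operator on the sites `j`, `j + 1` -/
def oTK (A : ℕ → κ → Matrix m m R) (u v : ℕ → I → Matrix κ κ R) (j : ℕ) :
    Matrix (m × m) (m × m) R :=
  ∑ a, Eop (A j) (u j a) * Eop (A (j + 1)) (v j a)

/-- transfer matrix of the square of the bond operator on the sites `j`, `j + 1` -/
def oTKK (A : ℕ → κ → Matrix m m R) (u v : ℕ → I → Matrix κ κ R) (j : ℕ) :
    Matrix (m × m) (m × m) R :=
  ∑ a, ∑ b, Eop (A j) (u j a * u j b) * Eop (A (j + 1)) (v j a * v j b)

/-- transfer matrix of the anticommutator of neighbouring bond operators -/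
def oT3 (A : ℕ → κ → Matrix m m R) (u v : ℕ → I → Matrix κ κ R) (j : ℕ) :
    Matrix (m × m) (m × m) R :=
  ∑ a, ∑ b, (Eop (A j) (u j a) * Eop (A (j + 1)) (v j a * u (j + 1) b) *
      Eop (A (j + 2)) (v (j + 1) b) +
    Eop (A j) (u j a) * Eop (A (j + 1)) (u (j + 1) b * v j a) * Eop (A (j + 2)) (v (j + 1) b))

/-- value of a product operator on the first `n` sites -/
private def val (A : ℕ → κ → Matrix m m R) (f : ℕ → Matrix κ κ R) (n : ℕ) :
    Matrix (m × m) (m × m) R := nprod (fun i => Eop (A i) (f i)) n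

private theorem val_succ (A : ℕ → κ → Matrix m m R) (f : ℕ → Matrix κ κ R) (n : ℕ) :
    val A f (n + 1) = val A f n * Eop (A n) (f n) := rfl

private theorem val_congr (A : ℕ → κ → Matrix m m R) {f g : ℕ → Matrix κ κ R} {n : ℕ}
    (h : ∀ i < n, f i = g i) : val A f n = val A g n :=
  nprod_congr fun i hi => by rw [h i hi]

/-- `X0 n`: product of the first `n` transfer matrices -/
def oX0 (A : ℕ → κ → Matrix m m R) (n : ℕ) : Matrix (m × m) (m × m) R :=
  nprod (oT A) n

/-- first moment with `b` bonds (`b + 1` sites) -/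
def oY1 (A : ℕ → κ → Matrix m m R) (u v : ℕ → I → Matrix κ κ R) (b : ℕ) :
    Matrix (m × m) (m × m) R :=
  ∑ j ∈ Finset.range b, ∑ a,
    nprod (fun i => Eop (A i) (pairFn (u j a) (v j a) j (j + 1) i)) (b + 1)

/-- second moment with `b` bonds (`b + 1` sites) -/
def oY2 (A : ℕ → κ → Matrix m m R) (u v : ℕ → I → Matrix κ κ R) (b : ℕ) :
    Matrix (m × m) (m × m) R :=
  ∑ j ∈ Finset.range b, ∑ k ∈ Finset.range b, ∑ a, ∑ a',
    nprod (fun i => Eop (A i) (pairFn (u j a) (v j a) j (j + 1) i *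
      pairFn (u k a') (v k a') k (k + 1) i)) (b + 1)

@[simp] theorem oX0_zero (A : ℕ → κ → Matrix m m R) : oX0 A 0 = 1 := rfl

theorem oX0_succ (A : ℕ → κ → Matrix m m R) (n : ℕ) : oX0 A (n + 1) = oX0 A n * oT A n := rfl

@[simp] theorem oY1_zero (A : ℕ → κ → Matrix m m R) (u v : ℕ → I → Matrix κ κ R) :
    oY1 A u v 0 = 0 := by simp [oY1]

@[simp] theorem oY2_zero (A : ℕ → κ → Matrix m m R) (u v : ℕ → I → Matrix κ κ R) :
    oY2 A u v 0 = 0 := by simp [oY2]

private theorem pl (u v : Matrix κ κ R) {j k i : ℕ} (h : i = j) (h' : i ≠ k) :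
    pairFn u v j k i = u := by
  rw [pairFn, if_pos h, if_neg h', mul_one]

private theorem pr (u v : Matrix κ κ R) {j k i : ℕ} (h : i ≠ j) (h' : i = k) :
    pairFn u v j k i = v := by
  rw [pairFn, if_neg h, if_pos h', one_mul]

private theorem pn (u v : Matrix κ κ R) {j k i : ℕ} (h : i ≠ j) (h' : i ≠ k) :
    pairFn u v j k i = 1 := by
  rw [pairFn, if_neg h, if_neg h', mul_one]

theorem oY1_succ (A : ℕ → κ → Matrix m m R) (u v : ℕ → I → Matrix κ κ R) (b : ℕ) :
    oY1 A u v (b + 1) = oY1 A u v b * oT A (b + 1) + oX0 A b * oTK A u v b := by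
  rw [oY1, Finset.sum_range_succ]
  congr 1
  · rw [oY1, Finset.sum_mul]
    refine Finset.sum_congr rfl fun j hj => ?_
    rw [Finset.sum_mul]
    refine Finset.sum_congr rfl fun a _ => ?_
    have hj := Finset.mem_range.mp hj
    rw [nprod_succ, pn (u j a) (v j a) (i := b + 1) (by omega) (by omega)]
    rfl
  · rw [oTK, Finset.mul_sum]
    refine Finset.sum_congr rfl fun a _ => ?_
    rw [nprod_succ, nprod_succ, pl (u b a) (v b a) (i := b) (by omega) (by omega),
      pr (u b a) (v b a) (i := b + 1) (by omega) (by omega), mul_assoc]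
    congr 1
    exact nprod_congr fun i hi => by
      rw [pn (u b a) (v b a) (by omega) (by omega)]; rfl

theorem oY2_one (A : ℕ → κ → Matrix m m R) (u v : ℕ → I → Matrix κ κ R) :
    oY2 A u v 1 = oTKK A u v 0 := by
  simp only [oY2, Finset.sum_range_one, oTKK]
  refine Finset.sum_congr rfl fun a _ => Finset.sum_congr rfl fun a' _ => ?_
  rw [nprod_succ, nprod_succ, nprod_zero, one_mul,
    pl (u 0 a) (v 0 a) (i := 0) (by omega) (by omega),
    pl (u 0 a') (v 0 a') (i := 0) (by omega) (by omega),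
    pr (u 0 a) (v 0 a) (i := 0 + 1) (by omega) (by omega),
    pr (u 0 a') (v 0 a') (i := 0 + 1) (by omega) (by omega)]

/-- summand of the second moment -/
private def oF (A : ℕ → κ → Matrix m m R) (u v : ℕ → I → Matrix κ κ R) (n j k : ℕ) :
    Matrix (m × m) (m × m) R :=
  ∑ a, ∑ a', nprod (fun i => Eop (A i) (pairFn (u j a) (v j a) j (j + 1) i *
      pairFn (u k a') (v k a') k (k + 1) i)) n

private theorem oY2_eq (A : ℕ → κ → Matrix m m R) (u v : ℕ → I → Matrix κ κ R) (b : ℕ) :
    oY2 A u v b = ∑ j ∈ Finset.range b, ∑ k ∈ Finset.range b, oF A u v (b + 1) j k := rfl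

private theorem oF_inside (A : ℕ → κ → Matrix m m R) (u v : ℕ → I → Matrix κ κ R) (n j k : ℕ)
    (hj : j + 1 < n) (hk : k + 1 < n) :
    oF A u v (n + 1) j k = oF A u v n j k * oT A n := by
  rw [oF, oF, Finset.sum_mul]
  refine Finset.sum_congr rfl fun a _ => ?_
  rw [Finset.sum_mul]
  refine Finset.sum_congr rfl fun a' _ => ?_
  rw [nprod_succ, pn (u j a) (v j a) (i := n) (by omega) (by omega),
    pn (u k a') (v k a') (i := n) (by omega) (by omega), one_mul, oT]

/-- one bond -/
private def oG (A : ℕ → κ → Matrix m m R) (u v : ℕ → I → Matrix κ κ R) (n j : ℕ) :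
    Matrix (m × m) (m × m) R :=
  ∑ a, nprod (fun i => Eop (A i) (pairFn (u j a) (v j a) j (j + 1) i)) n

private theorem oF_far1 (A : ℕ → κ → Matrix m m R) (u v : ℕ → I → Matrix κ κ R) (b j : ℕ)
    (hj : j < b) : oF A u v (b + 3) j (b + 1) = oG A u v (b + 1) j * oTK A u v (b + 1) := by
  rw [oF, oG, Finset.sum_mul]
  refine Finset.sum_congr rfl fun a _ => ?_
  rw [oTK, Finset.mul_sum]
  refine Finset.sum_congr rfl fun a' _ => ?_
  have hc : nprod (fun i => Eop (A i) (pairFn (u j a) (v j a) j (j + 1) i *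
      pairFn (u (b + 1) a') (v (b + 1) a') (b + 1) (b + 1 + 1) i)) (b + 1) =
      nprod (fun i => Eop (A i) (pairFn (u j a) (v j a) j (j + 1) i)) (b + 1) :=
    nprod_congr fun i hi => by
      rw [pn (u (b + 1) a') (v (b + 1) a') (by omega) (by omega), mul_one]
  rw [nprod_succ, nprod_succ, hc, pn (u j a) (v j a) (i := b + 1) (by omega) (by omega),
    pn (u j a) (v j a) (i := b + 2) (by omega) (by omega),
    pl (u (b + 1) a') (v (b + 1) a') (i := b + 1) (by omega) (by omega),
    pr (u (b + 1) a') (v (b + 1) a') (i := b + 2) (by omega) (by omega), one_mul, one_mul,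
    mul_assoc]

private theorem oF_far2 (A : ℕ → κ → Matrix m m R) (u v : ℕ → I → Matrix κ κ R) (b j : ℕ)
    (hj : j < b) : oF A u v (b + 3) (b + 1) j = oG A u v (b + 1) j * oTK A u v (b + 1) := by
  rw [oF, oG, Finset.sum_mul, Finset.sum_comm]
  refine Finset.sum_congr rfl fun a _ => ?_
  rw [oTK, Finset.mul_sum]
  refine Finset.sum_congr rfl fun a' _ => ?_
  have hc : nprod (fun i => Eop (A i)
      (pairFn (u (b + 1) a') (v (b + 1) a') (b + 1) (b + 1 + 1) i *
        pairFn (u j a) (v j a) j (j + 1) i)) (b + 1) =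
      nprod (fun i => Eop (A i) (pairFn (u j a) (v j a) j (j + 1) i)) (b + 1) :=
    nprod_congr fun i hi => by
      rw [pn (u (b + 1) a') (v (b + 1) a') (by omega) (by omega), one_mul]
  rw [nprod_succ, nprod_succ, hc, pn (u j a) (v j a) (i := b + 1) (by omega) (by omega),
    pn (u j a) (v j a) (i := b + 2) (by omega) (by omega),
    pl (u (b + 1) a') (v (b + 1) a') (i := b + 1) (by omega) (by omega),
    pr (u (b + 1) a') (v (b + 1) a') (i := b + 2) (by omega) (by omega), mul_one, mul_one,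
    mul_assoc]

private theorem oF_nb1 (A : ℕ → κ → Matrix m m R) (u v : ℕ → I → Matrix κ κ R) (b : ℕ) :
    oF A u v (b + 3) b (b + 1) = ∑ a, ∑ a', oX0 A b * (Eop (A b) (u b a) *
        Eop (A (b + 1)) (v b a * u (b + 1) a') * Eop (A (b + 2)) (v (b + 1) a')) := by
  rw [oF]
  refine Finset.sum_congr rfl fun a _ => Finset.sum_congr rfl fun a' _ => ?_
  have hc : nprod (fun i => Eop (A i) (pairFn (u b a) (v b a) b (b + 1) i *
      pairFn (u (b + 1) a') (v (b + 1) a') (b + 1) (b + 1 + 1) i)) b = oX0 A b :=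
    nprod_congr fun i hi => by
      rw [pn (u (b + 1) a') (v (b + 1) a') (by omega) (by omega),
          pn (u b a) (v b a) (by omega) (by omega), mul_one, oT]
  rw [nprod_succ, nprod_succ, nprod_succ, hc,
    pl (u b a) (v b a) (i := b) (by omega) (by omega),
    pn (u (b + 1) a') (v (b + 1) a') (i := b) (by omega) (by omega),
    pr (u b a) (v b a) (i := b + 1) (by omega) (by omega),
    pl (u (b + 1) a') (v (b + 1) a') (i := b + 1) (by omega) (by omega),
    pn (u b a) (v b a) (i := b + 2) (by omega) (by omega),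
    pr (u (b + 1) a') (v (b + 1) a') (i := b + 2) (by omega) (by omega), mul_one, one_mul,
    mul_assoc, mul_assoc, mul_assoc]

private theorem oF_nb2 (A : ℕ → κ → Matrix m m R) (u v : ℕ → I → Matrix κ κ R) (b : ℕ) :
    oF A u v (b + 3) (b + 1) b = ∑ a, ∑ a', oX0 A b * (Eop (A b) (u b a) *
        Eop (A (b + 1)) (u (b + 1) a' * v b a) * Eop (A (b + 2)) (v (b + 1) a')) := by
  rw [oF, Finset.sum_comm]
  refine Finset.sum_congr rfl fun a _ => Finset.sum_congr rfl fun a' _ => ?_
  have hc : nprod (fun i => Eop (A i)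
      (pairFn (u (b + 1) a') (v (b + 1) a') (b + 1) (b + 1 + 1) i *
        pairFn (u b a) (v b a) b (b + 1) i)) b = oX0 A b :=
    nprod_congr fun i hi => by
      rw [pn (u (b + 1) a') (v (b + 1) a') (by omega) (by omega),
          pn (u b a) (v b a) (by omega) (by omega), mul_one, oT]
  rw [nprod_succ, nprod_succ, nprod_succ, hc,
    pl (u b a) (v b a) (i := b) (by omega) (by omega),
    pn (u (b + 1) a') (v (b + 1) a') (i := b) (by omega) (by omega),
    pr (u b a) (v b a) (i := b + 1) (by omega) (by omega),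
    pl (u (b + 1) a') (v (b + 1) a') (i := b + 1) (by omega) (by omega),
    pn (u b a) (v b a) (i := b + 2) (by omega) (by omega),
    pr (u (b + 1) a') (v (b + 1) a') (i := b + 2) (by omega) (by omega), mul_one, one_mul,
    mul_assoc, mul_assoc, mul_assoc]

private theorem oF_nb (A : ℕ → κ → Matrix m m R) (u v : ℕ → I → Matrix κ κ R) (b : ℕ) :
    oF A u v (b + 3) b (b + 1) + oF A u v (b + 3) (b + 1) b = oX0 A b * oT3 A u v b := by
  rw [oF_nb1, oF_nb2, ← Finset.sum_add_distrib, oT3, Finset.mul_sum]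
  refine Finset.sum_congr rfl fun a _ => ?_
  rw [← Finset.sum_add_distrib, Finset.mul_sum]
  refine Finset.sum_congr rfl fun a' _ => ?_
  rw [mul_add]

private theorem oF_same (A : ℕ → κ → Matrix m m R) (u v : ℕ → I → Matrix κ κ R) (b : ℕ) :
    oF A u v (b + 3) (b + 1) (b + 1) = oX0 A (b + 1) * oTKK A u v (b + 1) := by
  rw [oF, oTKK, Finset.mul_sum]
  refine Finset.sum_congr rfl fun a _ => ?_
  rw [Finset.mul_sum]
  refine Finset.sum_congr rfl fun a' _ => ?_
  have hc : nprod (fun i => Eop (A i)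
      (pairFn (u (b + 1) a) (v (b + 1) a) (b + 1) (b + 1 + 1) i *
        pairFn (u (b + 1) a') (v (b + 1) a') (b + 1) (b + 1 + 1) i)) (b + 1) = oX0 A (b + 1) :=
    nprod_congr fun i hi => by
      rw [pn (u (b + 1) a') (v (b + 1) a') (by omega) (by omega),
        pn (u (b + 1) a) (v (b + 1) a) (by omega) (by omega), mul_one, oT]
  rw [nprod_succ, nprod_succ, hc,
    pl (u (b + 1) a) (v (b + 1) a) (i := b + 1) (by omega) (by omega),
    pl (u (b + 1) a') (v (b + 1) a') (i := b + 1) (by omega) (by omega),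
    pr (u (b + 1) a) (v (b + 1) a) (i := b + 2) (by omega) (by omega),
    pr (u (b + 1) a') (v (b + 1) a') (i := b + 2) (by omega) (by omega), mul_assoc]

/-- the recursion for the second moment -/
theorem oY2_succ_succ (A : ℕ → κ → Matrix m m R) (u v : ℕ → I → Matrix κ κ R) (b : ℕ) :
    oY2 A u v (b + 2) = oY2 A u v (b + 1) * oT A (b + 2) +
      (2 : ℕ) • (oY1 A u v b * oTK A u v (b + 1)) + oX0 A b * oT3 A u v b +
      oX0 A (b + 1) * oTKK A u v (b + 1) := by
  have h1 : ∑ j ∈ Finset.range (b + 1), ∑ k ∈ Finset.range (b + 1), oF A u v (b + 3) j k =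
      oY2 A u v (b + 1) * oT A (b + 2) := by
    rw [oY2_eq, Finset.sum_mul]
    refine Finset.sum_congr rfl fun j hj => ?_
    rw [Finset.sum_mul]
    refine Finset.sum_congr rfl fun k hk => ?_
    have hj := Finset.mem_range.mp hj
    have hk := Finset.mem_range.mp hk
    exact oF_inside A u v (b + 2) j k (by omega) (by omega)
  have hY1 : oY1 A u v b * oTK A u v (b + 1) =
      ∑ j ∈ Finset.range b, oG A u v (b + 1) j * oTK A u v (b + 1) := by
    rw [oY1, Finset.sum_mul]
    rfl
  have hc1 : ∑ j ∈ Finset.range (b + 1), oF A u v (b + 3) j (b + 1) =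
      oY1 A u v b * oTK A u v (b + 1) + oF A u v (b + 3) b (b + 1) := by
    rw [Finset.sum_range_succ, hY1,
      Finset.sum_congr rfl fun j hj => oF_far1 A u v b j (Finset.mem_range.mp hj)]
  have hc2 : ∑ j ∈ Finset.range (b + 1), oF A u v (b + 3) (b + 1) j =
      oY1 A u v b * oTK A u v (b + 1) + oF A u v (b + 3) (b + 1) b := by
    rw [Finset.sum_range_succ, hY1,
      Finset.sum_congr rfl fun j hj => oF_far2 A u v b j (Finset.mem_range.mp hj)]
  have hs : oY2 A u v (b + 2) =
      (∑ j ∈ Finset.range (b + 1), ∑ k ∈ Finset.range (b + 1), oF A u v (b + 3) j k) +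
      (∑ j ∈ Finset.range (b + 1), oF A u v (b + 3) j (b + 1)) +
      ((∑ j ∈ Finset.range (b + 1), oF A u v (b + 3) (b + 1) j) +
        oF A u v (b + 3) (b + 1) (b + 1)) := by
    rw [oY2_eq, Finset.sum_range_succ, Finset.sum_range_succ _ (b + 1), ← Finset.sum_add_distrib,
      Finset.sum_congr rfl fun j _ => Finset.sum_range_succ (oF A u v (b + 3) j) (b + 1)]
  rw [hs, h1, hc1, hc2, oF_same, ← oF_nb, two_nsmul]
  generalize oY2 A u v (b + 1) * oT A (b + 2) = x1
  generalize oY1 A u v b * oTK A u v (b + 1) = x2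
  generalize oF A u v (b + 3) b (b + 1) = x3
  generalize oF A u v (b + 3) (b + 1) b = x4
  generalize oX0 A (b + 1) * oTKK A u v (b + 1) = x5
  abel

/-- Sum of the bond operators on the open chain of `b + 1` sites. -/
def openOp (u v : ℕ → I → Matrix κ κ R) (b : ℕ) : Matrix (Fin (b + 1) → κ) (Fin (b + 1) → κ) R :=
  ∑ j : Fin b, pairOp (u j.val) (v j.val) j.castSucc j.succ

theorem open_N0 (A : ℕ → κ → Matrix m m R) (B : Matrix m m R) (n : ℕ) :
    mpsVec (fun i : Fin n => A i.val) B ⬝ᵥ mpsVec (fun i : Fin n => A i.val) B =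
      ((B ⊗ₖ B) * oX0 A n).trace := by
  have h := mps_expect (fun i : Fin n => A i.val) B (fun _ => 1)
  rw [piK_one, Matrix.one_mulVec] at h
  rw [h, ofFn_prod_eq_nprod (fun i => Eop (A i) 1)]
  rfl

theorem open_N1 (A : ℕ → κ → Matrix m m R) (B : Matrix m m R) (u v : ℕ → I → Matrix κ κ R)
    (b : ℕ) :
    mpsVec (fun i : Fin (b + 1) => A i.val) B ⬝ᵥ
      (openOp u v b).mulVec (mpsVec (fun i : Fin (b + 1) => A i.val) B) =
      ((B ⊗ₖ B) * oY1 A u v b).trace := by
  rw [openOp, Matrix.sum_mulVec, dotProduct_sum, oY1,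
    ← Fin.sum_univ_eq_sum_range (fun j => ∑ a, nprod (fun i => Eop (A i)
      (pairFn (u j a) (v j a) j (j + 1) i)) (b + 1)) b, Finset.mul_sum, Matrix.trace_sum]
  refine Finset.sum_congr rfl fun j _ => ?_
  rw [pairOp, Matrix.sum_mulVec, dotProduct_sum, Finset.mul_sum, Matrix.trace_sum]
  refine Finset.sum_congr rfl fun a _ => ?_
  rw [mps_expect]
  congr 2
  rw [← ofFn_prod_eq_nprod (fun i => Eop (A i)
    (pairFn (u j.val a) (v j.val a) j.val (j.val + 1) i)) (b + 1)]
  congr 2
  funext i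
  rw [pairFn_val]
  rfl

theorem open_N2 (A : ℕ → κ → Matrix m m R) (B : Matrix m m R) (u v : ℕ → I → Matrix κ κ R)
    (b : ℕ) :
    mpsVec (fun i : Fin (b + 1) => A i.val) B ⬝ᵥ
      (openOp u v b * openOp u v b).mulVec (mpsVec (fun i : Fin (b + 1) => A i.val) B) =
      ((B ⊗ₖ B) * oY2 A u v b).trace := by
  rw [openOp, Finset.sum_mul, Matrix.sum_mulVec, dotProduct_sum, oY2,
    ← Fin.sum_univ_eq_sum_range (fun j => ∑ k ∈ Finset.range b, ∑ a, ∑ a',
      nprod (fun i => Eop (A i) (pairFn (u j a) (v j a) j (j + 1) i *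
      pairFn (u k a') (v k a') k (k + 1) i)) (b + 1)) b, Finset.mul_sum, Matrix.trace_sum]
  refine Finset.sum_congr rfl fun j _ => ?_
  rw [Finset.mul_sum, Matrix.sum_mulVec, dotProduct_sum,
    ← Fin.sum_univ_eq_sum_range (fun k => ∑ a, ∑ a',
      nprod (fun i => Eop (A i) (pairFn (u j.val a) (v j.val a) j.val (j.val + 1) i *
      pairFn (u k a') (v k a') k (k + 1) i)) (b + 1)) b, Finset.mul_sum, Matrix.trace_sum]
  refine Finset.sum_congr rfl fun k _ => ?_
  have hpp : pairOp (u j.val) (v j.val) j.castSucc j.succ *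
      pairOp (u k.val) (v k.val) k.castSucc k.succ =
      ∑ a, ∑ a', piK (fun i => pairFn (u j.val a) (v j.val a) j.castSucc j.succ i *
        pairFn (u k.val a') (v k.val a') k.castSucc k.succ i) := by
    simp only [pairOp, Finset.sum_mul, Finset.mul_sum]
    rw [Finset.sum_comm]
    refine Finset.sum_congr rfl fun a _ => Finset.sum_congr rfl fun a' _ => ?_
    rw [piK_mul]
  rw [hpp, Matrix.sum_mulVec, dotProduct_sum, Finset.mul_sum, Matrix.trace_sum]
  refine Finset.sum_congr rfl fun a _ => ?_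
  rw [Matrix.sum_mulVec, dotProduct_sum, Finset.mul_sum, Matrix.trace_sum]
  refine Finset.sum_congr rfl fun a' _ => ?_
  rw [mps_expect]
  congr 2
  rw [← ofFn_prod_eq_nprod (fun i => Eop (A i)
    (pairFn (u j.val a) (v j.val a) j.val (j.val + 1) i *
      pairFn (u k.val a') (v k.val a') k.val (k.val + 1) i)) (b + 1)]
  congr 2
  funext i
  rw [pairFn_val, pairFn_val (u k a')]
  rfl

end openrec

end Crest.Agent.R347
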