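import Crest.Agent.R347.MPS

/-!
Heisenberg ring: integer two-site operator `K = Q (S·S) - P`, and the hypotheses of Temple's
inequality from the integer moments `N0, N1, N2` of an integer ring MPS.
-/

set_option autoImplicit false

namespace Crest.Agent.R347

open Matrix Crest.MathPhysics.SpinChain
open scoped Kronecker

/-- integer raising matrix: `S⁺ = √2 • spI`. -/
def spI : Matrix (Fin 3) (Fin 3) ℤ := !![0, 1, 0; 0, 0, 1; 0, 0, 0]
/-- integer lowering matrix. -/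
def smI : Matrix (Fin 3) (Fin 3) ℤ := !![0, 0, 0; 1, 0, 0; 0, 1, 0]
/-- integer `S^z`. -/
def szI : Matrix (Fin 3) (Fin 3) ℤ := !![1, 0, 0; 0, 0, 0; 0, 0, -1]

/-- left factors of `Q (S·S) - P` -/
def uK (Q P : ℤ) : Fin 4 → Matrix (Fin 3) (Fin 3) ℤ := ![Q • spI, Q • smI, Q • szI, (-P) • 1]
/-- right factors of `Q (S·S) - P` -/
def vK : Fin 4 → Matrix (Fin 3) (Fin 3) ℤ := ![smI, spI, szI, 1]

section onsite
variable {ι : Type*} [Fintype ι] [DecidableEq ι]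

theorem onSite_add (A B : Matrix (Fin 3) (Fin 3) ℂ) (j : ι) :
    onSite (A + B) j = onSite A j + onSite B j := by
  ext σ τ
  simp only [onSite, Matrix.of_apply, Matrix.add_apply]
  split_ifs <;> simp

theorem onSite_sub (A B : Matrix (Fin 3) (Fin 3) ℂ) (j : ι) :
    onSite (A - B) j = onSite A j - onSite B j := by
  ext σ τ
  simp only [onSite, Matrix.of_apply, Matrix.sub_apply]
  split_ifs <;> simp

theorem onSite_smul (c : ℂ) (A : Matrix (Fin 3) (Fin 3) ℂ) (j : ι) :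
    onSite (c • A) j = c • onSite A j := by
  ext σ τ
  simp only [onSite, Matrix.of_apply, Matrix.smul_apply]
  split_ifs <;> simp

theorem onSite_one (j : ι) : onSite (1 : Matrix (Fin 3) (Fin 3) ℂ) j = 1 := by
  rw [onSite_eq_piK]
  simp [piK_one]

theorem onSite_mul_onSite (A B : Matrix (Fin 3) (Fin 3) ℂ) (j k : ι) :
    onSite A j * onSite B k = piK (pairFn A B j k) := by
  rw [onSite_eq_piK, onSite_eq_piK, piK_mul]
  rfl

end onsite

theorem spinPlus_eq : spinPlus = ((Real.sqrt 2 : ℝ) : ℂ) • spI.map (Int.cast : ℤ → ℂ) := by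
  ext i j
  fin_cases i <;> fin_cases j <;> simp [spinPlus, spI]

theorem spinMinus_eq : spinMinus = ((Real.sqrt 2 : ℝ) : ℂ) • smI.map (Int.cast : ℤ → ℂ) := by
  ext i j
  fin_cases i <;> fin_cases j <;> simp [spinMinus, spinPlus, smI]

theorem spinZ_eq : spinZ = szI.map (Int.cast : ℤ → ℂ) := by
  ext i j
  fin_cases i <;> fin_cases j <;> simp [spinZ, szI, magneticNumber] <;> norm_num

/-- the bond in terms of the integer matrices -/
theorem bond_eq {ι : Type*} [Fintype ι] [DecidableEq ι] (j k : ι) :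
    bond j k = onSite (spI.map (Int.cast : ℤ → ℂ)) j * onSite (smI.map (Int.cast : ℤ → ℂ)) k +
      onSite (smI.map (Int.cast : ℤ → ℂ)) j * onSite (spI.map (Int.cast : ℤ → ℂ)) k +
      onSite (szI.map (Int.cast : ℤ → ℂ)) j * onSite (szI.map (Int.cast : ℤ → ℂ)) k := by
  have h2 : ((Real.sqrt 2 : ℝ) : ℂ) * ((Real.sqrt 2 : ℝ) : ℂ) = 2 := by
    rw [← Complex.ofReal_mul, Real.mul_self_sqrt (by norm_num)]; norm_num
  have hI : (1 / (2 * Complex.I)) * (1 / (2 * Complex.I)) = -(1 / 4 : ℂ) := by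
    rw [div_mul_div_comm, mul_mul_mul_comm, Complex.I_mul_I]; norm_num
  rw [bond, Fin.sum_univ_three]
  simp only [spinOp, Matrix.cons_val_zero, Matrix.cons_val_one, Matrix.cons_val]
  rw [spinX, spinY, spinZ_eq, spinPlus_eq, spinMinus_eq]
  simp only [onSite_add, onSite_sub, onSite_smul, smul_add, smul_sub, smul_smul]
  simp only [add_mul, mul_add, sub_mul, mul_sub, smul_mul_smul_comm]
  set a := onSite (spI.map (Int.cast : ℤ → ℂ)) j * onSite (spI.map (Int.cast : ℤ → ℂ)) k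
  set b := onSite (spI.map (Int.cast : ℤ → ℂ)) j * onSite (smI.map (Int.cast : ℤ → ℂ)) k
  set c := onSite (smI.map (Int.cast : ℤ → ℂ)) j * onSite (spI.map (Int.cast : ℤ → ℂ)) k
  set d := onSite (smI.map (Int.cast : ℤ → ℂ)) j * onSite (smI.map (Int.cast : ℤ → ℂ)) k
  have e1 : (1 / 2 * ((Real.sqrt 2 : ℝ) : ℂ)) * (1 / 2 * ((Real.sqrt 2 : ℝ) : ℂ)) = 1 / 2 := by
    linear_combination (1 / 4 : ℂ) * h2
  have e2 : (1 / (2 * Complex.I) * ((Real.sqrt 2 : ℝ) : ℂ)) *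
      (1 / (2 * Complex.I) * ((Real.sqrt 2 : ℝ) : ℂ)) = -(1 / 2) := by
    linear_combination (-(1 / 4 : ℂ)) * h2 + ((Real.sqrt 2 : ℝ) : ℂ) * ((Real.sqrt 2 : ℝ) : ℂ) * hI
  rw [e1, e2]
  module

theorem map_piK {ι : Type*} [Fintype ι] {κ : Type*} (o : ι → Matrix κ κ ℤ) :
    (piK o).map (Int.cast : ℤ → ℂ) = piK (fun i => (o i).map (Int.cast : ℤ → ℂ)) := by
  ext σ τ
  simp [piK_apply]

theorem map_pairFn {ι : Type*} [DecidableEq ι] {κ : Type*} [Fintype κ] [DecidableEq κ]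
    (u v : Matrix κ κ ℤ) (j k i : ι) :
    (pairFn u v j k i).map (Int.cast : ℤ → ℂ) =
      pairFn (u.map (Int.cast : ℤ → ℂ)) (v.map (Int.cast : ℤ → ℂ)) j k i := by
  unfold pairFn
  have h1 : (1 : Matrix κ κ ℤ).map (Int.cast : ℤ → ℂ) = 1 := by
    ext a b; simp [Matrix.one_apply]
  rw [show (Int.cast : ℤ → ℂ) = (Int.castRingHom ℂ) from rfl] at *
  rw [Matrix.map_mul]
  split_ifs <;> simp

/-- the integer two-site operator is `Q (S·S) - P` -/
theorem map_pairOp_K {ι : Type*} [Fintype ι] [DecidableEq ι] (Q P : ℤ) (j k : ι) :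
    (pairOp (uK Q P) vK j k).map (Int.cast : ℤ → ℂ) = (Q : ℂ) • bond j k - (P : ℂ) • 1 := by
  have h1 : (1 : Matrix (Fin 3) (Fin 3) ℤ).map (Int.cast : ℤ → ℂ) = 1 := by
    ext a b; simp [Matrix.one_apply]
  have hs : ∀ (c : ℤ) (X : Matrix (Fin 3) (Fin 3) ℤ),
      (c • X).map (Int.cast : ℤ → ℂ) = (c : ℂ) • X.map (Int.cast : ℤ → ℂ) := by
    intro c X; ext a b
    rw [Matrix.map_apply, Matrix.smul_apply, Matrix.smul_apply, Matrix.map_apply, smul_eq_mul,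
      smul_eq_mul, Int.cast_mul]
  have hsum : (pairOp (uK Q P) vK j k).map (Int.cast : ℤ → ℂ) =
      ∑ a, onSite ((uK Q P a).map (Int.cast : ℤ → ℂ)) j *
        onSite ((vK a).map (Int.cast : ℤ → ℂ)) k := by
    ext σ τ
    simp only [pairOp, Matrix.map_apply, Matrix.sum_apply, Int.cast_sum]
    refine Finset.sum_congr rfl fun a _ => ?_
    rw [onSite_mul_onSite]
    have := congrFun (congrFun (map_piK (pairFn (uK Q P a) (vK a) j k)) σ) τ
    rw [Matrix.map_apply] at this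
    rw [this]
    simp only [piK_apply, map_pairFn]
  rw [hsum, Fin.sum_univ_four, bond_eq]
  simp only [uK, vK, Matrix.cons_val_zero, Matrix.cons_val_one, Matrix.cons_val]
  rw [hs, hs, hs, hs, h1]
  simp only [onSite_smul, onSite_one, smul_mul_assoc, mul_one]
  push_cast
  module

/-- the ring Hamiltonian in terms of the integer operator -/
theorem map_ringOp_K (Q P : ℤ) (n : ℕ) :
    (ringOp (uK Q P) vK n).map (Int.cast : ℤ → ℂ) =
      (Q : ℂ) • heisenbergRing (n + 1) - (((n + 1 : ℕ) : ℂ) * (P : ℂ)) • 1 := by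
  have : (ringOp (uK Q P) vK n).map (Int.cast : ℤ → ℂ) =
      ∑ j : Fin (n + 1), (pairOp (uK Q P) vK j (j + 1)).map (Int.cast : ℤ → ℂ) := by
    ext σ τ
    simp [ringOp, Matrix.sum_apply]
  rw [this]
  simp only [map_pairOp_K, Finset.sum_sub_distrib, Finset.sum_const, Finset.card_univ,
    Fintype.card_fin, heisenbergRing, Finset.smul_sum, finRotate_apply]
  congr 1
  rw [← Nat.cast_smul_eq_nsmul ℂ, smul_smul]

theorem pairOp_transpose {ι : Type*} [Fintype ι] [DecidableEq ι] {κ R I : Type*} [Fintype κ]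
    [DecidableEq κ] [CommRing R] [Fintype I] (u v : I → Matrix κ κ R) {j k : ι} (hjk : j ≠ k) :
    (pairOp u v j k)ᵀ = pairOp (fun a => (u a)ᵀ) (fun a => (v a)ᵀ) j k := by
  ext σ τ
  simp only [pairOp, Matrix.transpose_apply, Matrix.sum_apply, piK_apply]
  refine Finset.sum_congr rfl fun a _ => Finset.prod_congr rfl fun i _ => ?_
  unfold pairFn
  by_cases hj : i = j
  · have hk : i ≠ k := fun h => hjk (hj.symm.trans h)
    rw [if_pos hj, if_neg hk, if_pos hj, if_neg hk, mul_one, mul_one, Matrix.transpose_apply]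
  · rw [if_neg hj, if_neg hj, one_mul, one_mul]
    by_cases hk : i = k
    · rw [if_pos hk, if_pos hk, Matrix.transpose_apply]
    · rw [if_neg hk, if_neg hk, Matrix.one_apply, Matrix.one_apply]
      simp only [eq_comm]

theorem spI_transpose : spIᵀ = smI := by decide
theorem smI_transpose : smIᵀ = spI := by decide
theorem szI_transpose : szIᵀ = szI := by decide

theorem pairOp_K_transpose {ι : Type*} [Fintype ι] [DecidableEq ι] (Q P : ℤ) {j k : ι}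
    (hjk : j ≠ k) : (pairOp (uK Q P) vK j k)ᵀ = pairOp (uK Q P) vK j k := by
  rw [pairOp_transpose _ _ hjk, pairOp, pairOp, Fin.sum_univ_four, Fin.sum_univ_four]
  simp only [uK, vK, Matrix.cons_val_zero, Matrix.cons_val_one, Matrix.cons_val,
    Matrix.transpose_smul, spI_transpose, smI_transpose, szI_transpose, Matrix.transpose_one]
  abel

theorem ringOp_K_transpose (Q P : ℤ) (n : ℕ) :
    (ringOp (uK Q P) vK (n + 1))ᵀ = ringOp (uK Q P) vK (n + 1) := by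
  rw [ringOp, Matrix.transpose_sum]
  refine Finset.sum_congr rfl fun j _ => pairOp_K_transpose Q P ?_
  intro h
  have h2 := congrArg Fin.val h
  rw [Fin.val_add_one] at h2
  split_ifs at h2 with h3
  · rw [h3] at h2
    simp at h2
  · omega

section moments
variable {m : Type*} [Fintype m] [DecidableEq m]

/-- the three integer moments of the ring MPS -/
def ringN0 (A : Fin 3 → Matrix m m ℤ) (n : ℕ) : ℤ := (Eop A 1 ^ (n + 4)).trace

/-- first moment of `Q H - L P` -/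
def ringN1 (A : Fin 3 → Matrix m m ℤ) (Q P : ℤ) (n : ℕ) : ℤ :=
  ((n + 4 : ℕ) : ℤ) * (TK A (uK Q P) vK * Eop A 1 ^ (n + 2)).trace

/-- second moment of `Q H - L P` -/
def ringN2 (A : Fin 3 → Matrix m m ℤ) (Q P : ℤ) (n : ℕ) : ℤ :=
  ((n + 4 : ℕ) : ℤ) * ((TKK A (uK Q P) vK * Eop A 1 ^ (n + 2)).trace +
    (T3 A (uK Q P) vK * Eop A 1 ^ (n + 1)).trace +
    ∑ d ∈ Finset.range (n + 1),
      (TK A (uK Q P) vK * Eop A 1 ^ d * TK A (uK Q P) vK * Eop A 1 ^ (n - d)).trace)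

/-- complex ring MPS -/
def ringPsi (A : Fin 3 → Matrix m m ℤ) (L : ℕ) : (Fin L → Fin 3) → ℂ :=
  fun σ => ((mpsVec (fun _ : Fin L => A) 1 σ : ℤ) : ℂ)

theorem star_ringPsi (A : Fin 3 → Matrix m m ℤ) (L : ℕ) : star (ringPsi A L) = ringPsi A L := by
  funext σ
  simp [ringPsi]

theorem cast_dotProduct {ι : Type*} [Fintype ι] (f g : ι → ℤ) :
    (fun i => (f i : ℂ)) ⬝ᵥ (fun i => (g i : ℂ)) = ((f ⬝ᵥ g : ℤ) : ℂ) := by
  simp [dotProduct]

theorem cast_mulVec {ι : Type*} [Fintype ι] (K : Matrix ι ι ℤ) (g : ι → ℤ) :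
    (K.map (Int.cast : ℤ → ℂ)).mulVec (fun i => (g i : ℂ)) = fun i => ((K.mulVec g i : ℤ) : ℂ) := by
  funext i
  simp [Matrix.mulVec, dotProduct]

theorem ringPsi_norm (A : Fin 3 → Matrix m m ℤ) (n : ℕ) :
    star (ringPsi A (n + 4)) ⬝ᵥ ringPsi A (n + 4) = ((ringN0 A n : ℤ) : ℂ) := by
  rw [star_ringPsi]
  unfold ringPsi
  rw [cast_dotProduct, ring_N0]
  rfl

/-- `K ψ` for the integer operator -/
theorem ringPsi_K (A : Fin 3 → Matrix m m ℤ) (Q P : ℤ) (n : ℕ) :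
    ((Q : ℂ) • heisenbergRing (n + 4) - (((n + 4 : ℕ) : ℂ) * (P : ℂ)) • 1).mulVec
      (ringPsi A (n + 4)) = fun σ => (((ringOp (uK Q P) vK (n + 3)).mulVec
        (mpsVec (fun _ : Fin (n + 4) => A) 1) σ : ℤ) : ℂ) := by
  rw [← map_ringOp_K Q P (n + 3)]
  exact cast_mulVec _ _

theorem ringPsi_N1 (A : Fin 3 → Matrix m m ℤ) (Q P : ℤ) (n : ℕ) :
    star (ringPsi A (n + 4)) ⬝ᵥ
      ((Q : ℂ) • heisenbergRing (n + 4) - (((n + 4 : ℕ) : ℂ) * (P : ℂ)) • 1).mulVec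
        (ringPsi A (n + 4)) = ((ringN1 A Q P n : ℤ) : ℂ) := by
  rw [ringPsi_K, star_ringPsi]
  unfold ringPsi
  rw [cast_dotProduct, ring_N1 A (uK Q P) vK (n + 2)]
  rfl

theorem ringPsi_N2 (A : Fin 3 → Matrix m m ℤ) (Q P : ℤ) (n : ℕ) :
    star (((Q : ℂ) • heisenbergRing (n + 4) - (((n + 4 : ℕ) : ℂ) * (P : ℂ)) • 1).mulVec
        (ringPsi A (n + 4))) ⬝ᵥ
      ((Q : ℂ) • heisenbergRing (n + 4) - (((n + 4 : ℕ) : ℂ) * (P : ℂ)) • 1).mulVec
        (ringPsi A (n + 4)) = ((ringN2 A Q P n : ℤ) : ℂ) := by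
  rw [ringPsi_K]
  have : (star fun σ => (((ringOp (uK Q P) vK (n + 3)).mulVec
        (mpsVec (fun _ : Fin (n + 4) => A) 1) σ : ℤ) : ℂ)) =
      fun σ => (((ringOp (uK Q P) vK (n + 3)).mulVec
        (mpsVec (fun _ : Fin (n + 4) => A) 1) σ : ℤ) : ℂ) := by
    funext σ; simp
  rw [this, cast_dotProduct]
  congr 1
  rw [ringN2, ← ring_N2, ← Matrix.mulVec_mulVec, Matrix.dotProduct_mulVec, ← Matrix.mulVec_transpose,
    ringOp_K_transpose]
  exact dotProduct_comm _ _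

/-- Energy and variance hypotheses from bounds on the integer moments (variance about the
true mean). -/
theorem ring_mps_hyps' (A : Fin 3 → Matrix m m ℤ) {Q P : ℤ} (hQ : 0 < Q) (n : ℕ)
    {lo hi w : ℝ} (h0 : 0 < ringN0 A n)
    (hlo : lo * (ringN0 A n : ℝ) ≤ (ringN1 A Q P n : ℝ))
    (hhi : (ringN1 A Q P n : ℝ) ≤ hi * (ringN0 A n : ℝ))
    (hw : (ringN2 A Q P n : ℝ) * (ringN0 A n : ℝ) - (ringN1 A Q P n : ℝ) ^ 2 ≤
      w * (ringN0 A n : ℝ) ^ 2) :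
    ∃ (ψ : (Fin (n + 4) → Fin 3) → ℂ) (E : ℝ), ψ ≠ 0 ∧
      (((n + 4 : ℕ) : ℝ) * P + lo) / Q ≤ E ∧ E ≤ (((n + 4 : ℕ) : ℝ) * P + hi) / Q ∧
      star ψ ⬝ᵥ (heisenbergRing (n + 4)).mulVec ψ = (E : ℂ) * (star ψ ⬝ᵥ ψ) ∧
      (star ((heisenbergRing (n + 4)).mulVec ψ) ⬝ᵥ (heisenbergRing (n + 4)).mulVec ψ).re ≤
        (E ^ 2 + w / (Q : ℝ) ^ 2) * (star ψ ⬝ᵥ ψ).re := by
  have h0r : (0 : ℝ) < (ringN0 A n : ℝ) := by exact_mod_cast h0
  have hQr : (0 : ℝ) < (Q : ℝ) := by exact_mod_cast hQ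
  have hQc : (Q : ℂ) ≠ 0 := by exact_mod_cast hQ.ne'
  set N0 : ℝ := (ringN0 A n : ℝ) with hN0
  set N1 : ℝ := (ringN1 A Q P n : ℝ) with hN1
  set N2 : ℝ := (ringN2 A Q P n : ℝ) with hN2
  set c : ℝ := ((n + 4 : ℕ) : ℝ) * P with hc
  set ψ := ringPsi A (n + 4) with hψ
  set H := heisenbergRing (n + 4) with hH
  have e0 : star ψ ⬝ᵥ ψ = ((N0 : ℝ) : ℂ) := by
    rw [hψ, ringPsi_norm, hN0]; norm_cast
  have e1 := ringPsi_N1 A Q P n
  have e2 := ringPsi_N2 A Q P n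
  rw [← hψ, ← hH] at e1 e2
  have hcc : (((n + 4 : ℕ) : ℂ) * (P : ℂ)) = ((c : ℝ) : ℂ) := by
    rw [hc]; push_cast; ring
  rw [hcc] at e1 e2
  have hQQ : (Q : ℂ) = (((Q : ℝ) : ℝ) : ℂ) := by push_cast; ring
  -- expand
  have hv : ((Q : ℂ) • H - ((c : ℝ) : ℂ) • (1 : Matrix _ _ ℂ)).mulVec ψ =
      (Q : ℂ) • H.mulVec ψ - ((c : ℝ) : ℂ) • ψ := by
    rw [Matrix.sub_mulVec, Matrix.smul_mulVec, Matrix.smul_mulVec, Matrix.one_mulVec]
  rw [hv] at e1 e2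
  set φ := H.mulVec ψ with hφ
  have f1 : (Q : ℂ) * (star ψ ⬝ᵥ φ) - ((c : ℝ) : ℂ) * ((N0 : ℝ) : ℂ) = ((N1 : ℝ) : ℂ) := by
    have : ((ringN1 A Q P n : ℤ) : ℂ) = ((N1 : ℝ) : ℂ) := by rw [hN1]; norm_cast
    rw [← this, ← e1, dotProduct_sub, dotProduct_smul, dotProduct_smul, e0, smul_eq_mul,
      smul_eq_mul]
  set E : ℝ := (c + N1 / N0) / Q with hE
  have hEval : star ψ ⬝ᵥ φ = (E : ℂ) * ((N0 : ℝ) : ℂ) := by
    have : (Q : ℂ) * (star ψ ⬝ᵥ φ) = (Q : ℂ) * ((E : ℂ) * ((N0 : ℝ) : ℂ)) := by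
      have g : (Q : ℝ) * (E * N0) = c * N0 + N1 := by
        rw [hE]; field_simp
      have g2 : (Q : ℂ) * ((E : ℂ) * ((N0 : ℝ) : ℂ)) = ((c : ℝ) : ℂ) * ((N0 : ℝ) : ℂ) +
          ((N1 : ℝ) : ℂ) := by
        rw [hQQ]; exact_mod_cast g
      rw [g2]
      linear_combination f1
    exact mul_left_cancel₀ hQc this
  refine ⟨ψ, E, ?_, ?_, ?_, ?_, ?_⟩
  · intro h
    rw [h] at e0
    simp at e0
    have : N0 = 0 := by exact_mod_cast e0.symm
    linarith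
  · rw [hE]
    have : lo ≤ N1 / N0 := by rw [le_div_iff₀ h0r]; exact hlo
    gcongr
  · rw [hE]
    have : N1 / N0 ≤ hi := by rw [div_le_iff₀ h0r]; exact hhi
    gcongr
  · rw [hEval, e0]
  · -- second moment
    have hstar : star φ ⬝ᵥ ψ = (E : ℂ) * ((N0 : ℝ) : ℂ) := by
      have : star φ ⬝ᵥ ψ = star (star ψ ⬝ᵥ φ) := by
        rw [Matrix.star_dotProduct]
      rw [this, hEval]
      simp
    have g2 : ((N2 : ℝ) : ℂ) = (Q : ℂ) ^ 2 * (star φ ⬝ᵥ φ) -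
        2 * ((Q : ℂ) * ((c : ℝ) : ℂ) * ((E : ℂ) * ((N0 : ℝ) : ℂ))) +
          ((c : ℝ) : ℂ) ^ 2 * ((N0 : ℝ) : ℂ) := by
      have : ((ringN2 A Q P n : ℤ) : ℂ) = ((N2 : ℝ) : ℂ) := by rw [hN2]; norm_cast
      rw [← this, ← e2, star_sub, star_smul, star_smul]
      simp only [sub_dotProduct, dotProduct_sub, smul_dotProduct, dotProduct_smul, smul_eq_mul,
        hstar, hEval, e0]
      have hs1 : star ((Q : ℂ)) = (Q : ℂ) := by simp
      have hs2 : star (((c : ℝ) : ℂ)) = ((c : ℝ) : ℂ) := by simp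
      rw [hs1, hs2]
      ring
    have g3 : (star φ ⬝ᵥ φ).re = (N2 + 2 * (Q * c * (E * N0)) - c ^ 2 * N0) / (Q : ℝ) ^ 2 := by
      rw [eq_div_iff (by positivity)]
      have := congrArg Complex.re g2
      rw [hQQ] at this
      simp only [← Complex.ofReal_pow, ← Complex.ofReal_mul, Complex.add_re, Complex.sub_re,
        Complex.re_ofReal_mul, Complex.ofReal_re] at this
      have h22 : ((2 : ℂ) * (((Q : ℝ) * c * (E * N0) : ℝ) : ℂ)).re = 2 * (Q * c * (E * N0)) := by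
        rw [show (2 : ℂ) = ((2 : ℝ) : ℂ) by norm_num, ← Complex.ofReal_mul, Complex.ofReal_re]
      rw [h22] at this
      linarith
    rw [g3, e0, Complex.ofReal_re, div_le_iff₀ (by positivity)]
    have hQE : (Q : ℝ) * E = c + N1 / N0 := by rw [hE]; field_simp
    have hN1N0 : N1 / N0 * N0 = N1 := by field_simp
    have hexp : (E ^ 2 + w / (Q : ℝ) ^ 2) * N0 * (Q : ℝ) ^ 2 =
        ((Q : ℝ) * E) ^ 2 * N0 + w * N0 := by
      field_simp
    rw [hexp]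
    have : (Q : ℝ) * c * (E * N0) = c * ((Q : ℝ) * E) * N0 := by ring
    rw [this, hQE]
    have hw' : N2 - (N1 / N0) ^ 2 * N0 ≤ w * N0 := by
      have h1 : (N2 - (N1 / N0) ^ 2 * N0) * N0 = N2 * N0 - N1 ^ 2 := by field_simp
      have h2 : (N2 - (N1 / N0) ^ 2 * N0) * N0 ≤ (w * N0) * N0 := by
        rw [h1]; linarith
      exact le_of_mul_le_mul_right h2 h0r
    have h3 : N2 + 2 * (c * (c + N1 / N0) * N0) - c ^ 2 * N0 =
        (c + N1 / N0) ^ 2 * N0 + (N2 - (N1 / N0) ^ 2 * N0) := by ring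
    rw [h3]
    linarith

/-- Energy and variance hypotheses from bounds on the integer moments. -/
theorem ring_mps_hyps (A : Fin 3 → Matrix m m ℤ) {Q P : ℤ} (hQ : 0 < Q) (n : ℕ)
    {lo hi w : ℝ} (h0 : 0 < ringN0 A n)
    (hlo : lo * (ringN0 A n : ℝ) ≤ (ringN1 A Q P n : ℝ))
    (hhi : (ringN1 A Q P n : ℝ) ≤ hi * (ringN0 A n : ℝ))
    (hw : (ringN2 A Q P n : ℝ) ≤ w * (ringN0 A n : ℝ)) :
    ∃ (ψ : (Fin (n + 4) → Fin 3) → ℂ) (E : ℝ), ψ ≠ 0 ∧
      (((n + 4 : ℕ) : ℝ) * P + lo) / Q ≤ E ∧ E ≤ (((n + 4 : ℕ) : ℝ) * P + hi) / Q ∧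
      star ψ ⬝ᵥ (heisenbergRing (n + 4)).mulVec ψ = (E : ℂ) * (star ψ ⬝ᵥ ψ) ∧
      (star ((heisenbergRing (n + 4)).mulVec ψ) ⬝ᵥ (heisenbergRing (n + 4)).mulVec ψ).re ≤
        (E ^ 2 + w / (Q : ℝ) ^ 2) * (star ψ ⬝ᵥ ψ).re := by
  have h0r : (0 : ℝ) < (ringN0 A n : ℝ) := by exact_mod_cast h0
  refine ring_mps_hyps' A hQ n h0 hlo hhi ?_
  have := mul_le_mul_of_nonneg_right hw h0r.le
  nlinarith [sq_nonneg (ringN1 A Q P n : ℝ)]

/-- Variational energy bound from the first moment. -/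
theorem ring_mps_var (A : Fin 3 → Matrix m m ℤ) {Q P : ℤ} (hQ : 0 < Q) (n : ℕ)
    {hi : ℝ} (h0 : 0 < ringN0 A n)
    (hhi : (ringN1 A Q P n : ℝ) ≤ hi * (ringN0 A n : ℝ)) :
    ∃ (ψ : (Fin (n + 4) → Fin 3) → ℂ), ψ ≠ 0 ∧
      (star ψ ⬝ᵥ (heisenbergRing (n + 4)).mulVec ψ).re ≤
        ((((n + 4 : ℕ) : ℝ) * P + hi) / Q) * (star ψ ⬝ᵥ ψ).re := by
  have h0r : (0 : ℝ) < (ringN0 A n : ℝ) := by exact_mod_cast h0
  obtain ⟨ψ, E, h1, -, h3, h4, -⟩ := ring_mps_hyps A (Q := Q) (P := P) hQ n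
    (lo := (ringN1 A Q P n : ℝ) / (ringN0 A n : ℝ)) (hi := hi)
    (w := (ringN2 A Q P n : ℝ) / (ringN0 A n : ℝ)) h0
    (by rw [div_mul_cancel₀ _ h0r.ne']) hhi (by rw [div_mul_cancel₀ _ h0r.ne'])
  refine ⟨ψ, h1, ?_⟩
  have him : (star ψ ⬝ᵥ ψ).im = 0 := by
    have : star (star ψ ⬝ᵥ ψ) = star ψ ⬝ᵥ ψ := by
      rw [← Matrix.star_dotProduct_star, star_star]
    have := congrArg Complex.im this
    rw [Complex.star_def, Complex.conj_im] at this
    linarith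
  have hre : 0 ≤ (star ψ ⬝ᵥ ψ).re := by
    have : (star ψ ⬝ᵥ ψ) = ((∑ i, ‖ψ i‖ ^ 2 : ℝ) : ℂ) := by
      simp only [dotProduct, Pi.star_apply, Complex.ofReal_sum]
      refine Finset.sum_congr rfl fun i _ => ?_
      rw [Complex.star_def, Complex.conj_mul']
      push_cast
      ring
    rw [this, Complex.ofReal_re]
    positivity
  rw [h4, Complex.mul_re, Complex.ofReal_re, Complex.ofReal_im, zero_mul, sub_zero]
  exact mul_le_mul_of_nonneg_right h3 hre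

end moments

end Crest.Agent.R347
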