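import Crest.Agent.R347.NumFin

/-! Assembling the chunks of the kernel runs. -/

set_option autoImplicit false

namespace Crest.Agent.R347.Num

open Matrix Crest.MathPhysics.SpinChain

/-- certified interval for one chunk -/
def CB {L : ℕ} (Q : Matrix (Cfg L) (Cfg L) ℤ) (h : Cfg L → Cfg L) (w : ℕ) (J : List (ℕ × ℕ))
    (R : ℕ) : Prop :=
  sgnd w R ≤ wdiag Q h (decJ L J) ∧ wdiag Q h (decJ L J) ≤ sgnd w R + 1

theorem chunks_bound {L : ℕ} {Q : Matrix (Cfg L) (Cfg L) ℤ} {h : Cfg L → Cfg L} {w : ℕ}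
    {chs : List (List (ℕ × ℕ))} {Rs : List ℕ} (hF : List.Forall₂ (CB Q h w) chs Rs) :
    (Rs.map (sgnd w)).sum ≤ wdiag Q h (decJ L chs.flatten) ∧
      wdiag Q h (decJ L chs.flatten) ≤ (Rs.map (sgnd w)).sum + chs.length := by
  induction hF with
  | nil =>
    have : wdiag Q h (decJ L ([] : List (List (ℕ × ℕ))).flatten) = 0 := rfl
    rw [this]
    simp
  | @cons J R chs Rs h1 h2 ih =>
    rw [List.flatten_cons, decJ_append, wdiag_append, List.map_cons, List.sum_cons,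
      List.length_cons]
    obtain ⟨a1, a2⟩ := h1
    obtain ⟨b1, b2⟩ := ih
    push_cast
    constructor <;> linarith

theorem sub0 {J : List (ℕ × ℕ)} {c0 c1 c2 : List (List (ℕ × ℕ))} (h : J ∈ c0) :
    J.Sublist (c0.flatten ++ (c1.flatten ++ c2.flatten)) :=
  (List.sublist_flatten_of_mem h).trans (List.sublist_append_left _ _)

theorem sub1 {J : List (ℕ × ℕ)} {c0 c1 c2 : List (List (ℕ × ℕ))} (h : J ∈ c1) :
    J.Sublist (c0.flatten ++ (c1.flatten ++ c2.flatten)) :=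
  ((List.sublist_flatten_of_mem h).trans (List.sublist_append_left _ _)).trans
    (List.sublist_append_right _ _)

theorem sub2 {J : List (ℕ × ℕ)} {c0 c1 c2 : List (List (ℕ × ℕ))} (h : J ∈ c2) :
    J.Sublist (c0.flatten ++ (c1.flatten ++ c2.flatten)) :=
  ((List.sublist_flatten_of_mem h).trans (List.sublist_append_right _ _)).trans
    (List.sublist_append_right _ _)

section
variable {n : ℕ} {J0 J1 J2 : List (ℕ × ℕ)}

theorem ok_sub (hc : ChkData n J0 J1 J2) {J : List (ℕ × ℕ)}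
    (hs : J.Sublist (J0 ++ (J1 ++ J2))) : okJ (n + 1) J = true := by
  have h := hc.ok
  unfold okJ at h ⊢
  rw [List.all_eq_true] at h ⊢
  exact fun x hx => h x (hs.subset hx)

theorem nd_sub (hc : ChkData n J0 J1 J2) {J : List (ℕ × ℕ)}
    (hs : J.Sublist (J0 ++ (J1 ++ J2))) : (J.map Prod.fst).Nodup :=
  hc.nd.sublist (hs.map _)

/-- one chunk, trace only -/
theorem chunk1 (hc : ChkData n J0 J1 J2) {tw : Bool} {c1 r : ℕ} (hsp : SpecData n tw c1 r)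
    (us : List ℕ) (bs : List Bd) (w : ℕ) (hbs : (ringBonds (n + 1) tw).map Bond.toBd = bs)
    (hw : 1 ≤ w) (ρ : ℕ) (hρ : r ^ 2 = ρ) (hC : 2 * (n + 1) + 2 * (n + 1) + r ^ 2 ≤ 64)
    {J : List (ℕ × ℕ)} (hsub : J.Sublist (J0 ++ (J1 ++ J2))) (hJ0 : J ≠ [])
    (hs : 2 * ((J.map Prod.snd).sum * Qsum r us) < 2 ^ w) (K K1 R : ℕ)
    (hK : w * J.length = K) (hK1 : w * (J.length - 1) = K1)
    (hrun : run1 1 ρ c1 64 w K K1 bs [] J us = R) : CB (Qm n tw c1 (r ^ 2) us) id w J R := by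
  subst hρ hK hK1
  exact run1_spec hsp.hn tw c1 r 64 w us J (Qsum r us) bs hbs hJ0 (ok_sub hc hsub)
    (nd_sub hc hsub) hw (fun σ τ => Qm_le hsp us σ τ) hs hC R hrun

/-- one chunk, trace and flipped trace -/
theorem chunk2 (hc : ChkData n J0 J1 J2) {tw : Bool} {c1 r : ℕ} (hsp : SpecData n tw c1 r)
    (us : List ℕ) (bs : List Bd) (w : ℕ) (hbs : (ringBonds (n + 1) tw).map Bond.toBd = bs)
    (hw : 1 ≤ w) (ρ : ℕ) (hρ : r ^ 2 = ρ) (hC : 2 * (n + 1) + 2 * (n + 1) + r ^ 2 ≤ 64)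
    {J : List (ℕ × ℕ)} (hsub : J.Sublist (J0 ++ (J1 ++ J2))) (hJ0 : J ≠ [])
    (hs : 2 * ((J.map Prod.snd).sum * Qsum r us) < 2 ^ w) (K K1 R R' T : ℕ)
    (hK : w * J.length = K) (hK1 : w * (J.length - 1) = K1)
    (hT : T = ∑ j : Fin (n + 1), 2 * 4 ^ (j : ℕ))
    (hrun : run2 1 ρ c1 64 w K K1 T bs [] J us = (R, R')) :
    CB (Qm n tw c1 (r ^ 2) us) id w J R ∧ CB (Qm n tw c1 (r ^ 2) us) fl w J R' := by
  subst hρ hK hK1
  exact run2_spec hsp.hn tw c1 r 64 w us J (Qsum r us) bs hbs hJ0 (ok_sub hc hsub)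
    (nd_sub hc hsub) hw (fun σ τ => Qm_le hsp us σ τ) hs hC R R' T hT hrun

end

section
variable {n : ℕ} {c0 c1 c2 : List (List (ℕ × ℕ))}
  (hc : ChkData n c0.flatten c1.flatten c2.flatten) (hn : 1 ≤ n) (tw : Bool) (cc ρ : ℕ)
  (us : List ℕ) (w : ℕ) {R0 R1 R2 : List ℕ}
  (h0 : List.Forall₂ (CB (Qm n tw cc ρ us) id w) c0 R0)
  (h1 : List.Forall₂ (CB (Qm n tw cc ρ us) id w) c1 R1)
  (h2 : List.Forall₂ (CB (Qm n tw cc ρ us) id w) c2 R2)

include hc hn h0 h1 h2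

theorem diag_bounds (Tl Tu : ℤ)
    (hl : Tl ≤ (R0.map (sgnd w)).sum + (R1.map (sgnd w)).sum + (R2.map (sgnd w)).sum)
    (hu : (R0.map (sgnd w)).sum + (R1.map (sgnd w)).sum + (R2.map (sgnd w)).sum +
      (c0.length + c1.length + c2.length) ≤ Tu) :
    Tl ≤ ∑ σ, Qm n tw cc ρ us σ σ ∧ ∑ σ, Qm n tw cc ρ us σ σ ≤ Tu := by
  rw [tot_diag hc tw cc ρ us hn]
  obtain ⟨a1, a2⟩ := chunks_bound h0
  obtain ⟨b1, b2⟩ := chunks_bound h1
  obtain ⟨d1, d2⟩ := chunks_bound h2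
  constructor <;> linarith

theorem sign_bounds (Tl Tu : ℤ)
    (hl : Tl ≤ (R0.map (sgnd w)).sum + (R1.map (sgnd w)).sum - (R2.map (sgnd w)).sum -
      c2.length)
    (hu : (R0.map (sgnd w)).sum + (R1.map (sgnd w)).sum - (R2.map (sgnd w)).sum +
      (c0.length + c1.length) ≤ Tu) :
    Tl ≤ ∑ σ, sg σ * Qm n tw cc ρ us σ σ ∧ ∑ σ, sg σ * Qm n tw cc ρ us σ σ ≤ Tu := by
  rw [tot_sign hc tw cc ρ us hn]
  obtain ⟨a1, a2⟩ := chunks_bound h0
  obtain ⟨b1, b2⟩ := chunks_bound h1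
  obtain ⟨d1, d2⟩ := chunks_bound h2
  constructor <;> linarith

omit h0 h1 h2 in
theorem flip_bounds {R0' : List ℕ} (h0' : List.Forall₂ (CB (Qm n tw cc ρ us) fl w) c0 R0')
    (Tl Tu : ℤ) (hl : Tl ≤ (R0'.map (sgnd w)).sum)
    (hu : (R0'.map (sgnd w)).sum + c0.length ≤ Tu) :
    Tl ≤ ∑ σ, Qm n tw cc ρ us (fl σ) σ ∧ ∑ σ, Qm n tw cc ρ us (fl σ) σ ≤ Tu := by
  rw [tot_flip hc tw cc ρ us hn]
  obtain ⟨a1, a2⟩ := chunks_bound h0'
  constructor <;> linarith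

end

end Crest.Agent.R347.Num
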