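import Crest.Agent.R347.NumMat
import Crest.Agent.R347.Basic
import Crest.Agent.R347.DirectGen

/-! Spin operators versus the integer bond matrices (task N1-C). -/

set_option autoImplicit false

namespace Crest.Agent.R347.Num

open Matrix Crest.MathPhysics.SpinChain

/-! ### products of two one-site operators -/

theorem onSite_mul_apply {L : ℕ} (A B : Matrix (Fin 3) (Fin 3) ℂ) {j k : Fin L} (hjk : j ≠ k)
    (σ τ : Cfg L) :
    (onSite A j * onSite B k) σ τ =
      if ∀ l, l ≠ j → l ≠ k → σ l = τ l then A (σ j) (τ j) * B (σ k) (τ k) else 0 := by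
  rw [onSite_eq_piK, onSite_eq_piK, piK_mul, piK_apply]
  have h : ∀ l, ((if l = j then A else 1) * (if l = k then B else 1) :
      Matrix (Fin 3) (Fin 3) ℂ) = if l = j then A else if l = k then B else 1 := by
    intro l
    by_cases h1 : l = j
    · subst h1; simp [hjk]
    · by_cases h2 : l = k
      · subst h2; simp [h1]
      · simp [h1, h2]
  simp only [h]
  rw [← Finset.mul_prod_erase _ _ (Finset.mem_univ j),
    ← Finset.mul_prod_erase (Finset.univ.erase j) (a := k) _
      (Finset.mem_erase.mpr ⟨hjk.symm, Finset.mem_univ k⟩)]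
  simp only [if_true, if_neg hjk.symm]
  split_ifs with hall
  · rw [Finset.prod_eq_one, mul_one]
    intro l hl
    rw [Finset.mem_erase, Finset.mem_erase] at hl
    rw [if_neg hl.2.1, if_neg hl.1, hall l hl.2.1 hl.1, Matrix.one_apply_eq]
  · push Not at hall
    obtain ⟨l, h1, h2, h3⟩ := hall
    have : ∏ x ∈ (Finset.univ.erase j).erase k,
        (if x = j then A else if x = k then B else 1) (σ x) (τ x) = 0 := by
      refine Finset.prod_eq_zero (i := l) ?_ ?_
      · simp [h1, h2]
      · rw [if_neg h1, if_neg h2, Matrix.one_apply_ne h3]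
    rw [this]
    ring

theorem Hb_apply {L : ℕ} {j k : Fin L} (hjk : j ≠ k) (tw : Bool) (σ τ : Cfg L) :
    Hb ⟨j, k, tw⟩ σ τ =
      if ∀ l, l ≠ j → l ≠ k → σ l = τ l then hl tw (σ j) (σ k) (τ j) (τ k) else 0 := by
  unfold Hb
  simp only [Matrix.of_apply]
  split_ifs with hall
  · rw [Finset.sum_eq_single (τ j)]
    · rw [Finset.sum_eq_single (τ k)]
      · have : τ = upd2 σ j k (τ j) (τ k) := by
          funext l
          unfold upd2
          by_cases h2 : l = k
          · subst h2; simp
          · by_cases h1 : l = j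
            · subst h1; simp [h2]
            · simp [h1, h2, (hall l h1 h2)]
        rw [if_pos this, mul_one]
      · intro c _ hc
        rw [if_neg, mul_zero]
        intro h
        apply hc
        have := congrFun h k
        simpa [upd2] using this.symm
      · simp
    · intro a _ ha
      refine Finset.sum_eq_zero fun c _ => ?_
      rw [if_neg, mul_zero]
      intro h
      apply ha
      have := congrFun h j
      simpa [upd2, hjk] using this.symm
    · simp
  · refine Finset.sum_eq_zero fun a _ => Finset.sum_eq_zero fun c _ => ?_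
    rw [if_neg, mul_zero]
    intro h
    apply hall
    intro l h1 h2
    have := congrFun h l
    simpa [upd2, h1, h2] using this.symm

open DirectGen in
theorem local_bond (tw : Bool) (a b a' b' : Fin 3) :
    (∑ c : Fin 3, (if tw = true ∧ c ≠ 2 then (-1 : ℂ) else 1) *
      (spinOp c a a' * spinOp c b b')) = ((hl tw a b a' b' : ℤ) : ℂ) := by
  have h0 : spinOp 0 = spinX := rfl
  have h1 : spinOp 1 = spinY := rfl
  have h2 : spinOp 2 = spinZ := rfl
  rw [Fin.sum_univ_three, h0, h1, h2, spinX_eq, spinY_eq, spinZ_eq]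
  have hs := sq_mul
  have hI := Complex.I_mul_I
  have e1 : Complex.I * sq * (Complex.I * sq) = -(1 / 2) := by
    linear_combination (Complex.I * Complex.I) * hs + (1 / 2) * hI
  cases tw <;> fin_cases a <;> fin_cases b <;> fin_cases a' <;> fin_cases b' <;>
    simp [hl, hs, e1] <;> norm_num

/-- (C1) the bond operator with twist axis z: `onSite` products are the integer bond matrix. -/
theorem bond_eq_Hb {L : ℕ} (j k : Fin L) (hjk : j ≠ k) (tw : Bool) :
    (∑ c : Fin 3, (if tw = true ∧ c ≠ 2 then (-1 : ℂ) else 1) •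
      (onSite (spinOp c) j * onSite (spinOp c) k)) =
      (Hb ⟨j, k, tw⟩).map (Int.cast : ℤ → ℂ) := by
  ext σ τ
  rw [Matrix.map_apply, Hb_apply hjk, Matrix.sum_apply]
  simp only [Matrix.smul_apply, smul_eq_mul, onSite_mul_apply _ _ hjk]
  split_ifs with h
  · exact local_bond tw _ _ _ _
  · simp

/-- bonds of the ring; `tw`: last bond twisted about z -/
def ringBonds (L : ℕ) (tw : Bool) : List (Bond L) :=
  (List.finRange L).map fun j => ⟨j, finRotate L j, tw && decide (j.val + 1 = L)⟩

theorem finRotate_ne {L : ℕ} (hL : 2 ≤ L) (j : Fin L) : j ≠ finRotate L j := by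
  obtain ⟨n, rfl⟩ : ∃ n, L = n + 2 := ⟨L - 2, by omega⟩
  intro h
  have h1 := congrArg Fin.val h
  by_cases hj : j = Fin.last (n + 1)
  · subst hj
    rw [finRotate_last] at h1
    simp at h1
  · rw [coe_finRotate_of_ne_last hj] at h1
    omega

theorem ringBonds_ne {L : ℕ} (hL : 2 ≤ L) (tw : Bool) : ∀ b ∈ ringBonds L tw, b.j ≠ b.k := by
  intro b hb
  unfold ringBonds at hb
  rw [List.mem_map] at hb
  obtain ⟨j, _, rfl⟩ := hb
  exact finRotate_ne hL j

theorem list_sum_map_cast {κ : Type*} (l : List (Matrix κ κ ℤ)) :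
    (l.sum).map (Int.cast : ℤ → ℂ) = (l.map fun M => M.map (Int.cast : ℤ → ℂ)).sum := by
  induction l with
  | nil => ext i j; simp
  | cons M l ih =>
    rw [List.sum_cons, List.map_cons, List.sum_cons, ← ih]
    ext i j
    simp

/-- `Gmat` with `κ = 1` and no fields -/
theorem Gmat_one_cast {L : ℕ} (c1 : ℕ) (bl : List (Bond L)) :
    (Gmat 1 c1 bl []).map (Int.cast : ℤ → ℂ) =
      ((c1 : ℂ) - bl.length) • 1 - (bl.map fun b => (Hb b).map (Int.cast : ℤ → ℂ)).sum := by
  have h := list_sum_map_cast (bl.map Hb)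
  rw [List.map_map] at h
  have h' : (bl.map fun b => (Hb b).map (Int.cast : ℤ → ℂ)).sum =
      ((bl.map Hb).sum).map (Int.cast : ℤ → ℂ) := by
    rw [h]; rfl
  rw [h']
  ext σ τ
  simp only [Gmat, Matrix.map_apply, Matrix.sub_apply, Matrix.smul_apply, smul_eq_mul]
  by_cases hst : σ = τ
  · subst hst
    simp [fD]
  · simp [Matrix.one_apply_ne hst, Matrix.diagonal_apply_ne _ hst]

/-- (C2) `ringTw` for a = 0, 3 in terms of `Gmat` (`κ = 1`, no fields). -/
theorem ringTw_eq (L : ℕ) (hL : 2 ≤ L) (tw : Bool) (c1 : ℕ) :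
    ringTw (if tw then 3 else 0) L =
      ((c1 : ℂ) - L) • 1 - (Gmat 1 c1 (ringBonds L tw) []).map (Int.cast : ℤ → ℂ) := by
  rw [Gmat_one_cast]
  have hlen : (ringBonds L tw).length = L := by simp [ringBonds]
  rw [hlen, sub_sub_cancel]
  unfold ringTw ringBonds
  rw [List.map_map, ← List.ofFn_eq_map, List.sum_ofFn]
  refine Finset.sum_congr rfl fun j _ => ?_
  have hb := bond_eq_Hb j (finRotate L j) (finRotate_ne hL j) (tw && decide (j.val + 1 = L))
  refine Eq.trans ?_ hb
  refine Finset.sum_congr rfl fun c _ => ?_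
  congr 1
  cases tw
  · simp [eta]
  · by_cases hj : j.val + 1 = L
    · fin_cases c <;> simp [eta, hj]
    · simp [hj]

/-- (C3) rotations -/
theorem piK_rotC_three (L : ℕ) : piK (fun _ : Fin L => rotC 3) =
    Matrix.diagonal (fun σ : Cfg L => ∏ j, (if σ j = 1 then (1 : ℂ) else -1)) := by
  ext σ τ
  rw [piK_apply, DirectGen.rot3]
  by_cases h : σ = τ
  · subst h
    rw [Matrix.diagonal_apply_eq]
    refine Finset.prod_congr rfl fun j _ => ?_
    generalize σ j = a
    fin_cases a <;> simp
  · rw [Matrix.diagonal_apply_ne _ h]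
    obtain ⟨j, hj⟩ := Function.ne_iff.mp h
    refine Finset.prod_eq_zero (Finset.mem_univ j) ?_
    revert hj
    generalize σ j = a
    generalize τ j = b
    intro hab
    fin_cases a <;> fin_cases b <;> simp at hab ⊢

theorem piK_rotC_one (L : ℕ) : piK (fun _ : Fin L => rotC 1) =
    Matrix.of (fun σ τ : Cfg L => if τ = fun j => (σ j).rev then ((-1 : ℂ)) ^ L else 0) := by
  ext σ τ
  rw [piK_apply, DirectGen.rot1, Matrix.of_apply]
  split_ifs with h
  · subst h
    rw [Finset.prod_congr rfl (g := fun _ => (-1 : ℂ))]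
    · simp
    · intro j _
      have hrev : ∀ a : Fin 3, (!![0, 0, -1; 0, -1, 0; -1, 0, 0] : Matrix (Fin 3) (Fin 3) ℂ)
          a a.rev = -1 := by
        intro a
        fin_cases a <;> simp [Fin.rev]
      exact hrev (σ j)
  · obtain ⟨j, hj⟩ := Function.ne_iff.mp h
    refine Finset.prod_eq_zero (Finset.mem_univ j) ?_
    revert hj
    generalize σ j = a
    generalize τ j = b
    intro hab
    fin_cases a <;> fin_cases b <;> simp [Fin.rev] at hab ⊢

theorem hl_symm (tw : Bool) (a b a' b' : Fin 3) : hl tw a b a' b' = hl tw a' b' a b := by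
  revert a b a' b' tw
  decide

theorem Hb_symm {L : ℕ} (b : Bond L) (hb : b.j ≠ b.k) : (Hb b)ᵀ = Hb b := by
  ext σ τ
  rw [Matrix.transpose_apply, Hb_apply hb, Hb_apply hb]
  by_cases h : ∀ l, l ≠ b.j → l ≠ b.k → σ l = τ l
  · rw [if_pos h, if_pos (fun l h1 h2 => (h l h1 h2).symm), hl_symm]
  · rw [if_neg h, if_neg]
    intro h'
    exact h fun l h1 h2 => (h' l h1 h2).symm

/-- (C4) -/
theorem Gmat_symm {L : ℕ} (κ c1 : ℕ) (bl : List (Bond L)) (fl : List (Fld L))
    (hbl : ∀ b ∈ bl, b.j ≠ b.k) : (Gmat κ c1 bl fl)ᵀ = Gmat κ c1 bl fl := by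
  have h : ((bl.map Hb).sum)ᵀ = (bl.map Hb).sum := by
    rw [Matrix.transpose_list_sum, List.map_map]
    refine congrArg List.sum (List.map_congr_left fun b hb => ?_)
    exact Hb_symm b (hbl b hb)
  unfold Gmat
  rw [Matrix.transpose_sub, Matrix.transpose_sub, Matrix.transpose_smul, Matrix.transpose_one,
    Matrix.diagonal_transpose, Matrix.transpose_smul, h]

end Crest.Agent.R347.Num
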