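import Crest.Agent.R347.NumMat
import Crest.Agent.R347.SectorDiag

/-! Polynomial approximation of exponentials of integer symmetric matrices (helper417). -/

set_option autoImplicit false

namespace Crest.Agent.R347.Num

open Matrix

noncomputable section

section
variable {κ : Type*} [Fintype κ] [DecidableEq κ]

/-- conjugation by a unitary as a ring homomorphism -/
def conjHom (W : Matrix κ κ ℂ) (h1 : Wᴴ * W = 1) (h2 : W * Wᴴ = 1) :
    Matrix κ κ ℂ →+* Matrix κ κ ℂ where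
  toFun M := W * M * Wᴴ
  map_one' := by rw [mul_one, h2]
  map_mul' := fun M N => by
    have e : W * (M * N) * Wᴴ = W * M * (Wᴴ * W) * N * Wᴴ := by
      rw [h1, mul_one, mul_assoc W M N]
    rw [e]
    simp only [mul_assoc]
  map_zero' := by simp
  map_add' := fun M N => by rw [mul_add, add_mul]

omit [Fintype κ] in
theorem clv_pi (f : κ → ℝ) (ρ : ℕ) (us : List ℕ) (i : κ) :
    clv (fun i => ((f i : ℝ) : ℂ)) ρ us i = ((clv (f i) ρ us : ℝ) : ℂ) := by
  have h1 := clv_map (Pi.evalRingHom (fun _ : κ => ℂ) i) (fun i => ((f i : ℝ) : ℂ)) ρ us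
  have h2 := clv_map Complex.ofRealHom (f i) ρ us
  calc clv (fun i => ((f i : ℝ) : ℂ)) ρ us i
      = Pi.evalRingHom (fun _ : κ => ℂ) i (clv (fun i => ((f i : ℝ) : ℂ)) ρ us) := rfl
    _ = clv (((f i : ℝ) : ℂ)) ρ us := h1
    _ = ((clv (f i) ρ us : ℝ) : ℂ) := h2.symm

theorem clv_diagonal (f : κ → ℝ) (ρ : ℕ) (us : List ℕ) :
    clv (diagonal (fun i => ((f i : ℝ) : ℂ))) ρ us =
      diagonal (fun i => ((clv (f i) ρ us : ℝ) : ℂ)) := by
  have h1 := clv_map (diagonalRingHom κ ℂ) (fun i => ((f i : ℝ) : ℂ)) ρ us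
  have h2 : diagonalRingHom κ ℂ (fun i => ((f i : ℝ) : ℂ)) =
    diagonal (fun i => ((f i : ℝ) : ℂ)) := rfl
  rw [h2] at h1
  rw [← h1]
  show diagonal (clv (fun i => ((f i : ℝ) : ℂ)) ρ us) = _
  congr 1
  funext i
  exact clv_pi f ρ us i

/-- complexification of an integer matrix -/
abbrev cx (G : Matrix κ κ ℤ) : Matrix κ κ ℂ := G.map (Int.cast : ℤ → ℂ)

theorem cx_clv (G : Matrix κ κ ℤ) (ρ : ℕ) (us : List ℕ) :
    (clv G ρ us).map (Int.cast : ℤ → ℂ) = clv (cx G) ρ us :=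
  clv_map ((Int.castRingHom ℂ).mapMatrix) G ρ us

omit [Fintype κ] [DecidableEq κ] in
theorem cx_isHermitian {G : Matrix κ κ ℤ} (hG : Gᵀ = G) : (cx G).IsHermitian := by
  ext i j
  have h : G j i = G i j := by
    have := congrFun (congrFun hG i) j
    exact this
  simp [cx, conjTranspose_apply, h]

/-- package: real diagonalisation data of an integer symmetric matrix -/
theorem exists_data (G : Matrix κ κ ℤ) (hG : Gᵀ = G) (lo hi : ℝ)
    (hspec : ∀ (μ : ℝ) (v : κ → ℝ), v ≠ 0 →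
      (G.map (Int.cast : ℤ → ℝ)) *ᵥ v = μ • v → lo ≤ μ ∧ μ ≤ hi) :
    ∃ (W : Matrix κ κ ℂ) (d : κ → ℝ), Wᴴ * W = 1 ∧ W * Wᴴ = 1 ∧
      cx G = W * diagonal (fun i => ((d i : ℝ) : ℂ)) * Wᴴ ∧ ∀ i, lo ≤ d i ∧ d i ≤ hi := by
  obtain ⟨W, h1, h2, h3⟩ := exists_diag (cx_isHermitian hG)
  refine ⟨W, (cx_isHermitian hG).eigenvalues, h1, h2, h3, fun i => ?_⟩
  set d := (cx_isHermitian hG).eigenvalues with hd
  have hcol : cx G * W = W * diagonal (fun i => ((d i : ℝ) : ℂ)) := by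
    rw [h3, mul_assoc, h1, mul_one]
  have hw : ∀ σ, ∑ τ, (G σ τ : ℂ) * W τ i = (d i : ℂ) * W σ i := by
    intro σ
    have := congrFun (congrFun hcol σ) i
    rw [mul_apply, mul_diagonal] at this
    rw [mul_comm (d i : ℂ)]
    exact this
  have hne : ∃ τ, W τ i ≠ 0 := by
    by_contra hcon
    push Not at hcon
    have := congrFun (congrFun h1 i) i
    rw [mul_apply, one_apply_eq] at this
    simp [hcon] at this
  have key : ∀ v : κ → ℝ, v ≠ 0 → (∀ σ, ∑ τ, (G σ τ : ℝ) * v τ = d i * v σ) →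
      lo ≤ d i ∧ d i ≤ hi := by
    intro v hv h
    refine hspec (d i) v hv ?_
    funext σ
    simp only [mulVec, dotProduct, map_apply, Pi.smul_apply, smul_eq_mul]
    exact h σ
  obtain ⟨τ0, hτ0⟩ := hne
  by_cases hre : (fun τ => (W τ i).re) = 0
  · refine key (fun τ => (W τ i).im) ?_ fun σ => ?_
    · intro him
      apply hτ0
      apply Complex.ext
      · exact congrFun hre τ0
      · exact congrFun him τ0
    · have := congrArg Complex.im (hw σ)
      rw [Complex.im_sum] at this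
      simpa using this
  · refine key (fun τ => (W τ i).re) hre fun σ => ?_
    have := congrArg Complex.re (hw σ)
    rw [Complex.re_sum] at this
    simpa using this

/-- entries of a unitary product have modulus at most one -/
theorem norm_entry_le {V : Matrix κ κ ℂ} (hV : Vᴴ * V = 1) (i j : κ) : ‖V i j‖ ≤ 1 := by
  have h := congrFun (congrFun hV j) j
  rw [mul_apply, one_apply_eq] at h
  have h2 : ∑ k, ‖V k j‖ ^ 2 = 1 := by
    have h3 : ((∑ k, ‖V k j‖ ^ 2 : ℝ) : ℂ) = 1 := by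
      rw [← h, Complex.ofReal_sum]
      refine Finset.sum_congr rfl fun k _ => ?_
      rw [conjTranspose_apply, Complex.star_def, Complex.conj_mul', Complex.ofReal_pow]
    exact_mod_cast h3
  have h4 : ‖V i j‖ ^ 2 ≤ 1 := by
    rw [← h2]
    exact Finset.single_le_sum (f := fun k => ‖V k j‖ ^ 2) (fun _ _ => by positivity)
      (Finset.mem_univ i)
  have h5 : 0 ≤ ‖V i j‖ := norm_nonneg _
  nlinarith

theorem clv_of_diag {G : Matrix κ κ ℤ} {W : Matrix κ κ ℂ} {d : κ → ℝ} (h1 : Wᴴ * W = 1)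
    (h2 : W * Wᴴ = 1) (h3 : cx G = W * diagonal (fun i => ((d i : ℝ) : ℂ)) * Wᴴ) (ρ : ℕ)
    (us : List ℕ) : (clv G ρ us).map (Int.cast : ℤ → ℂ) =
      W * diagonal (fun i => ((clv (d i) ρ us : ℝ) : ℂ)) * Wᴴ := by
  rw [cx_clv, h3, ← clv_diagonal]
  exact (clv_map (conjHom W h1 h2) (diagonal (fun i => ((d i : ℝ) : ℂ))) ρ us).symm

theorem trace_poly_approx (G : Matrix κ κ ℤ)
    (hG : Gᵀ = G) (U : Matrix κ κ ℂ) (hU : Uᴴ * U = 1) (ρ : ℕ) (us : List ℕ) (lo hi : ℝ)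
    (hspec : ∀ (μ : ℝ) (v : κ → ℝ), v ≠ 0 →
      (G.map (Int.cast : ℤ → ℝ)) *ᵥ v = μ • v → lo ≤ μ ∧ μ ≤ hi)
    (β S Δ : ℝ) (happ : ∀ g : ℝ, lo ≤ g → g ≤ hi → |S * Real.exp (β * g) - clv g ρ us| ≤ Δ) :
    |S * (trace (U * NormedSpace.exp ((β : ℂ) • G.map (Int.cast : ℤ → ℂ)))).re -
      (trace (U * (clv G ρ us).map (Int.cast : ℤ → ℂ))).re| ≤ Fintype.card κ * Δ := by
  obtain ⟨W, d, h1, h2, h3, h4⟩ := exists_data G hG lo hi hspec
  have hexp : NormedSpace.exp ((β : ℂ) • G.map (Int.cast : ℤ → ℂ)) =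
      W * diagonal (fun i => ((Real.exp (β * d i) : ℝ) : ℂ)) * Wᴴ := by
    have := exp_of_diag h1 h2 h3 (-β)
    simpa using this
  rw [hexp, clv_of_diag h1 h2 h3]
  have htr : ∀ e : κ → ℝ, (trace (U * (W * diagonal (fun i => ((e i : ℝ) : ℂ)) * Wᴴ))).re =
      ∑ i, e i * ((Wᴴ * U * W) i i).re := by
    intro e
    have e1 : trace (U * (W * diagonal (fun i => ((e i : ℝ) : ℂ)) * Wᴴ)) =
        trace ((Wᴴ * U * W) * diagonal (fun i => ((e i : ℝ) : ℂ))) := by
      rw [← mul_assoc, trace_mul_comm, ← mul_assoc, ← mul_assoc]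
    rw [e1, trace, Complex.re_sum]
    refine Finset.sum_congr rfl fun i _ => ?_
    rw [diag_apply, mul_diagonal, Complex.mul_re, Complex.ofReal_re, Complex.ofReal_im]
    ring
  rw [htr, htr, Finset.mul_sum, ← Finset.sum_sub_distrib]
  have hV : (Wᴴ * U * W)ᴴ * (Wᴴ * U * W) = 1 := by
    rw [conjTranspose_mul, conjTranspose_mul, conjTranspose_conjTranspose]
    calc Wᴴ * (Uᴴ * W) * (Wᴴ * U * W) = Wᴴ * (Uᴴ * (W * Wᴴ) * U) * W := by
          simp only [mul_assoc]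
      _ = 1 := by rw [h2, mul_one, hU, mul_one, h1]
  calc |∑ i, (S * (Real.exp (β * d i) * ((Wᴴ * U * W) i i).re) -
        clv (d i) ρ us * ((Wᴴ * U * W) i i).re)|
      ≤ ∑ i, |S * (Real.exp (β * d i) * ((Wᴴ * U * W) i i).re) -
        clv (d i) ρ us * ((Wᴴ * U * W) i i).re| := Finset.abs_sum_le_sum_abs _ _
    _ ≤ ∑ _i : κ, Δ := by
        refine Finset.sum_le_sum fun i _ => ?_
        have e1 : S * (Real.exp (β * d i) * ((Wᴴ * U * W) i i).re) -
            clv (d i) ρ us * ((Wᴴ * U * W) i i).re =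
            (S * Real.exp (β * d i) - clv (d i) ρ us) * ((Wᴴ * U * W) i i).re := by ring
        rw [e1, abs_mul]
        have e2 : |((Wᴴ * U * W) i i).re| ≤ 1 :=
          (Complex.abs_re_le_norm _).trans (norm_entry_le hV i i)
        have e3 := happ (d i) (h4 i).1 (h4 i).2
        calc |S * Real.exp (β * d i) - clv (d i) ρ us| * |((Wᴴ * U * W) i i).re|
            ≤ |S * Real.exp (β * d i) - clv (d i) ρ us| * 1 := by gcongr
          _ ≤ Δ := by rw [mul_one]; exact e3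
    _ = Fintype.card κ * Δ := by rw [Finset.sum_const, Finset.card_univ, nsmul_eq_mul]

theorem entry_bound (G : Matrix κ κ ℤ)
    (hG : Gᵀ = G) (ρ : ℕ) (us : List ℕ) (lo hi : ℝ)
    (hspec : ∀ (μ : ℝ) (v : κ → ℝ), v ≠ 0 →
      (G.map (Int.cast : ℤ → ℝ)) *ᵥ v = μ • v → lo ≤ μ ∧ μ ≤ hi)
    (Qb : ℕ) (hb : ∀ g : ℝ, lo ≤ g → g ≤ hi → |clv g ρ us| ≤ Qb) (σ τ : κ) :
    |clv G ρ us σ τ| ≤ Qb := by
  obtain ⟨W, d, h1, h2, h3, h4⟩ := exists_data G hG lo hi hspec
  have hc := congrFun (congrFun (clv_of_diag h1 h2 h3 ρ us) σ) τ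
  rw [map_apply, mul_apply] at hc
  have hn : ‖((clv G ρ us σ τ : ℤ) : ℂ)‖ ≤ Qb := by
    rw [hc]
    have hrow : ∀ σ, ∑ i, ‖W σ i‖ ^ 2 = 1 := by
      intro σ
      have h := congrFun (congrFun h2 σ) σ
      rw [mul_apply, one_apply_eq] at h
      have h3 : ((∑ k, ‖W σ k‖ ^ 2 : ℝ) : ℂ) = 1 := by
        rw [← h, Complex.ofReal_sum]
        refine Finset.sum_congr rfl fun k _ => ?_
        rw [conjTranspose_apply, Complex.star_def, Complex.mul_conj', Complex.ofReal_pow]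
      exact_mod_cast h3
    calc ‖∑ i, (W * diagonal (fun i => ((clv (d i) ρ us : ℝ) : ℂ))) σ i * Wᴴ i τ‖
        ≤ ∑ i, ‖(W * diagonal (fun i => ((clv (d i) ρ us : ℝ) : ℂ))) σ i * Wᴴ i τ‖ :=
          norm_sum_le _ _
      _ ≤ ∑ i, (Qb : ℝ) * (‖W σ i‖ * ‖W τ i‖) := by
          refine Finset.sum_le_sum fun i _ => ?_
          rw [mul_diagonal, norm_mul, norm_mul, conjTranspose_apply, norm_star, Complex.norm_real,
            Real.norm_eq_abs]
          have := hb (d i) (h4 i).1 (h4 i).2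
          calc ‖W σ i‖ * |clv (d i) ρ us| * ‖W τ i‖ ≤ ‖W σ i‖ * Qb * ‖W τ i‖ := by gcongr
            _ = Qb * (‖W σ i‖ * ‖W τ i‖) := by ring
      _ = Qb * ∑ i, ‖W σ i‖ * ‖W τ i‖ := by rw [Finset.mul_sum]
      _ ≤ Qb * 1 := by
          gcongr
          have h5 := Finset.sum_mul_sq_le_sq_mul_sq Finset.univ (fun i => ‖W σ i‖)
            (fun i => ‖W τ i‖)
          rw [hrow, hrow, one_mul] at h5
          have h6 : 0 ≤ ∑ i, ‖W σ i‖ * ‖W τ i‖ :=
            Finset.sum_nonneg fun i _ => mul_nonneg (norm_nonneg _) (norm_nonneg _)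
          nlinarith
      _ = Qb := mul_one _
  rw [Complex.norm_intCast] at hn
  exact_mod_cast hn

end

/-- Collatz-Wielandt -/
theorem collatz {κ : Type*} [Fintype κ] (A : Matrix κ κ ℝ) (N : Matrix κ κ ℝ)
    (hAN : ∀ i j, |A i j| ≤ N i j) (v : κ → ℝ) (hv : ∀ i, 0 < v i) (R : ℝ)
    (hR : ∀ i, ∑ j, N i j * v j ≤ R * v i) (μ : ℝ) (x : κ → ℝ) (hx : x ≠ 0)
    (hAx : A *ᵥ x = μ • x) : |μ| ≤ R := by
  classical
  obtain ⟨i0, hi0⟩ : ∃ i, x i ≠ 0 := by
    by_contra hcon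
    push Not at hcon
    exact hx (funext hcon)
  have : Nonempty κ := ⟨i0⟩
  obtain ⟨i, hi⟩ := Finite.exists_max (fun j => |x j| / v j)
  have hpos : 0 < |x i| := by
    have h1 : 0 < |x i0| / v i0 := div_pos (abs_pos.mpr hi0) (hv i0)
    have h2 := h1.trans_le (hi i0)
    exact (div_pos_iff_of_pos_right (hv i)).mp h2
  set t := |x i| / v i with ht
  have ht0 : 0 < t := div_pos hpos (hv i)
  have hle : ∀ j, |x j| ≤ t * v j := fun j => (div_le_iff₀ (hv j)).mp (hi j)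
  have h1 : |μ| * |x i| ≤ R * |x i| := by
    have h2 : μ * x i = ∑ j, A i j * x j := by
      have := congrFun hAx i
      simp only [mulVec, dotProduct, Pi.smul_apply, smul_eq_mul] at this
      exact this.symm
    rw [← abs_mul, h2]
    calc |∑ j, A i j * x j| ≤ ∑ j, |A i j * x j| := Finset.abs_sum_le_sum_abs _ _
      _ ≤ ∑ j, N i j * (t * v j) := by
          refine Finset.sum_le_sum fun j _ => ?_
          rw [abs_mul]
          exact mul_le_mul (hAN i j) (hle j) (abs_nonneg _) ((abs_nonneg _).trans (hAN i j))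
      _ = t * ∑ j, N i j * v j := by
          rw [Finset.mul_sum]
          refine Finset.sum_congr rfl fun j _ => ?_
          ring
      _ ≤ t * (R * v i) := by
          gcongr
          exact hR i
      _ = R * |x i| := by
          rw [ht]
          field_simp [(hv i).ne']
  exact le_of_mul_le_mul_right h1 hpos

end

end Crest.Agent.R347.Num
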