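import Crest.Agent.R347.NumCWEngine
import Crest.Agent.R347.NumSpin
import Crest.Agent.R347.NumTrace

/-! Spectral bounds from the Collatz-Wielandt kernel checks. -/

set_option autoImplicit false

namespace Crest.Agent.R347.Num

open Matrix

noncomputable section

theorem allC_spec (pred : ℕ → Bool) (n : ℕ) : ∀ pw pre : ℕ, allC pred n pw pre = true →
    ∀ σ : Cfg n, pred (pre + pw * code σ) = true := by
  induction n with
  | zero =>
    intro pw pre h σ
    have e : code σ = 0 := by simp [code]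
    rw [e, mul_zero, add_zero]
    exact h
  | succ n ih =>
    intro pw pre h σ
    have e : allC pred (n + 1) pw pre = (allC pred n (4 * pw) pre &&
      (allC pred n (4 * pw) (pre + pw) && allC pred n (4 * pw) (pre + 2 * pw))) := rfl
    rw [e, Bool.and_eq_true, Bool.and_eq_true] at h
    rw [code_succ]
    have h3 : (σ 0 : ℕ) = 0 ∨ (σ 0 : ℕ) = 1 ∨ (σ 0 : ℕ) = 2 := by
      have := (σ 0).isLt
      omega
    rcases h3 with h0 | h0 | h0
    · have := ih _ _ h.1 (fun j : Fin n => σ j.succ)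
      rw [h0]
      convert this using 2
      ring
    · have := ih _ _ h.2.1 (fun j : Fin n => σ j.succ)
      rw [h0]
      convert this using 2
      ring
    · have := ih _ _ h.2.2 (fun j : Fin n => σ j.succ)
      rw [h0]
      convert this using 2
      ring

theorem iterV_exists {α : Type} (row : ℕ → V) (fin : (ℕ → ℕ) → α) (n : ℕ) :
    ∀ f : ℕ → ℕ, ∃ g : ℕ → ℕ, iterV row fin n f = fin g := by
  induction n with
  | zero => exact fun f => ⟨f, rfl⟩
  | succ n ih => exact fun f => ih _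

theorem rowV_run (κ : ℕ) (cD : ℕ → ℕ) (bs : List Bd) (fs : List Fd) (i : ℕ) (f : ℕ → ℕ) :
    (rowV κ cD bs fs i).run f = κ * adjR 0 i bs (fun _ => 0) f +
      cD (fldD i fs + adjD κ i bs) * f i := by
  unfold rowV
  rw [fld_eq, adj_eq, zero_add]
  rfl

/-- integer value of the two flips of an untwisted bond -/
def flZ (i : ℕ) (b : Bd) (f : ℕ → ℕ) : ℤ :=
  (if 1 ≤ dg i b.s1 ∧ dg i b.s2 ≤ 1 then (f (i - b.p1 + b.p2) : ℤ) else 0) +
     (if 1 ≤ dg i b.s2 ∧ dg i b.s1 ≤ 1 then (f (i + b.p1 - b.p2) : ℤ) else 0)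

theorem flipRow_int (okb : Bool) (ok : Prop) [Decidable ok] (hok : okb = true ↔ ok) (B c : ℕ)
    (acc : Row) (f : ℕ → ℕ) :
    ((flipRow okb false B c acc f : ℕ) : ℤ) = (if ok then (f c : ℤ) else 0) + acc f := by
  by_cases h : ok
  · rw [hok.mpr h, if_pos h]
    simp [flipRow]
  · have : okb = false := by
      cases okb
      · rfl
      · exact absurd (hok.mp rfl) h
    rw [this, if_neg h]
    simp [flipRow]

theorem adjR_int (B i : ℕ) (bs : List Bd) (hbs : ∀ b ∈ bs, b.tw = false) (acc : Row)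
    (f : ℕ → ℕ) :
    ((adjR B i bs acc f : ℕ) : ℤ) = (bs.map fun b => flZ i b f).sum + acc f := by
  induction bs generalizing acc with
  | nil => simp [adjR]
  | cons b bs ih =>
    have hb : b.tw = false := hbs b List.mem_cons_self
    rw [adjR, ih (fun b hb => hbs b (List.mem_cons_of_mem _ hb)), hb,
      flipRow_int _ (1 ≤ dg i b.s2 ∧ dg i b.s1 ≤ 1) (band_ble _ _),
      flipRow_int _ (1 ≤ dg i b.s1 ∧ dg i b.s2 ≤ 1) (band_ble _ _)]
    simp only [List.map_cons, List.sum_cons, flZ]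
    ring

/-- untwisted version of a bond -/
def Bond.un {L : ℕ} (b : Bond L) : Bond L := ⟨b.j, b.k, false⟩

theorem bond_value_int {L : ℕ} (b : Bond L) (hb : b.j ≠ b.k) (σ : Cfg L) (f : ℕ → ℕ) :
    ∑ τ, Hb b.un σ τ * (f (code τ) : ℤ) =
      (((diagv (σ b.j) (σ b.k) : ℕ) : ℤ) - 1) * f (code σ) + flZ (code σ) b.un.toBd f := by
  have h0 := sum_Hb_mul (R := ℤ) b.un σ (fun τ => (f (code τ) : ℤ))
  simp only [Int.cast_id] at h0
  rw [h0]
  set p1 := 4 ^ (b.j : ℕ) with hp1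
  set p2 := 4 ^ (b.k : ℕ) with hp2
  have h1 : ∀ a' c' : Fin 3, (f (code (upd2 σ b.un.j b.un.k a' c')) : ℤ) =
      (fun x y : ℕ => (f (code σ + x * p1 + y * p2 - (σ b.j : ℕ) * p1 - (σ b.k : ℕ) * p2) :
        ℤ)) a' c' := by
    intro a' c'
    show (f (code (upd2 σ b.j b.k a' c')) : ℤ) = _
    rw [upd_minus σ hb]
  simp only [h1]
  have h2 := sum_hl (R := ℤ) false (σ b.j) (σ b.k) (fun x y : ℕ => (f (code σ + x * p1 + y * p2
    - (σ b.j : ℕ) * p1 - (σ b.k : ℕ) * p2) : ℤ))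
  simp only [Int.cast_id] at h2
  show ∑ a' : Fin 3, ∑ c' : Fin 3, hl false (σ b.j) (σ b.k) a' c' * _ = _
  rw [h2]
  have e0 : code σ + (σ b.j : ℕ) * p1 + (σ b.k : ℕ) * p2 - (σ b.j : ℕ) * p1
    - (σ b.k : ℕ) * p2 = code σ := by omega
  have ed := diagv_eq (σ b.j) (σ b.k)
  unfold flZ
  have d1 : dg (code σ) b.un.toBd.s1 = (σ b.j : ℕ) := dig_eq σ b.j
  have d2 : dg (code σ) b.un.toBd.s2 = (σ b.k : ℕ) := dig_eq σ b.k
  rw [d1, d2, ed]
  show _ = (1 + (1 - (((σ b.j : ℕ)) : ℤ)) * (1 - (((σ b.k : ℕ)) : ℤ)) - 1)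
    * (f (code σ) : ℤ) +
    ((if 1 ≤ (σ b.j : ℕ) ∧ (σ b.k : ℕ) ≤ 1 then (f (code σ - p1 + p2) : ℤ) else 0) +
     (if 1 ≤ (σ b.k : ℕ) ∧ (σ b.j : ℕ) ≤ 1 then (f (code σ + p1 - p2) : ℤ) else 0))
  have c1 : (if 1 ≤ (σ b.j : ℕ) ∧ (σ b.k : ℕ) ≤ 1 then
      (f (code σ + ((σ b.j : ℕ) - 1) * p1 + ((σ b.k : ℕ) + 1) * p2 - (σ b.j : ℕ) * p1
        - (σ b.k : ℕ) * p2) : ℤ) else 0) =
      (if 1 ≤ (σ b.j : ℕ) ∧ (σ b.k : ℕ) ≤ 1 then (f (code σ - p1 + p2) : ℤ) else 0) := by
    split_ifs with h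
    · have hle := pow_le_code σ b.j h.1
      rw [← hp1] at hle
      have e : code σ + ((σ b.j : ℕ) - 1) * p1 + ((σ b.k : ℕ) + 1) * p2 - (σ b.j : ℕ) * p1
        - (σ b.k : ℕ) * p2 = code σ - p1 + p2 := by
        obtain ⟨m, hm⟩ : ∃ m, (σ b.j : ℕ) = m + 1 := ⟨(σ b.j : ℕ) - 1, by omega⟩
        rw [hm, Nat.add_sub_cancel]
        exact aux1 _ _ _ _ _ hle
      rw [e]
    · rfl
  have c2 : (if 1 ≤ (σ b.k : ℕ) ∧ (σ b.j : ℕ) ≤ 1 then
      (f (code σ + ((σ b.j : ℕ) + 1) * p1 + ((σ b.k : ℕ) - 1) * p2 - (σ b.j : ℕ) * p1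
        - (σ b.k : ℕ) * p2) : ℤ) else 0) =
      (if 1 ≤ (σ b.k : ℕ) ∧ (σ b.j : ℕ) ≤ 1 then (f (code σ + p1 - p2) : ℤ) else 0) := by
    split_ifs with h
    · have hle := pow_le_code σ b.k h.1
      rw [← hp2] at hle
      have e : code σ + ((σ b.j : ℕ) + 1) * p1 + ((σ b.k : ℕ) - 1) * p2 - (σ b.j : ℕ) * p1
        - (σ b.k : ℕ) * p2 = code σ + p1 - p2 := by
        obtain ⟨m, hm⟩ : ∃ m, (σ b.k : ℕ) = m + 1 := ⟨(σ b.k : ℕ) - 1, by omega⟩
        rw [hm, Nat.add_sub_cancel]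
        exact aux2 _ _ _ _ _
      rw [e]
    · rfl
  simp only [c1, c2, e0]
  simp only [if_false, Bool.false_eq_true]
  ring

/-! ### entries -/

theorem hl_diag : ∀ (tw : Bool) (a c : Fin 3), hl tw a c a c = (diagv a c : ℤ) - 1 := by
  intro tw a c
  rw [diagv_eq]
  revert tw a c
  decide

theorem hl_off : ∀ (tw : Bool) (a c a' c' : Fin 3), ¬ (a' = a ∧ c' = c) →
    |hl tw a c a' c'| ≤ hl false a c a' c' := by decide

theorem Hb_diag {L : ℕ} (b : Bond L) (hb : b.j ≠ b.k) (σ : Cfg L) :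
    Hb b σ σ = (diagv (σ b.j) (σ b.k) : ℤ) - 1 := by
  have := Hb_apply hb b.tw σ σ
  rw [if_pos (fun _ _ _ => rfl), hl_diag] at this
  exact this

theorem Hb_off {L : ℕ} (b : Bond L) (hb : b.j ≠ b.k) (σ τ : Cfg L) (h : σ ≠ τ) :
    |Hb b σ τ| ≤ Hb b.un σ τ := by
  have h1 := Hb_apply hb b.tw σ τ
  have h2 := Hb_apply hb false σ τ
  change Hb b σ τ = _ at h1
  change Hb b.un σ τ = _ at h2
  rw [h1, h2]
  split_ifs with hall
  · refine hl_off _ _ _ _ _ fun hh => h ?_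
    funext l
    by_cases h3 : l = b.j
    · rw [h3]; exact hh.1.symm
    · by_cases h4 : l = b.k
      · rw [h4]; exact hh.2.symm
      · exact hall l h3 h4
  · simp

/-- the natural number `D` of a configuration -/
def Dn {L : ℕ} (κ : ℕ) (bl : List (Bond L)) (fl : List (Fld L)) (σ : Cfg L) : ℕ :=
  fD fl σ + κ * (bl.map fun b => diagv (σ b.j) (σ b.k)).sum

theorem Dn_eq {L : ℕ} (κ : ℕ) (bl : List (Bond L)) (fl : List (Fld L)) (σ : Cfg L) :
    fldD (code σ) (fl.map Fld.toFd) + adjD κ (code σ) (bl.map fun b => b.un.toBd) =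
      Dn κ bl fl σ := by
  unfold Dn
  congr 1
  · unfold fldD fD
    rw [List.map_map]
    refine congrArg List.sum (List.map_congr_left fun b _ => ?_)
    show tbl b.t0 b.t1 b.t2 (dg (code σ) (2 * b.j)) = _
    rw [show dg (code σ) (2 * b.j) = (σ b.j : ℕ) from dig_eq σ b.j]
  · unfold adjD
    rw [List.map_map, ← List.sum_map_mul_left]
    refine congrArg List.sum (List.map_congr_left fun b _ => ?_)
    show κ * diagv (dg (code σ) (2 * b.j)) (dg (code σ) (2 * b.k)) = _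
    rw [show dg (code σ) (2 * b.j) = (σ b.j : ℕ) from dig_eq σ b.j,
      show dg (code σ) (2 * b.k) = (σ b.k : ℕ) from dig_eq σ b.k]

theorem sum_list_apply {κ' : Type*} (l : List (Matrix κ' κ' ℤ)) (σ τ : κ') :
    l.sum σ τ = (l.map fun M => M σ τ).sum := by
  induction l with
  | nil => simp
  | cons M l ih => simp [ih]

theorem Gmat_entry {L : ℕ} (κ c1 : ℕ) (bl : List (Bond L)) (fl : List (Fld L))
    (hbl : ∀ b ∈ bl, b.j ≠ b.k) (σ : Cfg L) :
    Gmat κ c1 bl fl σ σ = (c1 : ℤ) - Dn κ bl fl σ := by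
  unfold Gmat Dn
  simp only [Matrix.sub_apply, Matrix.smul_apply, smul_eq_mul, Matrix.one_apply_eq,
    Matrix.diagonal_apply_eq, sum_list_apply, List.map_map]
  have : ((bl.map ((fun M : Matrix (Cfg L) (Cfg L) ℤ => M σ σ) ∘ Hb)).sum : ℤ) =
      ((bl.map fun b => diagv (σ b.j) (σ b.k)).sum : ℕ) - bl.length := by
    induction bl with
    | nil => simp
    | cons b bl ih =>
      have ih' := ih (fun b hb => hbl b (List.mem_cons_of_mem _ hb))
      simp only [List.map_cons, List.sum_cons, List.length_cons, Function.comp_apply] at ih' ⊢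
      rw [ih', Hb_diag b (hbl b List.mem_cons_self)]
      push_cast
      ring
  rw [this]
  push_cast
  ring

theorem Gmat_entry_ne {L : ℕ} (κ c1 : ℕ) (bl : List (Bond L)) (fl : List (Fld L))
    (hbl : ∀ b ∈ bl, b.j ≠ b.k) (σ τ : Cfg L) (h : σ ≠ τ) :
    |Gmat κ c1 bl fl σ τ| ≤ κ * (bl.map fun b => Hb b.un σ τ).sum := by
  unfold Gmat
  simp only [Matrix.sub_apply, Matrix.smul_apply, smul_eq_mul, Matrix.one_apply_ne h,
    Matrix.diagonal_apply_ne _ h, sum_list_apply, List.map_map, mul_zero, zero_sub, neg_zero,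
    abs_neg, abs_mul, Nat.abs_cast]
  refine mul_le_mul_of_nonneg_left ?_ (Int.natCast_nonneg _)
  induction bl with
  | nil => simp
  | cons b bl ih =>
    have ih' := ih (fun b hb => hbl b (List.mem_cons_of_mem _ hb))
    simp only [List.map_cons, List.sum_cons, Function.comp_apply] at ih' ⊢
    refine (abs_add_le _ _).trans (add_le_add (Hb_off b (hbl b List.mem_cons_self) σ τ h) ih')

theorem cw_general {L : ℕ} (κ c1 : ℕ) (bl : List (Bond L)) (fl : List (Fld L))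
    (hbl : ∀ b ∈ bl, b.j ≠ b.k) (s : ℤ) (cD : ℕ → ℕ)
    (hd : ∀ σ : Cfg L, |(c1 : ℤ) - Dn κ bl fl σ + s| ≤ cD (Dn κ bl fl σ)) (R : ℕ) (f : ℕ → ℕ)
    (hpos : ∀ σ : Cfg L, 1 ≤ f (code σ))
    (hle : ∀ σ : Cfg L, (rowV κ cD (bl.map fun b => b.un.toBd) (fl.map Fld.toFd)
      (code σ)).run f ≤ R * f (code σ))
    (μ : ℝ) (x : Cfg L → ℝ) (hx : x ≠ 0)
    (hGx : ((Gmat κ c1 bl fl).map (Int.cast : ℤ → ℝ)) *ᵥ x = μ • x) : |μ + s| ≤ R := by
  set A : Matrix (Cfg L) (Cfg L) ℝ := (Gmat κ c1 bl fl).map (Int.cast : ℤ → ℝ) + (s : ℝ) • 1 with hA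
  set Nz : Matrix (Cfg L) (Cfg L) ℤ := Matrix.of fun σ τ =>
    if σ = τ then (cD (Dn κ bl fl σ) : ℤ) else κ * (bl.map fun b => Hb b.un σ τ).sum with hNz
  refine collatz A (Nz.map (Int.cast : ℤ → ℝ)) ?_ (fun σ => (f (code σ) : ℝ)) ?_ R ?_
    (μ + s) x hx ?_
  · intro σ τ
    have h1 : A σ τ = ((Gmat κ c1 bl fl σ τ + (if σ = τ then s else 0) : ℤ) : ℝ) := by
      rw [hA]
      simp only [Matrix.add_apply, Matrix.map_apply, Matrix.smul_apply, Matrix.one_apply,
        smul_eq_mul]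
      split_ifs <;> simp
    rw [h1, ← Int.cast_abs, Matrix.map_apply, Int.cast_le, hNz, Matrix.of_apply]
    by_cases h : σ = τ
    · subst h
      rw [if_pos rfl, if_pos rfl, Gmat_entry κ c1 bl fl hbl]
      exact hd σ
    · rw [if_neg h, if_neg h, add_zero]
      exact Gmat_entry_ne κ c1 bl fl hbl σ τ h
  · intro σ
    exact_mod_cast hpos σ
  · intro σ
    have hrow : ∑ τ, Nz σ τ * (f (code τ) : ℤ) =
        ((rowV κ cD (bl.map fun b => b.un.toBd) (fl.map Fld.toFd) (code σ)).run f : ℕ) := by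
      rw [rowV_run, Dn_eq]
      push_cast
      rw [adjR_int 0 (code σ) _ (by
        intro b hb
        rw [List.mem_map] at hb
        obtain ⟨b', _, rfl⟩ := hb
        rfl) (fun _ => 0) f]
      have e1 : ∀ τ, Nz σ τ * (f (code τ) : ℤ) =
          (if σ = τ then ((cD (Dn κ bl fl σ) : ℤ) -
            κ * (bl.map fun b => Hb b.un σ σ).sum) * f (code σ) else 0) +
          κ * ((bl.map fun b => Hb b.un σ τ).sum * (f (code τ) : ℤ)) := by
        intro τ
        rw [hNz, Matrix.of_apply]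
        by_cases h : σ = τ
        · subst h
          rw [if_pos rfl, if_pos rfl]
          ring
        · rw [if_neg h, if_neg h]
          ring
      simp only [e1]
      rw [Finset.sum_add_distrib, Finset.sum_ite_eq, if_pos (Finset.mem_univ _),
        ← Finset.mul_sum]
      have e2 : ∑ τ, (bl.map fun b => Hb b.un σ τ).sum * (f (code τ) : ℤ) =
          (bl.map fun b => Hb b.un σ σ).sum * f (code σ) +
          ((bl.map fun b => b.un.toBd).map fun b => flZ (code σ) b f).sum := by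
        rw [List.map_map]
        clear hd hle hGx hA hNz e1
        induction bl with
        | nil => simp
        | cons b bl ih =>
          have ih' := ih (fun b hb => hbl b (List.mem_cons_of_mem _ hb))
          simp only [List.map_cons, List.sum_cons, Function.comp_apply] at ih' ⊢
          simp only [add_mul, Finset.sum_add_distrib]
          rw [ih', bond_value_int b (hbl b List.mem_cons_self)]
          have hbu := Hb_diag b.un (hbl b List.mem_cons_self) σ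
          rw [hbu]
          show _ + _ = ((((diagv (σ b.j) (σ b.k) : ℕ) : ℤ) - 1) * _ + _) + _
          ring
      rw [e2]
      push_cast
      ring
    have h2 := hle σ
    have h3 : ((∑ τ, Nz σ τ * (f (code τ) : ℤ) : ℤ) : ℝ) ≤ (R : ℝ) * f (code σ) := by
      rw [hrow]
      exact_mod_cast h2
    push_cast at h3
    exact h3
  · rw [hA, Matrix.add_mulVec, hGx, Matrix.smul_mulVec, Matrix.one_mulVec, add_smul]

theorem checkLo_spec {L : ℕ} (κ c1 A R n : ℕ) (bl : List (Bond L)) (fl : List (Fld L))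
    (hbl : ∀ b ∈ bl, b.j ≠ b.k) (hA : ∀ σ : Cfg L, Dn κ bl fl σ ≤ A)
    (hchk : checkLo L κ A R n (bl.map fun b => b.un.toBd) (fl.map Fld.toFd) = true)
    (μ : ℝ) (x : Cfg L → ℝ) (hx : x ≠ 0)
    (hGx : ((Gmat κ c1 bl fl).map (Int.cast : ℤ → ℝ)) *ᵥ x = μ • x) :
    μ ≤ R - A + c1 := by
  unfold checkLo at hchk
  obtain ⟨f, hf⟩ := iterV_exists (rowV κ (fun D => Nat.sub (Nat.add A 1) D)
    (bl.map fun b => b.un.toBd) (fl.map Fld.toFd))
    (fun f => allC (predV (rowV κ (fun D => Nat.sub A D) (bl.map fun b => b.un.toBd)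
      (fl.map Fld.toFd)) R f) L 1 0) n (fun _ => 1)
  rw [hf] at hchk
  have h := allC_spec _ L 1 0 hchk
  have h1 : ∀ σ : Cfg L, 1 ≤ f (code σ) ∧ (rowV κ (fun D => Nat.sub A D)
      (bl.map fun b => b.un.toBd) (fl.map Fld.toFd) (code σ)).run f ≤ R * f (code σ) := by
    intro σ
    have := h σ
    rw [zero_add, one_mul] at this
    unfold predV at this
    have h2 : (Nat.ble 1 (f (code σ)) && Nat.ble ((rowV κ (fun D => Nat.sub A D)
      (bl.map fun b => b.un.toBd) (fl.map Fld.toFd) (code σ)).run f)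
      (Nat.mul R (f (code σ)))) = true := this
    rw [Bool.and_eq_true, Nat.ble_eq, Nat.ble_eq] at h2
    exact h2
  have key := cw_general κ c1 bl fl hbl ((A : ℤ) - c1) (fun D => Nat.sub A D) (by
    intro σ
    have hle := hA σ
    have e : (c1 : ℤ) - Dn κ bl fl σ + ((A : ℤ) - c1) = ((A - Dn κ bl fl σ : ℕ) : ℤ) := by
      rw [Nat.cast_sub hle]; ring
    rw [e, Nat.abs_cast]
    exact le_refl _) R f (fun σ => (h1 σ).1) (fun σ => (h1 σ).2) μ x hx hGx
  have := (abs_le.mp key).2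
  push_cast at this
  linarith

theorem checkHi_spec {L : ℕ} (κ c1 R : ℕ) (bl : List (Bond L)) (fl : List (Fld L))
    (hbl : ∀ b ∈ bl, b.j ≠ b.k)
    (hchk : checkHi L κ R (bl.map fun b => b.un.toBd) (fl.map Fld.toFd) = true)
    (μ : ℝ) (x : Cfg L → ℝ) (hx : x ≠ 0)
    (hGx : ((Gmat κ c1 bl fl).map (Int.cast : ℤ → ℝ)) *ᵥ x = μ • x) :
    (c1 : ℝ) - R ≤ μ := by
  unfold checkHi at hchk
  set f : ℕ → ℕ := fun i => Nat.pow 2 (Nat.div (ones L i) 2) with hf
  have h := allC_spec _ L 1 0 hchk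
  have h1 : ∀ σ : Cfg L, 1 ≤ f (code σ) ∧ (rowV κ (fun D => D)
      (bl.map fun b => b.un.toBd) (fl.map Fld.toFd) (code σ)).run f ≤ R * f (code σ) := by
    intro σ
    have := h σ
    rw [zero_add, one_mul] at this
    unfold predV at this
    have h2 : (Nat.ble 1 (f (code σ)) && Nat.ble ((rowV κ (fun D => D)
      (bl.map fun b => b.un.toBd) (fl.map Fld.toFd) (code σ)).run f)
      (Nat.mul R (f (code σ)))) = true := this
    rw [Bool.and_eq_true, Nat.ble_eq, Nat.ble_eq] at h2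
    exact h2
  have key := cw_general κ c1 bl fl hbl (-(c1 : ℤ)) (fun D => D) (by
    intro σ
    have e : (c1 : ℤ) - Dn κ bl fl σ + -(c1 : ℤ) = -((Dn κ bl fl σ : ℕ) : ℤ) := by ring
    rw [e, abs_neg, Nat.abs_cast]) R f (fun σ => (h1 σ).1) (fun σ => (h1 σ).2) μ x hx hGx
  have := (abs_le.mp key).1
  push_cast at this
  linarith

theorem Dn_le {L : ℕ} (κ : ℕ) (bl : List (Bond L)) (fl : List (Fld L)) (σ : Cfg L) :
    Dn κ bl fl σ ≤ (fl.map fun b => b.t0 + b.t1 + b.t2).sum + 2 * κ * bl.length := by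
  rw [← Dn_eq]
  have h1 := fldD_le (code σ) (fl.map Fld.toFd)
  have h2 := adjD_le κ (code σ) (bl.map fun b => b.un.toBd)
  rw [List.length_map] at h2
  rw [List.map_map] at h1
  exact Nat.add_le_add h1 h2

end

end Crest.Agent.R347.Num
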