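import Crest.Agent.R347.NumEngine

/-! Kernel program for Collatz-Wielandt bounds (same memoisation technique). -/

set_option autoImplicit false

namespace Crest.Agent.R347.Num

noncomputable section

structure V where
  run : (ℕ → ℕ) → ℕ

def finV (κ : ℕ) (cD : ℕ → ℕ) (i D : ℕ) (acc : Row) : V :=
  force (cD D) fun d => ⟨fun f => Nat.add (Nat.mul κ (acc f)) (Nat.mul d (f i))⟩

/-- row closure of the nonnegative matrix `κ offdiag + cD(D)`; the twist flags must be off -/
def rowV (κ : ℕ) (cD : ℕ → ℕ) (bs : List Bd) (fs : List Fd) (i : ℕ) : V :=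
  fld (fun i D => adj 0 κ (finV κ cD) bs i D (fun _ => 0)) fs i 0

def iterV {α : Type} (row : ℕ → V) (fin : (ℕ → ℕ) → α) (n : ℕ) : (ℕ → ℕ) → α :=
  Nat.rec (motive := fun _ => (ℕ → ℕ) → α) (fun f => fin f)
    (fun _ ih f => ih (fun i => V.run (row i) f)) n

/-- all codes with `n` digits -/
def allC (pred : ℕ → Bool) (n : ℕ) : ℕ → ℕ → Bool :=
  Nat.rec (motive := fun _ => ℕ → ℕ → Bool) (fun _ pre => force pre pred)
    (fun _ ih pw pre =>
      force (Nat.mul 4 pw) fun pw4 =>
      force pre fun pre =>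
      Bool.and (ih pw4 pre) (Bool.and (ih pw4 (Nat.add pre pw)) (ih pw4 (Nat.add pre (Nat.mul 2 pw)))))
    n

/-- positivity and the Collatz-Wielandt inequality at one code -/
def predV (row : ℕ → V) (R : ℕ) (f : ℕ → ℕ) (i : ℕ) : Bool :=
  Bool.and (Nat.ble 1 (f i)) (Nat.ble (V.run (row i) f) (Nat.mul R (f i)))

/-- lower bound check: iterate `offdiag + (A + 1 - D)` from the all ones vector, test
`offdiag + (A - D)`. -/
def checkLo (L κ A R n : ℕ) (bs : List Bd) (fs : List Fd) : Bool :=
  iterV (rowV κ (fun D => Nat.sub (Nat.add A 1) D) bs fs)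
    (fun f => allC (predV (rowV κ (fun D => Nat.sub A D) bs fs) R f) L 1 0) n (fun _ => 1)

/-- number of digits equal to one -/
def ones (n : ℕ) : ℕ → ℕ :=
  Nat.rec (motive := fun _ => ℕ → ℕ) (fun _ => 0)
    (fun _ ih i => force (Nat.land i 3) fun a => force (Nat.shiftRight i 2) fun j =>
      Nat.add (ih j) (Bool.rec (motive := fun _ => ℕ) 0 1 (Nat.beq a 1))) n

/-- upper bound check with the ferromagnetic vector `2 ^ (ones / 2)` -/
def checkHi (L κ R : ℕ) (bs : List Bd) (fs : List Fd) : Bool :=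
  allC (predV (rowV κ (fun D => D) bs fs) R (fun i => Nat.pow 2 (Nat.div (ones L i) 2))) L 1 0

end

end Crest.Agent.R347.Num
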