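import Crest.Agent.R347.NumTot

/-! Fast kernel checks on codes for `ChkData`. -/

set_option autoImplicit false

namespace Crest.Agent.R347.Num

open Matrix

/-- rotation of a code with `n + 1` digits -/
def rotN (n c : ℕ) : ℕ := c / 4 + c % 4 * 4 ^ n

theorem code_lt {L : ℕ} (σ : Cfg L) : code σ < 4 ^ L := by
  induction L with
  | zero => simp [code]
  | succ L ih =>
    rw [code_succ, pow_succ]
    have := ih (fun j : Fin L => σ j.succ)
    have h := (σ 0).isLt
    omega

theorem code_snoc {n : ℕ} (σ : Cfg (n + 1)) :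
    code σ = code (fun j : Fin n => σ j.castSucc) + (σ (Fin.last n) : ℕ) * 4 ^ n := by
  unfold code
  rw [Fin.sum_univ_castSucc]
  simp

theorem code_tr_one {n : ℕ} (σ : Cfg (n + 1)) : code (tr 1 σ) = rotN n (code σ) := by
  rw [code_snoc (tr 1 σ)]
  unfold rotN
  rw [code_succ σ]
  have h0 := (σ 0).isLt
  have e1 : ((σ 0 : ℕ) + 4 * code (fun j : Fin n => σ j.succ)) / 4 =
      code (fun j : Fin n => σ j.succ) := by omega
  have e2 : ((σ 0 : ℕ) + 4 * code (fun j : Fin n => σ j.succ)) % 4 = (σ 0 : ℕ) := by omega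
  rw [e1, e2]
  have e3 : (fun j : Fin n => tr 1 σ j.castSucc) = fun j : Fin n => σ j.succ := by
    funext j
    show σ (j.castSucc + 1) = σ j.succ
    rw [Fin.coeSucc_eq_succ]
  have e4 : tr 1 σ (Fin.last n) = σ 0 := by
    show σ (Fin.last n + 1) = σ 0
    rw [Fin.last_add_one]
  rw [e3, e4]

theorem code_tr {n : ℕ} (σ : Cfg (n + 1)) (k : Fin (n + 1)) :
    code (tr k σ) = (rotN n)^[(k : ℕ)] (code σ) := by
  induction k using Fin.induction generalizing σ with
  | zero => rw [tr_zero]; rfl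
  | succ i ih =>
    have : i.succ = i.castSucc + 1 := (Fin.coeSucc_eq_succ (a := i)).symm
    rw [this, ← tr_tr, ih, code_tr_one]
    rw [← this, Fin.val_succ, Function.iterate_succ_apply]
    rfl

noncomputable section

/-- scan of the rotations: `k` steps left, current rotated code `x`, count of returns -/
def scan (n c : ℕ) (k : ℕ) : ℕ → ℕ → ℕ → ℕ :=
  Nat.rec (motive := fun _ => ℕ → ℕ → ℕ → ℕ) (fun _ cnt _ => cnt)
    (fun _ ih x cnt _ =>
      Bool.rec (motive := fun _ => ℕ) 0
        (force (rotN n x) fun y =>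
          Bool.rec (motive := fun _ => ℕ) (ih y cnt 0) (ih y (Nat.add cnt 1) 0) (Nat.beq x c))
        (Nat.ble c x)) k

end

/-- specification of `scan` as a plain recursion -/
def scanS (n c : ℕ) : ℕ → ℕ → ℕ → ℕ
  | 0, _, cnt => cnt
  | k + 1, x, cnt => if c ≤ x then (scanS n c k (rotN n x) (if x = c then cnt + 1 else cnt)) else 0

theorem scan_eq (n c k : ℕ) : ∀ x cnt z, scan n c k x cnt z = scanS n c k x cnt := by
  induction k with
  | zero => intro x cnt z; rfl
  | succ k ih =>
    intro x cnt z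
    have e : scan n c (k + 1) x cnt z = Bool.rec (motive := fun _ => ℕ) 0
        (Bool.rec (motive := fun _ => ℕ) (scan n c k (rotN n x) cnt 0)
          (scan n c k (rotN n x) (cnt + 1) 0) (Nat.beq x c)) (Nat.ble c x) := rfl
    rw [e, scanS]
    by_cases h : c ≤ x
    · have h1 : Nat.ble c x = true := Nat.ble_eq.mpr h
      rw [h1, if_pos h]
      show Bool.rec (motive := fun _ => ℕ) (scan n c k (rotN n x) cnt 0)
          (scan n c k (rotN n x) (cnt + 1) 0) (Nat.beq x c) = _
      by_cases h2 : x = c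
      · have h3 : Nat.beq x c = true := by rw [h2]; exact Nat.beq_refl c
        rw [h3, if_pos h2]
        exact ih _ _ _
      · have h3 : Nat.beq x c = false := by
          cases hh : Nat.beq x c with
          | false => rfl
          | true => exact absurd (Nat.eq_of_beq_eq_true hh) h2
        rw [h3, if_neg h2]
        exact ih _ _ _
    · have h1 : Nat.ble c x = false := by
        cases hh : Nat.ble c x with
        | false => rfl
        | true => exact absurd (Nat.ble_eq.mp hh) h
      rw [h1, if_neg h]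

theorem scanS_spec (n c : ℕ) (k : ℕ) : ∀ x cnt : ℕ, 0 < scanS n c k x cnt →
    (∀ i < k, c ≤ (rotN n)^[i] x) ∧
      scanS n c k x cnt = cnt + ((Finset.range k).filter fun i => (rotN n)^[i] x = c).card := by
  induction k with
  | zero =>
    intro x cnt h
    refine ⟨fun i hi => absurd hi (Nat.not_lt_zero i), ?_⟩
    simp [scanS]
  | succ k ih =>
    intro x cnt h
    rw [scanS] at h ⊢
    by_cases hcx : c ≤ x
    · rw [if_pos hcx] at h ⊢
      obtain ⟨h1, h2⟩ := ih _ _ h
      refine ⟨?_, ?_⟩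
      · intro i hi
        rcases i with _ | i
        · exact hcx
        · rw [Function.iterate_succ_apply]
          exact h1 i (by omega)
      · rw [h2]
        have hcard : ((Finset.range (k + 1)).filter fun i => (rotN n)^[i] x = c).card =
            (if x = c then 1 else 0) +
            ((Finset.range k).filter fun i => (rotN n)^[i] (rotN n x) = c).card := by
          simp only [Finset.card_filter]
          rw [Finset.sum_range_succ', add_comm]
          rfl
        rw [hcard]
        split_ifs <;> omega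
    · rw [if_neg hcx] at h
      exact absurd h (lt_irrefl 0)

theorem scan_canon {n : ℕ} (σ : Cfg (n + 1)) (h : 0 < scan n (code σ) (n + 1) (code σ) 0 0) :
    canon σ ∧ stab σ = scan n (code σ) (n + 1) (code σ) 0 0 := by
  rw [scan_eq] at h ⊢
  obtain ⟨h1, h2⟩ := scanS_spec n (code σ) (n + 1) (code σ) 0 h
  refine ⟨fun k => ?_, ?_⟩
  · rw [code_tr]
    exact h1 k k.isLt
  · rw [h2, zero_add]
    unfold stab
    refine Finset.card_bij (fun k _ => (k : ℕ)) ?_ ?_ ?_
    · intro k hk
      rw [Finset.mem_filter] at hk ⊢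
      refine ⟨Finset.mem_range.mpr k.isLt, ?_⟩
      rw [← code_tr, hk.2]
    · intro a _ b _ hab
      exact Fin.ext hab
    · intro i hi
      rw [Finset.mem_filter, Finset.mem_range] at hi
      refine ⟨⟨i, hi.1⟩, ?_, rfl⟩
      rw [Finset.mem_filter]
      refine ⟨Finset.mem_univ _, ?_⟩
      apply code_injective
      rw [code_tr]
      exact hi.2

/-! ### digits -/

noncomputable section

/-- validity and digit sum: returns `0` if invalid, else `dsum + 1` (accumulated in `s`) -/
def digs (L : ℕ) : ℕ → ℕ → ℕ :=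
  Nat.rec (motive := fun _ => ℕ → ℕ → ℕ)
    (fun c s => Bool.rec (motive := fun _ => ℕ) 0 (Nat.add s 1) (Nat.beq c 0))
    (fun _ ih c s => force (Nat.mod c 4) fun d =>
      Bool.rec (motive := fun _ => ℕ) 0 (force (Nat.div c 4) fun c' => ih c' (Nat.add s d))
        (Nat.ble d 2)) L

end

theorem dec_succ (L c : ℕ) (j : Fin L) : dec (L + 1) c j.succ = dec L (c / 4) j := by
  unfold dec
  apply Fin.ext
  show (c / 4 ^ ((j.succ : Fin (L + 1)) : ℕ) % 4) % 3 = (c / 4 / 4 ^ (j : ℕ) % 4) % 3
  rw [Fin.val_succ, pow_succ', ← Nat.div_div_eq_div_mul]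

theorem dsum_succ {L : ℕ} (σ : Cfg (L + 1)) :
    dsum σ = (σ 0 : ℕ) + dsum (fun j : Fin L => σ j.succ) := by
  unfold dsum
  rw [Fin.sum_univ_succ]

theorem digs_spec (L : ℕ) : ∀ c s : ℕ, digs L c s ≠ 0 →
    code (dec L c) = c ∧ digs L c s = s + dsum (dec L c) + 1 := by
  induction L with
  | zero =>
    intro c s h
    have e : digs 0 c s = Bool.rec (motive := fun _ => ℕ) 0 (s + 1) (Nat.beq c 0) := rfl
    rw [e] at h ⊢
    by_cases hc : c = 0
    · subst hc
      refine ⟨by simp [code], ?_⟩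
      show s + 1 = _
      simp [dsum]
    · have h3 : Nat.beq c 0 = false := by
        cases hh : Nat.beq c 0 with
        | false => rfl
        | true => exact absurd (Nat.eq_of_beq_eq_true hh) hc
      rw [h3] at h
      exact absurd rfl h
  | succ L ih =>
    intro c s h
    have e : digs (L + 1) c s = Bool.rec (motive := fun _ => ℕ) 0 (digs L (c / 4) (s + c % 4))
        (Nat.ble (c % 4) 2) := rfl
    rw [e] at h ⊢
    by_cases hd : c % 4 ≤ 2
    · have h1 : Nat.ble (c % 4) 2 = true := Nat.ble_eq.mpr hd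
      rw [h1] at h ⊢
      obtain ⟨h2, h3⟩ := ih _ _ h
      have h0 : ((dec (L + 1) c 0 : Fin 3) : ℕ) = c % 4 := by
        show (c / 4 ^ ((0 : Fin (L + 1)) : ℕ) % 4) % 3 = _
        rw [Fin.val_zero, pow_zero, Nat.div_one]
        omega
      have h4 : (fun j : Fin L => dec (L + 1) c j.succ) = dec L (c / 4) := by
        funext j
        exact dec_succ L c j
      constructor
      · rw [code_succ, h0, h4, h2]
        omega
      · show digs L (c / 4) (s + c % 4) = _
        rw [h3, dsum_succ, h0, h4]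
        omega
    · have h1 : Nat.ble (c % 4) 2 = false := by
        cases hh : Nat.ble (c % 4) 2 with
        | false => rfl
        | true => exact absurd (Nat.ble_eq.mp hh) hd
      rw [h1] at h
      exact absurd rfl h

noncomputable section

/-- per-element check; `p` selects the class: 0: `M = 0`; 1: even, `M > 0`; 2: odd, `M > 0` -/
def elt (n p : ℕ) (x : ℕ × ℕ) : Bool :=
  force x.1 fun c => force (digs (n + 1) c 0) fun d => force (scan n c (n + 1) c 0 0) fun s =>
    Bool.and (Nat.ble 1 d) (Bool.and (Nat.ble 1 s)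
      (Nat.rec (motive := fun _ => Bool)
        (Bool.and (Nat.beq d (n + 2)) (Nat.beq (Nat.mul x.2 s) (n + 1)))
        (fun q _ => Bool.and (Nat.ble d (n + 1)) (Bool.and
          (Nat.beq (Nat.mul x.2 s) (Nat.mul (n + 1) 2)) (Nat.beq (Nat.mod (Nat.add d q) 2) 1)))
        p))

end

theorem beq_iff (a b : ℕ) : Nat.beq a b = true ↔ a = b :=
  ⟨Nat.eq_of_beq_eq_true, fun h => by rw [h]; exact Nat.beq_refl b⟩

theorem band_iff (a b : Bool) : Bool.and a b = true ↔ a = true ∧ b = true := by
  cases a <;> cases b <;> simp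

structure EltData (n p : ℕ) (x : ℕ × ℕ) : Prop where
  cd : code (dec (n + 1) x.1) = x.1
  wt : wtok (n + 1) x = true
  cl : (p = 0 ∧ dsum (dec (n + 1) x.1) = n + 1) ∨
    (∃ q, p = q + 1 ∧ dsum (dec (n + 1) x.1) < n + 1 ∧ (dsum (dec (n + 1) x.1) + q) % 2 = 0)

theorem elt_spec {n p : ℕ} {x : ℕ × ℕ} (h : elt n p x = true) : EltData n p x := by
  have e : elt n p x = Bool.and (Nat.ble 1 (digs (n + 1) x.1 0))
      (Bool.and (Nat.ble 1 (scan n x.1 (n + 1) x.1 0 0))
      (Nat.rec (motive := fun _ => Bool)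
        (Bool.and (Nat.beq (digs (n + 1) x.1 0) (n + 2))
          (Nat.beq (x.2 * (scan n x.1 (n + 1) x.1 0 0)) (n + 1)))
        (fun q _ => Bool.and (Nat.ble (digs (n + 1) x.1 0) (n + 1)) (Bool.and
          (Nat.beq (x.2 * (scan n x.1 (n + 1) x.1 0 0)) ((n + 1) * 2))
          (Nat.beq (((digs (n + 1) x.1 0) + q) % 2) 1)))
        p)) := rfl
  rw [e, band_iff, band_iff, Nat.ble_eq, Nat.ble_eq] at h
  obtain ⟨h1, h2, h3⟩ := h
  obtain ⟨h4, h5⟩ := digs_spec (n + 1) x.1 0 (by omega)
  rw [zero_add] at h5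
  set σ := dec (n + 1) x.1 with hσ
  have h2' : 0 < scan n (code σ) (n + 1) (code σ) 0 0 := by rw [h4]; exact h2
  obtain ⟨h6, h7⟩ := scan_canon σ h2'
  rw [h4] at h7
  rcases p with _ | q
  · have h3' : Bool.and (Nat.beq (digs (n + 1) x.1 0) (n + 2))
          (Nat.beq (x.2 * (scan n x.1 (n + 1) x.1 0 0)) (n + 1)) = true := h3
    rw [band_iff, beq_iff, beq_iff, h5] at h3'
    have hd : dsum σ = n + 1 := by omega
    refine ⟨h4, ?_, Or.inl ⟨rfl, hd⟩⟩
    unfold wtok
    rw [Bool.and_eq_true]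
    refine ⟨decide_eq_true h6, decide_eq_true ?_⟩
    rw [← hσ, h7, h3'.2, hd, if_neg (lt_irrefl _), if_pos rfl, mul_one]
  · have h3' : Bool.and (Nat.ble (digs (n + 1) x.1 0) (n + 1)) (Bool.and
          (Nat.beq (x.2 * (scan n x.1 (n + 1) x.1 0 0)) ((n + 1) * 2))
          (Nat.beq (((digs (n + 1) x.1 0) + q) % 2) 1)) = true := h3
    rw [band_iff, band_iff, Nat.ble_eq, beq_iff, beq_iff, h5] at h3'
    have hd : dsum σ < n + 1 := by omega
    have hpar : (dsum σ + q) % 2 = 0 := by
      have := h3'.2.2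
      generalize dsum σ = D at *
      omega
    refine ⟨h4, ?_, Or.inr ⟨q, rfl, hd, hpar⟩⟩
    unfold wtok
    rw [Bool.and_eq_true]
    refine ⟨decide_eq_true h6, decide_eq_true ?_⟩
    rw [← hσ, h7, h3'.2.1, if_pos hd]

theorem chk_of_elt {n : ℕ} (hev : (n + 1) % 2 = 0) {J0 J1 J2 : List (ℕ × ℕ)}
    (h0 : J0.all (elt n 0) = true)
    (h1 : J1.all (elt n 1) = true) (h2 : J2.all (elt n 2) = true)
    (hs : ((J0 ++ (J1 ++ J2)).map Prod.snd).sum = 3 ^ (n + 1))
    (hnd : ((J0 ++ (J1 ++ J2)).map Prod.fst).Nodup) : ChkData n J0 J1 J2 := by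
  rw [List.all_eq_true] at h0 h1 h2
  have hall : ∀ x ∈ J0 ++ (J1 ++ J2), code (dec (n + 1) x.1) = x.1 ∧ wtok (n + 1) x = true := by
    intro x hx
    rw [List.mem_append, List.mem_append] at hx
    rcases hx with hx | hx | hx
    · exact ⟨(elt_spec (h0 x hx)).cd, (elt_spec (h0 x hx)).wt⟩
    · exact ⟨(elt_spec (h1 x hx)).cd, (elt_spec (h1 x hx)).wt⟩
    · exact ⟨(elt_spec (h2 x hx)).cd, (elt_spec (h2 x hx)).wt⟩
  have c0 : ∀ x ∈ J0, dsum (dec (n + 1) x.1) = n + 1 := by
    intro x hx
    rcases (elt_spec (h0 x hx)).cl with h | ⟨q, h, _⟩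
    · exact h.2
    · exact absurd h (by omega)
  have c1 : ∀ x ∈ J1, dsum (dec (n + 1) x.1) < n + 1 ∧ dsum (dec (n + 1) x.1) % 2 = 0 := by
    intro x hx
    rcases (elt_spec (h1 x hx)).cl with h | ⟨q, h, h3, h4⟩
    · exact absurd h.1 (by omega)
    · obtain rfl : q = 0 := by omega
      exact ⟨h3, by simpa using h4⟩
  have c2 : ∀ x ∈ J2, dsum (dec (n + 1) x.1) < n + 1 ∧ dsum (dec (n + 1) x.1) % 2 = 1 := by
    intro x hx
    rcases (elt_spec (h2 x hx)).cl with h | ⟨q, h, h3, h4⟩
    · exact absurd h.1 (by omega)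
    · obtain rfl : q = 1 := by omega
      exact ⟨h3, by omega⟩
  refine ⟨?_, fun x hx => (hall x hx).2, hs, hnd, ?_, fun x hx => (c2 x hx).2, ?_⟩
  · unfold okJ
    rw [List.all_eq_true]
    exact fun x hx => decide_eq_true (hall x hx).1
  · intro x hx
    rw [List.mem_append] at hx
    rcases hx with hx | hx
    · rw [c0 x hx]; exact hev
    · exact (c1 x hx).2
  · intro x hx
    rw [List.mem_append] at hx
    rcases hx with hx | hx
    · exact (c1 x hx).1.ne
    · exact (c2 x hx).1.ne

/-! ### duplicate check with a bit mask -/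

noncomputable section

def nodB (l : List (ℕ × ℕ)) : ℕ → Bool :=
  List.rec (motive := fun _ => ℕ → Bool) (fun _ => true)
    (fun x _ ih m => force m fun m => force x.1 fun c =>
      Bool.and (Nat.beq (Nat.land (Nat.shiftRight m c) 1) 0) (ih (Nat.lor m (Nat.pow 2 c)))) l

end

theorem nodB_spec (l : List (ℕ × ℕ)) : ∀ m : ℕ, nodB l m = true →
    (l.map Prod.fst).Nodup ∧ ∀ c ∈ l.map Prod.fst, m.testBit c = false := by
  induction l with
  | nil => intro m _; exact ⟨List.nodup_nil, fun c hc => absurd hc List.not_mem_nil⟩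
  | cons x l ih =>
    intro m h
    have e : nodB (x :: l) m = Bool.and (Nat.beq (Nat.land (Nat.shiftRight m x.1) 1) 0)
      (nodB l (m ||| 2 ^ x.1)) := rfl
    rw [e, band_iff, beq_iff] at h
    obtain ⟨h1, h2⟩ := h
    obtain ⟨h3, h4⟩ := ih _ h2
    have hbit : m.testBit x.1 = false := by
      have h5 : Nat.land (Nat.shiftRight m x.1) 1 = (m >>> x.1) &&& 1 := rfl
      rw [h5, Nat.and_one_is_mod] at h1
      rw [Nat.testBit_eq_decide_div_mod_eq, ← Nat.shiftRight_eq_div_pow]
      simp [h1]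
    have hor : ∀ c, (m ||| 2 ^ x.1).testBit c = false → m.testBit c = false ∧ c ≠ x.1 := by
      intro c hc
      rw [Nat.testBit_or, Bool.or_eq_false_iff] at hc
      refine ⟨hc.1, fun h => ?_⟩
      rw [h, Nat.testBit_two_pow_self] at hc
      exact absurd hc.2 (by simp)
    rw [List.map_cons]
    refine ⟨List.nodup_cons.mpr ⟨fun hmem => ?_, h3⟩, ?_⟩
    · exact (hor _ (h4 _ hmem)).2 rfl
    · intro c hc
      rw [List.mem_cons] at hc
      rcases hc with rfl | hc
      · exact hbit
      · exact (hor _ (h4 _ hc)).1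

end Crest.Agent.R347.Num
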