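import Mathlib
import Crest.Agent.R347.NumEngine

/-! Spin configurations, base-4 codes, and the integer bond matrices. -/

set_option autoImplicit false

namespace Crest.Agent.R347.Num

open Matrix

/-- configurations -/
abbrev Cfg (L : ℕ) := Fin L → Fin 3

/-- base-4 code -/
def code {L : ℕ} (σ : Cfg L) : ℕ := ∑ j, (σ j : ℕ) * 4 ^ (j : ℕ)

theorem code_succ {L : ℕ} (σ : Cfg (L + 1)) :
    code σ = (σ 0 : ℕ) + 4 * code (fun j : Fin L => σ j.succ) := by
  unfold code
  rw [Fin.sum_univ_succ, Finset.mul_sum]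
  simp only [Fin.val_zero, pow_zero, mul_one, Fin.val_succ, pow_succ]
  congr 1
  refine Finset.sum_congr rfl fun j _ => ?_
  ring

theorem code_digit {L : ℕ} (σ : Cfg L) (j : Fin L) :
    code σ / 4 ^ (j : ℕ) % 4 = (σ j : ℕ) := by
  induction L with
  | zero => exact j.elim0
  | succ L ih =>
    rw [code_succ]
    have h0 : (σ 0 : ℕ) < 4 := lt_trans (σ 0).isLt (by norm_num)
    refine Fin.cases ?_ (fun j => ?_) j
    · simp only [Fin.val_zero, pow_zero, Nat.div_one]
      omega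
    · simp only [Fin.val_succ, pow_succ']
      rw [← Nat.div_div_eq_div_mul]
      have : ((σ 0 : ℕ) + 4 * code (fun j : Fin L => σ j.succ)) / 4 =
          code (fun j : Fin L => σ j.succ) := by omega
      rw [this]
      exact ih _ j

theorem land3 (n : ℕ) : Nat.land n 3 = n % 4 := by
  have := Nat.and_two_pow_sub_one_eq_mod n 2
  simpa using this

theorem dig_eq {L : ℕ} (σ : Cfg L) (j : Fin L) :
    Nat.land (Nat.shiftRight (code σ) (2 * j)) 3 = (σ j : ℕ) := by
  rw [land3]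
  have : Nat.shiftRight (code σ) (2 * j) = code σ / 4 ^ (j : ℕ) := by
    have h := Nat.shiftRight_eq_div_pow (code σ) (2 * j)
    rw [pow_mul] at h
    exact h
  rw [this, code_digit]

theorem code_injective {L : ℕ} : Function.Injective (code : Cfg L → ℕ) := by
  intro σ τ h
  funext j
  apply Fin.ext
  rw [← code_digit σ j, ← code_digit τ j, h]

/-- change two sites -/
def upd2 {L : ℕ} (σ : Cfg L) (j k : Fin L) (a c : Fin 3) : Cfg L :=
  Function.update (Function.update σ j a) k c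

theorem code_update {L : ℕ} (σ : Cfg L) (j : Fin L) (a : Fin 3) :
    code (Function.update σ j a) + (σ j : ℕ) * 4 ^ (j : ℕ) = code σ + (a : ℕ) * 4 ^ (j : ℕ) := by
  unfold code
  rw [← Finset.add_sum_erase _ _ (Finset.mem_univ j), ← Finset.add_sum_erase (a := j) _ _ (Finset.mem_univ j)]
  rw [Function.update_self]
  have : ∑ x ∈ Finset.univ.erase j, ((Function.update σ j a x : Fin 3) : ℕ) * 4 ^ (x : ℕ) =
      ∑ x ∈ Finset.univ.erase j, ((σ x : Fin 3) : ℕ) * 4 ^ (x : ℕ) := by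
    refine Finset.sum_congr rfl fun x hx => ?_
    rw [Function.update_of_ne (Finset.ne_of_mem_erase hx)]
  rw [this]
  ring

theorem code_upd2 {L : ℕ} (σ : Cfg L) {j k : Fin L} (hjk : j ≠ k) (a c : Fin 3) :
    code (upd2 σ j k a c) + (σ j : ℕ) * 4 ^ (j : ℕ) + (σ k : ℕ) * 4 ^ (k : ℕ) =
      code σ + (a : ℕ) * 4 ^ (j : ℕ) + (c : ℕ) * 4 ^ (k : ℕ) := by
  have h1 := code_update σ j a
  have h2 := code_update (Function.update σ j a) k c
  rw [Function.update_of_ne hjk.symm] at h2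
  unfold upd2
  omega

theorem pow_le_code {L : ℕ} (σ : Cfg L) (j : Fin L) (h : 1 ≤ (σ j : ℕ)) :
    4 ^ (j : ℕ) ≤ code σ := by
  unfold code
  calc 4 ^ (j : ℕ) ≤ (σ j : ℕ) * 4 ^ (j : ℕ) := Nat.le_mul_of_pos_left _ h
    _ ≤ _ := Finset.single_le_sum (f := fun j => (σ j : ℕ) * 4 ^ (j : ℕ))
        (fun _ _ => Nat.zero_le _) (Finset.mem_univ j)

/-- local matrix elements of the bond -/
def hl (tw : Bool) (a c a' c' : Fin 3) : ℤ :=
  (if a' = a ∧ c' = c then (1 - (a : ℤ)) * (1 - (c : ℤ)) else 0) +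
    (if tw then -1 else 1) *
      ((if (a' : ℕ) + 1 = a ∧ (c' : ℕ) = c + 1 then 1 else 0) +
        (if (a' : ℕ) = a + 1 ∧ (c' : ℕ) + 1 = c then 1 else 0))

theorem sum_hl {R : Type*} [CommRing R] (tw : Bool) (a c : Fin 3) (v : ℕ → ℕ → R) :
    ∑ a' : Fin 3, ∑ c' : Fin 3, ((hl tw a c a' c' : ℤ) : R) * v a' c' =
      (1 - (a : ℕ)) * (1 - (c : ℕ)) * v a c +
      (if tw then -1 else 1) *
        ((if 1 ≤ (a : ℕ) ∧ (c : ℕ) ≤ 1 then v (a - 1) (c + 1) else 0) +
          (if 1 ≤ (c : ℕ) ∧ (a : ℕ) ≤ 1 then v (a + 1) (c - 1) else 0)) := by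
  fin_cases a <;> fin_cases c <;> cases tw <;>
    simp [Fin.sum_univ_three, hl] <;> ring

end Crest.Agent.R347.Num
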