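import Crest.Agent.R347.NumPar

/-! Kernel evaluated runs (generated). -/

set_option autoImplicit false
set_option Elab.async false
set_option maxRecDepth 100000

namespace Crest.Agent.R347.Num

theorem run_J4_0u : run1 1 9 3 64 119 714 595 bs4u [] J4_0 us4 =
    12351206792891247570253328521677 := by
  decide +kernel

theorem run_J4_0t : run2 1 9 3 64 119 714 595 170 bs4t [] J4_0 us4 =
    (352061814046277208538326562765,
     664613746885673366939713150917344586) := by
  decide +kernel

theorem run_J4_1u : run1 1 9 3 64 119 595 476 bs4u [] J4_1 us4 =
    61080874458063456168793868175 := by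
  decide +kernel

theorem run_J4_1t : run1 1 9 3 64 119 595 476 bs4t [] J4_1 us4 =
    114870413341895986472543311 := by
  decide +kernel

theorem run_J4_2u : run1 1 9 3 64 119 476 357 bs4u [] J4_2 us4 =
    368392905531438183751563 := by
  decide +kernel

theorem run_J4_2t : run1 1 9 3 64 119 476 357 bs4t [] J4_2 us4 =
    664613997892444459945663777987483147 := by
  decide +kernel

theorem run_J6_0u : run1 1 16 5 64 153 3978 3825 bs6u [] J6_0 us6 =
    1352592273820418739723119042674522182280340 := by
  decide +kernel

theorem run_J6_0t : run2 1 16 5 64 153 3978 3825 2730 bs6t [] J6_0 us6 =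
    (229363228305182180312278663271103213107060,
     11417799014701710979063218201275689357586065361) := by
  decide +kernel

theorem run_J6_1u : run1 1 16 5 64 153 4743 4590 bs6u [] J6_1 us6 =
    35384094721292895294452015211531040923203 := by
  decide +kernel

theorem run_J6_1t : run1 1 16 5 64 153 4743 4590 bs6t [] J6_1 us6 =
    779094275029271768742778349759360530595 := by
  decide +kernel

theorem run_J6_2u : run1 1 16 5 64 153 3213 3060 bs6u [] J6_2 us6 =
    6445653128970853754807692797649254911 := by
  decide +kernel

theorem run_J6_2t : run1 1 16 5 64 153 3213 3060 bs6t [] J6_2 us6 =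
    138310333939374939479725783180485023 := by
  decide +kernel

end Crest.Agent.R347.Num
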