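import Crest.Agent.R347.NumPar
import Crest.Agent.R347.NumDa

/-! Kernel evaluated runs (generated). -/

set_option autoImplicit false
set_option Elab.async false
set_option maxRecDepth 100000

namespace Crest.Agent.R347.Num

theorem run_J8_0au : run1 1 25 6 64 194 9118 8924 bs8u [] J8_0a us8 =
    3537875370234257994117908464002967451997026223229039 := by
  decide +kernel

theorem run_J8_0bu : run1 1 25 6 64 194 9118 8924 bs8u [] J8_0b us8 =
    9851666362288847294732062896724600850474955855858595 := by
  decide +kernel

end Crest.Agent.R347.Num
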