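import Crest.Agent.R347.NumPar
import Crest.Agent.R347.NumDbu

/-! Kernel evaluated runs (generated). -/

set_option autoImplicit false
set_option Elab.async false
set_option maxRecDepth 100000

namespace Crest.Agent.R347.Num

theorem run_J8_0at : run2 1 25 6 64 194 9118 8924 43690 bs8t [] J8_0a us8 =
    (786371488824866200711188039410418810221808062103759,
     25108406326698051915730107183382050936098133427605489382832) := by
  decide +kernel

theorem run_J8_0bt : run2 1 25 6 64 194 9118 8924 43690 bs8t [] J8_0b us8 =
    (1414205952226111362538879467798552771576682803400867,
     25108405802725391828565602746280152974259972522925001453072) := by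
  decide +kernel

end Crest.Agent.R347.Num
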