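import Crest.Agent.R347.NumPar
import Crest.Agent.R347.NumDbt

/-! Kernel evaluated runs (generated). -/

set_option autoImplicit false
set_option Elab.async false
set_option maxRecDepth 100000

namespace Crest.Agent.R347.Num

theorem run_J8_0cu : run1 1 25 6 64 194 9312 9118 bs8u [] J8_0c us8 =
    160788530983617661018251236407319717414466572471675090 := by
  decide +kernel

theorem run_J8_1au : run1 1 25 6 64 194 8148 7954 bs8u [] J8_1a us8 =
    221114984600857543524104675262316405967323119412207 := by
  decide +kernel

end Crest.Agent.R347.Num
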