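import Crest.Agent.R347.NumPar
import Crest.Agent.R347.NumDcu

/-! Kernel evaluated runs (generated). -/

set_option autoImplicit false
set_option Elab.async false
set_option maxRecDepth 100000

namespace Crest.Agent.R347.Num

theorem run_J8_0ct : run2 1 25 6 64 194 9312 9118 43690 bs8t [] J8_0c us8 =
    (60718635228292601297906145180093025072880655757785970,
     25108357110653441659701493540302611640451979684543124410733) := by
  decide +kernel

theorem run_J8_1at : run1 1 25 6 64 194 8148 7954 bs8t [] J8_1a us8 =
    13841804340349454968907948265188033979995106042607 := by
  decide +kernel

end Crest.Agent.R347.Num
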