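import Crest.Agent.R347.NumPar
import Crest.Agent.R347.NumDct

/-! Kernel evaluated runs (generated). -/

set_option autoImplicit false
set_option Elab.async false
set_option maxRecDepth 100000

namespace Crest.Agent.R347.Num

theorem run_J8_1bu : run1 1 25 6 64 194 8148 7954 bs8u [] J8_1b us8 =
    2208521837071539024689560616878932832998742349604367 := by
  decide +kernel

theorem run_J8_1cu : run1 1 25 6 64 194 8342 8148 bs8u [] J8_1c us8 =
    7206651743206833493524814132592102445195172169723471 := by
  decide +kernel

end Crest.Agent.R347.Num
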