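import Crest.Agent.R347.NumPar
import Crest.Agent.R347.NumDdu

/-! Kernel evaluated runs (generated). -/

set_option autoImplicit false
set_option Elab.async false
set_option maxRecDepth 100000

namespace Crest.Agent.R347.Num

theorem run_J8_1bt : run1 1 25 6 64 194 8148 7954 bs8t [] J8_1b us8 =
    188526718528815791928440677101902978056485014783631 := by
  decide +kernel

theorem run_J8_1ct : run1 1 25 6 64 194 8342 8148 bs8t [] J8_1c us8 =
    591698932817899845377181684997077408775765717803087 := by
  decide +kernel

end Crest.Agent.R347.Num
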