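import Crest.Agent.R347.NumPar
import Crest.Agent.R347.NumDdt

/-! Kernel evaluated runs (generated). -/

set_option autoImplicit false
set_option Elab.async false
set_option maxRecDepth 100000

namespace Crest.Agent.R347.Num

theorem run_J8_2au : run1 1 25 6 64 194 9700 9506 bs8u [] J8_2a us8 =
    841508077942541426476067870192023121720515963951 := by
  decide +kernel

theorem run_J8_2bu : run1 1 25 6 64 194 9700 9506 bs8u [] J8_2b us8 =
    9044815603162855719051353793699322242089697939439 := by
  decide +kernel

theorem run_J8_3u : run1 1 25 6 64 194 12222 12028 bs8u [] J8_3 us8 =
    289125123454857331431112553992368846900486095 := by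
  decide +kernel

theorem run_J8_4u : run1 1 25 6 64 194 6790 6596 bs8u [] J8_4 us8 =
    25108406941546697687090549389294792106717332635864429852339 := by
  decide +kernel

theorem run_J8_5u : run1 1 25 6 64 194 2910 2716 bs8u [] J8_5 us8 =
    25108406941546681982898404244322485787641422952258003022095 := by
  decide +kernel

theorem run_J8_6u : run1 1 25 6 64 194 1164 970 bs8u [] J8_6 us8 =
    25108406941546683410108043486649152599080764221668514264097 := by
  decide +kernel

end Crest.Agent.R347.Num
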