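import Crest.Agent.R347.NumPar
import Crest.Agent.R347.NumDeu

/-! Kernel evaluated runs (generated). -/

set_option autoImplicit false
set_option Elab.async false
set_option maxRecDepth 100000

namespace Crest.Agent.R347.Num

theorem run_J8_2at : run1 1 25 6 64 194 9700 9506 bs8t [] J8_2a us8 =
    50473550591123338482434997021979838414899578095 := by
  decide +kernel

theorem run_J8_2bt : run1 1 25 6 64 194 9700 9506 bs8t [] J8_2b us8 =
    572453758550469985628679535191211904360329626799 := by
  decide +kernel

theorem run_J8_3t : run1 1 25 6 64 194 12222 12028 bs8t [] J8_3 us8 =
    27686156633660578618174673670180623765814735 := by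
  decide +kernel

theorem run_J8_4t : run1 1 25 6 64 194 6790 6596 bs8t [] J8_4 us8 =
    25108406941546720842179467378571440914704967466462888244404 := by
  decide +kernel

theorem run_J8_5t : run1 1 25 6 64 194 2910 2716 bs8t [] J8_5 us8 =
    364243782917351396247914029459598396657680 := by
  decide +kernel

theorem run_J8_6t : run1 1 25 6 64 194 1164 970 bs8t [] J8_6 us8 =
    25108406941546704477247501796963994962154326642013419467809 := by
  decide +kernel

end Crest.Agent.R347.Num
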