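import Crest.Agent.R347.NumCWEngine
import Crest.Agent.R347.NumPar
import Crest.Agent.R347.NumDet

/-! Kernel evaluated Collatz-Wielandt checks. -/

set_option autoImplicit false
set_option Elab.async false
set_option maxRecDepth 100000

namespace Crest.Agent.R347.Num

theorem lo4 : checkLo 4 1 8 11 3 bs4u [] = true := by decide +kernel
theorem hi4 : checkHi 4 1 8 bs4u [] = true := by decide +kernel
theorem lo6 : checkLo 6 1 12 15 12 bs6u [] = true := by decide +kernel
theorem hi6 : checkHi 6 1 12 bs6u [] = true := by decide +kernel
theorem lo8 : checkLo 8 1 16 20 15 bs8u [] = true := by decide +kernel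
theorem hi8 : checkHi 8 1 16 bs8u [] = true := by decide +kernel

end Crest.Agent.R347.Num
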