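import Crest.Agent.R347.NumAsm
import Crest.Agent.R347.NumPar

/-! Kernel evaluated checks of the parameters (generated). -/

set_option autoImplicit false
set_option Elab.async false
set_option maxRecDepth 100000

namespace Crest.Agent.R347.Num

def ch4_0 : List (List (ℕ × ℕ)) := [J4_0]

def ch4_1 : List (List (ℕ × ℕ)) := [J4_2]

def ch4_2 : List (List (ℕ × ℕ)) := [J4_1]

theorem elt4_0 : ch4_0.flatten.all (elt 3 0) = true := by decide +kernel

theorem elt4_1 : ch4_1.flatten.all (elt 3 1) = true := by decide +kernel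

theorem elt4_2 : ch4_2.flatten.all (elt 3 2) = true := by decide +kernel

theorem sum4 : ((ch4_0.flatten ++ (ch4_1.flatten ++ ch4_2.flatten)).map Prod.snd).sum =
    3 ^ (3 + 1) := by decide +kernel

theorem nod4 : nodB (ch4_0.flatten ++ (ch4_1.flatten ++ ch4_2.flatten)) 0 = true := by
  decide +kernel

theorem chk4 : ChkData 3 ch4_0.flatten ch4_1.flatten ch4_2.flatten :=
  chk_of_elt (by norm_num) elt4_0 elt4_1 elt4_2 sum4 (nodB_spec _ 0 nod4).1

theorem hbs4u : (ringBonds (3 + 1) false).map Bond.toBd = bs4u := rfl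

theorem hbs4t : (ringBonds (3 + 1) true).map Bond.toBd = bs4t := rfl

theorem hbn4u : (ringBonds (3 + 1) false).map (fun b => b.un.toBd) = bs4u := rfl

theorem hbn4t : (ringBonds (3 + 1) true).map (fun b => b.un.toBd) = bs4u := rfl

theorem hs_J4_0 : 2 * ((J4_0.map Prod.snd).sum * Qsum 3 us4) < 2 ^ 119 := by
  decide +kernel

theorem len_J4_0 : J4_0.length = 6 := by decide +kernel

theorem hs_J4_2 : 2 * ((J4_2.map Prod.snd).sum * Qsum 3 us4) < 2 ^ 119 := by
  decide +kernel

theorem len_J4_2 : J4_2.length = 4 := by decide +kernel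

theorem hs_J4_1 : 2 * ((J4_1.map Prod.snd).sum * Qsum 3 us4) < 2 ^ 119 := by
  decide +kernel

theorem len_J4_1 : J4_1.length = 5 := by decide +kernel

theorem T4 : (170 : ℕ) = ∑ j : Fin (3 + 1), 2 * 4 ^ (j : ℕ) := by decide +kernel

theorem go4 : (ExpApprox.go 3 36 1 0 1 (alt false us4.reverse)).2.2 =
    (37665229677834110075980584,
     4970511562030145333200335277719950) := by
  decide +kernel

def ch6_0 : List (List (ℕ × ℕ)) := [J6_0]

def ch6_1 : List (List (ℕ × ℕ)) := [J6_2]

def ch6_2 : List (List (ℕ × ℕ)) := [J6_1]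

theorem elt6_0 : ch6_0.flatten.all (elt 5 0) = true := by decide +kernel

theorem elt6_1 : ch6_1.flatten.all (elt 5 1) = true := by decide +kernel

theorem elt6_2 : ch6_2.flatten.all (elt 5 2) = true := by decide +kernel

theorem sum6 : ((ch6_0.flatten ++ (ch6_1.flatten ++ ch6_2.flatten)).map Prod.snd).sum =
    3 ^ (5 + 1) := by decide +kernel

theorem nod6 : nodB (ch6_0.flatten ++ (ch6_1.flatten ++ ch6_2.flatten)) 0 = true := by
  decide +kernel

theorem chk6 : ChkData 5 ch6_0.flatten ch6_1.flatten ch6_2.flatten :=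
  chk_of_elt (by norm_num) elt6_0 elt6_1 elt6_2 sum6 (nodB_spec _ 0 nod6).1

theorem hbs6u : (ringBonds (5 + 1) false).map Bond.toBd = bs6u := rfl

theorem hbs6t : (ringBonds (5 + 1) true).map Bond.toBd = bs6t := rfl

theorem hbn6u : (ringBonds (5 + 1) false).map (fun b => b.un.toBd) = bs6u := rfl

theorem hbn6t : (ringBonds (5 + 1) true).map (fun b => b.un.toBd) = bs6u := rfl

theorem hs_J6_0 : 2 * ((J6_0.map Prod.snd).sum * Qsum 4 us6) < 2 ^ 153 := by
  decide +kernel

theorem len_J6_0 : J6_0.length = 26 := by decide +kernel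

theorem hs_J6_2 : 2 * ((J6_2.map Prod.snd).sum * Qsum 4 us6) < 2 ^ 153 := by
  decide +kernel

theorem len_J6_2 : J6_2.length = 21 := by decide +kernel

theorem hs_J6_1 : 2 * ((J6_1.map Prod.snd).sum * Qsum 4 us6) < 2 ^ 153 := by
  decide +kernel

theorem len_J6_1 : J6_1.length = 31 := by decide +kernel

theorem T6 : (2730 : ℕ) = ∑ j : Fin (5 + 1), 2 * 4 ^ (j : ℕ) := by decide +kernel

theorem go6 : (ExpApprox.go 4 48 1 0 1 (alt false us6.reverse)).2.2 =
    (261173167866199152655720869447547968,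
     13254239395884378410463838089632090482579482) := by
  decide +kernel

def ch8_0 : List (List (ℕ × ℕ)) := [J8_0a, J8_0b, J8_0c]

def ch8_1 : List (List (ℕ × ℕ)) := [J8_2a, J8_2b, J8_4, J8_6]

def ch8_2 : List (List (ℕ × ℕ)) := [J8_1a, J8_1b, J8_1c, J8_3, J8_5]

theorem elt8_0 : ch8_0.flatten.all (elt 7 0) = true := by decide +kernel

theorem elt8_1 : ch8_1.flatten.all (elt 7 1) = true := by decide +kernel

theorem elt8_2 : ch8_2.flatten.all (elt 7 2) = true := by decide +kernel

theorem sum8 : ((ch8_0.flatten ++ (ch8_1.flatten ++ ch8_2.flatten)).map Prod.snd).sum =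
    3 ^ (7 + 1) := by decide +kernel

theorem nod8 : nodB (ch8_0.flatten ++ (ch8_1.flatten ++ ch8_2.flatten)) 0 = true := by
  decide +kernel

theorem chk8 : ChkData 7 ch8_0.flatten ch8_1.flatten ch8_2.flatten :=
  chk_of_elt (by norm_num) elt8_0 elt8_1 elt8_2 sum8 (nodB_spec _ 0 nod8).1

theorem hbs8u : (ringBonds (7 + 1) false).map Bond.toBd = bs8u := rfl

theorem hbs8t : (ringBonds (7 + 1) true).map Bond.toBd = bs8t := rfl

theorem hbn8u : (ringBonds (7 + 1) false).map (fun b => b.un.toBd) = bs8u := rfl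

theorem hbn8t : (ringBonds (7 + 1) true).map (fun b => b.un.toBd) = bs8u := rfl

theorem hs_J8_0a : 2 * ((J8_0a.map Prod.snd).sum * Qsum 5 us8) < 2 ^ 194 := by
  decide +kernel

theorem len_J8_0a : J8_0a.length = 47 := by decide +kernel

theorem hs_J8_0b : 2 * ((J8_0b.map Prod.snd).sum * Qsum 5 us8) < 2 ^ 194 := by
  decide +kernel

theorem len_J8_0b : J8_0b.length = 47 := by decide +kernel

theorem hs_J8_0c : 2 * ((J8_0c.map Prod.snd).sum * Qsum 5 us8) < 2 ^ 194 := by
  decide +kernel

theorem len_J8_0c : J8_0c.length = 48 := by decide +kernel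

theorem hs_J8_2a : 2 * ((J8_2a.map Prod.snd).sum * Qsum 5 us8) < 2 ^ 194 := by
  decide +kernel

theorem len_J8_2a : J8_2a.length = 50 := by decide +kernel

theorem hs_J8_2b : 2 * ((J8_2b.map Prod.snd).sum * Qsum 5 us8) < 2 ^ 194 := by
  decide +kernel

theorem len_J8_2b : J8_2b.length = 50 := by decide +kernel

theorem hs_J8_4 : 2 * ((J8_4.map Prod.snd).sum * Qsum 5 us8) < 2 ^ 194 := by
  decide +kernel

theorem len_J8_4 : J8_4.length = 35 := by decide +kernel

theorem hs_J8_6 : 2 * ((J8_6.map Prod.snd).sum * Qsum 5 us8) < 2 ^ 194 := by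
  decide +kernel

theorem len_J8_6 : J8_6.length = 6 := by decide +kernel

theorem hs_J8_1a : 2 * ((J8_1a.map Prod.snd).sum * Qsum 5 us8) < 2 ^ 194 := by
  decide +kernel

theorem len_J8_1a : J8_1a.length = 42 := by decide +kernel

theorem hs_J8_1b : 2 * ((J8_1b.map Prod.snd).sum * Qsum 5 us8) < 2 ^ 194 := by
  decide +kernel

theorem len_J8_1b : J8_1b.length = 42 := by decide +kernel

theorem hs_J8_1c : 2 * ((J8_1c.map Prod.snd).sum * Qsum 5 us8) < 2 ^ 194 := by
  decide +kernel

theorem len_J8_1c : J8_1c.length = 43 := by decide +kernel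

theorem hs_J8_3 : 2 * ((J8_3.map Prod.snd).sum * Qsum 5 us8) < 2 ^ 194 := by
  decide +kernel

theorem len_J8_3 : J8_3.length = 63 := by decide +kernel

theorem hs_J8_5 : 2 * ((J8_5.map Prod.snd).sum * Qsum 5 us8) < 2 ^ 194 := by
  decide +kernel

theorem len_J8_5 : J8_5.length = 15 := by decide +kernel

theorem T8 : (43690 : ℕ) = ∑ j : Fin (7 + 1), 2 * 4 ^ (j : ℕ) := by decide +kernel

theorem go8 : (ExpApprox.go 5 60 1 0 1 (alt false us8.reverse)).2.2 =
    (27871004448961383838330660886091530519713014030,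
     9047914707257730358638376171484359717824435837371324753) := by
  decide +kernel

end Crest.Agent.R347.Num
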