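import Crest.Agent.R347.NumReal
import Crest.Agent.R347.NumChk

/-! General final bounds for the ring traces. -/

set_option autoImplicit false

namespace Crest.Agent.R347.Num

open Matrix Crest.MathPhysics.SpinChain

/-- crude bound of the polynomial -/
def Qsum (r : ℕ) (us : List ℕ) : ℕ :=
  ∑ k ∈ Finset.range us.length, us.reverse.getD k 0 * r ^ k * (k + 1)

/-- spectral data of the ring matrix -/
structure SpecData (n : ℕ) (tw : Bool) (c1 r : ℕ) : Prop where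
  hn : 1 ≤ n
  hr : 0 < r
  spec : ∀ (μ : ℝ) (v : Cfg (n + 1) → ℝ), v ≠ 0 →
    ((Gmat 1 c1 (ringBonds (n + 1) tw) []).map (Int.cast : ℤ → ℝ)) *ᵥ v = μ • v →
      -(2 * (r : ℝ)) ≤ μ ∧ μ ≤ 2 * r

theorem specData_of_checks {n : ℕ} (tw : Bool) (c1 r A R1 it R2 : ℕ) (bs : List Bd) (hn : 1 ≤ n)
    (hr : 0 < r)
    (hbs : ((ringBonds (n + 1) tw).map fun b => b.un.toBd) = bs) (hA : A = 2 * (n + 1))
    (hlo : checkLo (n + 1) 1 A R1 it bs [] = true) (hhi : checkHi (n + 1) 1 R2 bs [] = true)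
    (h1 : R1 + c1 ≤ 2 * r + A) (h2 : R2 ≤ 2 * r + c1) : SpecData n tw c1 r := by
  refine ⟨hn, hr, fun μ v hv hG => ?_⟩
  subst hbs
  have hbl := ringBonds_ne (L := n + 1) (by omega) tw
  have a1 := checkHi_spec 1 c1 R2 (ringBonds (n + 1) tw) [] hbl hhi μ v hv hG
  have a2 := checkLo_spec 1 c1 A R1 it (ringBonds (n + 1) tw) [] hbl (by
    intro σ
    have := Dn_le 1 (ringBonds (n + 1) tw) [] σ
    have hlen : (ringBonds (n + 1) tw).length = n + 1 := by simp [ringBonds]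
    rw [hlen] at this
    simp at this
    omega) hlo μ v hv hG
  have h1' : (R1 : ℝ) + c1 ≤ 2 * r + A := by exact_mod_cast h1
  have h2' : (R2 : ℝ) ≤ 2 * r + c1 := by exact_mod_cast h2
  constructor <;> linarith

theorem Gm_symm {n : ℕ} (hn : 1 ≤ n) (tw : Bool) (c1 : ℕ) :
    (Gmat 1 c1 (ringBonds (n + 1) tw) [])ᵀ = Gmat 1 c1 (ringBonds (n + 1) tw) [] :=
  Gmat_symm 1 c1 _ [] (ringBonds_ne (by omega) tw)

theorem Qm_le {n : ℕ} {tw : Bool} {c1 r : ℕ} (hsp : SpecData n tw c1 r) (us : List ℕ)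
    (σ τ : Cfg (n + 1)) : |Qm n tw c1 (r ^ 2) us σ τ| ≤ Qsum r us := by
  refine entry_bound _ (Gm_symm hsp.hn tw c1) (r ^ 2) us (-(2 * (r : ℝ))) (2 * r) hsp.spec
    (Qsum r us) ?_ σ τ
  intro g h1 h2
  refine (clv_abs_le r hsp.hr us g (abs_le.mpr ⟨h1, h2⟩)).trans (le_of_eq ?_)
  unfold Qsum
  push_cast
  rfl

theorem Zab_bound {n : ℕ} {tw : Bool} {c0 c1 r : ℕ} (hsp : SpecData n tw c1 r)
    (hc : c0 + c1 = n + 1) (us : List ℕ) (hne : us ≠ []) (num acc pm : ℤ)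
    (hnum : num = 12 * r) (hgo : (ExpApprox.go r num 1 0 1 (alt false us.reverse)).2.2 = (acc, pm))
    (b : Fin 4) (hU : (piK (fun _ : Fin (n + 1) => rotC b))ᴴ *
      piK (fun _ : Fin (n + 1) => rotC b) = 1) (T : ℤ)
    (hT : (trace (piK (fun _ : Fin (n + 1) => rotC b) *
      (Qm n tw c1 (r ^ 2) us).map (Int.cast : ℤ → ℂ))).re = T) :
    |(pm : ℝ) * Real.exp (-(num : ℝ)) * (Real.exp (-(6 * c0 : ℝ)) *
      Zab (if tw then 3 else 0) b 6 (n + 1)) - T| ≤ 3 ^ (n + 1) * ((acc : ℝ) / num) := by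
  have hnum0 : 0 < num := by
    rw [hnum]
    have := hsp.hr
    positivity
  have happ : ∀ g : ℝ, -(2 * (r : ℝ)) ≤ g → g ≤ 2 * r →
      |((pm : ℝ) * Real.exp (-(num : ℝ))) * Real.exp (6 * g) - clv g (r ^ 2) us| ≤
        (acc : ℝ) / num := by
    intro g h1 h2
    have := exp_clv_approx r hsp.hr num 1 hnum0 one_pos us hne hgo 6 (by
      rw [hnum]; push_cast; ring) g (abs_le.mpr ⟨h1, h2⟩)
    simpa using this
  have key := trace_poly_approx (Gmat 1 c1 (ringBonds (n + 1) tw) []) (Gm_symm hsp.hn tw c1)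
    (piK (fun _ : Fin (n + 1) => rotC b)) hU (r ^ 2) us (-(2 * (r : ℝ))) (2 * r) hsp.spec 6
    ((pm : ℝ) * Real.exp (-(num : ℝ))) ((acc : ℝ) / num) happ
  have h3 := Zab_ring hsp.hn tw b c0 c1 hc 6
  have h4 : Real.exp (-(6 * c0 : ℝ)) * Zab (if tw then 3 else 0) b 6 (n + 1) =
      (trace (piK (fun _ : Fin (n + 1) => rotC b) *
        NormedSpace.exp (((6 : ℝ) : ℂ) • Gc n tw c1))).re := by
    rw [h3, ← mul_assoc, ← Real.exp_add, neg_add_cancel, Real.exp_zero, one_mul]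
  rw [h4]
  have hcard : (Fintype.card (Cfg (n + 1)) : ℝ) = 3 ^ (n + 1) := by
    simp
  rw [hcard] at key
  rw [← hT]
  exact key

/-- interval arithmetic for the final step -/
theorem interval {X y lo hi g1 g2 pm v ε : ℝ} (hX1 : lo ≤ X) (hX2 : X ≤ hi) (hy1 : g1 ≤ y)
    (hy2 : y ≤ g2) (hg : 0 < g1) (hpm : 0 < pm)
    (a1 : pm * (v - ε) ≤ lo * g1) (a2 : pm * (v - ε) ≤ lo * g2)
    (a3 : hi * g1 ≤ pm * (v + ε)) (a4 : hi * g2 ≤ pm * (v + ε)) : |X * y / pm - v| ≤ ε := by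
  have hy0 : 0 < y := lt_of_lt_of_le hg hy1
  have b1 : pm * (v - ε) ≤ X * y := by
    refine le_trans ?_ (mul_le_mul_of_nonneg_right hX1 hy0.le)
    rcases le_total 0 lo with h | h
    · exact a1.trans (mul_le_mul_of_nonneg_left hy1 h)
    · exact a2.trans (mul_le_mul_of_nonpos_left hy2 h)
  have b2 : X * y ≤ pm * (v + ε) := by
    refine le_trans (mul_le_mul_of_nonneg_right hX2 hy0.le) ?_
    rcases le_total 0 hi with h | h
    · exact (mul_le_mul_of_nonneg_left hy2 h).trans a4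
    · exact (mul_le_mul_of_nonpos_left hy1 h).trans a3
  rw [abs_le]
  constructor
  · have : v - ε ≤ X * y / pm := by rw [le_div_iff₀ hpm]; linarith
    linarith
  · have : X * y / pm ≤ v + ε := by rw [div_le_iff₀ hpm]; linarith
    linarith

theorem nZ_bound {n : ℕ} {tw : Bool} {c0 c1 r : ℕ} (hsp : SpecData n tw c1 r)
    (hc : c0 + c1 = n + 1) (us : List ℕ) (hne : us ≠ []) (num acc pm : ℤ)
    (hnum : num = 12 * r) (hgo : (ExpApprox.go r num 1 0 1 (alt false us.reverse)).2.2 = (acc, pm))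
    (b : Fin 4) (hU : (piK (fun _ : Fin (n + 1) => rotC b))ᴴ *
      piK (fun _ : Fin (n + 1) => rotC b) = 1) (T : ℤ)
    (hT : (trace (piK (fun _ : Fin (n + 1) => rotC b) *
      (Qm n tw c1 (r ^ 2) us).map (Int.cast : ℤ → ℂ))).re = T)
    (γ g1 g2 : ℝ) (hγ : γ = 6 * e0 * (n + 1) + 6 * c0 + num) (hg1 : g1 ≤ Real.exp γ)
    (hg2 : Real.exp γ ≤ g2) (hg : 0 < g1) (hpm : (0 : ℝ) < pm) (Tl Tu : ℤ) (hTl : Tl ≤ T)
    (hTu : T ≤ Tu) (E v ε : ℝ) (hE : 3 ^ (n + 1) * ((acc : ℝ) / num) ≤ E)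
    (a1 : pm * (v - ε) ≤ (Tl - E) * g1) (a2 : pm * (v - ε) ≤ (Tl - E) * g2)
    (a3 : (Tu + E) * g1 ≤ pm * (v + ε)) (a4 : (Tu + E) * g2 ≤ pm * (v + ε)) :
    |nZ (if tw then 3 else 0) b (n + 1) - v| ≤ ε := by
  have key := Zab_bound hsp hc us hne num acc pm hnum hgo b hU T hT
  set Z := Zab (if tw then 3 else 0) b 6 (n + 1) with hZ
  set X := (pm : ℝ) * Real.exp (-(num : ℝ)) * (Real.exp (-(6 * c0 : ℝ)) * Z) with hX
  have hnZ : nZ (if tw then 3 else 0) b (n + 1) = X * Real.exp γ / pm := by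
    unfold nZ
    rw [← hZ, hX, hγ]
    have e1 : Real.exp (6 * e0 * (n + 1) + 6 * c0 + num) =
        Real.exp (6 * e0 * (n + 1)) * Real.exp (6 * c0) * Real.exp num := by
      rw [Real.exp_add, Real.exp_add]
    have e2 : Real.exp (-(num : ℝ)) * Real.exp num = 1 := by
      rw [← Real.exp_add, neg_add_cancel, Real.exp_zero]
    have e3 : Real.exp (-(6 * c0 : ℝ)) * Real.exp (6 * c0) = 1 := by
      rw [← Real.exp_add, neg_add_cancel, Real.exp_zero]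
    rw [e1, eq_div_iff hpm.ne']
    push_cast
    linear_combination (-(pm : ℝ) * Z * Real.exp (6 * e0 * (n + 1)) *
      (Real.exp (-(6 * c0 : ℝ)) * Real.exp (6 * c0))) * e2 -
      (pm : ℝ) * Z * Real.exp (6 * e0 * (n + 1)) * e3
  rw [hnZ]
  have hTl' : (Tl : ℝ) ≤ T := by exact_mod_cast hTl
  have hTu' : (T : ℝ) ≤ Tu := by exact_mod_cast hTu
  rw [abs_le] at key
  exact interval (lo := Tl - E) (hi := Tu + E) (by linarith) (by linarith) hg1 hg2 hg hpm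
    a1 a2 a3 a4

/-- rational bounds for the exponential through `exp (x / 16) ^ 16`. -/
theorem exp_bounds (x s1 s2 g1 g2 : ℝ) (k : ℕ) (hk : 0 < k) (hx : |x / 16| ≤ 1)
    (h1 : s1 ≤ (∑ m ∈ Finset.range k, (x / 16) ^ m / m.factorial) -
      |x / 16| ^ k * (k.succ / (k.factorial * k)))
    (h2 : (∑ m ∈ Finset.range k, (x / 16) ^ m / m.factorial) +
      |x / 16| ^ k * (k.succ / (k.factorial * k)) ≤ s2) (hs1 : 0 ≤ s1)
    (hg1 : g1 ≤ s1 ^ 16) (hg2 : s2 ^ 16 ≤ g2) : g1 ≤ Real.exp x ∧ Real.exp x ≤ g2 := by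
  have hb := abs_le.mp (Real.exp_bound hx hk)
  have e : Real.exp x = Real.exp (x / 16) ^ 16 := by
    rw [← Real.exp_nat_mul]
    congr 1
    push_cast
    ring
  rw [e]
  have h3 : s1 ≤ Real.exp (x / 16) := by linarith [hb.1]
  have h4 : Real.exp (x / 16) ≤ s2 := by linarith [hb.2]
  constructor
  · exact hg1.trans (pow_le_pow_left₀ hs1 h3 16)
  · exact (pow_le_pow_left₀ (Real.exp_pos _).le h4 16).trans hg2

end Crest.Agent.R347.Num
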