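import Crest.Agent.R347.NumOut
import Crest.Agent.R347.Basic

/-! STATEMENTS for the remaining pieces of N1/N6 (never imported by proofs).
Each piece is to be proved in the file named in its docstring, same statement. -/

set_option autoImplicit false

namespace Crest.Agent.R347.Num.Iface

open Matrix Crest.MathPhysics.SpinChain Crest.Agent.R347.Num

/-- (B1) NumTrace.lean: trace of `U exp(β G)` versus the polynomial. -/
theorem trace_poly_approx {κ : Type*} [Fintype κ] [DecidableEq κ] (G : Matrix κ κ ℤ)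
    (hG : Gᵀ = G) (U : Matrix κ κ ℂ) (hU : Uᴴ * U = 1) (ρ : ℕ) (us : List ℕ) (lo hi : ℝ)
    (hspec : ∀ (μ : ℝ) (v : κ → ℝ), v ≠ 0 →
      (G.map (Int.cast : ℤ → ℝ)) *ᵥ v = μ • v → lo ≤ μ ∧ μ ≤ hi)
    (β S Δ : ℝ) (happ : ∀ g : ℝ, lo ≤ g → g ≤ hi → |S * Real.exp (β * g) - clv g ρ us| ≤ Δ) :
    |S * (trace (U * NormedSpace.exp ((β : ℂ) • G.map (Int.cast : ℤ → ℂ)))).re -
      (trace (U * (clv G ρ us).map (Int.cast : ℤ → ℂ))).re| ≤ Fintype.card κ * Δ := by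
  sorry

/-- (B2) NumTrace.lean: entry bound. -/
theorem entry_bound {κ : Type*} [Fintype κ] [DecidableEq κ] (G : Matrix κ κ ℤ)
    (hG : Gᵀ = G) (ρ : ℕ) (us : List ℕ) (lo hi : ℝ)
    (hspec : ∀ (μ : ℝ) (v : κ → ℝ), v ≠ 0 →
      (G.map (Int.cast : ℤ → ℝ)) *ᵥ v = μ • v → lo ≤ μ ∧ μ ≤ hi)
    (Qb : ℕ) (hb : ∀ g : ℝ, lo ≤ g → g ≤ hi → |clv g ρ us| ≤ Qb) (σ τ : κ) :
    |clv G ρ us σ τ| ≤ Qb := by
  sorry

/-- (B3) NumTrace.lean: Collatz-Wielandt. -/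
theorem collatz {κ : Type*} [Fintype κ] (A : Matrix κ κ ℝ) (N : Matrix κ κ ℝ)
    (hAN : ∀ i j, |A i j| ≤ N i j) (v : κ → ℝ) (hv : ∀ i, 0 < v i) (R : ℝ)
    (hR : ∀ i, ∑ j, N i j * v j ≤ R * v i) (μ : ℝ) (x : κ → ℝ) (hx : x ≠ 0)
    (hAx : A *ᵥ x = μ • x) : |μ| ≤ R := by
  sorry

/-- (S1) NumScalar.lean: the scalar recursion is the Chebyshev sum (coefficients `us` are listed
highest first, `us.reverse[k]` is the coefficient of `r^k U_k(g/(2r))`). -/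
theorem clv_eq_cheb (r : ℕ) (hr : 0 < r) (us : List ℕ) (g : ℝ) :
    clv g (r ^ 2) us = ∑ k ∈ Finset.range us.length,
      (us.reverse.getD k 0 : ℝ) * (r : ℝ) ^ k *
        (Polynomial.Chebyshev.U ℝ k).eval (g / (2 * r)) := by
  sorry

/-- (S2) NumScalar.lean: crude bound -/
theorem clv_abs_le (r : ℕ) (hr : 0 < r) (us : List ℕ) (g : ℝ) (hg : |g| ≤ 2 * r) :
    |clv g (r ^ 2) us| ≤ ∑ k ∈ Finset.range us.length,
      (us.reverse.getD k 0 : ℝ) * (r : ℝ) ^ k * (k + 1) := by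
  sorry

/-- (C1) NumSpin.lean: the bond operator with twist axis z: `onSite` products are the integer
bond matrix. -/
theorem bond_eq_Hb {L : ℕ} (j k : Fin L) (hjk : j ≠ k) (tw : Bool) :
    (∑ c : Fin 3, (if tw = true ∧ c ≠ 2 then (-1 : ℂ) else 1) •
      (onSite (spinOp c) j * onSite (spinOp c) k)) =
      (Hb ⟨j, k, tw⟩).map (Int.cast : ℤ → ℂ) := by
  sorry

/-- bonds of the ring; `tw`: last bond twisted about z -/
def ringBonds (L : ℕ) (tw : Bool) : List (Bond L) :=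
  (List.finRange L).map fun j => ⟨j, finRotate L j, tw && decide (j.val + 1 = L)⟩

/-- (C2) NumSpin.lean: `ringTw` for a = 0, 3 in terms of `Gmat` (`κ = 1`, no fields):
`Gmat 1 c1 (ringBonds L tw) [] = (c1 - L) - H`. -/
theorem ringTw_eq (L : ℕ) (hL : 2 ≤ L) (tw : Bool) (c1 : ℕ) :
    ringTw (if tw then 3 else 0) L =
      ((c1 : ℂ) - L) • 1 - (Gmat 1 c1 (ringBonds L tw) []).map (Int.cast : ℤ → ℂ) := by
  sorry

/-- (C3) NumSpin.lean: rotations -/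
theorem piK_rotC_three (L : ℕ) : piK (fun _ : Fin L => rotC 3) =
    Matrix.diagonal (fun σ : Cfg L => ∏ j, (if σ j = 1 then (1 : ℂ) else -1)) := by
  sorry

theorem piK_rotC_one (L : ℕ) : piK (fun _ : Fin L => rotC 1) =
    Matrix.of (fun σ τ : Cfg L => if τ = fun j => (σ j).rev then ((-1 : ℂ)) ^ L else 0) := by
  sorry

/-- (C4) NumSpin.lean -/
theorem Gmat_symm {L : ℕ} (κ c1 : ℕ) (bl : List (Bond L)) (fl : List (Fld L))
    (hbl : ∀ b ∈ bl, b.j ≠ b.k) : (Gmat κ c1 bl fl)ᵀ = Gmat κ c1 bl fl := by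
  sorry

/-- (E1) NumRot.lean: rotation by π about (x+z)/√2 exchanges the axes x and z. -/
theorem Zab_one_three (β : ℝ) (L : ℕ) : Zab 1 3 β L = Zab 3 1 β L := by
  sorry

end Crest.Agent.R347.Num.Iface
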