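import Crest.Agent.R347.NumSym
import Crest.Agent.R347.NumSpin

/-! Symmetries of the ring matrix and of polynomials in it. -/

set_option autoImplicit false

namespace Crest.Agent.R347.Num

open Matrix

noncomputable section

/-! ### conjugation by signed permutations -/

section conj
variable {κ : Type*} [Fintype κ] [DecidableEq κ]

def conjE (e : Equiv.Perm κ) (s : κ → ℤ) (hs : ∀ σ, s σ * s σ = 1) :
    Matrix κ κ ℤ →+* Matrix κ κ ℤ where
  toFun X := Matrix.of fun σ τ => s σ * s τ * X (e σ) (e τ)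
  map_one' := by
    ext σ τ
    simp only [Matrix.of_apply, Matrix.one_apply]
    by_cases h : σ = τ
    · subst h; simp [hs]
    · rw [if_neg h, if_neg (fun h' => h (e.injective h')), mul_zero]
  map_mul' X Y := by
    ext σ τ
    simp only [Matrix.of_apply, Matrix.mul_apply]
    rw [← Equiv.sum_comp e, Finset.mul_sum]
    refine Finset.sum_congr rfl fun ν _ => ?_
    have : s σ * s τ * (X (e σ) (e ν) * Y (e ν) (e τ)) =
      (s ν * s ν) * (s σ * s τ * (X (e σ) (e ν) * Y (e ν) (e τ))) := by rw [hs]; ring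
    rw [this]
    ring
  map_zero' := by ext σ τ; simp
  map_add' X Y := by ext σ τ; simp [mul_add]

theorem clv_conj (e : Equiv.Perm κ) (s : κ → ℤ) (hs : ∀ σ, s σ * s σ = 1) (G : Matrix κ κ ℤ)
    (hG : ∀ σ τ, s σ * s τ * G (e σ) (e τ) = G σ τ) (ρ : ℕ) (us : List ℕ) (σ τ : κ) :
    s σ * s τ * clv G ρ us (e σ) (e τ) = clv G ρ us σ τ := by
  have h := clv_map (conjE e s hs) G ρ us
  have hG' : conjE e s hs G = G := by
    ext σ τ
    exact hG σ τ
  rw [hG'] at h
  have := congrFun (congrFun h σ) τ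
  exact this

theorem cl_commute {A : Type*} [Ring A] (N G : A) (h : Commute N G) (ρ : ℕ) (us : List ℕ)
    (a b : A) (ha : Commute N a) (hb : Commute N b) :
    Commute N (cl G ρ us a b).1 ∧ Commute N (cl G ρ us a b).2 := by
  induction us generalizing a b with
  | nil => exact ⟨ha, hb⟩
  | cons u us ih =>
    rw [cl]
    refine ih _ _ ?_ ha
    exact ((Nat.cast_commute u N).symm.add_right (h.mul_right ha)).sub_right
      ((Nat.cast_commute ρ N).symm.mul_right hb)

theorem clv_commute {A : Type*} [Ring A] (N G : A) (h : Commute N G) (ρ : ℕ) (us : List ℕ) :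
    Commute N (clv G ρ us) :=
  (cl_commute N G h ρ us 0 0 (Commute.zero_right _) (Commute.zero_right _)).1

theorem clv_zero_of_label (G : Matrix κ κ ℤ) (c : κ → ℤ) (hG : ∀ σ τ, c σ ≠ c τ → G σ τ = 0)
    (ρ : ℕ) (us : List ℕ) (σ τ : κ) (h : c σ ≠ c τ) : clv G ρ us σ τ = 0 := by
  have hc : Commute (Matrix.diagonal c) G := by
    show Matrix.diagonal c * G = G * Matrix.diagonal c
    ext a b
    rw [Matrix.diagonal_mul, Matrix.mul_diagonal]
    by_cases hab : c a = c b
    · rw [hab, mul_comm]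
    · rw [hG a b hab, mul_zero, zero_mul]
  have h2 := clv_commute _ _ hc ρ us
  have h3 := congrFun (congrFun (show Matrix.diagonal c * clv G ρ us =
    clv G ρ us * Matrix.diagonal c from h2) σ) τ
  rw [Matrix.diagonal_mul, Matrix.mul_diagonal, mul_comm] at h3
  by_contra hne
  exact h (mul_left_cancel₀ hne h3)

end conj

variable {L : ℕ}

/-! ### bond matrices under translations, signs, flip -/

theorem tr_injective [NeZero L] (k : Fin L) : Function.Injective (tr k : Cfg L → Cfg L) :=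
  (trE k).injective

theorem tr_upd2 [NeZero L] (m : Fin L) (σ : Cfg L) (j k : Fin L) (a c : Fin 3) :
    tr m (upd2 σ (j + m) (k + m) a c) = upd2 (tr m σ) j k a c := by
  funext i
  unfold tr upd2
  by_cases h1 : i = k
  · subst h1; simp
  · have h1' : i + m ≠ k + m := fun h => h1 (add_right_cancel h)
    rw [Function.update_of_ne h1', Function.update_of_ne h1]
    by_cases h2 : i = j
    · subst h2; simp
    · have h2' : i + m ≠ j + m := fun h => h2 (add_right_cancel h)
      rw [Function.update_of_ne h2', Function.update_of_ne h2]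

theorem Hb_tr [NeZero L] (m : Fin L) (j k : Fin L) (tw : Bool) (σ τ : Cfg L) :
    Hb ⟨j, k, tw⟩ (tr m σ) (tr m τ) = Hb ⟨j + m, k + m, tw⟩ σ τ := by
  simp only [Hb, Matrix.of_apply]
  refine Finset.sum_congr rfl fun a _ => Finset.sum_congr rfl fun c _ => ?_
  have : (tr m τ = upd2 (tr m σ) j k a c) ↔ (τ = upd2 σ (j + m) (k + m) a c) := by
    rw [← tr_upd2]
    exact (tr_injective m).eq_iff
  simp only [this]
  rfl

/-- the local sign of a π-rotation about z -/
def es (x : Fin 3) : ℤ := if x = 1 then 1 else -1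

theorem es_mul_self (x : Fin 3) : es x * es x = 1 := by
  unfold es; split_ifs <;> norm_num

theorem es_hl_left : ∀ (b : Bool) (a c a' c' : Fin 3),
    es a * es a' * hl b a c a' c' = hl (!b) a c a' c' := by decide

theorem es_hl_right : ∀ (b : Bool) (a c a' c' : Fin 3),
    es c * es c' * hl b a c a' c' = hl (!b) a c a' c' := by decide

theorem Hb_sign (i k z : Fin L) (hik : i ≠ k) (b : Bool) (σ τ : Cfg L) :
    es (σ z) * es (τ z) * Hb ⟨i, k, b⟩ σ τ =
      Hb ⟨i, k, xor b (xor (decide (i = z)) (decide (k = z)))⟩ σ τ := by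
  simp only [Hb, Matrix.of_apply]
  rw [Finset.mul_sum]
  refine Finset.sum_congr rfl fun a _ => ?_
  rw [Finset.mul_sum]
  refine Finset.sum_congr rfl fun c _ => ?_
  by_cases h : τ = upd2 σ i k a c
  · rw [if_pos h, mul_one, mul_one]
    have hz : τ z = if z = k then c else if z = i then a else σ z := by
      rw [h]
      unfold upd2
      by_cases h1 : z = k
      · subst h1; simp
      · rw [Function.update_of_ne h1, if_neg h1]
        by_cases h2 : z = i
        · subst h2; simp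
        · rw [Function.update_of_ne h2, if_neg h2]
    by_cases h1 : z = k
    · subst h1
      rw [if_pos rfl] at hz
      rw [hz, es_hl_right]
      have : decide (i = z) = false := decide_eq_false hik
      simp [this]
    · rw [if_neg h1] at hz
      by_cases h2 : z = i
      · subst h2
        rw [if_pos rfl] at hz
        rw [hz, es_hl_left]
        have : decide (k = z) = false := decide_eq_false (fun h => h1 h.symm)
        simp [this]
      · rw [if_neg h2] at hz
        have e1 : decide (k = z) = false := decide_eq_false (fun h => h1 h.symm)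
        have e2 : decide (i = z) = false := decide_eq_false (fun h => h2 h.symm)
        rw [hz, es_mul_self, one_mul]
        simp [e1, e2]
  · rw [if_neg h, mul_zero, mul_zero, mul_zero]

theorem hl_rev : ∀ (b : Bool) (a c a' c' : Fin 3),
    hl b a.rev c.rev a'.rev c'.rev = hl b a c a' c' := by decide

theorem fl_upd2 (σ : Cfg L) (j k : Fin L) (a c : Fin 3) :
    fl (upd2 σ j k a c) = upd2 (fl σ) j k a.rev c.rev := by
  funext i
  unfold fl upd2
  by_cases h1 : i = k
  · subst h1; simp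
  · rw [Function.update_of_ne h1, Function.update_of_ne h1]
    by_cases h2 : i = j
    · subst h2; simp
    · rw [Function.update_of_ne h2, Function.update_of_ne h2]

theorem Hb_fl (b : Bond L) (σ τ : Cfg L) : Hb b (fl σ) (fl τ) = Hb b σ τ := by
  simp only [Hb, Matrix.of_apply]
  rw [← Equiv.sum_comp Fin.revPerm]
  refine Finset.sum_congr rfl fun a _ => ?_
  rw [← Equiv.sum_comp Fin.revPerm]
  refine Finset.sum_congr rfl fun c _ => ?_
  simp only [Fin.revPerm_apply]
  have h1 : (fl τ = upd2 (fl σ) b.j b.k a.rev c.rev) ↔ (τ = upd2 σ b.j b.k a c) := by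
    rw [← fl_upd2]
    exact (flE (L := L)).injective.eq_iff
  simp only [h1]
  rw [show (fl σ) b.j = (σ b.j).rev from rfl, show (fl σ) b.k = (σ b.k).rev from rfl, hl_rev]

theorem hl_sum : ∀ (b : Bool) (a c a' c' : Fin 3), hl b a c a' c' ≠ 0 →
    (a' : ℕ) + c' = a + c := by decide

theorem dsum_update (σ : Cfg L) (j : Fin L) (a : Fin 3) :
    dsum (Function.update σ j a) + (σ j : ℕ) = dsum σ + (a : ℕ) := by
  unfold dsum
  rw [← Finset.add_sum_erase _ _ (Finset.mem_univ j),
    ← Finset.add_sum_erase (a := j) _ _ (Finset.mem_univ j)]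
  rw [Function.update_self]
  have : ∑ x ∈ Finset.univ.erase j, ((Function.update σ j a x : Fin 3) : ℕ) =
      ∑ x ∈ Finset.univ.erase j, ((σ x : Fin 3) : ℕ) := by
    refine Finset.sum_congr rfl fun x hx => ?_
    rw [Function.update_of_ne (Finset.ne_of_mem_erase hx)]
  rw [this]
  ring

theorem dsum_upd2 (σ : Cfg L) {j k : Fin L} (hjk : j ≠ k) (a c : Fin 3) :
    dsum (upd2 σ j k a c) + (σ j : ℕ) + (σ k : ℕ) = dsum σ + (a : ℕ) + (c : ℕ) := by
  have h1 := dsum_update σ j a
  have h2 := dsum_update (Function.update σ j a) k c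
  rw [Function.update_of_ne hjk.symm] at h2
  unfold upd2
  omega

theorem Hb_label (b : Bond L) (hb : b.j ≠ b.k) (σ τ : Cfg L) (h : dsum σ ≠ dsum τ) :
    Hb b σ τ = 0 := by
  simp only [Hb, Matrix.of_apply]
  refine Finset.sum_eq_zero fun a _ => Finset.sum_eq_zero fun c _ => ?_
  by_cases h1 : τ = upd2 σ b.j b.k a c
  · rw [if_pos h1, mul_one]
    by_contra hne
    have h2 := hl_sum _ _ _ _ _ hne
    have h3 := dsum_upd2 σ hb a c
    rw [← h1] at h3
    omega
  · rw [if_neg h1, mul_zero]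

/-! ### the ring matrix -/

theorem ring_sum {n : ℕ} (tw : Bool) (σ τ : Cfg (n + 1)) :
    ((ringBonds (n + 1) tw).map Hb).sum σ τ =
      ∑ j : Fin (n + 1), Hb ⟨j, j + 1, tw && decide (j = Fin.last n)⟩ σ τ := by
  unfold ringBonds
  rw [List.map_map, ← Fin.sum_univ_def, Matrix.sum_apply]
  refine Finset.sum_congr rfl fun j _ => ?_
  have : decide (j.val + 1 = n + 1) = decide (j = Fin.last n) := by
    congr 1
    rw [Fin.ext_iff, Fin.val_last]
    simp
  simp only [Function.comp_def, finRotate_succ_apply, this]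

theorem Gmat_apply (κ c1 : ℕ) (bl : List (Bond L)) (σ τ : Cfg L) :
    Gmat κ c1 bl [] σ τ = ((c1 : ℤ) - κ * bl.length) * (if σ = τ then 1 else 0)
      - κ * (bl.map Hb).sum σ τ := by
  unfold Gmat
  have : (Matrix.diagonal (fun σ : Cfg L => (fD [] σ : ℤ))) = 0 := by
    ext σ τ
    simp [Matrix.diagonal_apply, fD]
  rw [this, sub_zero]
  simp only [Matrix.sub_apply, Matrix.smul_apply, smul_eq_mul, Matrix.one_apply]

/-- translation sign -/
def ts {n : ℕ} (tw : Bool) (σ : Cfg (n + 1)) : ℤ := if tw then es (σ 0) else 1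

theorem ts_mul_self {n : ℕ} (tw : Bool) (σ : Cfg (n + 1)) : ts tw σ * ts tw σ = 1 := by
  unfold ts; split_ifs
  · exact es_mul_self _
  · norm_num

theorem last_add_one_iff {n : ℕ} (j : Fin (n + 1)) : (j + 1 = 0) ↔ (j = Fin.last n) := by
  constructor
  · intro h
    have : j = -1 := eq_neg_of_add_eq_zero_left h
    rw [this]
    apply Fin.ext
    simp [Fin.neg_def, Fin.val_one']
    rcases n with _ | n
    · simp
    · simp
  · rintro rfl
    exact Fin.last_add_one n

theorem ring_sum_tr {n : ℕ} (hn : 1 ≤ n) (tw : Bool) (σ τ : Cfg (n + 1)) :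
    ts tw σ * ts tw τ * ((ringBonds (n + 1) tw).map Hb).sum (tr 1 σ) (tr 1 τ) =
      ((ringBonds (n + 1) tw).map Hb).sum σ τ := by
  rw [ring_sum, ring_sum]
  simp only [Hb_tr]
  have h1 : ∑ j : Fin (n + 1), Hb ⟨j + 1, j + 1 + 1, tw && decide (j = Fin.last n)⟩ σ τ =
      ∑ i : Fin (n + 1), Hb ⟨i, i + 1, tw && decide (i = 0)⟩ σ τ := by
    rw [← Equiv.sum_comp (Equiv.addRight (1 : Fin (n + 1)))
      (fun i => Hb ⟨i, i + 1, tw && decide (i = 0)⟩ σ τ)]
    refine Finset.sum_congr rfl fun j _ => ?_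
    simp only [Equiv.coe_addRight, last_add_one_iff]
  rw [h1, Finset.mul_sum]
  refine Finset.sum_congr rfl fun i _ => ?_
  have hne : i ≠ i + 1 := by
    intro h
    have h1 : (1 : Fin (n + 1)) = 0 := by
      have : i + 0 = i + 1 := by rw [add_zero]; exact h
      exact (add_left_cancel this).symm
    have h2 := congrArg Fin.val h1
    rw [Fin.val_one', Fin.val_zero, Nat.mod_eq_of_lt (by omega)] at h2
    omega
  cases tw
  · simp [ts]
  · simp only [ts, if_true, Bool.true_and]
    rw [Hb_sign i (i + 1) 0 hne]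
    congr 2
    simp only [last_add_one_iff]
    cases decide (i = 0) <;> cases decide (i = Fin.last n) <;> rfl

theorem G_tr {n : ℕ} (hn : 1 ≤ n) (tw : Bool) (c1 : ℕ) (σ τ : Cfg (n + 1)) :
    ts tw σ * ts tw τ * Gmat 1 c1 (ringBonds (n + 1) tw) [] (trE 1 σ) (trE 1 τ) =
      Gmat 1 c1 (ringBonds (n + 1) tw) [] σ τ := by
  show ts tw σ * ts tw τ * Gmat 1 c1 (ringBonds (n + 1) tw) [] (tr 1 σ) (tr 1 τ) = _
  rw [Gmat_apply, Gmat_apply, mul_sub, mul_left_comm _ ((1 : ℕ) : ℤ), ring_sum_tr hn]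
  congr 1
  by_cases h : σ = τ
  · subst h
    rw [ts_mul_self, one_mul]
    simp
  · rw [if_neg (fun h' => h (tr_injective 1 h')), if_neg h, mul_zero, mul_zero]

theorem G_fl {n : ℕ} (tw : Bool) (c1 : ℕ) (σ τ : Cfg (n + 1)) :
    (1 : ℤ) * 1 * Gmat 1 c1 (ringBonds (n + 1) tw) [] (flE σ) (flE τ) =
      Gmat 1 c1 (ringBonds (n + 1) tw) [] σ τ := by
  show (1 : ℤ) * 1 * Gmat 1 c1 (ringBonds (n + 1) tw) [] (fl σ) (fl τ) = _
  rw [Gmat_apply, Gmat_apply, one_mul, one_mul]
  congr 1
  · have : (fl σ = fl τ) ↔ σ = τ := (flE (L := n + 1)).injective.eq_iff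
    simp only [this]
  · rw [ring_sum, ring_sum]
    simp only [Hb_fl]

/-! ### the invariant sums -/

section inv
variable {n : ℕ} (tw : Bool) (c1 ρ : ℕ) (us : List ℕ)

/-- the polynomial of the ring matrix -/
def Qm (n : ℕ) (tw : Bool) (c1 ρ : ℕ) (us : List ℕ) : Matrix (Cfg (n + 1)) (Cfg (n + 1)) ℤ :=
  clv (Gmat 1 c1 (ringBonds (n + 1) tw) []) ρ us

theorem Qm_tr_one (hn : 1 ≤ n) (σ τ : Cfg (n + 1)) :
    ts tw σ * ts tw τ * Qm n tw c1 ρ us (tr 1 σ) (tr 1 τ) = Qm n tw c1 ρ us σ τ :=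
  clv_conj (trE 1) (ts tw) (ts_mul_self tw) _ (G_tr hn tw c1) ρ us σ τ

theorem Qm_fl (σ τ : Cfg (n + 1)) :
    Qm n tw c1 ρ us (fl σ) (fl τ) = Qm n tw c1 ρ us σ τ := by
  have := clv_conj (flE (L := n + 1)) (fun _ => 1) (fun _ => by norm_num) _
    (G_fl tw c1) ρ us σ τ
  rw [one_mul, one_mul] at this
  exact this

theorem inv_of_one {f : Cfg (n + 1) → ℤ} (h : ∀ σ, f (tr 1 σ) = f σ) (k : Fin (n + 1))
    (σ : Cfg (n + 1)) : f (tr k σ) = f σ := by
  induction k using Fin.induction with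
  | zero => rw [tr_zero]
  | succ i ih =>
    have : i.succ = 1 + i.castSucc := (Fin.coeSucc_eq_succ (a := i)).symm.trans (add_comm _ _)
    rw [this, ← tr_tr, h, ih]

theorem Qm_diag_tr (hn : 1 ≤ n) (k : Fin (n + 1)) (σ : Cfg (n + 1)) :
    Qm n tw c1 ρ us (tr k σ) (tr k σ) = Qm n tw c1 ρ us σ σ := by
  refine inv_of_one (f := fun σ => Qm n tw c1 ρ us σ σ) (fun σ => ?_) k σ
  have := Qm_tr_one tw c1 ρ us hn σ σ
  rw [ts_mul_self, one_mul] at this
  exact this

theorem fl_tr (k : Fin (n + 1)) (σ : Cfg (n + 1)) : fl (tr k σ) = tr k (fl σ) := rfl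

theorem ts_fl (σ : Cfg (n + 1)) : ts tw (fl σ) = ts tw σ := by
  unfold ts fl
  have : ∀ x : Fin 3, es x.rev = es x := by decide
  rw [this]

theorem Qm_flip_tr (hn : 1 ≤ n) (k : Fin (n + 1)) (σ : Cfg (n + 1)) :
    Qm n tw c1 ρ us (fl (tr k σ)) (tr k σ) = Qm n tw c1 ρ us (fl σ) σ := by
  refine inv_of_one (f := fun σ => Qm n tw c1 ρ us (fl σ) σ) (fun σ => ?_) k σ
  have := Qm_tr_one tw c1 ρ us hn (fl σ) σ
  rw [ts_fl, ts_mul_self, one_mul] at this
  exact this

theorem Qm_flip_fl (σ : Cfg (n + 1)) :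
    Qm n tw c1 ρ us (fl (fl σ)) (fl σ) = Qm n tw c1 ρ us (fl σ) σ :=
  Qm_fl tw c1 ρ us (fl σ) σ

theorem Qm_label (hn : 1 ≤ n) (σ τ : Cfg (n + 1)) (h : dsum σ ≠ dsum τ) :
    Qm n tw c1 ρ us σ τ = 0 := by
  refine clv_zero_of_label _ (fun σ => (dsum σ : ℤ)) ?_ ρ us σ τ (by exact_mod_cast h)
  intro a b hab
  have hab' : dsum a ≠ dsum b := by exact_mod_cast hab
  rw [Gmat_apply]
  have h1 : a ≠ b := fun h => hab' (by rw [h])
  rw [if_neg h1, mul_zero]
  have h2 : ((ringBonds (n + 1) tw).map Hb).sum a b = 0 := by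
    rw [ring_sum]
    refine Finset.sum_eq_zero fun j _ => Hb_label _ ?_ a b hab'
    show j ≠ j + 1
    intro h
    have h1 : (1 : Fin (n + 1)) = 0 := by
      have : j + 0 = j + 1 := by rw [add_zero]; exact h
      exact (add_left_cancel this).symm
    have h2 := congrArg Fin.val h1
    rw [Fin.val_one', Fin.val_zero, Nat.mod_eq_of_lt (by omega)] at h2
    omega
  rw [h2]
  simp

/-- global sign of the π-rotation about z -/
def sg (σ : Cfg L) : ℤ := (-1) ^ (dsum σ)

theorem sg_tr [NeZero L] (k : Fin L) (σ : Cfg L) : sg (tr k σ) = sg σ := by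
  unfold sg; rw [dsum_tr]

theorem sg_fl (σ : Cfg L) : sg (fl σ) = sg σ := by
  unfold sg
  have h := dsum_fl σ
  have h2 : ((-1 : ℤ)) ^ (dsum (fl σ) + dsum σ) = 1 := by
    rw [h, pow_mul]; simp
  rw [pow_add] at h2
  rcases neg_one_pow_eq_or ℤ (dsum (fl σ)) with h3 | h3 <;>
    rcases neg_one_pow_eq_or ℤ (dsum σ) with h4 | h4 <;> rw [h3, h4] at h2 ⊢ <;>
    norm_num at h2

end inv

end

end Crest.Agent.R347.Num
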