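import Crest.Agent.R347.NumSpec

/-! Correctness of the engine: the matrix recursion. -/

set_option autoImplicit false

namespace Crest.Agent.R347.Num

open Matrix

noncomputable section

structure Bond (L : ℕ) where
  j : Fin L
  k : Fin L
  tw : Bool

def Bond.toBd {L : ℕ} (b : Bond L) : Bd := ⟨2 * b.j, 2 * b.k, 4 ^ (b.j : ℕ), 4 ^ (b.k : ℕ), b.tw⟩

structure Fld (L : ℕ) where
  j : Fin L
  t0 : ℕ
  t1 : ℕ
  t2 : ℕ

def Fld.toFd {L : ℕ} (b : Fld L) : Fd := ⟨2 * b.j, b.t0, b.t1, b.t2⟩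

/-- bond matrix -/
def Hb {L : ℕ} (b : Bond L) : Matrix (Cfg L) (Cfg L) ℤ :=
  Matrix.of fun σ τ => ∑ a' : Fin 3, ∑ c' : Fin 3,
    hl b.tw (σ b.j) (σ b.k) a' c' * (if τ = upd2 σ b.j b.k a' c' then 1 else 0)

/-- field diagonal -/
def fD {L : ℕ} (fl : List (Fld L)) (σ : Cfg L) : ℕ :=
  (fl.map fun b => tbl b.t0 b.t1 b.t2 (σ b.j)).sum

/-- the matrix of the recursion -/
def Gmat {L : ℕ} (κ c1 : ℕ) (bl : List (Bond L)) (fl : List (Fld L)) :
    Matrix (Cfg L) (Cfg L) ℤ :=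
  ((c1 : ℤ) - κ * bl.length) • (1 : Matrix (Cfg L) (Cfg L) ℤ)
    - Matrix.diagonal (fun σ => (fD fl σ : ℤ)) - (κ : ℤ) • (bl.map Hb).sum

theorem sum_Hb_mul {L : ℕ} {R : Type*} [CommRing R] (b : Bond L) (σ : Cfg L) (v : Cfg L → R) :
    ∑ τ, ((Hb b σ τ : ℤ) : R) * v τ =
      ∑ a' : Fin 3, ∑ c' : Fin 3, ((hl b.tw (σ b.j) (σ b.k) a' c' : ℤ) : R) *
        v (upd2 σ b.j b.k a' c') := by
  simp only [Hb, Matrix.of_apply, Int.cast_sum, Int.cast_mul, Finset.sum_mul]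
  rw [Finset.sum_comm]
  refine Finset.sum_congr rfl fun a' _ => ?_
  rw [Finset.sum_comm]
  refine Finset.sum_congr rfl fun c' _ => ?_
  rw [Finset.sum_eq_single (upd2 σ b.j b.k a' c')]
  · simp
  · intro τ _ h
    simp [h]
  · simp

theorem upd_minus {L : ℕ} (σ : Cfg L) {j k : Fin L} (hjk : j ≠ k) (a c : Fin 3) :
    code (upd2 σ j k a c) = code σ + (a : ℕ) * 4 ^ (j : ℕ) + (c : ℕ) * 4 ^ (k : ℕ)
      - (σ j : ℕ) * 4 ^ (j : ℕ) - (σ k : ℕ) * 4 ^ (k : ℕ) := by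
  have := code_upd2 σ hjk a c
  omega

theorem diagv_eq (a c : Fin 3) : ((diagv a c : ℕ) : ℤ) = 1 + (1 - (a : ℤ)) * (1 - (c : ℤ)) := by
  fin_cases a <;> fin_cases c <;> rfl

theorem aux1 (C p1 p2 m y : ℕ) (h : p1 ≤ C) :
    C + m * p1 + (y + 1) * p2 - (m + 1) * p1 - y * p2 = C - p1 + p2 := by
  rw [Nat.add_mul, Nat.add_mul, one_mul, one_mul]
  generalize m * p1 = A
  generalize y * p2 = B
  omega

theorem aux2 (C p1 p2 m y : ℕ) :
    C + (y + 1) * p1 + m * p2 - y * p1 - (m + 1) * p2 = C + p1 - p2 := by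
  rw [Nat.add_mul, Nat.add_mul, one_mul, one_mul]
  generalize m * p2 = A
  generalize y * p1 = B
  omega

theorem bond_value {L N : ℕ} (b : Bond L) (hb : b.j ≠ b.k) (σ : Cfg L) (f : ℕ → ℕ) :
    ∑ τ, ((Hb b σ τ : ℤ) : ZMod N) * (f (code τ) : ZMod N) =
      (((diagv (σ b.j) (σ b.k) : ℕ) : ZMod N) - 1) * f (code σ) + flv N (code σ) b.toBd f := by
  rw [sum_Hb_mul]
  set p1 := 4 ^ (b.j : ℕ) with hp1
  set p2 := 4 ^ (b.k : ℕ) with hp2
  have h1 : ∀ a' c' : Fin 3, (f (code (upd2 σ b.j b.k a' c')) : ZMod N) =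
      (fun x y : ℕ => (f (code σ + x * p1 + y * p2 - (σ b.j : ℕ) * p1 - (σ b.k : ℕ) * p2) :
        ZMod N)) a' c' := by
    intro a' c'
    rw [upd_minus σ hb]
  simp only [h1]
  rw [sum_hl b.tw (σ b.j) (σ b.k) (fun x y : ℕ => (f (code σ + x * p1 + y * p2
    - (σ b.j : ℕ) * p1 - (σ b.k : ℕ) * p2) : ZMod N))]
  have e0 : code σ + (σ b.j : ℕ) * p1 + (σ b.k : ℕ) * p2 - (σ b.j : ℕ) * p1
    - (σ b.k : ℕ) * p2 = code σ := by omega
  have ed := diagv_eq (σ b.j) (σ b.k)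
  have ed' : ((diagv (σ b.j) (σ b.k) : ℕ) : ZMod N) =
      1 + (1 - (((σ b.j : ℕ)) : ZMod N)) * (1 - (((σ b.k : ℕ)) : ZMod N)) := by
    have := congrArg (Int.cast : ℤ → ZMod N) ed
    push_cast at this
    exact this
  unfold flv
  have d1 : dg (code σ) b.toBd.s1 = (σ b.j : ℕ) := dig_eq σ b.j
  have d2 : dg (code σ) b.toBd.s2 = (σ b.k : ℕ) := dig_eq σ b.k
  rw [d1, d2, ed']
  show _ = (1 + (1 - (((σ b.j : ℕ)) : ZMod N)) * (1 - (((σ b.k : ℕ)) : ZMod N)) - 1)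
    * (f (code σ) : ZMod N) + (if b.tw then -1 else 1) *
    ((if 1 ≤ (σ b.j : ℕ) ∧ (σ b.k : ℕ) ≤ 1 then (f (code σ - p1 + p2) : ZMod N) else 0) +
     (if 1 ≤ (σ b.k : ℕ) ∧ (σ b.j : ℕ) ≤ 1 then (f (code σ + p1 - p2) : ZMod N) else 0))
  have c1 : (if 1 ≤ (σ b.j : ℕ) ∧ (σ b.k : ℕ) ≤ 1 then
      (f (code σ + ((σ b.j : ℕ) - 1) * p1 + ((σ b.k : ℕ) + 1) * p2 - (σ b.j : ℕ) * p1
        - (σ b.k : ℕ) * p2) : ZMod N) else 0) =
      (if 1 ≤ (σ b.j : ℕ) ∧ (σ b.k : ℕ) ≤ 1 then (f (code σ - p1 + p2) : ZMod N) else 0) := by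
    split_ifs with h
    · have hle := pow_le_code σ b.j h.1
      rw [← hp1] at hle
      have e : code σ + ((σ b.j : ℕ) - 1) * p1 + ((σ b.k : ℕ) + 1) * p2 - (σ b.j : ℕ) * p1
        - (σ b.k : ℕ) * p2 = code σ - p1 + p2 := by
        obtain ⟨m, hm⟩ : ∃ m, (σ b.j : ℕ) = m + 1 := ⟨(σ b.j : ℕ) - 1, by omega⟩
        rw [hm, Nat.add_sub_cancel]
        exact aux1 _ _ _ _ _ hle
      rw [e]
    · rfl
  have c2 : (if 1 ≤ (σ b.k : ℕ) ∧ (σ b.j : ℕ) ≤ 1 then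
      (f (code σ + ((σ b.j : ℕ) + 1) * p1 + ((σ b.k : ℕ) - 1) * p2 - (σ b.j : ℕ) * p1
        - (σ b.k : ℕ) * p2) : ZMod N) else 0) =
      (if 1 ≤ (σ b.k : ℕ) ∧ (σ b.j : ℕ) ≤ 1 then (f (code σ + p1 - p2) : ZMod N) else 0) := by
    split_ifs with h
    · have hle := pow_le_code σ b.k h.1
      rw [← hp2] at hle
      have e : code σ + ((σ b.j : ℕ) + 1) * p1 + ((σ b.k : ℕ) - 1) * p2 - (σ b.j : ℕ) * p1
        - (σ b.k : ℕ) * p2 = code σ + p1 - p2 := by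
        obtain ⟨m, hm⟩ : ∃ m, (σ b.k : ℕ) = m + 1 := ⟨(σ b.k : ℕ) - 1, by omega⟩
        rw [hm, Nat.add_sub_cancel]
        exact aux2 _ _ _ _ _
      rw [e]
    · rfl
  simp only [c1, c2, e0]
  ring

theorem row_matrix {L : ℕ} (κ ρ c1 Cn K : ℕ) (bl : List (Bond L)) (fl : List (Fld L))
    (hbl : ∀ b ∈ bl, b.j ≠ b.k) (E : ℕ → ℕ) (σ : Cfg L)
    (f1 f2 : ℕ → ℕ) (u : ℕ) (h1 : ∀ x, f1 x < 2 ^ K) (h2 : ∀ x, f2 x < 2 ^ K)
    (hC : κ * (2 * bl.length) + (2 * κ * bl.length + (fl.map fun b => b.t0 + b.t1 + b.t2).sum)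
      + ρ ≤ Cn) :
    (((rowW κ ρ c1 (2 ^ K) (Cn * 2 ^ K) (2 ^ K - 1) (bl.map Bond.toBd) (fl.map Fld.toFd) E
      (code σ)).run f1 f2 u : ℕ) : ZMod (2 ^ K)) =
      u * E (code σ) + ∑ τ, ((Gmat κ c1 bl fl σ τ : ℤ) : ZMod (2 ^ K)) * f1 (code τ)
        - ρ * f2 (code σ) := by
  rw [rowW_cast κ ρ c1 Cn K _ _ E (code σ) f1 f2 u h1 h2 (by
    simpa [List.map_map, Function.comp_def, Fld.toFd] using hC)]
  have hf : fldD (code σ) (fl.map Fld.toFd) = fD fl σ := by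
    unfold fldD fD
    rw [List.map_map]
    refine congrArg List.sum (List.map_congr_left fun b _ => ?_)
    show tbl b.t0 b.t1 b.t2 (dg (code σ) (2 * b.j)) = _
    rw [show dg (code σ) (2 * b.j) = (σ b.j : ℕ) from dig_eq σ b.j]
  have hD : adjD κ (code σ) (bl.map Bond.toBd) =
      κ * (bl.map fun b => diagv (σ b.j) (σ b.k)).sum := by
    unfold adjD
    rw [List.map_map, ← List.sum_map_mul_left]
    refine congrArg List.sum (List.map_congr_left fun b _ => ?_)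
    show κ * diagv (dg (code σ) (2 * b.j)) (dg (code σ) (2 * b.k)) = _
    rw [show dg (code σ) (2 * b.j) = (σ b.j : ℕ) from dig_eq σ b.j,
      show dg (code σ) (2 * b.k) = (σ b.k : ℕ) from dig_eq σ b.k]
  rw [hf, hD]
  have key : ∑ τ, (((bl.map Hb).sum σ τ : ℤ) : ZMod (2 ^ K)) * (f1 (code τ) : ZMod (2 ^ K)) =
      (((bl.map fun b => diagv (σ b.j) (σ b.k)).sum : ℕ) : ZMod (2 ^ K)) * f1 (code σ)
        - bl.length * f1 (code σ)
        + (bl.map fun b => flv (2 ^ K) (code σ) b.toBd f1).sum := by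
    clear hC hf hD
    induction bl with
    | nil => simp
    | cons b bl ih =>
      have ih' := ih (fun b hb => hbl b (List.mem_cons_of_mem _ hb))
      simp only [List.map_cons, List.sum_cons, Matrix.add_apply, Int.cast_add, add_mul,
        Finset.sum_add_distrib, List.length_cons, Nat.cast_add, Nat.cast_one]
      rw [ih', bond_value b (hbl b List.mem_cons_self)]
      ring
  have key2 : ∑ τ, ((Gmat κ c1 bl fl σ τ : ℤ) : ZMod (2 ^ K)) * (f1 (code τ) : ZMod (2 ^ K)) =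
      ((c1 : ZMod (2 ^ K)) - κ * bl.length) * f1 (code σ) - (fD fl σ : ZMod (2 ^ K)) * f1 (code σ)
      - κ * ∑ τ, (((bl.map Hb).sum σ τ : ℤ) : ZMod (2 ^ K)) * (f1 (code τ) : ZMod (2 ^ K)) := by
    unfold Gmat
    simp only [Matrix.sub_apply, Matrix.smul_apply, smul_eq_mul, Int.cast_sub, Int.cast_mul,
      sub_mul, Finset.sum_sub_distrib, Matrix.one_apply, Matrix.diagonal_apply]
    rw [Finset.mul_sum]
    congr 1
    · congr 1
      · rw [← Finset.sum_sub_distrib, Finset.sum_eq_single σ]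
        · simp
        · intro τ _ h
          simp [Ne.symm h]
        · simp
      · rw [Finset.sum_eq_single σ]
        · simp
        · intro τ _ h
          simp [Ne.symm h]
        · simp
    · refine Finset.sum_congr rfl fun τ _ => ?_
      push_cast
      ring
  rw [key2, key, List.map_map]
  push_cast
  simp only [Function.comp_def]
  ring

/-! ### the Clenshaw recursion in a ring -/

/-- `P_{k} = u_k + x P_{k+1} - ρ P_{k+2}`, coefficients highest first. -/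
def cl {A : Type*} [Ring A] (x : A) (ρ : ℕ) : List ℕ → A → A → A × A
  | [], a, b => (a, b)
  | u :: us, a, b => cl x ρ us ((u : A) + x * a - (ρ : A) * b) a

theorem cl_map {A B : Type*} [Ring A] [Ring B] (φ : A →+* B) (x : A) (ρ : ℕ) (us : List ℕ)
    (a b : A) : (φ (cl x ρ us a b).1, φ (cl x ρ us a b).2) = cl (φ x) ρ us (φ a) (φ b) := by
  induction us generalizing a b with
  | nil => rfl
  | cons u us ih =>
    rw [cl, ih, cl]
    congr 1
    simp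

/-- the polynomial value -/
def clv {A : Type*} [Ring A] (x : A) (ρ : ℕ) (us : List ℕ) : A := (cl x ρ us 0 0).1

theorem clv_map {A B : Type*} [Ring A] [Ring B] (φ : A →+* B) (x : A) (ρ : ℕ) (us : List ℕ) :
    φ (clv x ρ us) = clv (φ x) ρ us := by
  unfold clv
  have := cl_map φ x ρ us 0 0
  rw [map_zero] at this
  exact (Prod.ext_iff.mp this).1

theorem go_spec {α : Type} {L : ℕ} (κ ρ c1 Cn K : ℕ) (bl : List (Bond L)) (fl : List (Fld L))
    (hbl : ∀ b ∈ bl, b.j ≠ b.k) (E : ℕ → ℕ)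
    (hC : κ * (2 * bl.length) + (2 * κ * bl.length + (fl.map fun b => b.t0 + b.t1 + b.t2).sum)
      + ρ ≤ Cn) (fin : (ℕ → ℕ) → α) (us : List ℕ) :
    ∃ f : ℕ → ℕ, go (rowW κ ρ c1 (2 ^ K) (Cn * 2 ^ K) (2 ^ K - 1) (bl.map Bond.toBd)
        (fl.map Fld.toFd) E) fin us (fun _ => 0) (fun _ => 0) = fin f ∧ (∀ x, f x < 2 ^ K) ∧
      ∀ σ : Cfg L, (f (code σ) : ZMod (2 ^ K)) =
        ∑ τ, ((clv (Gmat κ c1 bl fl) ρ us σ τ : ℤ) : ZMod (2 ^ K)) * E (code τ) := by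
  have main : ∀ (us : List ℕ) (f1 f2 : ℕ → ℕ) (P1 P2 : Matrix (Cfg L) (Cfg L) ℤ),
      (∀ x, f1 x < 2 ^ K) → (∀ x, f2 x < 2 ^ K) →
      (∀ σ : Cfg L, (f1 (code σ) : ZMod (2 ^ K)) =
        ∑ τ, ((P1 σ τ : ℤ) : ZMod (2 ^ K)) * E (code τ)) →
      (∀ σ : Cfg L, (f2 (code σ) : ZMod (2 ^ K)) =
        ∑ τ, ((P2 σ τ : ℤ) : ZMod (2 ^ K)) * E (code τ)) →
      ∃ f : ℕ → ℕ, go (rowW κ ρ c1 (2 ^ K) (Cn * 2 ^ K) (2 ^ K - 1) (bl.map Bond.toBd)
        (fl.map Fld.toFd) E) fin us f1 f2 = fin f ∧ (∀ x, f x < 2 ^ K) ∧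
      ∀ σ : Cfg L, (f (code σ) : ZMod (2 ^ K)) =
        ∑ τ, (((cl (Gmat κ c1 bl fl) ρ us P1 P2).1 σ τ : ℤ) : ZMod (2 ^ K)) * E (code τ) := by
    intro us
    induction us with
    | nil => exact fun f1 f2 P1 P2 h1 h2 h3 h4 => ⟨f1, rfl, h1, h3⟩
    | cons u us ih =>
      intro f1 f2 P1 P2 h1 h2 h3 h4
      have hstep : ∀ σ : Cfg L, (((fun i => W.run (rowW κ ρ c1 (2 ^ K) (Cn * 2 ^ K)
          (2 ^ K - 1) (bl.map Bond.toBd) (fl.map Fld.toFd) E i) f1 f2 u) (code σ) : ℕ) :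
            ZMod (2 ^ K)) =
          ∑ τ, ((((u : Matrix (Cfg L) (Cfg L) ℤ) + Gmat κ c1 bl fl * P1 -
            (ρ : Matrix (Cfg L) (Cfg L) ℤ) * P2) σ τ : ℤ) : ZMod (2 ^ K)) * E (code τ) := by
        intro σ
        show (((rowW κ ρ c1 (2 ^ K) (Cn * 2 ^ K) (2 ^ K - 1) (bl.map Bond.toBd)
          (fl.map Fld.toFd) E (code σ)).run f1 f2 u : ℕ) : ZMod (2 ^ K)) = _
        rw [row_matrix κ ρ c1 Cn K bl fl hbl E σ f1 f2 u h1 h2 hC]
        simp only [h3, h4]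
        have e1 : ∀ τ, (((u : Matrix (Cfg L) (Cfg L) ℤ) + Gmat κ c1 bl fl * P1 -
            (ρ : Matrix (Cfg L) (Cfg L) ℤ) * P2) σ τ) =
            (if σ = τ then (u : ℤ) else 0) + ∑ ν, Gmat κ c1 bl fl σ ν * P1 ν τ - ρ * P2 σ τ := by
          intro τ
          have hu : ((u : Matrix (Cfg L) (Cfg L) ℤ)) σ τ = if σ = τ then (u : ℤ) else 0 := by
            rw [← Matrix.diagonal_natCast, Matrix.diagonal_apply]
          have hρ : ((ρ : Matrix (Cfg L) (Cfg L) ℤ) * P2) σ τ = (ρ : ℤ) * P2 σ τ := by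
            rw [← Matrix.diagonal_natCast, Matrix.diagonal_mul]
          rw [Matrix.sub_apply, Matrix.add_apply, Matrix.mul_apply, hu, hρ]
        simp only [e1]
        push_cast
        simp only [sub_mul, add_mul, Finset.sum_sub_distrib, Finset.sum_add_distrib]
        congr 1
        · congr 1
          · rw [Finset.sum_eq_single σ]
            · simp
            · intro τ _ h
              simp [Ne.symm h]
            · simp
          · simp only [Finset.mul_sum, Finset.sum_mul]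
            rw [Finset.sum_comm]
            refine Finset.sum_congr rfl fun ν _ => Finset.sum_congr rfl fun τ _ => ?_
            ring
        · rw [Finset.mul_sum]
          refine Finset.sum_congr rfl fun τ _ => ?_
          ring
      obtain ⟨f, hf1, hf2, hf3⟩ := ih (fun i => W.run (rowW κ ρ c1 (2 ^ K) (Cn * 2 ^ K)
          (2 ^ K - 1) (bl.map Bond.toBd) (fl.map Fld.toFd) E i) f1 f2 u) f1
        ((u : Matrix (Cfg L) (Cfg L) ℤ) + Gmat κ c1 bl fl * P1 -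
            (ρ : Matrix (Cfg L) (Cfg L) ℤ) * P2) P1
        (fun x => rowW_lt _ _ _ _ _ _ _ _ _ _ _ _ _) h1 hstep h3
      exact ⟨f, hf1, hf2, hf3⟩
  refine main us (fun _ => 0) (fun _ => 0) 0 0 (fun _ => by positivity) (fun _ => by positivity)
    ?_ ?_
  · intro σ; simp
  · intro σ; simp

end

end Crest.Agent.R347.Num
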