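import Crest.Agent.R347.NumMat

/-! Extraction of the weighted diagonal sum from the packed result. -/

set_option autoImplicit false

namespace Crest.Agent.R347.Num

open Matrix

noncomputable section

/-! ### lists -/

theorem outS_eq (q : ℕ) (h f : ℕ → ℕ) (J : List (ℕ × ℕ)) (acc : ℕ) :
    outS q h f J acc = acc * q ^ J.length +
      ∑ i : Fin J.length, (J.get i).2 * f (h (J.get i).1) * q ^ (J.length - 1 - i) := by
  induction J generalizing acc with
  | nil => simp [outS]
  | cons j J ih =>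
    have e : outS q h f (j :: J) acc = outS q h f J (acc * q + j.2 * f (h j.1)) := rfl
    have e2 := Fin.sum_univ_succ (n := J.length) (fun i : Fin (J.length + 1) =>
      ((j :: J).get i).2 * f (h ((j :: J).get i).1) * q ^ (J.length + 1 - 1 - (i : ℕ)))
    have e3 : (j :: J).get (0 : Fin (J.length + 1)) = j := rfl
    have e4 : ∀ i : Fin J.length, (j :: J).get (Fin.succ i : Fin (J.length + 1)) = J.get i :=
      fun i => rfl
    simp only [e3, e4] at e2
    rw [e, ih]
    refine Eq.trans ?_ (congrArg (fun x => acc * q ^ (J.length + 1) + x) e2.symm)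
    simp only [Fin.val_zero, Fin.val_succ, Nat.add_sub_cancel, Nat.sub_zero]
    rw [add_mul, pow_succ]
    have : ∀ i : Fin J.length, J.length - 1 - (i : ℕ) = J.length - ((i : ℕ) + 1) := by
      intro i; omega
    simp only [this]
    ring

/-- the selector with explicit start value -/
def eselP (q : ℕ) (J : List (ℕ × ℕ)) (i : ℕ) : ℕ → ℕ :=
  List.rec (motive := fun _ => ℕ → ℕ) (fun _ => 0)
    (fun j _ ih p => Bool.rec (motive := fun _ => ℕ) (ih (Nat.mul p q)) p (Nat.beq i j.1)) J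

theorem eselP_notMem (q : ℕ) (J : List (ℕ × ℕ)) (i p : ℕ) (h : ∀ j ∈ J, i ≠ j.1) :
    eselP q J i p = 0 := by
  induction J generalizing p with
  | nil => rfl
  | cons j J ih =>
    have e : eselP q (j :: J) i p =
      Bool.rec (motive := fun _ => ℕ) (eselP q J i (p * q)) p (Nat.beq i j.1) := rfl
    have hb : Nat.beq i j.1 = false := by
      cases hh : Nat.beq i j.1 with
      | false => rfl
      | true => exact absurd (Nat.eq_of_beq_eq_true hh) (h j List.mem_cons_self)
    rw [e, hb]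
    exact ih _ (fun j' hj' => h j' (List.mem_cons_of_mem _ hj'))

theorem eselP_get (q : ℕ) (J : List (ℕ × ℕ)) (hJ : (J.map Prod.fst).Nodup)
    (a : Fin J.length) (p : ℕ) : eselP q J (J.get a).1 p = p * q ^ (a : ℕ) := by
  induction J generalizing p with
  | nil => exact a.elim0
  | cons j J ih =>
    rw [List.map_cons, List.nodup_cons] at hJ
    have e : ∀ i, eselP q (j :: J) i p =
      Bool.rec (motive := fun _ => ℕ) (eselP q J i (p * q)) p (Nat.beq i j.1) := fun _ => rfl
    rw [e]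
    refine Fin.cases (motive := fun a : Fin (J.length + 1) =>
      Bool.rec (motive := fun _ => ℕ) (eselP q J ((j :: J).get a).1 (p * q)) p
        (Nat.beq ((j :: J).get a).1 j.1) = p * q ^ (a : ℕ)) ?_ (fun a => ?_) a
    · have e3 : (j :: J).get (0 : Fin (J.length + 1)) = j := rfl
      rw [e3]
      have : Nat.beq j.1 j.1 = true := Nat.beq_refl _
      rw [this]
      simp
    · have e4 : (j :: J).get (Fin.succ a : Fin (J.length + 1)) = J.get a := rfl
      rw [e4]
      have hne : (J.get a).1 ≠ j.1 := by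
        intro h
        apply hJ.1
        rw [← h]
        exact List.mem_map_of_mem (List.get_mem J a)
      have hb : Nat.beq (J.get a).1 j.1 = false := by
        cases hh : Nat.beq (J.get a).1 j.1 with
        | false => rfl
        | true => exact absurd (Nat.eq_of_beq_eq_true hh) hne
      rw [hb]
      show eselP q J (J.get a).1 (p * q) = _
      rw [ih hJ.2, Fin.val_succ, pow_succ]
      ring

/-- the packed start vector as a sum over lanes -/
theorem sum_esel {L : ℕ} {R : Type*} [CommRing R] (q : ℕ) (J : List (Cfg L × ℕ))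
    (hJ : (J.map Prod.fst).Nodup) (v : Cfg L → R) :
    ∑ τ, v τ * ((esel q (J.map fun x => (code x.1, x.2)) (code τ) : ℕ) : R) =
      ∑ a : Fin J.length, v (J.get a).1 * (q : R) ^ (a : ℕ) := by
  set J' := J.map fun x => (code x.1, x.2) with hJ'
  have hJ'n : (J'.map Prod.fst).Nodup := by
    rw [hJ', List.map_map]
    have : (Prod.fst ∘ fun x : Cfg L × ℕ => (code x.1, x.2)) = code ∘ Prod.fst := rfl
    rw [this, ← List.map_map]
    exact hJ.map code_injective
  have hlen : J'.length = J.length := by rw [hJ', List.length_map]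
  have hesel : ∀ i, esel q J' i = eselP q J' i 1 := fun _ => rfl
  -- injectivity of the lane map
  have hinj : Function.Injective fun a : Fin J.length => (J.get a).1 := by
    intro a b hab
    have h1 := List.nodup_iff_injective_get.mp hJ
    have : (J.map Prod.fst).get (Fin.cast (by simp) a) =
        (J.map Prod.fst).get (Fin.cast (by simp) b) := by
      simpa using hab
    have h2 := h1 this
    exact Fin.ext (by simpa using congrArg Fin.val h2)
  have hget : ∀ a : Fin J.length, esel q J' (code (J.get a).1) = q ^ (a : ℕ) := by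
    intro a
    have h := eselP_get q J' hJ'n (Fin.cast hlen.symm a) 1
    rw [one_mul] at h
    have h3 : (J'.get (Fin.cast hlen.symm a)).1 = code (J.get a).1 := by
      simp [hJ']
    rw [hesel, ← h3, h]
    rfl
  have hzero : ∀ τ, τ ∉ Set.range (fun a : Fin J.length => (J.get a).1) →
      esel q J' (code τ) = 0 := by
    intro τ hτ
    rw [hesel]
    refine eselP_notMem q J' _ 1 fun j hj h => hτ ?_
    rw [hJ', List.mem_map] at hj
    obtain ⟨x, hx, rfl⟩ := hj
    have : τ = x.1 := code_injective h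
    obtain ⟨a, ha⟩ := List.get_of_mem hx
    exact ⟨a, by simp only [ha]; exact this.symm⟩
  rw [← Finset.sum_subset (Finset.subset_univ
    (Finset.univ.image fun a : Fin J.length => (J.get a).1))]
  · rw [Finset.sum_image (fun a _ b _ h => hinj h)]
    refine Finset.sum_congr rfl fun a _ => ?_
    rw [hget]
    push_cast
    rfl
  · intro τ _ hτ
    rw [hzero τ, Nat.cast_zero, mul_zero]
    intro ⟨a, ha⟩
    exact hτ (Finset.mem_image.mpr ⟨a, Finset.mem_univ _, ha⟩)

/-! ### arithmetic of the extraction -/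

/-- signed reading of a lane -/
def sgnd (w R : ℕ) : ℤ := if R < 2 ^ (w - 1) then (R : ℤ) else (R : ℤ) - 2 ^ w

theorem geom_le (w m : ℕ) (hw : 1 ≤ w) :
    2 ^ w * ∑ e ∈ Finset.range m, 2 ^ (w * e) ≤ 2 * 2 ^ (w * m) := by
  induction m with
  | zero => simp
  | succ m ih =>
    rw [Finset.sum_range_succ, mul_add]
    have h1 : 2 ^ w * 2 ^ (w * m) = 2 ^ (w * (m + 1)) := by rw [← pow_add]; congr 1; ring
    have h2 : 2 * 2 ^ (w * m) ≤ 2 ^ (w * (m + 1)) := by
      rw [← h1]
      refine Nat.mul_le_mul_right _ ?_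
      calc 2 = 2 ^ 1 := rfl
        _ ≤ 2 ^ w := Nat.pow_le_pow_right (by norm_num) hw
    omega

/-- purely arithmetic extraction lemma -/
theorem extract (w m : ℕ) (hw : 1 ≤ w) (hm : 1 ≤ m) (X : ℕ) (T HI LO : ℤ)
    (hX : X < 2 ^ (w * m))
    (hmod : ∃ z : ℤ, (X : ℤ) = T * 2 ^ (w * (m - 1)) + 2 ^ (w * m) * HI + LO + 2 ^ (w * m) * z)
    (hLO : |LO| < 2 ^ (w * (m - 1))) (hT : |T| < 2 ^ (w - 1)) :
    sgnd w (X / 2 ^ (w * (m - 1))) ≤ T ∧ T ≤ sgnd w (X / 2 ^ (w * (m - 1))) + 1 := by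
  obtain ⟨z, hz⟩ := hmod
  set P : ℤ := 2 ^ (w * (m - 1)) with hP
  have hPpos : 0 < P := by positivity
  have hK : (2 : ℤ) ^ (w * m) = P * 2 ^ w := by
    rw [hP, ← pow_add]
    congr 1
    obtain ⟨m', rfl⟩ : ∃ m', m = m' + 1 := ⟨m - 1, by omega⟩
    simp
    ring
  set R : ℕ := X / 2 ^ (w * (m - 1)) with hR
  have hRlt : (R : ℤ) < 2 ^ w := by
    have : R < 2 ^ w := by
      rw [hR]
      apply Nat.div_lt_of_lt_mul
      have h1 : 2 ^ (w * (m - 1)) * 2 ^ w = 2 ^ (w * m) := by
        rw [← pow_add]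
        congr 1
        obtain ⟨m', rfl⟩ : ∃ m', m = m' + 1 := ⟨m - 1, by omega⟩
        simp
        ring
      rw [h1]
      exact hX
    exact_mod_cast this
  have hRnn : (0 : ℤ) ≤ R := Int.natCast_nonneg _
  have hRdiv : (R : ℤ) = (X : ℤ) / P := by
    rw [hR, hP]
    push_cast
    rfl
  -- X = P * (T + 2^w (HI + z)) + LO
  have hX2 : (X : ℤ) = P * (T + 2 ^ w * (HI + z)) + LO := by
    rw [hz, hK]
    ring
  have hcase : (R : ℤ) = T + 2 ^ w * (HI + z) ∨ (R : ℤ) = T + 2 ^ w * (HI + z) - 1 := by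
    rw [abs_lt] at hLO
    rcases le_or_gt 0 LO with h | h
    · left
      rw [hRdiv, hX2]
      rw [add_comm, Int.add_mul_ediv_left _ _ hPpos.ne', Int.ediv_eq_zero_of_lt h hLO.2, zero_add]
    · right
      have e : P * (T + 2 ^ w * (HI + z)) + LO = (LO + P) + P * (T + 2 ^ w * (HI + z) - 1) := by
        ring
      rw [hRdiv, hX2, e, Int.add_mul_ediv_left _ _ hPpos.ne',
        Int.ediv_eq_zero_of_lt (by linarith) (by linarith), zero_add]
  have hw2 : (2 : ℤ) ^ w = 2 * 2 ^ (w - 1) := by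
    obtain ⟨w', rfl⟩ : ∃ w', w = w' + 1 := ⟨w - 1, by omega⟩
    rw [pow_succ]
    simp
    ring
  have hV : (0 : ℤ) < 2 ^ (w - 1) := by positivity
  rw [abs_lt] at hT
  set V : ℤ := 2 ^ (w - 1) with hVdef
  set y : ℤ := HI + z with hy
  unfold sgnd
  have hcast : (R < 2 ^ (w - 1)) ↔ ((R : ℤ) < V) := by
    rw [hVdef]
    exact_mod_cast Iff.rfl
  have hTle : T ≤ V - 1 := by omega
  have hTge : -V + 1 ≤ T := by omega
  have h2V : 0 < 2 * V := by linarith
  by_cases hc : R < 2 ^ (w - 1)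
  · rw [if_pos hc]
    rw [hcast] at hc
    have hy0 : y = 0 := by
      rw [hw2] at hcase
      have h1 : -1 < y := by
        by_contra hcon
        push Not at hcon
        have : 2 * V * y ≤ 2 * V * (-1) := mul_le_mul_of_nonneg_left hcon h2V.le
        rcases hcase with h | h <;> linarith
      have h2 : y < 1 := by
        by_contra hcon
        push Not at hcon
        have : 2 * V * 1 ≤ 2 * V * y := mul_le_mul_of_nonneg_left hcon h2V.le
        rcases hcase with h | h <;> linarith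
      omega
    rw [hy0, mul_zero, add_zero] at hcase
    rcases hcase with h | h <;> constructor <;> linarith
  · rw [if_neg hc]
    rw [hcast] at hc
    push Not at hc
    have hy1 : y = 1 := by
      rw [hw2] at hcase hRlt
      have h1 : 0 < y := by
        by_contra hcon
        push Not at hcon
        have : 2 * V * y ≤ 2 * V * 0 := mul_le_mul_of_nonneg_left hcon h2V.le
        rcases hcase with h | h <;> linarith
      have h2 : y < 2 := by
        by_contra hcon
        push Not at hcon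
        have : 2 * V * 2 ≤ 2 * V * y := mul_le_mul_of_nonneg_left hcon h2V.le
        rcases hcase with h | h <;> linarith
      omega
    rw [hy1, mul_one] at hcase
    rcases hcase with h | h <;> constructor <;> linarith

theorem lane_term (w m : ℕ) (i j : Fin m) (x : ℤ) :
    x * 2 ^ (w * (j : ℕ)) * 2 ^ (w * (m - 1 - i)) =
      (if j = i then x * 2 ^ (w * (m - 1)) else 0) +
      2 ^ (w * m) * (if i < j then x * 2 ^ (w * (j - i - 1)) else 0) +
      (if j < i then x * 2 ^ (w * (j + (m - 1 - i))) else 0) := by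
  have hi := i.isLt
  have hj := j.isLt
  rcases lt_trichotomy i j with h | h | h
  · rw [if_neg h.ne', if_pos h, if_neg (not_lt.mpr h.le), zero_add, add_zero]
    have hv : (i : ℕ) < j := h
    have : w * (j : ℕ) + w * (m - 1 - i) = w * m + w * (j - i - 1) := by
      rw [← mul_add, ← mul_add]
      congr 1
      omega
    rw [mul_assoc, ← pow_add, this, pow_add]
    ring
  · subst h
    rw [if_pos rfl, if_neg (lt_irrefl _), if_neg (lt_irrefl _), mul_zero, add_zero, add_zero]
    have : w * (i : ℕ) + w * (m - 1 - i) = w * (m - 1) := by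
      rw [← mul_add]
      congr 1
      omega
    rw [mul_assoc, ← pow_add, this]
  · rw [if_neg h.ne, if_neg (not_lt.mpr h.le), if_pos h, mul_zero, zero_add, zero_add]
    rw [mul_assoc, ← pow_add, ← mul_add]

theorem lo_sum_le (w m : ℕ) (i : Fin m) :
    ∑ j : Fin m, (if j < i then 2 ^ (w * ((j : ℕ) + (m - 1 - i))) else 0) ≤
      ∑ e ∈ Finset.range (m - 1), 2 ^ (w * e) := by
  rw [← Finset.sum_filter]
  have hinj : Set.InjOn (fun j : Fin m => (j : ℕ) + (m - 1 - i))
      (Finset.univ.filter fun j : Fin m => j < i) := by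
    intro a _ b _ h
    exact Fin.ext (Nat.add_right_cancel h)
  rw [← Finset.sum_image (f := fun e => 2 ^ (w * e)) (g := fun j : Fin m => (j : ℕ) + (m - 1 - i))
    hinj]
  refine Finset.sum_le_sum_of_subset ?_
  intro e he
  rw [Finset.mem_image] at he
  obtain ⟨j, hj, rfl⟩ := he
  rw [Finset.mem_filter] at hj
  have h1 : (j : ℕ) < i := hj.2
  have h2 := i.isLt
  rw [Finset.mem_range]
  omega

/-- the double sum splits into the top lane, multiples of the modulus, and a small part -/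
theorem lane_split (w m : ℕ) (hw : 1 ≤ w) (wt : Fin m → ℕ) (a : Fin m → Fin m → ℤ) (Qb : ℕ)
    (ha : ∀ i j, |a i j| ≤ Qb) (hs : 2 * ((∑ i, wt i) * Qb) < 2 ^ w) :
    ∃ HI LO : ℤ, ∑ i : Fin m, (wt i : ℤ) * (∑ j : Fin m, a i j * 2 ^ (w * (j : ℕ))) *
        2 ^ (w * (m - 1 - i)) =
      (∑ i, (wt i : ℤ) * a i i) * 2 ^ (w * (m - 1)) + 2 ^ (w * m) * HI + LO ∧
      |LO| < 2 ^ (w * (m - 1)) ∧ |∑ i, (wt i : ℤ) * a i i| < 2 ^ (w - 1) := by
  refine ⟨∑ i, (wt i : ℤ) * ∑ j, (if i < j then a i j * 2 ^ (w * ((j : ℕ) - i - 1)) else 0),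
    ∑ i, (wt i : ℤ) * ∑ j, (if j < i then a i j * 2 ^ (w * ((j : ℕ) + (m - 1 - i))) else 0),
    ?_, ?_, ?_⟩
  · rw [Finset.sum_mul, Finset.mul_sum, ← Finset.sum_add_distrib, ← Finset.sum_add_distrib]
    refine Finset.sum_congr rfl fun i _ => ?_
    have h1 : (wt i : ℤ) * (∑ j : Fin m, a i j * 2 ^ (w * (j : ℕ))) * 2 ^ (w * (m - 1 - i)) =
        (wt i : ℤ) * ∑ j : Fin m, (a i j * 2 ^ (w * (j : ℕ)) * 2 ^ (w * (m - 1 - i))) := by
      rw [mul_assoc, Finset.sum_mul]
    rw [h1]
    simp only [lane_term]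
    rw [Finset.sum_add_distrib, Finset.sum_add_distrib, Finset.sum_ite_eq' Finset.univ i,
      if_pos (Finset.mem_univ i), ← Finset.mul_sum]
    ring
  · have hb : |∑ i, (wt i : ℤ) * ∑ j, (if j < i then a i j * 2 ^ (w * ((j : ℕ) + (m - 1 - i)))
        else 0)| ≤ ((∑ i, wt i) * Qb * ∑ e ∈ Finset.range (m - 1), 2 ^ (w * e) : ℕ) := by
      refine (Finset.abs_sum_le_sum_abs _ _).trans ?_
      have : ∀ i : Fin m, |(wt i : ℤ) * ∑ j, (if j < i then
          a i j * 2 ^ (w * ((j : ℕ) + (m - 1 - i))) else 0)| ≤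
          ((wt i * Qb * ∑ e ∈ Finset.range (m - 1), 2 ^ (w * e) : ℕ) : ℤ) := by
        intro i
        rw [abs_mul, Nat.abs_cast]
        have h2 : |∑ j, (if j < i then a i j * 2 ^ (w * ((j : ℕ) + (m - 1 - i))) else 0)| ≤
            ((Qb * ∑ e ∈ Finset.range (m - 1), 2 ^ (w * e) : ℕ) : ℤ) := by
          refine (Finset.abs_sum_le_sum_abs _ _).trans ?_
          have h3 : ∑ j, |(if j < i then a i j * 2 ^ (w * ((j : ℕ) + (m - 1 - i))) else 0)| ≤
              ((Qb * ∑ j : Fin m, (if j < i then 2 ^ (w * ((j : ℕ) + (m - 1 - i))) else 0) : ℕ) :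
                ℤ) := by
            rw [Finset.mul_sum]
            push_cast
            refine Finset.sum_le_sum fun j _ => ?_
            split_ifs with h
            · rw [abs_mul, abs_of_pos (by positivity : (0 : ℤ) < 2 ^ (w * ((j : ℕ) + (m - 1 - i))))]
              exact mul_le_mul_of_nonneg_right (ha i j) (by positivity)
            · simp
          refine h3.trans ?_
          exact_mod_cast Nat.mul_le_mul_left _ (lo_sum_le w m i)
        calc (wt i : ℤ) * _ ≤ (wt i : ℤ) * ((Qb * ∑ e ∈ Finset.range (m - 1), 2 ^ (w * e) : ℕ) : ℤ) :=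
              mul_le_mul_of_nonneg_left h2 (Int.natCast_nonneg _)
          _ = _ := by push_cast; ring
      calc _ ≤ ∑ i : Fin m, ((wt i * Qb * ∑ e ∈ Finset.range (m - 1), 2 ^ (w * e) : ℕ) : ℤ) :=
            Finset.sum_le_sum fun i _ => this i
        _ = _ := by
          rw [Finset.sum_mul, Finset.sum_mul]
          push_cast
          rfl
    refine lt_of_le_of_lt hb ?_
    have h4 := geom_le w (m - 1) hw
    have h5 : (∑ i, wt i) * Qb * ∑ e ∈ Finset.range (m - 1), 2 ^ (w * e) < 2 ^ (w * (m - 1)) := by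
      have hP : 0 < 2 ^ (w * (m - 1)) := by positivity
      have h6 : 2 ^ w * ((∑ i, wt i) * Qb * ∑ e ∈ Finset.range (m - 1), 2 ^ (w * e)) <
          2 ^ w * 2 ^ (w * (m - 1)) := by
        calc 2 ^ w * ((∑ i, wt i) * Qb * ∑ e ∈ Finset.range (m - 1), 2 ^ (w * e)) =
            ((∑ i, wt i) * Qb) * (2 ^ w * ∑ e ∈ Finset.range (m - 1), 2 ^ (w * e)) := by ring
          _ ≤ ((∑ i, wt i) * Qb) * (2 * 2 ^ (w * (m - 1))) := Nat.mul_le_mul_left _ h4
          _ = (2 * ((∑ i, wt i) * Qb)) * 2 ^ (w * (m - 1)) := by ring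
          _ < 2 ^ w * 2 ^ (w * (m - 1)) := Nat.mul_lt_mul_of_pos_right hs hP
      exact Nat.lt_of_mul_lt_mul_left h6
    exact_mod_cast h5
  · have hb : |∑ i, (wt i : ℤ) * a i i| ≤ (((∑ i, wt i) * Qb : ℕ) : ℤ) := by
      refine (Finset.abs_sum_le_sum_abs _ _).trans ?_
      rw [Finset.sum_mul]
      push_cast
      refine Finset.sum_le_sum fun i _ => ?_
      rw [abs_mul, Nat.abs_cast]
      exact mul_le_mul_of_nonneg_left (ha i i) (Int.natCast_nonneg _)
    refine lt_of_le_of_lt hb ?_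
    have hw2 : 2 ^ w = 2 * 2 ^ (w - 1) := by
      obtain ⟨w', rfl⟩ : ∃ w', w = w' + 1 := ⟨w - 1, by omega⟩
      rw [pow_succ]
      simp
      ring
    have : (∑ i, wt i) * Qb < 2 ^ (w - 1) := by omega
    exact_mod_cast this

/-- the weighted sum of matrix elements read off by a run -/
def wdiag {L : ℕ} (q : Matrix (Cfg L) (Cfg L) ℤ) (h : Cfg L → Cfg L) (J : List (Cfg L × ℕ)) : ℤ :=
  (J.map fun x => (x.2 : ℤ) * q (h x.1) x.1).sum

theorem out_spec {L : ℕ} (w : ℕ) (hw : 1 ≤ w) (J : List (Cfg L × ℕ)) (hJ0 : J ≠ [])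
    (hJ : (J.map Prod.fst).Nodup) (Q : Matrix (Cfg L) (Cfg L) ℤ) (Qb : ℕ)
    (hQ : ∀ σ τ, |Q σ τ| ≤ Qb) (hs : 2 * ((J.map Prod.snd).sum * Qb) < 2 ^ w)
    (h : Cfg L → Cfg L) (h' : ℕ → ℕ) (hh : ∀ σ, h' (code σ) = code (h σ)) (f : ℕ → ℕ)
    (hf : ∀ σ : Cfg L, (f (code σ) : ZMod (2 ^ (w * J.length))) =
        ∑ τ, ((Q σ τ : ℤ) : ZMod (2 ^ (w * J.length))) *
          (esel (2 ^ w) (J.map fun x => (code x.1, x.2)) (code τ) : ℕ)) (K : ℕ) :
    sgnd w (outT (2 ^ w) K (w * (J.length - 1)) (2 ^ (w * J.length) - 1) h' f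
      (J.map fun x => (code x.1, x.2))) ≤ wdiag Q h J ∧
    wdiag Q h J ≤ sgnd w (outT (2 ^ w) K (w * (J.length - 1)) (2 ^ (w * J.length) - 1) h' f
      (J.map fun x => (code x.1, x.2))) + 1 := by
  set m := J.length with hm
  have hm1 : 1 ≤ m := by
    rw [hm]
    exact List.length_pos_iff.mpr hJ0
  set J' := J.map fun x => (code x.1, x.2) with hJ'
  have hlen : J'.length = m := by rw [hJ', List.length_map]
  -- the output as a natural number
  have hland : ∀ x : ℕ, Nat.land x (2 ^ (w * m) - 1) = x % 2 ^ (w * m) := fun x =>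
    Nat.and_two_pow_sub_one_eq_mod x (w * m)
  have hshift : ∀ x : ℕ, Nat.shiftRight x (w * (m - 1)) = x / 2 ^ (w * (m - 1)) := fun x =>
    Nat.shiftRight_eq_div_pow x (w * (m - 1))
  have hT : outT (2 ^ w) K (w * (m - 1)) (2 ^ (w * m) - 1) h' f J' =
      (outS (2 ^ w) h' f J' 0 % 2 ^ (w * m)) / 2 ^ (w * (m - 1)) := by
    unfold outT
    rw [hland, hshift]
  rw [hT]
  set S := outS (2 ^ w) h' f J' 0 with hS
  have hSsum : S = ∑ i : Fin m, (J.get i).2 * f (code (h (J.get i).1)) *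
      2 ^ (w * (m - 1 - i)) := by
    rw [hS, outS_eq, zero_mul, zero_add]
    have hbij : ∑ i : Fin J'.length, (J'.get i).2 * f (h' (J'.get i).1) *
        (2 ^ w) ^ (J'.length - 1 - (i : ℕ)) =
        ∑ i : Fin m, (J'.get (Fin.cast hlen.symm i)).2 *
          f (h' (J'.get (Fin.cast hlen.symm i)).1) * (2 ^ w) ^ (J'.length - 1 - (i : ℕ)) := by
      refine (Equiv.sum_comp (finCongr hlen.symm) (fun i : Fin J'.length =>
        (J'.get i).2 * f (h' (J'.get i).1) * (2 ^ w) ^ (J'.length - 1 - (i : ℕ)))).symm.trans ?_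
      rfl
    rw [hbij]
    refine Finset.sum_congr rfl fun i _ => ?_
    have e1 : J'.get (Fin.cast hlen.symm i) = (code (J.get i).1, (J.get i).2) := by
      simp [hJ']
    rw [e1, hlen, ← pow_mul]
    simp only [hh]
  -- wdiag as a sum
  have hwd : wdiag Q h J = ∑ i : Fin m, (((J.get i).2 : ℕ) : ℤ) * Q (h (J.get i).1) (J.get i).1 := by
    unfold wdiag
    rw [← List.sum_ofFn]
    congr 1
    apply List.ext_getElem
    · simp [hm]
    · intro n h1 h2
      simp
  have hwt : (J.map Prod.snd).sum = ∑ i : Fin m, (J.get i).2 := by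
    rw [← List.sum_ofFn]
    congr 1
    apply List.ext_getElem
    · simp [hm]
    · intro n h1 h2
      simp
  obtain ⟨HI, LO, h1, h2, h3⟩ := lane_split w m hw (fun i => (J.get i).2)
    (fun i j => Q (h (J.get i).1) (J.get j).1) Qb (fun i j => hQ _ _) (by rw [← hwt]; exact hs)
  rw [hwd]
  refine extract w m hw hm1 (S % 2 ^ (w * m)) _ HI LO (Nat.mod_lt _ (by positivity)) ?_ h2 h3
  rw [← h1]
  -- congruence
  have hcong : ((S % 2 ^ (w * m) : ℕ) : ZMod (2 ^ (w * m))) =
      ((∑ i : Fin m, (((J.get i).2 : ℕ) : ℤ) * (∑ j : Fin m, Q (h (J.get i).1) (J.get j).1 *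
        2 ^ (w * (j : ℕ))) * 2 ^ (w * (m - 1 - i)) : ℤ) : ZMod (2 ^ (w * m))) := by
    rw [ZMod.natCast_mod, hSsum]
    push_cast
    refine Finset.sum_congr rfl fun i _ => ?_
    rw [hf, sum_esel (2 ^ w) J hJ (fun τ => ((Q (h (J.get i).1) τ : ℤ) : ZMod (2 ^ (w * m))))]
    congr 2
    refine Finset.sum_congr rfl fun j _ => ?_
    push_cast
    rw [← pow_mul]
  have hz : (((S % 2 ^ (w * m) : ℕ) : ℤ) - (∑ i : Fin m, (((J.get i).2 : ℕ) : ℤ) *
      (∑ j : Fin m, Q (h (J.get i).1) (J.get j).1 *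
        2 ^ (w * (j : ℕ))) * 2 ^ (w * (m - 1 - i))) : ℤ) % ((2 ^ (w * m) : ℕ) : ℤ) = 0 := by
    have hz0 : ((((S % 2 ^ (w * m) : ℕ) : ℤ) - (∑ i : Fin m, (((J.get i).2 : ℕ) : ℤ) *
      (∑ j : Fin m, Q (h (J.get i).1) (J.get j).1 *
        2 ^ (w * (j : ℕ))) * 2 ^ (w * (m - 1 - i))) : ℤ) : ZMod (2 ^ (w * m))) = 0 := by
      rw [Int.cast_sub, ← hcong, Int.cast_natCast, sub_self]
    exact Int.emod_eq_zero_of_dvd ((ZMod.intCast_zmod_eq_zero_iff_dvd _ _).mp hz0)
  obtain ⟨z, hz'⟩ := Int.dvd_of_emod_eq_zero hz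
  refine ⟨z, ?_⟩
  push_cast at hz'
  push_cast
  linarith

end

end Crest.Agent.R347.Num
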