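import Crest.Agent.R347.DirectGen

/-! (E1) rotation by π about (x+z)/√2 exchanges the axes x and z. -/

set_option autoImplicit false

namespace Crest.Agent.R347.Num

open Matrix Crest.MathPhysics.SpinChain Crest.Agent.R347 Crest.Agent.R347.DirectGen

theorem swapXZ_rot' : swapXZ * rotC 3 * swapXZ = rotC 1 := by
  rw [← swapXZ_rot]
  calc swapXZ * (swapXZ * rotC 1 * swapXZ) * swapXZ
      = (swapXZ * swapXZ) * rotC 1 * (swapXZ * swapXZ) := by simp only [Matrix.mul_assoc]
    _ = rotC 1 := by rw [swapXZ_sq, Matrix.one_mul, Matrix.mul_one]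

/-- conjugation of one bond term. -/
theorem conj_bondc {ι : Type*} [Fintype ι] [DecidableEq ι] (c : Fin 3) (j k : ι) :
    piK (fun _ : ι => swapXZ) * (onSite (spinOp c) j * onSite (spinOp c) k) *
      piK (fun _ : ι => swapXZ) =
      onSite (spinOp (pXZ c)) j * onSite (spinOp (pXZ c)) k := by
  have hV := piK_sq (ι := ι) swapXZ_sq
  have hc : swapXZ * spinOp c * swapXZ = (![1, -1, 1] : Fin 3 → ℂ) c • spinOp (pXZ c) := by
    rw [swapXZ_conj c]
    congr 2
    fin_cases c <;> rfl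
  have hs : (![1, -1, 1] : Fin 3 → ℂ) c * (![1, -1, 1] : Fin 3 → ℂ) c = 1 := by
    fin_cases c <;> simp
  calc piK (fun _ : ι => swapXZ) * (onSite (spinOp c) j * onSite (spinOp c) k) *
        piK (fun _ : ι => swapXZ)
      = piK (fun _ : ι => swapXZ) * onSite (spinOp c) j *
        (piK (fun _ : ι => swapXZ) * piK (fun _ : ι => swapXZ)) * onSite (spinOp c) k *
          piK (fun _ : ι => swapXZ) := by rw [hV, Matrix.mul_one]; simp only [Matrix.mul_assoc]
    _ = (piK (fun _ : ι => swapXZ) * onSite (spinOp c) j * piK (fun _ : ι => swapXZ)) *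
        (piK (fun _ : ι => swapXZ) * onSite (spinOp c) k * piK (fun _ : ι => swapXZ)) := by
        simp only [Matrix.mul_assoc]
    _ = onSite (spinOp (pXZ c)) j * onSite (spinOp (pXZ c)) k := by
        rw [conj_onSite _ _ swapXZ_sq, conj_onSite _ _ swapXZ_sq, hc, onSite_smul, onSite_smul,
          Matrix.smul_mul, Matrix.mul_smul, smul_smul, hs, one_smul]

theorem eta_swap (c : Fin 3) : eta 1 c = eta 3 (pXZ c) := by
  fin_cases c <;> decide

theorem conj_ringTw (L : ℕ) :
    piK (fun _ : Fin L => swapXZ) * ringTw 1 L * piK (fun _ : Fin L => swapXZ) = ringTw 3 L := by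
  unfold ringTw
  rw [Finset.mul_sum, Finset.sum_mul]
  refine Finset.sum_congr rfl fun j _ => ?_
  rw [Finset.mul_sum, Finset.sum_mul]
  rw [← Equiv.sum_comp pXZ (fun c : Fin 3 =>
    (if j.val + 1 = L then ((eta 3 c : ℤ) : ℂ) else 1) •
      (onSite (spinOp c) j * onSite (spinOp c) (finRotate L j)))]
  refine Finset.sum_congr rfl fun c _ => ?_
  rw [Matrix.mul_smul, Matrix.smul_mul, conj_bondc, eta_swap]

/-- (E1) -/
theorem Zab_one_three (β : ℝ) (L : ℕ) : Zab 1 3 β L = Zab 3 1 β L := by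
  unfold Zab
  set V : Matrix (Fin L → Fin 3) (Fin L → Fin 3) ℂ := piK (fun _ : Fin L => swapXZ) with hVdef
  have hV : V * V = 1 := piK_sq swapXZ_sq
  have hVinv : V⁻¹ = V := Matrix.inv_eq_right_inv hV
  have hunit : IsUnit V := by
    rw [Matrix.isUnit_iff_isUnit_det]
    exact Matrix.isUnit_det_of_right_inverse hV
  have hrot : V * piK (fun _ : Fin L => rotC 3) * V = piK (fun _ : Fin L => rotC 1) := by
    rw [hVdef, piK_mul, piK_mul, swapXZ_rot']
  have hexp : NormedSpace.exp (-(β : ℂ) • ringTw 3 L) =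
      V * NormedSpace.exp (-(β : ℂ) • ringTw 1 L) * V := by
    have h1 : -(β : ℂ) • ringTw 3 L = V * (-(β : ℂ) • ringTw 1 L) * V⁻¹ := by
      rw [hVinv, Matrix.mul_smul, Matrix.smul_mul, hVdef, conj_ringTw]
    rw [h1, Matrix.exp_conj _ _ hunit, hVinv]
  rw [hexp, ← hrot]
  have h2 : V * piK (fun _ : Fin L => rotC 3) * V *
      (V * NormedSpace.exp (-(β : ℂ) • ringTw 1 L) * V) =
      V * (piK (fun _ : Fin L => rotC 3) * NormedSpace.exp (-(β : ℂ) • ringTw 1 L) * V) := by
    calc V * piK (fun _ : Fin L => rotC 3) * V *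
          (V * NormedSpace.exp (-(β : ℂ) • ringTw 1 L) * V)
        = V * piK (fun _ : Fin L => rotC 3) * (V * V) *
          NormedSpace.exp (-(β : ℂ) • ringTw 1 L) * V := by simp only [Matrix.mul_assoc]
      _ = _ := by rw [hV, Matrix.mul_one]; simp only [Matrix.mul_assoc]
  rw [h2, Matrix.trace_mul_comm V, Matrix.mul_assoc _ V V, hV, Matrix.mul_one]

end Crest.Agent.R347.Num
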