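import Crest.Agent.R347.NumTot
import Crest.Agent.R347.NumRot
import Crest.Agent.R347.Data

/-! From the integer traces to the normalised twisted partition functions. -/

set_option autoImplicit false

namespace Crest.Agent.R347.Num

open Matrix Crest.MathPhysics.SpinChain

/-- complexified ring matrix -/
noncomputable def Gc (n : ℕ) (tw : Bool) (c1 : ℕ) : Matrix (Cfg (n + 1)) (Cfg (n + 1)) ℂ :=
  (Gmat 1 c1 (ringBonds (n + 1) tw) []).map (Int.cast : ℤ → ℂ)

theorem exp_ring {n : ℕ} (hn : 1 ≤ n) (tw : Bool) (c0 c1 : ℕ) (hc : c0 + c1 = n + 1) (β : ℝ) :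
    NormedSpace.exp (-(β : ℂ) • ringTw (if tw then 3 else 0) (n + 1)) =
      ((Real.exp (β * c0) : ℝ) : ℂ) • NormedSpace.exp ((β : ℂ) • Gc n tw c1) := by
  rw [ringTw_eq (n + 1) (by omega) tw c1]
  have h1 : ((c1 : ℂ) - ((n + 1 : ℕ) : ℂ)) = -(c0 : ℂ) := by
    rw [← hc]; push_cast; ring
  have h2 : -(β : ℂ) • (((c1 : ℂ) - ((n + 1 : ℕ) : ℂ)) • (1 : Matrix (Cfg (n + 1)) (Cfg (n + 1)) ℂ) -
      (Gmat 1 c1 (ringBonds (n + 1) tw) []).map (Int.cast : ℤ → ℂ)) =
      Matrix.diagonal (fun _ => ((β : ℂ) * c0)) + (β : ℂ) • Gc n tw c1 := by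
    rw [h1, ← smul_one_eq_diagonal]
    unfold Gc
    rw [smul_sub, smul_smul, neg_smul, neg_mul_neg, sub_neg_eq_add]
  rw [h2, Matrix.exp_add_of_commute, Matrix.exp_diagonal]
  · have h3 : (NormedSpace.exp (fun _ : Cfg (n + 1) => ((β : ℂ) * c0))) =
        fun _ => ((Real.exp (β * c0) : ℝ) : ℂ) := by
      rw [Pi.exp_def]
      funext _
      rw [← Complex.exp_eq_exp_ℂ]
      push_cast
      rfl
    rw [h3, ← smul_one_eq_diagonal, smul_mul_assoc, one_mul]
  · show Matrix.diagonal (fun _ => ((β : ℂ) * c0)) * ((β : ℂ) • Gc n tw c1) =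
      ((β : ℂ) • Gc n tw c1) * Matrix.diagonal (fun _ => ((β : ℂ) * c0))
    rw [← smul_one_eq_diagonal, smul_mul_assoc, one_mul, mul_smul_comm, mul_one]

theorem Zab_ring {n : ℕ} (hn : 1 ≤ n) (tw : Bool) (b : Fin 4) (c0 c1 : ℕ)
    (hc : c0 + c1 = n + 1) (β : ℝ) :
    Zab (if tw then 3 else 0) b β (n + 1) = Real.exp (β * c0) *
      (trace (piK (fun _ : Fin (n + 1) => rotC b) * NormedSpace.exp ((β : ℂ) • Gc n tw c1))).re := by
  unfold Zab
  rw [exp_ring hn tw c0 c1 hc, mul_smul_comm, trace_smul, smul_eq_mul, Complex.re_ofReal_mul]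

/-! ### the three rotations -/

theorem tr_zero_rot {n : ℕ} (Q : Matrix (Cfg (n + 1)) (Cfg (n + 1)) ℤ) :
    (trace (piK (fun _ : Fin (n + 1) => rotC 0) * Q.map (Int.cast : ℤ → ℂ))).re =
      ((∑ σ, Q σ σ : ℤ) : ℝ) := by
  have : rotC 0 = 1 := rfl
  rw [this, piK_one, one_mul, trace]
  simp

theorem prod_es {L : ℕ} (hL : Even L) (σ : Cfg L) :
    ∏ j, (if σ j = 1 then (1 : ℂ) else -1) = ((sg σ : ℤ) : ℂ) := by
  have h1 : ∀ x : Fin 3, (if x = 1 then (1 : ℂ) else -1) = -((-1 : ℂ) ^ (x : ℕ)) := by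
    intro x
    fin_cases x <;> norm_num
  simp only [h1]
  rw [Finset.prod_neg, Finset.prod_pow_eq_pow_sum, Finset.card_univ, Fintype.card_fin,
    hL.neg_one_pow, one_mul]
  unfold sg dsum
  push_cast
  rfl

theorem tr_three_rot {n : ℕ} (hL : Even (n + 1)) (Q : Matrix (Cfg (n + 1)) (Cfg (n + 1)) ℤ) :
    (trace (piK (fun _ : Fin (n + 1) => rotC 3) * Q.map (Int.cast : ℤ → ℂ))).re =
      ((∑ σ, sg σ * Q σ σ : ℤ) : ℝ) := by
  rw [piK_rotC_three, trace]
  simp only [diag_apply, diagonal_mul, prod_es hL, Matrix.map_apply]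
  rw [Complex.re_sum]
  push_cast
  refine Finset.sum_congr rfl fun σ _ => ?_
  rw [← Int.cast_mul, Complex.intCast_re]
  push_cast
  rfl

theorem tr_one_rot {n : ℕ} (hL : Even (n + 1)) (Q : Matrix (Cfg (n + 1)) (Cfg (n + 1)) ℤ) :
    (trace (piK (fun _ : Fin (n + 1) => rotC 1) * Q.map (Int.cast : ℤ → ℂ))).re =
      ((∑ σ, Q (fl σ) σ : ℤ) : ℝ) := by
  rw [piK_rotC_one, trace]
  simp only [diag_apply, mul_apply, Matrix.of_apply, Matrix.map_apply, hL.neg_one_pow]
  rw [Complex.re_sum]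
  push_cast
  refine Finset.sum_congr rfl fun σ _ => ?_
  have : (fun j => (σ j).rev) = fl σ := rfl
  simp only [this, ite_mul, one_mul, zero_mul]
  rw [Finset.sum_ite_eq' Finset.univ (fl σ), if_pos (Finset.mem_univ _), Complex.intCast_re]

theorem unit_zero {n : ℕ} : (piK (fun _ : Fin (n + 1) => rotC 0))ᴴ *
    piK (fun _ : Fin (n + 1) => rotC 0) = 1 := by
  have : rotC 0 = 1 := rfl
  rw [this, piK_one]
  simp

theorem unit_three {n : ℕ} : (piK (fun _ : Fin (n + 1) => rotC 3))ᴴ *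
    piK (fun _ : Fin (n + 1) => rotC 3) = 1 := by
  rw [piK_conjTranspose, piK_mul, ← piK_one]
  congr 1
  funext j
  have h := piK_rotC_three 1
  have h2 : rotC 3 = Matrix.diagonal (fun x : Fin 3 => if x = 1 then (1 : ℂ) else -1) := by
    ext x y
    have := congrFun (congrFun h (fun _ => x)) (fun _ => y)
    simp only [piK_apply, Finset.univ_unique, Fin.default_eq_zero, Fin.isValue,
      Finset.prod_singleton, diagonal_apply] at this
    rw [this, diagonal_apply]
    by_cases hxy : x = y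
    · subst hxy; simp
    · rw [if_neg hxy, if_neg (fun h => hxy (congrFun h 0))]
  rw [h2, diagonal_conjTranspose, diagonal_mul_diagonal]
  rw [← diagonal_one]
  congr 1
  funext x
  simp only [Pi.star_apply]
  split_ifs <;> simp

theorem unit_one {n : ℕ} : (piK (fun _ : Fin (n + 1) => rotC 1))ᴴ *
    piK (fun _ : Fin (n + 1) => rotC 1) = 1 := by
  rw [piK_conjTranspose, piK_mul, ← piK_one]
  congr 1
  funext j
  have h := piK_rotC_one 1
  have h2 : rotC 1 = Matrix.of (fun x y : Fin 3 => if y = x.rev then (-1 : ℂ) else 0) := by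
    ext x y
    have := congrFun (congrFun h (fun _ => x)) (fun _ => y)
    simp only [piK_apply, Finset.univ_unique, Fin.default_eq_zero, Fin.isValue,
      Finset.prod_singleton, Matrix.of_apply, pow_one] at this
    rw [this, Matrix.of_apply]
    by_cases hxy : y = x.rev
    · rw [if_pos hxy, if_pos (by funext _; exact hxy)]
    · rw [if_neg hxy, if_neg (fun h => hxy (congrFun h 0))]
  rw [h2]
  ext x y
  fin_cases x <;> fin_cases y <;>
    simp [Matrix.mul_apply, Fin.sum_univ_three, Matrix.conjTranspose_apply, Fin.rev, Fin.ext_iff]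

end Crest.Agent.R347.Num
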