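import Crest.Agent.R347.NumMat
import Crest.Agent.R347.ExpApprox

/-! The scalar Clenshaw recursion `clv g (r^2) us` is a Chebyshev sum; crude bound and
comparison with the exponential. -/

set_option autoImplicit false

namespace Crest.Agent.R347.Num

open Polynomial Polynomial.Chebyshev

/-- `r^(n+1) U_{n+1}(g/2r) = g r^n U_n(g/2r) - r^(n+1) U_{n-1}(g/2r)`. -/
theorem rU_rec (r : ℕ) (hr : 0 < r) (g : ℝ) (n : ℕ) :
    (r : ℝ) ^ (n + 1) * (U ℝ ((n + 1 : ℕ) : ℤ)).eval (g / (2 * r)) =
      g * ((r : ℝ) ^ n * (U ℝ (n : ℤ)).eval (g / (2 * r))) -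
        (r : ℝ) ^ (n + 1) * (U ℝ ((n : ℤ) - 1)).eval (g / (2 * r)) := by
  have hr' : (r : ℝ) ≠ 0 := by exact_mod_cast hr.ne'
  have h := U_add_two ℝ ((n : ℤ) - 1)
  have e1 : (n : ℤ) - 1 + 2 = ((n + 1 : ℕ) : ℤ) := by push_cast; ring
  have e2 : (n : ℤ) - 1 + 1 = (n : ℤ) := by ring
  rw [e1, e2] at h
  rw [h]
  simp only [eval_sub, eval_mul, eval_X, eval_ofNat]
  rw [pow_succ]
  field_simp

theorem cl_eq_cheb (r : ℕ) (hr : 0 < r) (g : ℝ) (us : List ℕ) : ∀ a b : ℝ,
    (cl g (r ^ 2) us a b).1 = (∑ k ∈ Finset.range us.length,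
      (us.reverse.getD k 0 : ℝ) * (r : ℝ) ^ k * (U ℝ (k : ℤ)).eval (g / (2 * r))) +
      (r : ℝ) ^ us.length * (U ℝ (us.length : ℤ)).eval (g / (2 * r)) * a -
      (r : ℝ) ^ (us.length + 1) * (U ℝ ((us.length : ℤ) - 1)).eval (g / (2 * r)) * b := by
  induction us with
  | nil => intro a b; simp [cl]
  | cons u us ih =>
    intro a b
    rw [cl, ih, List.length_cons, Finset.sum_range_succ, rU_rec r hr g us.length]
    have h1 : ∀ k ∈ Finset.range us.length,
        (((u :: us).reverse.getD k 0 : ℕ) : ℝ) * (r : ℝ) ^ k *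
          (U ℝ (k : ℤ)).eval (g / (2 * r)) =
        ((us.reverse.getD k 0 : ℕ) : ℝ) * (r : ℝ) ^ k *
          (U ℝ (k : ℤ)).eval (g / (2 * r)) := by
      intro k hk
      rw [Finset.mem_range] at hk
      rw [List.reverse_cons, List.getD_append _ _ _ _ (by simpa using hk)]
    have h2 : ((u :: us).reverse.getD us.length 0 : ℕ) = u := by
      rw [List.reverse_cons, List.getD_append_right _ _ _ _ (by simp)]
      simp
    rw [Finset.sum_congr rfl h1, h2]
    have e2 : ((us.length + 1 : ℕ) : ℤ) - 1 = (us.length : ℤ) := by push_cast; ring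
    rw [e2]
    push_cast
    ring

/-- (S1) the scalar recursion is the Chebyshev sum (coefficients `us` are listed
highest first, `us.reverse[k]` is the coefficient of `r^k U_k(g/(2r))`). -/
theorem clv_eq_cheb (r : ℕ) (hr : 0 < r) (us : List ℕ) (g : ℝ) :
    clv g (r ^ 2) us = ∑ k ∈ Finset.range us.length,
      (us.reverse.getD k 0 : ℝ) * (r : ℝ) ^ k *
        (Polynomial.Chebyshev.U ℝ k).eval (g / (2 * r)) := by
  unfold clv
  rw [cl_eq_cheb r hr g us 0 0]
  simp

/-- (S2) crude bound -/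
theorem clv_abs_le (r : ℕ) (hr : 0 < r) (us : List ℕ) (g : ℝ) (hg : |g| ≤ 2 * r) :
    |clv g (r ^ 2) us| ≤ ∑ k ∈ Finset.range us.length,
      (us.reverse.getD k 0 : ℝ) * (r : ℝ) ^ k * (k + 1) := by
  have hr' : (0 : ℝ) < r := by exact_mod_cast hr
  have hx : |g / (2 * r)| ≤ 1 := by
    rw [abs_div, abs_of_pos (by positivity : (0 : ℝ) < 2 * r)]
    exact (div_le_one (by positivity)).mpr hg
  rw [clv_eq_cheb r hr]
  refine (Finset.abs_sum_le_sum_abs _ _).trans (Finset.sum_le_sum fun k _ => ?_)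
  rw [abs_mul, abs_of_nonneg (by positivity :
    (0 : ℝ) ≤ (us.reverse.getD k 0 : ℝ) * (r : ℝ) ^ k)]
  exact mul_le_mul_of_nonneg_left (ExpApprox.abs_U_le k hx) (by positivity)

/-- alternating signs, starting with `-` iff `s`. -/
def alt : Bool → List ℕ → List ℤ
  | _, [] => []
  | s, u :: l => (bif s then -(u : ℤ) else (u : ℤ)) :: alt (!s) l

theorem alt_length (l : List ℕ) : ∀ s, (alt s l).length = l.length := by
  induction l with
  | nil => intro s; rfl
  | cons u l ih => intro s; simp [alt, ih]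

theorem alt_getD (l : List ℕ) : ∀ (s : Bool) (k : ℕ),
    (alt s l).getD k 0 = (bif s then (-1 : ℤ) else 1) * (-1) ^ k * (l.getD k 0 : ℤ) := by
  induction l with
  | nil => intro s k; simp [alt]
  | cons u l ih =>
    intro s k
    cases k with
    | zero => cases s <;> simp [alt]
    | succ k =>
      simp only [alt, List.getD_cons_succ]
      rw [ih, pow_succ]
      cases s <;> simp

theorem eval_U_neg_nat (k : ℕ) (x : ℝ) :
    (U ℝ (k : ℤ)).eval (-x) = (-1) ^ k * (U ℝ (k : ℤ)).eval x := by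
  rw [U_eval_neg, Int.cast_negOnePow_natCast]

/-- (S3) comparison with the exponential: the integer check `go` on the sign-alternated
reversed list gives `|pm e^{-num/den} e^{β g} - clv g (r^2) us| ≤ acc / num` on `|g| ≤ 2 r`,
`β = num / (den * 2 r)`. -/
theorem exp_clv_approx (r : ℕ) (hr : 0 < r) (num den : ℤ) (hnum : 0 < num) (hden : 0 < den)
    (us : List ℕ) (hne : us ≠ []) {acc pm : ℤ}
    (h : (ExpApprox.go r num den 0 1 (alt false us.reverse)).2.2 = (acc, pm))
    (β : ℝ) (hβ : β * (2 * r) * den = num) (g : ℝ) (hg : |g| ≤ 2 * r) :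
    |((pm : ℝ) * Real.exp (-((num : ℝ) / den))) * Real.exp (β * g) - clv g (r ^ 2) us| ≤
      (acc : ℝ) / num := by
  have hr' : (0 : ℝ) < r := by exact_mod_cast hr
  have hd' : (0 : ℝ) < den := by exact_mod_cast hden
  have hx : |-(g / (2 * r))| ≤ 1 := by
    rw [abs_neg, abs_div, abs_of_pos (by positivity : (0 : ℝ) < 2 * r)]
    exact (div_le_one (by positivity)).mpr hg
  have hne' : alt false us.reverse ≠ [] := by
    intro h0
    have := congrArg List.length h0
    rw [alt_length, List.length_reverse, List.length_nil] at this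
    exact hne (List.length_eq_zero_iff.mp this)
  have key := ExpApprox.exp_approx_list r num den hnum hden (alt false us.reverse) hne' h hx
  rw [abs_sub_comm] at key
  have e1 : (∑ k ∈ Finset.range (alt false us.reverse).length,
      (((alt false us.reverse).getD k 0 : ℤ) : ℝ) * (((r : ℕ) : ℤ) : ℝ) ^ k *
        (U ℝ (k : ℤ)).eval (-(g / (2 * r)))) = clv g (r ^ 2) us := by
    rw [clv_eq_cheb r hr, alt_length, List.length_reverse]
    refine Finset.sum_congr rfl fun k _ => ?_
    rw [alt_getD, eval_U_neg_nat]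
    push_cast
    simp only [cond_false]
    have : ((-1 : ℝ) ^ k) * (-1) ^ k = 1 := by rw [← mul_pow]; simp
    linear_combination ((us.reverse.getD k 0 : ℕ) : ℝ) * (r : ℝ) ^ k *
      (U ℝ (k : ℤ)).eval (g / (2 * r)) * this
  have e2 : (pm : ℝ) * Real.exp (-((num : ℝ) / den * (-(g / (2 * r)) + 1))) =
      ((pm : ℝ) * Real.exp (-((num : ℝ) / den))) * Real.exp (β * g) := by
    rw [mul_assoc, ← Real.exp_add]
    congr 2
    have : (num : ℝ) / den = β * (2 * r) := by
      rw [← hβ]; field_simp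
    rw [this]
    field_simp
    ring
  rw [e1, e2] at key
  exact key

end Crest.Agent.R347.Num
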