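import Crest.Agent.R347.NumInv
import Crest.Agent.R347.NumScalar
import Crest.Agent.R347.NumCW

/-! From kernel runs to certified sums for the ring. -/

set_option autoImplicit false

namespace Crest.Agent.R347.Num

open Matrix

/-- decode a code -/
def dec (L c : ℕ) : Cfg L := fun j => ⟨(c / 4 ^ (j : ℕ) % 4) % 3, Nat.mod_lt _ (by norm_num)⟩

def decJ (L : ℕ) (J : List (ℕ × ℕ)) : List (Cfg L × ℕ) := J.map fun x => (dec L x.1, x.2)

def okJ (L : ℕ) (J : List (ℕ × ℕ)) : Bool := J.all fun x => decide (code (dec L x.1) = x.1)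

theorem okJ_spec {L : ℕ} {J : List (ℕ × ℕ)} (h : okJ L J = true) :
    (decJ L J).map (fun x => (code x.1, x.2)) = J := by
  unfold decJ
  rw [List.map_map]
  unfold okJ at h
  rw [List.all_eq_true] at h
  conv_rhs => rw [← List.map_id J]
  refine List.map_congr_left fun x hx => ?_
  have := of_decide_eq_true (h x hx)
  show (code (dec L x.1), x.2) = x
  rw [this]

theorem decJ_nodup {L : ℕ} {J : List (ℕ × ℕ)} (h : okJ L J = true)
    (hn : (J.map Prod.fst).Nodup) : ((decJ L J).map Prod.fst).Nodup := by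
  rw [← okJ_spec h, List.map_map] at hn
  have : (Prod.fst ∘ fun x : Cfg L × ℕ => (code x.1, x.2)) = code ∘ Prod.fst := rfl
  rw [this, ← List.map_map] at hn
  exact List.Nodup.of_map _ hn

theorem decJ_snd (L : ℕ) (J : List (ℕ × ℕ)) : (decJ L J).map Prod.snd = J.map Prod.snd := by
  unfold decJ
  rw [List.map_map]
  rfl

theorem decJ_append (L : ℕ) (J J' : List (ℕ × ℕ)) : decJ L (J ++ J') = decJ L J ++ decJ L J' := by
  unfold decJ
  rw [List.map_append]

/-- weight check -/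
def wtok (L : ℕ) [NeZero L] (x : ℕ × ℕ) : Bool :=
  decide (canon (dec L x.1)) &&
    decide (x.2 * stab (dec L x.1) = L * (if dsum (dec L x.1) < L then 2 else
      if dsum (dec L x.1) = L then 1 else 0))

theorem wtok_spec {L : ℕ} [NeZero L] {x : ℕ × ℕ} (h : wtok L x = true) :
    (x.2 : ℚ) = wt0 (dec L x.1) := by
  unfold wtok at h
  rw [Bool.and_eq_true] at h
  have h1 := of_decide_eq_true h.1
  have h2 := of_decide_eq_true h.2
  unfold wt0 wgt mul0
  rw [if_pos h1]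
  have h3 : (stab (dec L x.1) : ℚ) ≠ 0 := by exact_mod_cast (stab_pos _).ne'
  have h4 : (x.2 : ℚ) * stab (dec L x.1) = L * (if dsum (dec L x.1) < L then 2 else
      if dsum (dec L x.1) = L then 1 else 0) := by
    exact_mod_cast h2
  field_simp
  rw [h4]

theorem T_flip {L : ℕ} (σ : Cfg L) : code (fl σ) + code σ = ∑ j : Fin L, 2 * 4 ^ (j : ℕ) := by
  unfold code fl
  rw [← Finset.sum_add_distrib]
  refine Finset.sum_congr rfl fun j _ => ?_
  have h1 := (σ j).isLt
  have h2 : (((σ j).rev : Fin 3) : ℕ) + (σ j : ℕ) = 2 := by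
    rw [Fin.val_rev]; omega
  rw [← add_mul, h2]

section
variable {n : ℕ} (hn : 1 ≤ n) (tw : Bool) (c1 r Cn w : ℕ) (us : List ℕ) (J : List (ℕ × ℕ))
  (Qb : ℕ) (bs : List Bd) (hbs : (ringBonds (n + 1) tw).map Bond.toBd = bs) (hJ0 : J ≠ [])
  (hdec : okJ (n + 1) J = true) (hnd : (J.map Prod.fst).Nodup) (hw : 1 ≤ w)
  (hQ : ∀ σ τ, |Qm n tw c1 (r ^ 2) us σ τ| ≤ Qb) (hs : 2 * ((J.map Prod.snd).sum * Qb) < 2 ^ w)
  (hC : 2 * (n + 1) + 2 * (n + 1) + r ^ 2 ≤ Cn)

include hn hbs hJ0 hdec hnd hw hQ hs hC in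
theorem run_gen (h : Cfg (n + 1) → Cfg (n + 1)) (h' : ℕ → ℕ)
    (hh : ∀ σ, h' (code σ) = code (h σ)) {α : Type} (fin : ℕ → ℕ → (ℕ → ℕ) → α) :
    ∃ f : ℕ → ℕ, runA 1 (r ^ 2) c1 Cn w (w * J.length) bs [] J us fin =
        fin (2 ^ w) (2 ^ (w * J.length) - 1) f ∧
      ∀ (h : Cfg (n + 1) → Cfg (n + 1)) (h' : ℕ → ℕ), (∀ σ, h' (code σ) = code (h σ)) → ∀ K : ℕ,
        sgnd w (outT (2 ^ w) K (w * (J.length - 1)) (2 ^ (w * J.length) - 1) h' f J) ≤
          wdiag (Qm n tw c1 (r ^ 2) us) h (decJ (n + 1) J) ∧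
        wdiag (Qm n tw c1 (r ^ 2) us) h (decJ (n + 1) J) ≤
          sgnd w (outT (2 ^ w) K (w * (J.length - 1)) (2 ^ (w * J.length) - 1) h' f J) + 1 := by
  have hlen : (ringBonds (n + 1) tw).length = n + 1 := by simp [ringBonds]
  obtain ⟨f, hf1, hf2, hf3⟩ := go_spec (L := n + 1) 1 (r ^ 2) c1 Cn (w * J.length)
    (ringBonds (n + 1) tw) [] (ringBonds_ne (by omega) tw) (esel (2 ^ w) J)
    (by rw [hlen]; simp; omega) (fin (2 ^ w) (2 ^ (w * J.length) - 1)) us
  refine ⟨f, ?_, ?_⟩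
  · rw [← hf1, hbs]
    rfl
  · intro h h' hh K
    have hJ := okJ_spec hdec
    have hl : (decJ (n + 1) J).length = J.length := by unfold decJ; rw [List.length_map]
    have key := out_spec w hw (decJ (n + 1) J) (by
        intro h0
        apply hJ0
        rw [← hJ, h0]
        rfl) (decJ_nodup hdec hnd) (Qm n tw c1 (r ^ 2) us) Qb hQ
      (by rw [decJ_snd]; exact hs) h h' hh f (by
        rw [hl, hJ]
        exact hf3) K
    rw [hl, hJ] at key
    exact key

include hn hbs hJ0 hdec hnd hw hQ hs hC in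
theorem run1_spec (R : ℕ)
    (hrun : run1 1 (r ^ 2) c1 Cn w (w * J.length) (w * (J.length - 1)) bs [] J us = R) :
    sgnd w R ≤ wdiag (Qm n tw c1 (r ^ 2) us) id (decJ (n + 1) J) ∧
    wdiag (Qm n tw c1 (r ^ 2) us) id (decJ (n + 1) J) ≤ sgnd w R + 1 := by
  obtain ⟨f, h1, h2⟩ := run_gen hn tw c1 r Cn w us J Qb bs hbs hJ0 hdec hnd hw hQ hs hC id id
    (fun _ => rfl) (fun q mask f => outT q (w * J.length) (w * (J.length - 1)) mask
      (fun c => c) f J)
  have h3 : run1 1 (r ^ 2) c1 Cn w (w * J.length) (w * (J.length - 1)) bs [] J us =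
    runA 1 (r ^ 2) c1 Cn w (w * J.length) bs [] J us
      (fun q mask f => outT q (w * J.length) (w * (J.length - 1)) mask (fun c => c) f J) := rfl
  rw [h3, h1] at hrun
  have := h2 id (fun c => c) (fun _ => rfl) (w * J.length)
  rw [hrun] at this
  exact this

include hn hbs hJ0 hdec hnd hw hQ hs hC in
theorem run2_spec (R R' T : ℕ) (hT : T = ∑ j : Fin (n + 1), 2 * 4 ^ (j : ℕ))
    (hrun : run2 1 (r ^ 2) c1 Cn w (w * J.length) (w * (J.length - 1)) T bs [] J us = (R, R')) :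
    (sgnd w R ≤ wdiag (Qm n tw c1 (r ^ 2) us) id (decJ (n + 1) J) ∧
    wdiag (Qm n tw c1 (r ^ 2) us) id (decJ (n + 1) J) ≤ sgnd w R + 1) ∧
    (sgnd w R' ≤ wdiag (Qm n tw c1 (r ^ 2) us) fl (decJ (n + 1) J) ∧
    wdiag (Qm n tw c1 (r ^ 2) us) fl (decJ (n + 1) J) ≤ sgnd w R' + 1) := by
  obtain ⟨f, h1, h2⟩ := run_gen hn tw c1 r Cn w us J Qb bs hbs hJ0 hdec hnd hw hQ hs hC id id
    (fun _ => rfl) (fun q mask f => (outT q (w * J.length) (w * (J.length - 1)) mask
      (fun c => c) f J, outT q (w * J.length) (w * (J.length - 1)) mask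
      (fun c => Nat.sub T c) f J))
  have h3 : run2 1 (r ^ 2) c1 Cn w (w * J.length) (w * (J.length - 1)) T bs [] J us =
    runA 1 (r ^ 2) c1 Cn w (w * J.length) bs [] J us
      (fun q mask f => (outT q (w * J.length) (w * (J.length - 1)) mask (fun c => c) f J,
        outT q (w * J.length) (w * (J.length - 1)) mask (fun c => Nat.sub T c) f J)) := rfl
  rw [h3, h1, Prod.mk.injEq] at hrun
  have a1 := h2 id (fun c => c) (fun _ => rfl) (w * J.length)
  have a2 := h2 fl (fun c => Nat.sub T c) (fun σ => by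
    show T - code σ = code (fl σ)
    have := T_flip σ
    omega) (w * J.length)
  rw [hrun.1] at a1
  rw [hrun.2] at a2
  exact ⟨a1, a2⟩

end

end Crest.Agent.R347.Num
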