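import Crest.Agent.R347.NumCode

/-! Correctness of the engine: one row of the recursion. -/

set_option autoImplicit false

namespace Crest.Agent.R347.Num

open Matrix

noncomputable section

/-! ### unfolding the continuation-passing code -/

def flipRow (ok tw : Bool) (B c : ℕ) (acc : Row) : Row :=
  if ok then (if tw then fun f => (B - f c) + acc f else fun f => f c + acc f) else acc

theorem flipA_eq {α : Type} (ok tw : Bool) (B c : ℕ) (acc : Row) (k : Row → α) :
    flipA ok tw B c acc k = k (flipRow ok tw B c acc) := by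
  cases ok <;> cases tw <;> rfl

def dg (i s : ℕ) : ℕ := Nat.land (Nat.shiftRight i s) 3

def adjD (κ : ℕ) (i : ℕ) (bs : List Bd) : ℕ :=
  (bs.map fun b => κ * diagv (dg i b.s1) (dg i b.s2)).sum

def adjR (B i : ℕ) : List Bd → Row → Row
  | [], acc => acc
  | b :: bs, acc =>
    adjR B i bs
      (flipRow (Bool.and (Nat.ble 1 (dg i b.s2)) (Nat.ble (dg i b.s1) 1)) b.tw B
        (i + b.p1 - b.p2)
        (flipRow (Bool.and (Nat.ble 1 (dg i b.s1)) (Nat.ble (dg i b.s2) 1)) b.tw B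
          (i - b.p1 + b.p2) acc))

theorem adj_eq {α : Type} (B κ : ℕ) (k : ℕ → ℕ → Row → α) (bs : List Bd) (i D : ℕ) (acc : Row) :
    adj B κ k bs i D acc = k i (D + adjD κ i bs) (adjR B i bs acc) := by
  induction bs generalizing D acc with
  | nil => simp [adjD, adjR, adj]
  | cons b bs ih =>
    have h : adj B κ k (b :: bs) i D acc =
      flipA (Bool.and (Nat.ble 1 (dg i b.s1)) (Nat.ble (dg i b.s2) 1)) b.tw B
        (i - b.p1 + b.p2) acc
        fun acc1 =>
      flipA (Bool.and (Nat.ble 1 (dg i b.s2)) (Nat.ble (dg i b.s1) 1)) b.tw B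
        (i + b.p1 - b.p2) acc1
        fun acc2 =>
      adj B κ k bs i (D + κ * diagv (dg i b.s1) (dg i b.s2)) acc2 := rfl
    rw [h, flipA_eq, flipA_eq, ih]
    simp only [adjD, adjR, List.map_cons, List.sum_cons]
    rw [add_assoc]

def fldD (i : ℕ) (fs : List Fd) : ℕ :=
  (fs.map fun b => tbl b.t0 b.t1 b.t2 (dg i b.s)).sum

theorem fld_eq {α : Type} (k : ℕ → ℕ → α) (fs : List Fd) (i D : ℕ) :
    fld k fs i D = k i (D + fldD i fs) := by
  induction fs generalizing D with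
  | nil => simp [fldD, fld]
  | cons b bs ih =>
    have h : fld k (b :: bs) i D = fld k bs i (D + tbl b.t0 b.t1 b.t2 (dg i b.s)) := rfl
    rw [h, ih]
    simp only [fldD, List.map_cons, List.sum_cons]
    rw [add_assoc]

theorem finW_run (κ ρ c1 C mask : ℕ) (E : ℕ → ℕ) (i D : ℕ) (acc : Row) (f1 f2 : ℕ → ℕ) (u : ℕ) :
    (finW κ ρ c1 C mask E i D acc).run f1 f2 u =
      Nat.land (u * E i + (c1 - D) * f1 i +
        (C - (κ * acc f1 + (D - c1) * f1 i + ρ * f2 i))) mask := by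
  have h : finW κ ρ c1 C mask E i D acc =
    Bool.rec (motive := fun _ => W)
    (Bool.rec (motive := fun _ => W)
      ⟨fun f1 f2 u => Nat.land (u * E i + (c1 - D) * f1 i +
        (C - (κ * acc f1 + ρ * f2 i))) mask⟩
      ⟨fun f1 f2 u => Nat.land (u * E i + (C - (κ * acc f1 + ((D - c1) * f1 i + ρ * f2 i)))) mask⟩
      (Nat.beq (c1 - D) 0))
    (Bool.rec (motive := fun _ => W)
      ⟨fun f1 f2 _ => Nat.land ((c1 - D) * f1 i + (C - (κ * acc f1 + ρ * f2 i))) mask⟩
      ⟨fun f1 f2 _ => Nat.land (C - (κ * acc f1 + ((D - c1) * f1 i + ρ * f2 i))) mask⟩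
      (Nat.beq (c1 - D) 0))
    (Nat.beq (E i) 0) := rfl
  rw [h]
  by_cases h1 : E i = 0
  · have e1 : Nat.beq (E i) 0 = true := by rw [h1]; rfl
    by_cases h2 : c1 - D = 0
    · have e2 : Nat.beq (c1 - D) 0 = true := by rw [h2]; rfl
      rw [e1, e2]
      simp only [h1, h2, mul_zero, zero_mul, zero_add, add_assoc]
    · have e2 : Nat.beq (c1 - D) 0 = false := by
        cases h3 : Nat.beq (c1 - D) 0 with
        | false => rfl
        | true => exact absurd (Nat.eq_of_beq_eq_true h3) h2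
      have e3 : D - c1 = 0 := by omega
      rw [e1, e2]
      simp only [h1, e3, mul_zero, zero_mul, zero_add, add_zero]
  · have e1 : Nat.beq (E i) 0 = false := by
      cases h3 : Nat.beq (E i) 0 with
      | false => rfl
      | true => exact absurd (Nat.eq_of_beq_eq_true h3) h1
    by_cases h2 : c1 - D = 0
    · have e2 : Nat.beq (c1 - D) 0 = true := by rw [h2]; rfl
      rw [e1, e2]
      simp only [h2, zero_mul, add_zero, add_assoc]
    · have e2 : Nat.beq (c1 - D) 0 = false := by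
        cases h3 : Nat.beq (c1 - D) 0 with
        | false => rfl
        | true => exact absurd (Nat.eq_of_beq_eq_true h3) h2
      have e3 : D - c1 = 0 := by omega
      rw [e1, e2]
      simp only [e3, zero_mul, add_zero]

theorem rowW_run (κ ρ c1 B C mask : ℕ) (bs : List Bd) (fs : List Fd) (E : ℕ → ℕ) (i : ℕ)
    (f1 f2 : ℕ → ℕ) (u : ℕ) :
    (rowW κ ρ c1 B C mask bs fs E i).run f1 f2 u =
      Nat.land (u * E i + (c1 - (fldD i fs + adjD κ i bs)) * f1 i +
        (C - (κ * adjR B i bs (fun _ => 0) f1 + ((fldD i fs + adjD κ i bs) - c1) * f1 i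
          + ρ * f2 i))) mask := by
  unfold rowW
  rw [fld_eq, adj_eq, finW_run, zero_add]

/-! ### values of the pieces -/

/-- sum of the two flip terms of a bond -/
def flv (N i : ℕ) (b : Bd) (f : ℕ → ℕ) : ZMod N :=
  (if b.tw then -1 else 1) *
    ((if 1 ≤ dg i b.s1 ∧ dg i b.s2 ≤ 1 then (f (i - b.p1 + b.p2) : ZMod N) else 0) +
     (if 1 ≤ dg i b.s2 ∧ dg i b.s1 ≤ 1 then (f (i + b.p1 - b.p2) : ZMod N) else 0))

theorem flipRow_cast (N : ℕ) (ok : Prop) [Decidable ok] (okb tw : Bool) (hok : okb = true ↔ ok)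
    (c : ℕ) (acc : Row) (f : ℕ → ℕ) (hf : ∀ x, f x < N) :
    ((flipRow okb tw N c acc f : ℕ) : ZMod N) =
      (if tw then -1 else 1) * (if ok then (f c : ZMod N) else 0) + (acc f : ZMod N) := by
  by_cases h : ok
  · rw [hok.mpr h, if_pos h]
    cases tw
    · simp [flipRow]
    · simp only [flipRow, if_true]
      rw [Nat.cast_add, Nat.cast_sub (hf c).le]
      simp
  · have : okb = false := by
      cases okb
      · rfl
      · exact absurd (hok.mp rfl) h
    rw [this, if_neg h]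
    simp [flipRow]

theorem band_ble (a c : ℕ) : Bool.and (Nat.ble 1 a) (Nat.ble c 1) = true ↔ (1 ≤ a ∧ c ≤ 1) := by
  show (Nat.ble 1 a && Nat.ble c 1) = true ↔ _
  rw [Bool.and_eq_true, Nat.ble_eq, Nat.ble_eq]

theorem adjR_cast (N i : ℕ) (bs : List Bd) (acc : Row) (f : ℕ → ℕ) (hf : ∀ x, f x < N) :
    ((adjR N i bs acc f : ℕ) : ZMod N) =
      (bs.map fun b => flv N i b f).sum + (acc f : ZMod N) := by
  induction bs generalizing acc with
  | nil => simp [adjR]
  | cons b bs ih =>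
    rw [adjR, ih, flipRow_cast N (1 ≤ dg i b.s2 ∧ dg i b.s1 ≤ 1) _ _ (band_ble _ _) _ _ _ hf,
      flipRow_cast N (1 ≤ dg i b.s1 ∧ dg i b.s2 ≤ 1) _ _ (band_ble _ _) _ _ _ hf]
    simp only [List.map_cons, List.sum_cons, flv]
    ring

theorem flipRow_le (N : ℕ) (ok tw : Bool) (c : ℕ) (acc : Row) (f : ℕ → ℕ)
    (hf : ∀ x, f x < N) : flipRow ok tw N c acc f ≤ acc f + N := by
  have := hf c
  cases ok <;> cases tw <;> simp only [flipRow, if_true] <;> simp <;> omega

theorem adjR_le (N i : ℕ) (bs : List Bd) (acc : Row) (f : ℕ → ℕ) (hf : ∀ x, f x < N) :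
    adjR N i bs acc f ≤ acc f + 2 * bs.length * N := by
  induction bs generalizing acc with
  | nil => simp [adjR]
  | cons b bs ih =>
    rw [adjR]
    refine (ih _).trans ?_
    have h1 := flipRow_le N (Bool.and (Nat.ble 1 (dg i b.s2)) (Nat.ble (dg i b.s1) 1)) b.tw
      (i + b.p1 - b.p2) (flipRow (Bool.and (Nat.ble 1 (dg i b.s1)) (Nat.ble (dg i b.s2) 1)) b.tw N
          (i - b.p1 + b.p2) acc) f hf
    have h2 := flipRow_le N (Bool.and (Nat.ble 1 (dg i b.s1)) (Nat.ble (dg i b.s2) 1)) b.tw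
      (i - b.p1 + b.p2) acc f hf
    simp only [List.length_cons]
    nlinarith

theorem diagv_le (a b : ℕ) : diagv a b ≤ 2 := by
  unfold diagv
  cases Nat.beq a b <;> cases Nat.beq (Nat.add a b) 2 <;> cases Nat.beq a 1 <;> simp

theorem adjD_le (κ i : ℕ) (bs : List Bd) : adjD κ i bs ≤ 2 * κ * bs.length := by
  induction bs with
  | nil => simp [adjD]
  | cons b bs ih =>
    unfold adjD at ih ⊢
    simp only [List.map_cons, List.sum_cons, List.length_cons]
    have := Nat.mul_le_mul_left κ (diagv_le (dg i b.s1) (dg i b.s2))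
    nlinarith

theorem tbl_le (t0 t1 t2 a : ℕ) : tbl t0 t1 t2 a ≤ t0 + t1 + t2 := by
  unfold tbl
  rcases a with _ | _ | a <;> simp <;> omega

theorem fldD_le (i : ℕ) (fs : List Fd) : fldD i fs ≤ (fs.map fun b => b.t0 + b.t1 + b.t2).sum := by
  induction fs with
  | nil => simp [fldD]
  | cons b bs ih =>
    unfold fldD at ih ⊢
    simp only [List.map_cons, List.sum_cons]
    have := tbl_le b.t0 b.t1 b.t2 (dg i b.s)
    omega

/-- cast of the value of one row. -/
theorem rowW_cast (κ ρ c1 Cn K : ℕ) (bs : List Bd) (fs : List Fd) (E : ℕ → ℕ) (i : ℕ)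
    (f1 f2 : ℕ → ℕ) (u : ℕ) (h1 : ∀ x, f1 x < 2 ^ K) (h2 : ∀ x, f2 x < 2 ^ K)
    (hC : κ * (2 * bs.length) + (2 * κ * bs.length + (fs.map fun b => b.t0 + b.t1 + b.t2).sum)
      + ρ ≤ Cn) :
    (((rowW κ ρ c1 (2 ^ K) (Cn * 2 ^ K) (2 ^ K - 1) bs fs E i).run f1 f2 u : ℕ) :
      ZMod (2 ^ K)) =
      u * E i + ((c1 : ZMod (2 ^ K)) - (fldD i fs + adjD κ i bs : ℕ)) * f1 i
        - κ * (bs.map fun b => flv (2 ^ K) i b f1).sum - ρ * f2 i := by
  rw [rowW_run]
  have hl : ∀ x : ℕ, Nat.land x (2 ^ K - 1) = x % 2 ^ K := fun x =>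
    Nat.and_two_pow_sub_one_eq_mod x K
  rw [hl, ZMod.natCast_mod]
  set D := fldD i fs + adjD κ i bs with hD
  have hDle : D ≤ 2 * κ * bs.length + (fs.map fun b => b.t0 + b.t1 + b.t2).sum := by
    have := adjD_le κ i bs
    have := fldD_le i fs
    omega
  have hR := adjR_le (2 ^ K) i bs (fun _ => 0) f1 h1
  rw [zero_add] at hR
  have hsub : κ * adjR (2 ^ K) i bs (fun _ => 0) f1 + (D - c1) * f1 i + ρ * f2 i ≤
      Cn * 2 ^ K := by
    have a1 : κ * adjR (2 ^ K) i bs (fun _ => 0) f1 ≤ κ * (2 * bs.length) * 2 ^ K := by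
      calc _ ≤ κ * (2 * bs.length * 2 ^ K) := Nat.mul_le_mul_left _ hR
        _ = _ := by ring
    have a2 : (D - c1) * f1 i ≤
        (2 * κ * bs.length + (fs.map fun b => b.t0 + b.t1 + b.t2).sum) * 2 ^ K := by
      refine Nat.mul_le_mul ?_ (h1 i).le
      omega
    have a3 : ρ * f2 i ≤ ρ * 2 ^ K := Nat.mul_le_mul_left _ (h2 i).le
    calc _ ≤ κ * (2 * bs.length) * 2 ^ K +
        (2 * κ * bs.length + (fs.map fun b => b.t0 + b.t1 + b.t2).sum) * 2 ^ K + ρ * 2 ^ K :=
          Nat.add_le_add (Nat.add_le_add a1 a2) a3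
      _ = (κ * (2 * bs.length) + (2 * κ * bs.length +
        (fs.map fun b => b.t0 + b.t1 + b.t2).sum) + ρ) * 2 ^ K := by ring
      _ ≤ _ := Nat.mul_le_mul_right _ hC
  have hz : ((2 ^ K : ℕ) : ZMod (2 ^ K)) = 0 := ZMod.natCast_self _
  have hR2 := adjR_cast (2 ^ K) i bs (fun _ => 0) f1 h1
  rw [Nat.cast_zero, add_zero] at hR2
  rw [Nat.cast_add, Nat.cast_sub hsub]
  simp only [Nat.cast_add, Nat.cast_mul, hR2]
  rw [hz, mul_zero]
  rcases le_total c1 D with h | h
  · rw [Nat.sub_eq_zero_of_le h, Nat.cast_sub h]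
    push_cast
    ring
  · rw [Nat.sub_eq_zero_of_le h, Nat.cast_sub h]
    push_cast
    ring

theorem rowW_lt (κ ρ c1 B C K : ℕ) (bs : List Bd) (fs : List Fd) (E : ℕ → ℕ) (i : ℕ)
    (f1 f2 : ℕ → ℕ) (u : ℕ) :
    (rowW κ ρ c1 B C (2 ^ K - 1) bs fs E i).run f1 f2 u < 2 ^ K := by
  rw [rowW_run]
  have hl : ∀ x : ℕ, Nat.land x (2 ^ K - 1) = x % 2 ^ K := fun x =>
    Nat.and_two_pow_sub_one_eq_mod x K
  rw [hl]
  exact Nat.mod_lt _ (by positivity)

end

end Crest.Agent.R347.Num
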