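import Crest.Agent.R347.NumOut

/-! Reduction of traces to necklace representatives: translations and spin flip. -/

set_option autoImplicit false

namespace Crest.Agent.R347.Num

open Matrix

noncomputable section

/-! ### translations -/

variable {L : ℕ}

/-- translation by `k` -/
def tr [NeZero L] (k : Fin L) (σ : Cfg L) : Cfg L := fun j => σ (j + k)

theorem tr_zero [NeZero L] (σ : Cfg L) : tr 0 σ = σ := by
  funext j; simp [tr]

theorem tr_tr [NeZero L] (k l : Fin L) (σ : Cfg L) : tr k (tr l σ) = tr (k + l) σ := by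
  funext j; simp [tr, add_assoc]

def trE [NeZero L] (k : Fin L) : Equiv.Perm (Cfg L) where
  toFun := tr k
  invFun := tr (-k)
  left_inv σ := by rw [tr_tr, neg_add_cancel, tr_zero]
  right_inv σ := by rw [tr_tr, add_neg_cancel, tr_zero]

/-- number of translations fixing `σ` -/
def stab [NeZero L] (σ : Cfg L) : ℕ := (Finset.univ.filter fun k : Fin L => tr k σ = σ).card

/-- canonical representative of the translation orbit -/
def canon [NeZero L] (σ : Cfg L) : Prop := ∀ k : Fin L, code σ ≤ code (tr k σ)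

instance [NeZero L] (σ : Cfg L) : Decidable (canon σ) := by unfold canon; infer_instance

def wgt [NeZero L] (σ : Cfg L) : ℚ := if canon σ then (L : ℚ) / stab σ else 0

theorem stab_pos [NeZero L] (σ : Cfg L) : 0 < stab σ := by
  unfold stab
  rw [Finset.card_pos]
  exact ⟨0, by simp [tr_zero]⟩

theorem sum_wgt_tr [NeZero L] (σ : Cfg L) : ∑ k : Fin L, wgt (tr k σ) = L := by
  obtain ⟨k0, _, hk0⟩ := Finset.exists_min_image (Finset.univ : Finset (Fin L))
    (fun k => code (tr k σ)) ⟨0, Finset.mem_univ _⟩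
  set c := tr k0 σ with hc
  have hcanon : ∀ k : Fin L, canon (tr k σ) ↔ tr k σ = c := by
    intro k
    constructor
    · intro h
      apply code_injective
      apply le_antisymm
      · have := h (k0 - k)
        rw [tr_tr, sub_add_cancel] at this
        exact this
      · exact hk0 k (Finset.mem_univ _)
    · intro h k'
      rw [h, hc, tr_tr]
      exact hk0 _ (Finset.mem_univ _)
  have hcard : (Finset.univ.filter fun k : Fin L => tr k σ = c).card = stab c := by
    unfold stab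
    refine Finset.card_bij (fun k _ => k - k0) ?_ ?_ ?_
    · intro k hk
      rw [Finset.mem_filter] at hk ⊢
      refine ⟨Finset.mem_univ _, ?_⟩
      rw [hc, tr_tr, sub_add_cancel, ← hc]
      exact hk.2
    · intro a _ b _ h
      exact sub_left_injective h
    · intro b hb
      rw [Finset.mem_filter] at hb
      refine ⟨b + k0, ?_, add_sub_cancel_right b k0⟩
      rw [Finset.mem_filter]
      refine ⟨Finset.mem_univ _, ?_⟩
      rw [← tr_tr]
      exact hb.2
  have h1 : ∀ k : Fin L, wgt (tr k σ) = if tr k σ = c then (L : ℚ) / stab c else 0 := by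
    intro k
    unfold wgt
    by_cases h : tr k σ = c
    · rw [if_pos ((hcanon k).mpr h), if_pos h, h]
    · rw [if_neg (fun hh => h ((hcanon k).mp hh)), if_neg h]
  simp only [h1]
  rw [← Finset.sum_filter, Finset.sum_const, hcard, nsmul_eq_mul]
  have : (stab c : ℚ) ≠ 0 := by exact_mod_cast (stab_pos c).ne'
  field_simp

/-- averaging over translations -/
theorem sum_eq_wgt [NeZero L] (f : Cfg L → ℚ) (hf : ∀ k σ, f (tr k σ) = f σ) :
    ∑ σ, f σ = ∑ σ, wgt σ * f σ := by
  have hL : (L : ℚ) ≠ 0 := by exact_mod_cast NeZero.ne L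
  have h1 : (L : ℚ) * ∑ σ, f σ = ∑ σ, ∑ k : Fin L, wgt (tr k σ) * f σ := by
    rw [Finset.mul_sum]
    refine Finset.sum_congr rfl fun σ _ => ?_
    rw [← Finset.sum_mul, sum_wgt_tr]
  have h2 : ∑ σ, ∑ k : Fin L, wgt (tr k σ) * f σ = (L : ℚ) * ∑ σ, wgt σ * f σ := by
    rw [Finset.sum_comm]
    have : ∀ k : Fin L, ∑ σ, wgt (tr k σ) * f σ = ∑ σ, wgt σ * f σ := by
      intro k
      rw [← Equiv.sum_comp (trE k) (fun σ => wgt σ * f σ)]
      refine Finset.sum_congr rfl fun σ _ => ?_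
      show _ = wgt (tr k σ) * f (tr k σ)
      rw [hf]
    simp only [this]
    rw [Finset.sum_const, Finset.card_univ, Fintype.card_fin, nsmul_eq_mul]
  rw [h2] at h1
  exact mul_left_cancel₀ hL h1

/-! ### spin flip -/

def fl (σ : Cfg L) : Cfg L := fun j => (σ j).rev

theorem fl_fl (σ : Cfg L) : fl (fl σ) = σ := by
  funext j; simp [fl]

def flE : Equiv.Perm (Cfg L) where
  toFun := fl
  invFun := fl
  left_inv := fl_fl
  right_inv := fl_fl

/-- digit sum: `L - M` -/
def dsum (σ : Cfg L) : ℕ := ∑ j, (σ j : ℕ)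

theorem dsum_fl (σ : Cfg L) : dsum (fl σ) + dsum σ = 2 * L := by
  unfold dsum fl
  rw [← Finset.sum_add_distrib]
  have : ∀ j, (((σ j).rev : Fin 3) : ℕ) + (σ j : ℕ) = 2 := by
    intro j
    have := (σ j).isLt
    rw [Fin.val_rev]
    omega
  rw [Finset.sum_congr rfl (fun j _ => this j)]
  simp [mul_comm]

theorem dsum_tr [NeZero L] (k : Fin L) (σ : Cfg L) : dsum (tr k σ) = dsum σ := by
  unfold dsum tr
  exact Equiv.sum_comp (Equiv.addRight k) (fun j => (σ j : ℕ))

/-- multiplicity: keep `M ≥ 0` -/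
def mul0 (σ : Cfg L) : ℚ := if dsum σ < L then 2 else if dsum σ = L then 1 else 0

theorem sum_eq_mul0 (f : Cfg L → ℚ) (hf : ∀ σ, f (fl σ) = f σ) :
    ∑ σ, f σ = ∑ σ, mul0 σ * f σ := by
  have h1 : ∑ σ, mul0 σ * f σ = ∑ σ, mul0 (fl σ) * f σ := by
    rw [← Equiv.sum_comp (flE (L := L)) (fun σ => mul0 σ * f σ)]
    refine Finset.sum_congr rfl fun σ _ => ?_
    show mul0 (fl σ) * f (fl σ) = _
    rw [hf]
  have h2 : ∀ σ : Cfg L, mul0 σ + mul0 (fl σ) = 2 := by
    intro σ
    have := dsum_fl σ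
    unfold mul0
    rcases lt_trichotomy (dsum σ) L with h | h | h
    · rw [if_pos h, if_neg (by omega), if_neg (by omega)]; norm_num
    · rw [if_neg (by omega), if_pos h, if_neg (by omega), if_pos (by omega)]; norm_num
    · rw [if_neg (by omega), if_neg (by omega), if_pos (by omega)]; norm_num
  have h3 : ∑ σ, mul0 σ * f σ + ∑ σ, mul0 (fl σ) * f σ = 2 * ∑ σ, f σ := by
    rw [← Finset.sum_add_distrib, Finset.mul_sum]
    refine Finset.sum_congr rfl fun σ _ => ?_
    rw [← add_mul, h2]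
  rw [← h1] at h3
  linarith

/-! ### representatives -/

/-- total weight -/
def wt0 [NeZero L] (σ : Cfg L) : ℚ := wgt σ * mul0 σ

theorem sum_reps [NeZero L] (J : List (Cfg L × ℕ)) (hJ : (J.map Prod.fst).Nodup)
    (hw : ∀ x ∈ J, (x.2 : ℚ) = wt0 x.1) (hs : (J.map Prod.snd).sum = 3 ^ L)
    (f : Cfg L → ℚ) (hf : ∀ k σ, f (tr k σ) = f σ) (hf' : ∀ σ, f (fl σ) = f σ) :
    ∑ σ, f σ = (J.map fun x => (x.2 : ℚ) * f x.1).sum := by
  have key : ∀ g : Cfg L → ℚ, (∀ k σ, g (tr k σ) = g σ) → (∀ σ, g (fl σ) = g σ) →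
      ∑ σ, g σ = ∑ σ, wt0 σ * g σ := by
    intro g hg hg'
    rw [sum_eq_mul0 g hg', sum_eq_wgt (fun σ => mul0 σ * g σ)]
    · refine Finset.sum_congr rfl fun σ _ => ?_
      unfold wt0
      ring
    · intro k σ
      show mul0 (tr k σ) * g (tr k σ) = _
      rw [hg]
      unfold mul0
      rw [dsum_tr]
  have hnn : ∀ σ : Cfg L, 0 ≤ wt0 σ := by
    intro σ
    unfold wt0 wgt mul0
    split_ifs <;> positivity
  have htot : ∑ σ : Cfg L, wt0 σ = 3 ^ L := by
    have := key (fun _ => 1) (fun _ _ => rfl) (fun _ => rfl)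
    simp only [mul_one] at this
    rw [← this]
    simp
  set A : Finset (Cfg L) := (J.map Prod.fst).toFinset with hA
  have hsumA : ∀ g : Cfg L → ℚ, ∑ σ ∈ A, wt0 σ * g σ = (J.map fun x => (x.2 : ℚ) * g x.1).sum := by
    intro g
    rw [hA, List.sum_toFinset _ hJ, List.map_map]
    refine congrArg List.sum (List.map_congr_left fun x hx => ?_)
    show wt0 x.1 * g x.1 = _
    rw [hw x hx]
  have hA1 : ∑ σ ∈ A, wt0 σ = 3 ^ L := by
    have := hsumA (fun _ => 1)
    simp only [mul_one] at this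
    rw [this]
    have h2 : (J.map fun x => (x.2 : ℚ)).sum = (((J.map Prod.snd).sum : ℕ) : ℚ) := by
      rw [Nat.cast_list_sum, List.map_map]
      rfl
    rw [h2, hs]
    norm_num
  have hzero : ∀ σ, σ ∉ A → wt0 σ = 0 := by
    have h3 : ∑ σ ∈ Finset.univ \ A, wt0 σ = 0 := by
      have := Finset.sum_sdiff (Finset.subset_univ A) (f := fun σ => wt0 σ)
      rw [htot, hA1] at this
      linarith
    intro σ hσ
    exact (Finset.sum_eq_zero_iff_of_nonneg (fun σ _ => hnn σ)).mp h3 σ (by simp [hσ])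
  rw [key f hf hf', ← hsumA f, ← Finset.sum_subset (Finset.subset_univ A)]
  intro σ _ hσ
  rw [hzero σ hσ, zero_mul]

theorem sum_reps_int [NeZero L] (J : List (Cfg L × ℕ)) (hJ : (J.map Prod.fst).Nodup)
    (hw : ∀ x ∈ J, (x.2 : ℚ) = wt0 x.1) (hs : (J.map Prod.snd).sum = 3 ^ L)
    (f : Cfg L → ℤ) (hf : ∀ k σ, f (tr k σ) = f σ) (hf' : ∀ σ, f (fl σ) = f σ) :
    ∑ σ, f σ = (J.map fun x => (x.2 : ℤ) * f x.1).sum := by
  have h := sum_reps J hJ hw hs (fun σ => (f σ : ℚ)) (fun k σ => by rw [hf]) (fun σ => by rw [hf'])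
  have h2 : (J.map fun x => (x.2 : ℚ) * (f x.1 : ℚ)).sum =
      (((J.map fun x => (x.2 : ℤ) * f x.1).sum : ℤ) : ℚ) := by
    rw [Int.cast_list_sum, List.map_map]
    refine congrArg List.sum (List.map_congr_left fun x _ => ?_)
    simp
  rw [h2] at h
  exact_mod_cast h

end

end Crest.Agent.R347.Num
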