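import Crest.Agent.R347.NumDg
import Crest.Agent.R347.NumDf
import Crest.Agent.R347.NumDa

/-! Certified ring traces for 4 sites (generated). -/

set_option autoImplicit false
set_option Elab.async false
set_option maxRecDepth 100000

namespace Crest.Agent.R347.Num

open Matrix Crest.MathPhysics.SpinChain

theorem sp4u : SpecData 3 false 3 3 :=
  specData_of_checks false 3 3 8 11 3 8 bs4u (by norm_num) (by norm_num) hbn4u (by norm_num)
    lo4 hi4 (by norm_num) (by norm_num)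

theorem sp4t : SpecData 3 true 3 3 :=
  specData_of_checks true 3 3 8 11 3 8 bs4u (by norm_num) (by norm_num) hbn4t (by norm_num)
    lo4 hi4 (by norm_num) (by norm_num)

theorem cb_J4_0u : CB (Qm 3 false 3 (3 ^ 2) us4) id 119 J4_0
    12351206792891247570253328521677 :=
  chunk1 chk4 sp4u us4 bs4u 119 hbs4u (by norm_num) 9 (by norm_num) (by norm_num)
    (sub0 (c0 := ch4_0) (c1 := ch4_1) (c2 := ch4_2) (by simp [ch4_0])) (by simp [J4_0]) hs_J4_0 714 595 _
    (by rw [len_J4_0]) (by rw [len_J4_0]) run_J4_0u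

theorem cb_J4_2u : CB (Qm 3 false 3 (3 ^ 2) us4) id 119 J4_2
    368392905531438183751563 :=
  chunk1 chk4 sp4u us4 bs4u 119 hbs4u (by norm_num) 9 (by norm_num) (by norm_num)
    (sub1 (c0 := ch4_0) (c1 := ch4_1) (c2 := ch4_2) (by simp [ch4_1])) (by simp [J4_2]) hs_J4_2 476 357 _
    (by rw [len_J4_2]) (by rw [len_J4_2]) run_J4_2u

theorem cb_J4_1u : CB (Qm 3 false 3 (3 ^ 2) us4) id 119 J4_1
    61080874458063456168793868175 :=
  chunk1 chk4 sp4u us4 bs4u 119 hbs4u (by norm_num) 9 (by norm_num) (by norm_num)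
    (sub2 (c0 := ch4_0) (c1 := ch4_1) (c2 := ch4_2) (by simp [ch4_2])) (by simp [J4_1]) hs_J4_1 595 476 _
    (by rw [len_J4_1]) (by rw [len_J4_1]) run_J4_1u

theorem cb_J4_0t : CB (Qm 3 true 3 (3 ^ 2) us4) id 119 J4_0
    352061814046277208538326562765 ∧
    CB (Qm 3 true 3 (3 ^ 2) us4) fl 119 J4_0
    664613746885673366939713150917344586 :=
  chunk2 chk4 sp4t us4 bs4t 119 hbs4t (by norm_num) 9 (by norm_num) (by norm_num)
    (sub0 (c0 := ch4_0) (c1 := ch4_1) (c2 := ch4_2) (by simp [ch4_0])) (by simp [J4_0]) hs_J4_0 714 595 _ _ 170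
    (by rw [len_J4_0]) (by rw [len_J4_0]) T4 run_J4_0t

theorem cb_J4_2t : CB (Qm 3 true 3 (3 ^ 2) us4) id 119 J4_2
    664613997892444459945663777987483147 :=
  chunk1 chk4 sp4t us4 bs4t 119 hbs4t (by norm_num) 9 (by norm_num) (by norm_num)
    (sub1 (c0 := ch4_0) (c1 := ch4_1) (c2 := ch4_2) (by simp [ch4_1])) (by simp [J4_2]) hs_J4_2 476 357 _
    (by rw [len_J4_2]) (by rw [len_J4_2]) run_J4_2t

theorem cb_J4_1t : CB (Qm 3 true 3 (3 ^ 2) us4) id 119 J4_1
    114870413341895986472543311 :=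
  chunk1 chk4 sp4t us4 bs4t 119 hbs4t (by norm_num) 9 (by norm_num) (by norm_num)
    (sub2 (c0 := ch4_0) (c1 := ch4_1) (c2 := ch4_2) (by simp [ch4_2])) (by simp [J4_1]) hs_J4_1 595 476 _
    (by rw [len_J4_1]) (by rw [len_J4_1]) run_J4_1t

theorem f4_0u : List.Forall₂ (CB (Qm 3 false 3 (3 ^ 2) us4) id 119) ch4_0
    [12351206792891247570253328521677] :=
  List.Forall₂.cons (cb_J4_0u)
    (List.Forall₂.nil)

theorem f4_1u : List.Forall₂ (CB (Qm 3 false 3 (3 ^ 2) us4) id 119) ch4_1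
    [368392905531438183751563] :=
  List.Forall₂.cons (cb_J4_2u)
    (List.Forall₂.nil)

theorem f4_2u : List.Forall₂ (CB (Qm 3 false 3 (3 ^ 2) us4) id 119) ch4_2
    [61080874458063456168793868175] :=
  List.Forall₂.cons (cb_J4_1u)
    (List.Forall₂.nil)

theorem f4_0t : List.Forall₂ (CB (Qm 3 true 3 (3 ^ 2) us4) id 119) ch4_0
    [352061814046277208538326562765] :=
  List.Forall₂.cons (cb_J4_0t.1)
    (List.Forall₂.nil)

theorem f4_1t : List.Forall₂ (CB (Qm 3 true 3 (3 ^ 2) us4) id 119) ch4_1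
    [664613997892444459945663777987483147] :=
  List.Forall₂.cons (cb_J4_2t)
    (List.Forall₂.nil)

theorem f4_2t : List.Forall₂ (CB (Qm 3 true 3 (3 ^ 2) us4) id 119) ch4_2
    [114870413341895986472543311] :=
  List.Forall₂.cons (cb_J4_1t)
    (List.Forall₂.nil)

theorem ff4 : List.Forall₂ (CB (Qm 3 true 3 (3 ^ 2) us4) fl 119) ch4_0
    [664613746885673366939713150917344586] :=
  List.Forall₂.cons (cb_J4_0t.2)
    (List.Forall₂.nil)

theorem td4u : 12412288035742216557860306141415 ≤ ∑ σ, Qm 3 false 3 (3 ^ 2) us4 σ σ ∧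
    ∑ σ, Qm 3 false 3 (3 ^ 2) us4 σ σ ≤ 12412288035742216557860306141418 :=
  diag_bounds chk4 (by norm_num) false 3 _ us4 119 f4_0u f4_1u f4_2u _ _ (by decide +kernel)
    (by decide +kernel)

theorem ts4u : 12290126286826089645522718405064 ≤ ∑ σ, sg σ * Qm 3 false 3 (3 ^ 2) us4 σ σ ∧
    ∑ σ, sg σ * Qm 3 false 3 (3 ^ 2) us4 σ σ ≤ 12290126286826089645522718405067 :=
  sign_bounds chk4 (by norm_num) false 3 _ us4 119 f4_0u f4_1u f4_2u _ _ (by decide +kernel)
    (by decide +kernel)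

theorem td4t : 352176670983112864772646416935 ≤ ∑ σ, Qm 3 true 3 (3 ^ 2) us4 σ σ ∧
    ∑ σ, Qm 3 true 3 (3 ^ 2) us4 σ σ ≤ 352176670983112864772646416938 :=
  diag_bounds chk4 (by norm_num) true 3 _ us4 119 f4_0t f4_1t f4_2t _ _ (by decide +kernel)
    (by decide +kernel)

theorem ts4t : 351946930156429072799701330312 ≤ ∑ σ, sg σ * Qm 3 true 3 (3 ^ 2) us4 σ σ ∧
    ∑ σ, sg σ * Qm 3 true 3 (3 ^ 2) us4 σ σ ≤ 351946930156429072799701330315 :=
  sign_bounds chk4 (by norm_num) true 3 _ us4 119 f4_0t f4_1t f4_2t _ _ (by decide +kernel)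
    (by decide +kernel)

theorem tf4 : -251006784569512190379222827702 ≤ ∑ σ, Qm 3 true 3 (3 ^ 2) us4 (fl σ) σ ∧
    ∑ σ, Qm 3 true 3 (3 ^ 2) us4 (fl σ) σ ≤ -251006784569512190379222827701 :=
  flip_bounds chk4 (by norm_num) true 3 _ us4 119 ff4 _ _ (by decide +kernel) (by decide +kernel)

theorem gam4 : 6 * e0 * (((3 : ℕ) : ℝ) + 1) + 6 * ((1 : ℕ) : ℝ) + ((36 : ℤ) : ℝ) = 261387 / 31250 := by
  unfold e0
  norm_num

theorem ex4 : (107286684493831009 / 25000000000000 : ℝ) ≤ Real.exp (261387 / 31250) ∧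
    Real.exp (261387 / 31250) ≤ (429146737975324037 / 100000000000000 : ℝ) :=
  exp_bounds (261387 / 31250) (42167501801318395117 / 25000000000000000000) (168670007205273580471 / 100000000000000000000) _ _ 20 (by norm_num) (by norm_num [abs_le])
    (by norm_num [Finset.sum_range_succ, Nat.factorial, abs_of_pos])
    (by norm_num [Finset.sum_range_succ, Nat.factorial, abs_of_pos]) (by norm_num) (by norm_num) (by norm_num)

theorem z00_4 : |nZ 0 0 4 - 107165890 / 10000000| ≤ 1 / 10000 := by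
  refine nZ_bound (n := 3) (tw := false) (c0 := 1) sp4u (by norm_num) us4 (by simp [us4]) 36 _ _ (by norm_num)
    go4 0 unit_zero _ (tr_zero_rot _) _ _ _ gam4.symm ex4.1 ex4.2 (by norm_num) (by norm_num) _ _ td4u.1 td4u.2
    _ _ _ le_rfl ?_ ?_ ?_ ?_ <;> norm_num

theorem z30_4 : |nZ 3 0 4 - 3040642 / 10000000| ≤ 1 / 10000 := by
  refine nZ_bound (n := 3) (tw := true) (c0 := 1) sp4t (by norm_num) us4 (by simp [us4]) 36 _ _ (by norm_num)
    go4 0 unit_zero _ (tr_zero_rot _) _ _ _ gam4.symm ex4.1 ex4.2 (by norm_num) (by norm_num) _ _ td4t.1 td4t.2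
    _ _ _ le_rfl ?_ ?_ ?_ ?_ <;> norm_num

theorem z03_4 : |nZ 0 3 4 - 106111163 / 10000000| ≤ 1 / 10000 := by
  refine nZ_bound (n := 3) (tw := false) (c0 := 1) sp4u (by norm_num) us4 (by simp [us4]) 36 _ _ (by norm_num)
    go4 3 unit_three _ (tr_three_rot (by decide) _) _ _ _ gam4.symm ex4.1 ex4.2 (by norm_num) (by norm_num) _ _ ts4u.1 ts4u.2
    _ _ _ le_rfl ?_ ?_ ?_ ?_ <;> norm_num

theorem z33_4 : |nZ 3 3 4 - 3038659 / 10000000| ≤ 1 / 10000 := by
  refine nZ_bound (n := 3) (tw := true) (c0 := 1) sp4t (by norm_num) us4 (by simp [us4]) 36 _ _ (by norm_num)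
    go4 3 unit_three _ (tr_three_rot (by decide) _) _ _ _ gam4.symm ex4.1 ex4.2 (by norm_num) (by norm_num) _ _ ts4t.1 ts4t.2
    _ _ _ le_rfl ?_ ?_ ?_ ?_ <;> norm_num

theorem z13_4 : |nZ 1 3 4 - (-2167156) / 10000000| ≤ 1 / 10000 := by
  have h0 : nZ 1 3 4 = nZ 3 1 4 := by unfold nZ; rw [Zab_one_three]
  rw [h0]
  refine nZ_bound (n := 3) (tw := true) (c0 := 1) sp4t (by norm_num) us4 (by simp [us4]) 36 _ _ (by norm_num)
    go4 1 unit_one _ (tr_one_rot (by decide) _) _ _ _ gam4.symm ex4.1 ex4.2 (by norm_num) (by norm_num) _ _ tf4.1 tf4.2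
    _ _ _ le_rfl ?_ ?_ ?_ ?_ <;> norm_num

end Crest.Agent.R347.Num
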