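import Crest.Agent.R347.NumDg
import Crest.Agent.R347.NumDf
import Crest.Agent.R347.NumDa

/-! Certified ring traces for 6 sites (generated). -/

set_option autoImplicit false
set_option Elab.async false
set_option maxRecDepth 100000

namespace Crest.Agent.R347.Num

open Matrix Crest.MathPhysics.SpinChain

theorem sp6u : SpecData 5 false 5 4 :=
  specData_of_checks false 5 4 12 15 12 12 bs6u (by norm_num) (by norm_num) hbn6u (by norm_num)
    lo6 hi6 (by norm_num) (by norm_num)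

theorem sp6t : SpecData 5 true 5 4 :=
  specData_of_checks true 5 4 12 15 12 12 bs6u (by norm_num) (by norm_num) hbn6t (by norm_num)
    lo6 hi6 (by norm_num) (by norm_num)

theorem cb_J6_0u : CB (Qm 5 false 5 (4 ^ 2) us6) id 153 J6_0
    1352592273820418739723119042674522182280340 :=
  chunk1 chk6 sp6u us6 bs6u 153 hbs6u (by norm_num) 16 (by norm_num) (by norm_num)
    (sub0 (c0 := ch6_0) (c1 := ch6_1) (c2 := ch6_2) (by simp [ch6_0])) (by simp [J6_0]) hs_J6_0 3978 3825 _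
    (by rw [len_J6_0]) (by rw [len_J6_0]) run_J6_0u

theorem cb_J6_2u : CB (Qm 5 false 5 (4 ^ 2) us6) id 153 J6_2
    6445653128970853754807692797649254911 :=
  chunk1 chk6 sp6u us6 bs6u 153 hbs6u (by norm_num) 16 (by norm_num) (by norm_num)
    (sub1 (c0 := ch6_0) (c1 := ch6_1) (c2 := ch6_2) (by simp [ch6_1])) (by simp [J6_2]) hs_J6_2 3213 3060 _
    (by rw [len_J6_2]) (by rw [len_J6_2]) run_J6_2u

theorem cb_J6_1u : CB (Qm 5 false 5 (4 ^ 2) us6) id 153 J6_1
    35384094721292895294452015211531040923203 :=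
  chunk1 chk6 sp6u us6 bs6u 153 hbs6u (by norm_num) 16 (by norm_num) (by norm_num)
    (sub2 (c0 := ch6_0) (c1 := ch6_1) (c2 := ch6_2) (by simp [ch6_2])) (by simp [J6_1]) hs_J6_1 4743 4590 _
    (by rw [len_J6_1]) (by rw [len_J6_1]) run_J6_1u

theorem cb_J6_0t : CB (Qm 5 true 5 (4 ^ 2) us6) id 153 J6_0
    229363228305182180312278663271103213107060 ∧
    CB (Qm 5 true 5 (4 ^ 2) us6) fl 153 J6_0
    11417799014701710979063218201275689357586065361 :=
  chunk2 chk6 sp6t us6 bs6t 153 hbs6t (by norm_num) 16 (by norm_num) (by norm_num)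
    (sub0 (c0 := ch6_0) (c1 := ch6_1) (c2 := ch6_2) (by simp [ch6_0])) (by simp [J6_0]) hs_J6_0 3978 3825 _ _ 2730
    (by rw [len_J6_0]) (by rw [len_J6_0]) T6 run_J6_0t

theorem cb_J6_2t : CB (Qm 5 true 5 (4 ^ 2) us6) id 153 J6_2
    138310333939374939479725783180485023 :=
  chunk1 chk6 sp6t us6 bs6t 153 hbs6t (by norm_num) 16 (by norm_num) (by norm_num)
    (sub1 (c0 := ch6_0) (c1 := ch6_1) (c2 := ch6_2) (by simp [ch6_1])) (by simp [J6_2]) hs_J6_2 3213 3060 _
    (by rw [len_J6_2]) (by rw [len_J6_2]) run_J6_2t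

theorem cb_J6_1t : CB (Qm 5 true 5 (4 ^ 2) us6) id 153 J6_1
    779094275029271768742778349759360530595 :=
  chunk1 chk6 sp6t us6 bs6t 153 hbs6t (by norm_num) 16 (by norm_num) (by norm_num)
    (sub2 (c0 := ch6_0) (c1 := ch6_1) (c2 := ch6_2) (by simp [ch6_2])) (by simp [J6_1]) hs_J6_1 4743 4590 _
    (by rw [len_J6_1]) (by rw [len_J6_1]) run_J6_1t

theorem f6_0u : List.Forall₂ (CB (Qm 5 false 5 (4 ^ 2) us6) id 153) ch6_0
    [1352592273820418739723119042674522182280340] :=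
  List.Forall₂.cons (cb_J6_0u)
    (List.Forall₂.nil)

theorem f6_1u : List.Forall₂ (CB (Qm 5 false 5 (4 ^ 2) us6) id 153) ch6_1
    [6445653128970853754807692797649254911] :=
  List.Forall₂.cons (cb_J6_2u)
    (List.Forall₂.nil)

theorem f6_2u : List.Forall₂ (CB (Qm 5 false 5 (4 ^ 2) us6) id 153) ch6_2
    [35384094721292895294452015211531040923203] :=
  List.Forall₂.cons (cb_J6_1u)
    (List.Forall₂.nil)

theorem f6_0t : List.Forall₂ (CB (Qm 5 true 5 (4 ^ 2) us6) id 153) ch6_0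
    [229363228305182180312278663271103213107060] :=
  List.Forall₂.cons (cb_J6_0t.1)
    (List.Forall₂.nil)

theorem f6_1t : List.Forall₂ (CB (Qm 5 true 5 (4 ^ 2) us6) id 153) ch6_1
    [138310333939374939479725783180485023] :=
  List.Forall₂.cons (cb_J6_2t)
    (List.Forall₂.nil)

theorem f6_2t : List.Forall₂ (CB (Qm 5 true 5 (4 ^ 2) us6) id 153) ch6_2
    [779094275029271768742778349759360530595] :=
  List.Forall₂.cons (cb_J6_1t)
    (List.Forall₂.nil)

theorem ff6 : List.Forall₂ (CB (Qm 5 true 5 (4 ^ 2) us6) fl 153) ch6_0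
    [11417799014701710979063218201275689357586065361] :=
  List.Forall₂.cons (cb_J6_0t.2)
    (List.Forall₂.nil)

theorem td6u : 1387982814194840605871325865578850872458454 ≤ ∑ σ, Qm 5 false 5 (4 ^ 2) us6 σ σ ∧
    ∑ σ, Qm 5 false 5 (4 ^ 2) us6 σ σ ≤ 1387982814194840605871325865578850872458457 :=
  diag_bounds chk6 (by norm_num) false 5 _ us6 153 f6_0u f6_1u f6_2u _ _ (by decide +kernel)
    (by decide +kernel)

theorem ts6u : 1317214624752254815282421835155788790612047 ≤ ∑ σ, sg σ * Qm 5 false 5 (4 ^ 2) us6 σ σ ∧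
    ∑ σ, sg σ * Qm 5 false 5 (4 ^ 2) us6 σ σ ≤ 1317214624752254815282421835155788790612050 :=
  sign_bounds chk6 (by norm_num) false 5 _ us6 153 f6_0u f6_1u f6_2u _ _ (by decide +kernel)
    (by decide +kernel)

theorem td6t : 230142460890545391455960921346645754122678 ≤ ∑ σ, Qm 5 true 5 (4 ^ 2) us6 σ σ ∧
    ∑ σ, Qm 5 true 5 (4 ^ 2) us6 σ σ ≤ 230142460890545391455960921346645754122681 :=
  diag_bounds chk6 (by norm_num) true 5 _ us6 153 f6_0t f6_1t f6_2t _ _ (by decide +kernel)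
    (by decide +kernel)

theorem ts6t : 228584272340486847918475364647127033061487 ≤ ∑ σ, sg σ * Qm 5 true 5 (4 ^ 2) us6 σ σ ∧
    ∑ σ, sg σ * Qm 5 true 5 (4 ^ 2) us6 σ σ ≤ 228584272340486847918475364647127033061490 :=
  sign_bounds chk6 (by norm_num) true 5 _ us6 153 f6_0t f6_1t f6_2t _ _ (by decide +kernel)
    (by decide +kernel)

theorem tf6 : -182526945968069403069554320271733475907631 ≤ ∑ σ, Qm 5 true 5 (4 ^ 2) us6 (fl σ) σ ∧
    ∑ σ, Qm 5 true 5 (4 ^ 2) us6 (fl σ) σ ≤ -182526945968069403069554320271733475907630 :=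
  flip_bounds chk6 (by norm_num) true 5 _ us6 153 ff6 _ _ (by decide +kernel) (by decide +kernel)

theorem gam6 : 6 * e0 * (((5 : ℕ) : ℝ) + 1) + 6 * ((1 : ℕ) : ℝ) + ((48 : ℤ) : ℝ) = 221661 / 62500 := by
  unfold e0
  norm_num

theorem ex6 : (3469432052757781 / 100000000000000 : ℝ) ≤ Real.exp (221661 / 62500) ∧
    Real.exp (221661 / 62500) ≤ (1734716026378891 / 50000000000000 : ℝ) :=
  exp_bounds (221661 / 62500) (15601852298782709751 / 12500000000000000000) (124814818390261678011 / 100000000000000000000) _ _ 20 (by norm_num) (by norm_num [abs_le])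
    (by norm_num [Finset.sum_range_succ, Nat.factorial, abs_of_pos])
    (by norm_num [Finset.sum_range_succ, Nat.factorial, abs_of_pos]) (by norm_num) (by norm_num) (by norm_num)

theorem z00_6 : |nZ 0 0 6 - 36331863 / 10000000| ≤ 1 / 10000 := by
  refine nZ_bound (n := 5) (tw := false) (c0 := 1) sp6u (by norm_num) us6 (by simp [us6]) 48 _ _ (by norm_num)
    go6 0 unit_zero _ (tr_zero_rot _) _ _ _ gam6.symm ex6.1 ex6.2 (by norm_num) (by norm_num) _ _ td6u.1 td6u.2
    _ _ _ le_rfl ?_ ?_ ?_ ?_ <;> norm_num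

theorem z30_6 : |nZ 3 0 6 - 6024213 / 10000000| ≤ 1 / 10000 := by
  refine nZ_bound (n := 5) (tw := true) (c0 := 1) sp6t (by norm_num) us6 (by simp [us6]) 48 _ _ (by norm_num)
    go6 0 unit_zero _ (tr_zero_rot _) _ _ _ gam6.symm ex6.1 ex6.2 (by norm_num) (by norm_num) _ _ td6t.1 td6t.2
    _ _ _ le_rfl ?_ ?_ ?_ ?_ <;> norm_num

theorem z03_6 : |nZ 0 3 6 - 34479433 / 10000000| ≤ 1 / 10000 := by
  refine nZ_bound (n := 5) (tw := false) (c0 := 1) sp6u (by norm_num) us6 (by simp [us6]) 48 _ _ (by norm_num)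
    go6 3 unit_three _ (tr_three_rot (by decide) _) _ _ _ gam6.symm ex6.1 ex6.2 (by norm_num) (by norm_num) _ _ ts6u.1 ts6u.2
    _ _ _ le_rfl ?_ ?_ ?_ ?_ <;> norm_num

theorem z33_6 : |nZ 3 3 6 - 5983426 / 10000000| ≤ 1 / 10000 := by
  refine nZ_bound (n := 5) (tw := true) (c0 := 1) sp6t (by norm_num) us6 (by simp [us6]) 48 _ _ (by norm_num)
    go6 3 unit_three _ (tr_three_rot (by decide) _) _ _ _ gam6.symm ex6.1 ex6.2 (by norm_num) (by norm_num) _ _ ts6t.1 ts6t.2
    _ _ _ le_rfl ?_ ?_ ?_ ?_ <;> norm_num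

theorem z13_6 : |nZ 1 3 6 - (-4777829) / 10000000| ≤ 1 / 10000 := by
  have h0 : nZ 1 3 6 = nZ 3 1 6 := by unfold nZ; rw [Zab_one_three]
  rw [h0]
  refine nZ_bound (n := 5) (tw := true) (c0 := 1) sp6t (by norm_num) us6 (by simp [us6]) 48 _ _ (by norm_num)
    go6 1 unit_one _ (tr_one_rot (by decide) _) _ _ _ gam6.symm ex6.1 ex6.2 (by norm_num) (by norm_num) _ _ tf6.1 tf6.2
    _ _ _ le_rfl ?_ ?_ ?_ ?_ <;> norm_num

end Crest.Agent.R347.Num
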