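import Crest.Agent.R347.NumDg
import Crest.Agent.R347.NumDf
import Crest.Agent.R347.NumDbu
import Crest.Agent.R347.NumDbt
import Crest.Agent.R347.NumDcu
import Crest.Agent.R347.NumDct
import Crest.Agent.R347.NumDdu
import Crest.Agent.R347.NumDdt
import Crest.Agent.R347.NumDeu
import Crest.Agent.R347.NumDet

/-! Certified ring traces for 8 sites (generated). -/

set_option autoImplicit false
set_option Elab.async false
set_option maxRecDepth 100000

namespace Crest.Agent.R347.Num

open Matrix Crest.MathPhysics.SpinChain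

theorem sp8u : SpecData 7 false 6 5 :=
  specData_of_checks false 6 5 16 20 15 16 bs8u (by norm_num) (by norm_num) hbn8u (by norm_num)
    lo8 hi8 (by norm_num) (by norm_num)

theorem sp8t : SpecData 7 true 6 5 :=
  specData_of_checks true 6 5 16 20 15 16 bs8u (by norm_num) (by norm_num) hbn8t (by norm_num)
    lo8 hi8 (by norm_num) (by norm_num)

theorem cb_J8_0au : CB (Qm 7 false 6 (5 ^ 2) us8) id 194 J8_0a
    3537875370234257994117908464002967451997026223229039 :=
  chunk1 chk8 sp8u us8 bs8u 194 hbs8u (by norm_num) 25 (by norm_num) (by norm_num)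
    (sub0 (c0 := ch8_0) (c1 := ch8_1) (c2 := ch8_2) (by simp [ch8_0])) (by simp [J8_0a]) hs_J8_0a 9118 8924 _
    (by rw [len_J8_0a]) (by rw [len_J8_0a]) run_J8_0au

theorem cb_J8_0bu : CB (Qm 7 false 6 (5 ^ 2) us8) id 194 J8_0b
    9851666362288847294732062896724600850474955855858595 :=
  chunk1 chk8 sp8u us8 bs8u 194 hbs8u (by norm_num) 25 (by norm_num) (by norm_num)
    (sub0 (c0 := ch8_0) (c1 := ch8_1) (c2 := ch8_2) (by simp [ch8_0])) (by simp [J8_0b]) hs_J8_0b 9118 8924 _
    (by rw [len_J8_0b]) (by rw [len_J8_0b]) run_J8_0bu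

theorem cb_J8_0cu : CB (Qm 7 false 6 (5 ^ 2) us8) id 194 J8_0c
    160788530983617661018251236407319717414466572471675090 :=
  chunk1 chk8 sp8u us8 bs8u 194 hbs8u (by norm_num) 25 (by norm_num) (by norm_num)
    (sub0 (c0 := ch8_0) (c1 := ch8_1) (c2 := ch8_2) (by simp [ch8_0])) (by simp [J8_0c]) hs_J8_0c 9312 9118 _
    (by rw [len_J8_0c]) (by rw [len_J8_0c]) run_J8_0cu

theorem cb_J8_2au : CB (Qm 7 false 6 (5 ^ 2) us8) id 194 J8_2a
    841508077942541426476067870192023121720515963951 :=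
  chunk1 chk8 sp8u us8 bs8u 194 hbs8u (by norm_num) 25 (by norm_num) (by norm_num)
    (sub1 (c0 := ch8_0) (c1 := ch8_1) (c2 := ch8_2) (by simp [ch8_1])) (by simp [J8_2a]) hs_J8_2a 9700 9506 _
    (by rw [len_J8_2a]) (by rw [len_J8_2a]) run_J8_2au

theorem cb_J8_2bu : CB (Qm 7 false 6 (5 ^ 2) us8) id 194 J8_2b
    9044815603162855719051353793699322242089697939439 :=
  chunk1 chk8 sp8u us8 bs8u 194 hbs8u (by norm_num) 25 (by norm_num) (by norm_num)
    (sub1 (c0 := ch8_0) (c1 := ch8_1) (c2 := ch8_2) (by simp [ch8_1])) (by simp [J8_2b]) hs_J8_2b 9700 9506 _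
    (by rw [len_J8_2b]) (by rw [len_J8_2b]) run_J8_2bu

theorem cb_J8_4u : CB (Qm 7 false 6 (5 ^ 2) us8) id 194 J8_4
    25108406941546697687090549389294792106717332635864429852339 :=
  chunk1 chk8 sp8u us8 bs8u 194 hbs8u (by norm_num) 25 (by norm_num) (by norm_num)
    (sub1 (c0 := ch8_0) (c1 := ch8_1) (c2 := ch8_2) (by simp [ch8_1])) (by simp [J8_4]) hs_J8_4 6790 6596 _
    (by rw [len_J8_4]) (by rw [len_J8_4]) run_J8_4u

theorem cb_J8_6u : CB (Qm 7 false 6 (5 ^ 2) us8) id 194 J8_6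
    25108406941546683410108043486649152599080764221668514264097 :=
  chunk1 chk8 sp8u us8 bs8u 194 hbs8u (by norm_num) 25 (by norm_num) (by norm_num)
    (sub1 (c0 := ch8_0) (c1 := ch8_1) (c2 := ch8_2) (by simp [ch8_1])) (by simp [J8_6]) hs_J8_6 1164 970 _
    (by rw [len_J8_6]) (by rw [len_J8_6]) run_J8_6u

theorem cb_J8_1au : CB (Qm 7 false 6 (5 ^ 2) us8) id 194 J8_1a
    221114984600857543524104675262316405967323119412207 :=
  chunk1 chk8 sp8u us8 bs8u 194 hbs8u (by norm_num) 25 (by norm_num) (by norm_num)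
    (sub2 (c0 := ch8_0) (c1 := ch8_1) (c2 := ch8_2) (by simp [ch8_2])) (by simp [J8_1a]) hs_J8_1a 8148 7954 _
    (by rw [len_J8_1a]) (by rw [len_J8_1a]) run_J8_1au

theorem cb_J8_1bu : CB (Qm 7 false 6 (5 ^ 2) us8) id 194 J8_1b
    2208521837071539024689560616878932832998742349604367 :=
  chunk1 chk8 sp8u us8 bs8u 194 hbs8u (by norm_num) 25 (by norm_num) (by norm_num)
    (sub2 (c0 := ch8_0) (c1 := ch8_1) (c2 := ch8_2) (by simp [ch8_2])) (by simp [J8_1b]) hs_J8_1b 8148 7954 _
    (by rw [len_J8_1b]) (by rw [len_J8_1b]) run_J8_1bu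

theorem cb_J8_1cu : CB (Qm 7 false 6 (5 ^ 2) us8) id 194 J8_1c
    7206651743206833493524814132592102445195172169723471 :=
  chunk1 chk8 sp8u us8 bs8u 194 hbs8u (by norm_num) 25 (by norm_num) (by norm_num)
    (sub2 (c0 := ch8_0) (c1 := ch8_1) (c2 := ch8_2) (by simp [ch8_2])) (by simp [J8_1c]) hs_J8_1c 8342 8148 _
    (by rw [len_J8_1c]) (by rw [len_J8_1c]) run_J8_1cu

theorem cb_J8_3u : CB (Qm 7 false 6 (5 ^ 2) us8) id 194 J8_3
    289125123454857331431112553992368846900486095 :=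
  chunk1 chk8 sp8u us8 bs8u 194 hbs8u (by norm_num) 25 (by norm_num) (by norm_num)
    (sub2 (c0 := ch8_0) (c1 := ch8_1) (c2 := ch8_2) (by simp [ch8_2])) (by simp [J8_3]) hs_J8_3 12222 12028 _
    (by rw [len_J8_3]) (by rw [len_J8_3]) run_J8_3u

theorem cb_J8_5u : CB (Qm 7 false 6 (5 ^ 2) us8) id 194 J8_5
    25108406941546681982898404244322485787641422952258003022095 :=
  chunk1 chk8 sp8u us8 bs8u 194 hbs8u (by norm_num) 25 (by norm_num) (by norm_num)
    (sub2 (c0 := ch8_0) (c1 := ch8_1) (c2 := ch8_2) (by simp [ch8_2])) (by simp [J8_5]) hs_J8_5 2910 2716 _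
    (by rw [len_J8_5]) (by rw [len_J8_5]) run_J8_5u

theorem cb_J8_0at : CB (Qm 7 true 6 (5 ^ 2) us8) id 194 J8_0a
    786371488824866200711188039410418810221808062103759 ∧
    CB (Qm 7 true 6 (5 ^ 2) us8) fl 194 J8_0a
    25108406326698051915730107183382050936098133427605489382832 :=
  chunk2 chk8 sp8t us8 bs8t 194 hbs8t (by norm_num) 25 (by norm_num) (by norm_num)
    (sub0 (c0 := ch8_0) (c1 := ch8_1) (c2 := ch8_2) (by simp [ch8_0])) (by simp [J8_0a]) hs_J8_0a 9118 8924 _ _ 43690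
    (by rw [len_J8_0a]) (by rw [len_J8_0a]) T8 run_J8_0at

theorem cb_J8_0bt : CB (Qm 7 true 6 (5 ^ 2) us8) id 194 J8_0b
    1414205952226111362538879467798552771576682803400867 ∧
    CB (Qm 7 true 6 (5 ^ 2) us8) fl 194 J8_0b
    25108405802725391828565602746280152974259972522925001453072 :=
  chunk2 chk8 sp8t us8 bs8t 194 hbs8t (by norm_num) 25 (by norm_num) (by norm_num)
    (sub0 (c0 := ch8_0) (c1 := ch8_1) (c2 := ch8_2) (by simp [ch8_0])) (by simp [J8_0b]) hs_J8_0b 9118 8924 _ _ 43690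
    (by rw [len_J8_0b]) (by rw [len_J8_0b]) T8 run_J8_0bt

theorem cb_J8_0ct : CB (Qm 7 true 6 (5 ^ 2) us8) id 194 J8_0c
    60718635228292601297906145180093025072880655757785970 ∧
    CB (Qm 7 true 6 (5 ^ 2) us8) fl 194 J8_0c
    25108357110653441659701493540302611640451979684543124410733 :=
  chunk2 chk8 sp8t us8 bs8t 194 hbs8t (by norm_num) 25 (by norm_num) (by norm_num)
    (sub0 (c0 := ch8_0) (c1 := ch8_1) (c2 := ch8_2) (by simp [ch8_0])) (by simp [J8_0c]) hs_J8_0c 9312 9118 _ _ 43690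
    (by rw [len_J8_0c]) (by rw [len_J8_0c]) T8 run_J8_0ct

theorem cb_J8_2at : CB (Qm 7 true 6 (5 ^ 2) us8) id 194 J8_2a
    50473550591123338482434997021979838414899578095 :=
  chunk1 chk8 sp8t us8 bs8t 194 hbs8t (by norm_num) 25 (by norm_num) (by norm_num)
    (sub1 (c0 := ch8_0) (c1 := ch8_1) (c2 := ch8_2) (by simp [ch8_1])) (by simp [J8_2a]) hs_J8_2a 9700 9506 _
    (by rw [len_J8_2a]) (by rw [len_J8_2a]) run_J8_2at

theorem cb_J8_2bt : CB (Qm 7 true 6 (5 ^ 2) us8) id 194 J8_2b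
    572453758550469985628679535191211904360329626799 :=
  chunk1 chk8 sp8t us8 bs8t 194 hbs8t (by norm_num) 25 (by norm_num) (by norm_num)
    (sub1 (c0 := ch8_0) (c1 := ch8_1) (c2 := ch8_2) (by simp [ch8_1])) (by simp [J8_2b]) hs_J8_2b 9700 9506 _
    (by rw [len_J8_2b]) (by rw [len_J8_2b]) run_J8_2bt

theorem cb_J8_4t : CB (Qm 7 true 6 (5 ^ 2) us8) id 194 J8_4
    25108406941546720842179467378571440914704967466462888244404 :=
  chunk1 chk8 sp8t us8 bs8t 194 hbs8t (by norm_num) 25 (by norm_num) (by norm_num)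
    (sub1 (c0 := ch8_0) (c1 := ch8_1) (c2 := ch8_2) (by simp [ch8_1])) (by simp [J8_4]) hs_J8_4 6790 6596 _
    (by rw [len_J8_4]) (by rw [len_J8_4]) run_J8_4t

theorem cb_J8_6t : CB (Qm 7 true 6 (5 ^ 2) us8) id 194 J8_6
    25108406941546704477247501796963994962154326642013419467809 :=
  chunk1 chk8 sp8t us8 bs8t 194 hbs8t (by norm_num) 25 (by norm_num) (by norm_num)
    (sub1 (c0 := ch8_0) (c1 := ch8_1) (c2 := ch8_2) (by simp [ch8_1])) (by simp [J8_6]) hs_J8_6 1164 970 _
    (by rw [len_J8_6]) (by rw [len_J8_6]) run_J8_6t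

theorem cb_J8_1at : CB (Qm 7 true 6 (5 ^ 2) us8) id 194 J8_1a
    13841804340349454968907948265188033979995106042607 :=
  chunk1 chk8 sp8t us8 bs8t 194 hbs8t (by norm_num) 25 (by norm_num) (by norm_num)
    (sub2 (c0 := ch8_0) (c1 := ch8_1) (c2 := ch8_2) (by simp [ch8_2])) (by simp [J8_1a]) hs_J8_1a 8148 7954 _
    (by rw [len_J8_1a]) (by rw [len_J8_1a]) run_J8_1at

theorem cb_J8_1bt : CB (Qm 7 true 6 (5 ^ 2) us8) id 194 J8_1b
    188526718528815791928440677101902978056485014783631 :=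
  chunk1 chk8 sp8t us8 bs8t 194 hbs8t (by norm_num) 25 (by norm_num) (by norm_num)
    (sub2 (c0 := ch8_0) (c1 := ch8_1) (c2 := ch8_2) (by simp [ch8_2])) (by simp [J8_1b]) hs_J8_1b 8148 7954 _
    (by rw [len_J8_1b]) (by rw [len_J8_1b]) run_J8_1bt

theorem cb_J8_1ct : CB (Qm 7 true 6 (5 ^ 2) us8) id 194 J8_1c
    591698932817899845377181684997077408775765717803087 :=
  chunk1 chk8 sp8t us8 bs8t 194 hbs8t (by norm_num) 25 (by norm_num) (by norm_num)
    (sub2 (c0 := ch8_0) (c1 := ch8_1) (c2 := ch8_2) (by simp [ch8_2])) (by simp [J8_1c]) hs_J8_1c 8342 8148 _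
    (by rw [len_J8_1c]) (by rw [len_J8_1c]) run_J8_1ct

theorem cb_J8_3t : CB (Qm 7 true 6 (5 ^ 2) us8) id 194 J8_3
    27686156633660578618174673670180623765814735 :=
  chunk1 chk8 sp8t us8 bs8t 194 hbs8t (by norm_num) 25 (by norm_num) (by norm_num)
    (sub2 (c0 := ch8_0) (c1 := ch8_1) (c2 := ch8_2) (by simp [ch8_2])) (by simp [J8_3]) hs_J8_3 12222 12028 _
    (by rw [len_J8_3]) (by rw [len_J8_3]) run_J8_3t

theorem cb_J8_5t : CB (Qm 7 true 6 (5 ^ 2) us8) id 194 J8_5
    364243782917351396247914029459598396657680 :=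
  chunk1 chk8 sp8t us8 bs8t 194 hbs8t (by norm_num) 25 (by norm_num) (by norm_num)
    (sub2 (c0 := ch8_0) (c1 := ch8_1) (c2 := ch8_2) (by simp [ch8_2])) (by simp [J8_5]) hs_J8_5 2910 2716 _
    (by rw [len_J8_5]) (by rw [len_J8_5]) run_J8_5t

theorem f8_0u : List.Forall₂ (CB (Qm 7 false 6 (5 ^ 2) us8) id 194) ch8_0
    [3537875370234257994117908464002967451997026223229039,
      9851666362288847294732062896724600850474955855858595,
      160788530983617661018251236407319717414466572471675090] :=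
  List.Forall₂.cons (cb_J8_0au)
    (List.Forall₂.cons (cb_J8_0bu)
    (List.Forall₂.cons (cb_J8_0cu)
    (List.Forall₂.nil)))

theorem f8_1u : List.Forall₂ (CB (Qm 7 false 6 (5 ^ 2) us8) id 194) ch8_1
    [841508077942541426476067870192023121720515963951,
      9044815603162855719051353793699322242089697939439,
      25108406941546697687090549389294792106717332635864429852339,
      25108406941546683410108043486649152599080764221668514264097] :=
  List.Forall₂.cons (cb_J8_2au)
    (List.Forall₂.cons (cb_J8_2bu)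
    (List.Forall₂.cons (cb_J8_4u)
    (List.Forall₂.cons (cb_J8_6u)
    (List.Forall₂.nil))))

theorem f8_2u : List.Forall₂ (CB (Qm 7 false 6 (5 ^ 2) us8) id 194) ch8_2
    [221114984600857543524104675262316405967323119412207,
      2208521837071539024689560616878932832998742349604367,
      7206651743206833493524814132592102445195172169723471,
      289125123454857331431112553992368846900486095,
      25108406941546681982898404244322485787641422952258003022095] :=
  List.Forall₂.cons (cb_J8_1au)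
    (List.Forall₂.cons (cb_J8_1bu)
    (List.Forall₂.cons (cb_J8_1cu)
    (List.Forall₂.cons (cb_J8_3u)
    (List.Forall₂.cons (cb_J8_5u)
    (List.Forall₂.nil)))))

theorem f8_0t : List.Forall₂ (CB (Qm 7 true 6 (5 ^ 2) us8) id 194) ch8_0
    [786371488824866200711188039410418810221808062103759,
      1414205952226111362538879467798552771576682803400867,
      60718635228292601297906145180093025072880655757785970] :=
  List.Forall₂.cons (cb_J8_0at.1)
    (List.Forall₂.cons (cb_J8_0bt.1)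
    (List.Forall₂.cons (cb_J8_0ct.1)
    (List.Forall₂.nil)))

theorem f8_1t : List.Forall₂ (CB (Qm 7 true 6 (5 ^ 2) us8) id 194) ch8_1
    [50473550591123338482434997021979838414899578095,
      572453758550469985628679535191211904360329626799,
      25108406941546720842179467378571440914704967466462888244404,
      25108406941546704477247501796963994962154326642013419467809] :=
  List.Forall₂.cons (cb_J8_2at)
    (List.Forall₂.cons (cb_J8_2bt)
    (List.Forall₂.cons (cb_J8_4t)
    (List.Forall₂.cons (cb_J8_6t)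
    (List.Forall₂.nil))))

theorem f8_2t : List.Forall₂ (CB (Qm 7 true 6 (5 ^ 2) us8) id 194) ch8_2
    [13841804340349454968907948265188033979995106042607,
      188526718528815791928440677101902978056485014783631,
      591698932817899845377181684997077408775765717803087,
      27686156633660578618174673670180623765814735,
      364243782917351396247914029459598396657680] :=
  List.Forall₂.cons (cb_J8_1at)
    (List.Forall₂.cons (cb_J8_1bt)
    (List.Forall₂.cons (cb_J8_1ct)
    (List.Forall₂.cons (cb_J8_3t)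
    (List.Forall₂.cons (cb_J8_5t)
    (List.Forall₂.nil)))))

theorem ff8 : List.Forall₂ (CB (Qm 7 true 6 (5 ^ 2) us8) fl 194) ch8_0
    [25108406326698051915730107183382050936098133427605489382832,
      25108405802725391828565602746280152974259972522925001453072,
      25108357110653441659701493540302611640451979684543124410733] :=
  List.Forall₂.cons (cb_J8_0at.2)
    (List.Forall₂.cons (cb_J8_0bt.2)
    (List.Forall₂.cons (cb_J8_0ct.2)
    (List.Forall₂.nil)))

theorem td8u : 183824247787740292744884320479057293993308671836876033 ≤ ∑ σ, Qm 7 false 6 (5 ^ 2) us8 σ σ ∧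
    ∑ σ, Qm 7 false 6 (5 ^ 2) us8 σ σ ≤ 183824247787740292744884320479057293993308671836876045 :=
  diag_bounds chk8 (by norm_num) false 6 _ us8 194 f8_0u f8_1u f8_2u _ _ (by decide +kernel)
    (by decide +kernel)

theorem ts8u : 164551670161876475218589715127119018637899699028482726 ≤ ∑ σ, sg σ * Qm 7 false 6 (5 ^ 2) us8 σ σ ∧
    ∑ σ, sg σ * Qm 7 false 6 (5 ^ 2) us8 σ σ ≤ 164551670161876475218589715127119018637899699028482738 :=
  sign_bounds chk8 (by norm_num) false 6 _ us8 194 f8_0u f8_1u f8_2u _ _ (by decide +kernel)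
    (by decide +kernel)

theorem td8t : 63713903059598926617122658231169006417427153885206275 ≤ ∑ σ, Qm 7 true 6 (5 ^ 2) us8 σ σ ∧
    ∑ σ, Qm 7 true 6 (5 ^ 2) us8 σ σ ≤ 63713903059598926617122658231169006417427153885206287 :=
  diag_bounds chk8 (by norm_num) true 6 _ us8 194 f8_0t f8_1t f8_2t _ _ (by decide +kernel)
    (by decide +kernel)

theorem ts8t : 62125768092123995599417737581595494176522217883002790 ≤ ∑ σ, sg σ * Qm 7 true 6 (5 ^ 2) us8 σ σ ∧
    ∑ σ, sg σ * Qm 7 true 6 (5 ^ 2) us8 σ σ ≤ 62125768092123995599417737581595494176522217883002802 :=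
  sign_bounds chk8 (by norm_num) true 6 _ us8 194 f8_0t f8_1t f8_2t _ _ (by decide +kernel)
    (by decide +kernel)

theorem tf8 : -51584563283762032269608527181442418179698494798908115 ≤ ∑ σ, Qm 7 true 6 (5 ^ 2) us8 (fl σ) σ ∧
    ∑ σ, Qm 7 true 6 (5 ^ 2) us8 (fl σ) σ ≤ -51584563283762032269608527181442418179698494798908112 :=
  flip_bounds chk8 (by norm_num) true 6 _ us8 194 ff8 _ _ (by decide +kernel) (by decide +kernel)

theorem gam8 : 6 * e0 * (((7 : ℕ) : ℝ) + 1) + 6 * ((2 : ℕ) : ℝ) + ((60 : ℤ) : ℝ) = 73887 / 15625 := by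
  unfold e0
  norm_num

theorem ex8 : (2828901704047733 / 25000000000000 : ℝ) ≤ Real.exp (73887 / 15625) ∧
    Real.exp (73887 / 15625) ≤ (11315606816190933 / 100000000000000 : ℝ) :=
  exp_bounds (73887 / 15625) (16798282420509872979 / 12500000000000000000) (26877251872815796767 / 20000000000000000000) _ _ 20 (by norm_num) (by norm_num [abs_le])
    (by norm_num [Finset.sum_range_succ, Nat.factorial, abs_of_pos])
    (by norm_num [Finset.sum_range_succ, Nat.factorial, abs_of_pos]) (by norm_num) (by norm_num) (by norm_num)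

theorem z00_8 : |nZ 0 0 8 - 22989639 / 10000000| ≤ 1 / 10000 := by
  refine nZ_bound (n := 7) (tw := false) (c0 := 2) sp8u (by norm_num) us8 (by simp [us8]) 60 _ _ (by norm_num)
    go8 0 unit_zero _ (tr_zero_rot _) _ _ _ gam8.symm ex8.1 ex8.2 (by norm_num) (by norm_num) _ _ td8u.1 td8u.2
    _ _ _ le_rfl ?_ ?_ ?_ ?_ <;> norm_num

theorem z30_8 : |nZ 3 0 8 - 7968261 / 10000000| ≤ 1 / 10000 := by
  refine nZ_bound (n := 7) (tw := true) (c0 := 2) sp8t (by norm_num) us8 (by simp [us8]) 60 _ _ (by norm_num)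
    go8 0 unit_zero _ (tr_zero_rot _) _ _ _ gam8.symm ex8.1 ex8.2 (by norm_num) (by norm_num) _ _ td8t.1 td8t.2
    _ _ _ le_rfl ?_ ?_ ?_ ?_ <;> norm_num

theorem z03_8 : |nZ 0 3 8 - 20579350 / 10000000| ≤ 1 / 10000 := by
  refine nZ_bound (n := 7) (tw := false) (c0 := 2) sp8u (by norm_num) us8 (by simp [us8]) 60 _ _ (by norm_num)
    go8 3 unit_three _ (tr_three_rot (by decide) _) _ _ _ gam8.symm ex8.1 ex8.2 (by norm_num) (by norm_num) _ _ ts8u.1 ts8u.2
    _ _ _ le_rfl ?_ ?_ ?_ ?_ <;> norm_num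

theorem z33_8 : |nZ 3 3 8 - 7769644 / 10000000| ≤ 1 / 10000 := by
  refine nZ_bound (n := 7) (tw := true) (c0 := 2) sp8t (by norm_num) us8 (by simp [us8]) 60 _ _ (by norm_num)
    go8 3 unit_three _ (tr_three_rot (by decide) _) _ _ _ gam8.symm ex8.1 ex8.2 (by norm_num) (by norm_num) _ _ ts8t.1 ts8t.2
    _ _ _ le_rfl ?_ ?_ ?_ ?_ <;> norm_num

theorem z13_8 : |nZ 1 3 8 - (-6451328) / 10000000| ≤ 1 / 10000 := by
  have h0 : nZ 1 3 8 = nZ 3 1 8 := by unfold nZ; rw [Zab_one_three]
  rw [h0]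
  refine nZ_bound (n := 7) (tw := true) (c0 := 2) sp8t (by norm_num) us8 (by simp [us8]) 60 _ _ (by norm_num)
    go8 1 unit_one _ (tr_one_rot (by decide) _) _ _ _ gam8.symm ex8.1 ex8.2 (by norm_num) (by norm_num) _ _ tf8.1 tf8.2
    _ _ _ le_rfl ?_ ?_ ?_ ?_ <;> norm_num

end Crest.Agent.R347.Num
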