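import Crest.Agent.R347.NumRun

/-! Total traces of the ring polynomial from the chunks. -/

set_option autoImplicit false

namespace Crest.Agent.R347.Num

open Matrix

theorem wdiag_append {L : ℕ} (Q : Matrix (Cfg L) (Cfg L) ℤ) (h : Cfg L → Cfg L)
    (J J' : List (Cfg L × ℕ)) : wdiag Q h (J ++ J') = wdiag Q h J + wdiag Q h J' := by
  unfold wdiag
  rw [List.map_append, List.sum_append]

/-- all checks on the three lists of representatives: `M = 0`; even `M > 0`; odd `M > 0`. -/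
def chkAll (L : ℕ) [NeZero L] (J0 J1 J2 : List (ℕ × ℕ)) : Bool :=
  okJ L (J0 ++ (J1 ++ J2)) && ((J0 ++ (J1 ++ J2)).all fun x => wtok L x) &&
  decide (((J0 ++ (J1 ++ J2)).map Prod.snd).sum = 3 ^ L) &&
  decide (((J0 ++ (J1 ++ J2)).map Prod.fst).Nodup) &&
  ((J0 ++ J1).all fun x => decide (dsum (dec L x.1) % 2 = 0)) &&
  (J2.all fun x => decide (dsum (dec L x.1) % 2 = 1)) &&
  ((J1 ++ J2).all fun x => decide (dsum (dec L x.1) ≠ L))

section
variable {n : ℕ} {J0 J1 J2 : List (ℕ × ℕ)}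

structure ChkData (n : ℕ) (J0 J1 J2 : List (ℕ × ℕ)) : Prop where
  ok : okJ (n + 1) (J0 ++ (J1 ++ J2)) = true
  wt : ∀ x ∈ J0 ++ (J1 ++ J2), wtok (n + 1) x = true
  sm : ((J0 ++ (J1 ++ J2)).map Prod.snd).sum = 3 ^ (n + 1)
  nd : ((J0 ++ (J1 ++ J2)).map Prod.fst).Nodup
  ev : ∀ x ∈ J0 ++ J1, dsum (dec (n + 1) x.1) % 2 = 0
  od : ∀ x ∈ J2, dsum (dec (n + 1) x.1) % 2 = 1
  ne : ∀ x ∈ J1 ++ J2, dsum (dec (n + 1) x.1) ≠ n + 1

theorem chkAll_spec (h : chkAll (n + 1) J0 J1 J2 = true) : ChkData n J0 J1 J2 := by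
  unfold chkAll at h
  simp only [Bool.and_eq_true, List.all_eq_true, decide_eq_true_eq] at h
  obtain ⟨⟨⟨⟨⟨⟨h1, h2⟩, h3⟩, h4⟩, h5⟩, h6⟩, h7⟩ := h
  exact ⟨h1, h2, h3, h4, h5, h6, h7⟩

variable (hc : ChkData n J0 J1 J2)
include hc

theorem sum_all (f : Cfg (n + 1) → ℤ) (hf : ∀ k σ, f (tr k σ) = f σ)
    (hf' : ∀ σ, f (fl σ) = f σ) :
    ∑ σ, f σ = ((J0 ++ (J1 ++ J2)).map fun x => (x.2 : ℤ) * f (dec (n + 1) x.1)).sum := by
  rw [sum_reps_int (decJ (n + 1) (J0 ++ (J1 ++ J2))) (decJ_nodup hc.ok hc.nd) ?_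
    (by rw [decJ_snd]; exact hc.sm) f hf hf']
  · unfold decJ
    rw [List.map_map]
    rfl
  · intro x hx
    unfold decJ at hx
    rw [List.mem_map] at hx
    obtain ⟨y, hy, rfl⟩ := hx
    exact wtok_spec (hc.wt y hy)

omit hc in
theorem wd_eq (Q : Matrix (Cfg (n + 1)) (Cfg (n + 1)) ℤ) (h : Cfg (n + 1) → Cfg (n + 1))
    (J : List (ℕ × ℕ)) : wdiag Q h (decJ (n + 1) J) =
      (J.map fun x => (x.2 : ℤ) * Q (h (dec (n + 1) x.1)) (dec (n + 1) x.1)).sum := by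
  unfold wdiag decJ
  rw [List.map_map]
  rfl

variable (tw : Bool) (c1 ρ : ℕ) (us : List ℕ)

theorem tot_diag (hn : 1 ≤ n) : ∑ σ, Qm n tw c1 ρ us σ σ =
    wdiag (Qm n tw c1 ρ us) id (decJ (n + 1) J0) + wdiag (Qm n tw c1 ρ us) id (decJ (n + 1) J1)
      + wdiag (Qm n tw c1 ρ us) id (decJ (n + 1) J2) := by
  rw [sum_all hc (fun σ => Qm n tw c1 ρ us σ σ) (fun k σ => Qm_diag_tr tw c1 ρ us hn k σ)
    (fun σ => Qm_fl tw c1 ρ us σ σ)]
  rw [List.map_append, List.map_append, List.sum_append, List.sum_append, wd_eq, wd_eq, wd_eq]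
  simp only [id]
  ring

theorem tot_sign (hn : 1 ≤ n) : ∑ σ, sg σ * Qm n tw c1 ρ us σ σ =
    wdiag (Qm n tw c1 ρ us) id (decJ (n + 1) J0) + wdiag (Qm n tw c1 ρ us) id (decJ (n + 1) J1)
      - wdiag (Qm n tw c1 ρ us) id (decJ (n + 1) J2) := by
  rw [sum_all hc (fun σ => sg σ * Qm n tw c1 ρ us σ σ)
    (fun k σ => by rw [sg_tr, Qm_diag_tr tw c1 ρ us hn k σ])
    (fun σ => by rw [sg_fl, Qm_fl tw c1 ρ us σ σ])]
  rw [List.map_append, List.map_append, List.sum_append, List.sum_append, wd_eq, wd_eq, wd_eq]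
  have e0 : (J0.map fun x => (x.2 : ℤ) * (sg (dec (n + 1) x.1) *
      Qm n tw c1 ρ us (dec (n + 1) x.1) (dec (n + 1) x.1))) =
      J0.map fun x => (x.2 : ℤ) * Qm n tw c1 ρ us (dec (n + 1) x.1) (dec (n + 1) x.1) := by
    refine List.map_congr_left fun x hx => ?_
    have : sg (dec (n + 1) x.1) = 1 := by
      unfold sg
      exact Even.neg_one_pow (Nat.even_iff.mpr (hc.ev x (List.mem_append_left _ hx)))
    rw [this, one_mul]
  have e1 : (J1.map fun x => (x.2 : ℤ) * (sg (dec (n + 1) x.1) *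
      Qm n tw c1 ρ us (dec (n + 1) x.1) (dec (n + 1) x.1))) =
      J1.map fun x => (x.2 : ℤ) * Qm n tw c1 ρ us (dec (n + 1) x.1) (dec (n + 1) x.1) := by
    refine List.map_congr_left fun x hx => ?_
    have : sg (dec (n + 1) x.1) = 1 := by
      unfold sg
      exact Even.neg_one_pow (Nat.even_iff.mpr (hc.ev x (List.mem_append_right _ hx)))
    rw [this, one_mul]
  have e2 : ∀ J : List (ℕ × ℕ), (∀ x ∈ J, dsum (dec (n + 1) x.1) % 2 = 1) →
      (J.map fun x => (x.2 : ℤ) * (sg (dec (n + 1) x.1) *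
      Qm n tw c1 ρ us (dec (n + 1) x.1) (dec (n + 1) x.1))).sum =
      -(J.map fun x => (x.2 : ℤ) * Qm n tw c1 ρ us (dec (n + 1) x.1) (dec (n + 1) x.1)).sum := by
    intro J hJ
    induction J with
    | nil => simp
    | cons y J ih =>
      rw [List.map_cons, List.sum_cons, List.map_cons, List.sum_cons,
        ih (fun x hx => hJ x (List.mem_cons_of_mem _ hx))]
      have : sg (dec (n + 1) y.1) = -1 := by
        unfold sg
        exact Odd.neg_one_pow (Nat.odd_iff.mpr (hJ y List.mem_cons_self))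
      rw [this]
      ring
  rw [e0, e1, e2 J2 hc.od]
  simp only [id]
  ring

theorem tot_flip (hn : 1 ≤ n) : ∑ σ, Qm n tw c1 ρ us (fl σ) σ =
    wdiag (Qm n tw c1 ρ us) fl (decJ (n + 1) J0) := by
  rw [sum_all hc (fun σ => Qm n tw c1 ρ us (fl σ) σ)
    (fun k σ => Qm_flip_tr tw c1 ρ us hn k σ) (fun σ => Qm_flip_fl tw c1 ρ us σ)]
  rw [List.map_append, List.sum_append, wd_eq]
  have : ∀ J : List (ℕ × ℕ), (∀ x ∈ J, dsum (dec (n + 1) x.1) ≠ n + 1) →
      (J.map fun x => (x.2 : ℤ) * Qm n tw c1 ρ us (fl (dec (n + 1) x.1)) (dec (n + 1) x.1)).sum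
        = 0 := by
    intro J hJ
    induction J with
    | nil => simp
    | cons y J ih =>
      rw [List.map_cons, List.sum_cons, ih (fun x hx => hJ x (List.mem_cons_of_mem _ hx))]
      have h1 := hJ y List.mem_cons_self
      have h2 := dsum_fl (dec (n + 1) y.1)
      rw [Qm_label tw c1 ρ us hn _ _ (by omega), mul_zero, add_zero]
  rw [this (J1 ++ J2) hc.ne, add_zero]

end

end Crest.Agent.R347.Num
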