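import Crest.Agent.R347.OGram

/-! The action of the open-chain Hamiltonian on the mirror trial state. -/

set_option autoImplicit false

namespace Crest.Agent.R347.OChain

open Matrix Crest.MathPhysics.SpinChain Finset

section op
variable {R ι : Type*} [CommRing R] [DecidableEq ι]

/-- The one-site matrix `A` acting at site `j` on functions of configurations. -/
def op (A : Matrix (Fin 3) (Fin 3) R) (j : ι) (f : (ι → Fin 3) → R) (σ : ι → Fin 3) : R :=
  ∑ t, A (σ j) t * f (Function.update σ j t)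

/-- The matrix of `S^z`. -/
def zM (R : Type*) [CommRing R] : Matrix (Fin 3) (Fin 3) R := !![1, 0, 0; 0, 0, 0; 0, 0, -1]
/-- The matrix of `T₊`. -/
def pM (R : Type*) [CommRing R] : Matrix (Fin 3) (Fin 3) R := !![0, 1, 0; 0, 0, 1; 0, 0, 0]
/-- The matrix of `T₋`. -/
def mM (R : Type*) [CommRing R] : Matrix (Fin 3) (Fin 3) R := !![0, 0, 0; 1, 0, 0; 0, 1, 0]

theorem op_add_fun (A : Matrix (Fin 3) (Fin 3) R) (j : ι) (f g : (ι → Fin 3) → R) :
    op A j (f + g) = op A j f + op A j g := by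
  funext σ
  simp only [op, Pi.add_apply, mul_add, Finset.sum_add_distrib]

theorem op_smul_fun (A : Matrix (Fin 3) (Fin 3) R) (j : ι) (c : R) (f : (ι → Fin 3) → R) :
    op A j (c • f) = c • op A j f := by
  funext σ
  simp only [op, Pi.smul_apply, smul_eq_mul, Finset.mul_sum]
  exact Finset.sum_congr rfl fun t _ => by ring

theorem op_sum_fun {α : Type*} (s : Finset α) (A : Matrix (Fin 3) (Fin 3) R) (j : ι)
    (f : α → (ι → Fin 3) → R) :
    op A j (fun σ => ∑ a ∈ s, f a σ) = fun σ => ∑ a ∈ s, op A j (f a) σ := by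
  funext σ
  simp only [op, Finset.mul_sum]
  rw [Finset.sum_comm]

theorem op_add_mat (A B : Matrix (Fin 3) (Fin 3) R) (j : ι) (f : (ι → Fin 3) → R) :
    op (A + B) j f = op A j f + op B j f := by
  funext σ
  simp only [op, Pi.add_apply, Matrix.add_apply, add_mul, Finset.sum_add_distrib]

theorem op_smul_mat (c : R) (A : Matrix (Fin 3) (Fin 3) R) (j : ι) (f : (ι → Fin 3) → R) :
    op (c • A) j f = c • op A j f := by
  funext σ
  simp only [op, Pi.smul_apply, Matrix.smul_apply, smul_eq_mul, Finset.mul_sum]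
  exact Finset.sum_congr rfl fun t _ => by ring

theorem op_comm (A B : Matrix (Fin 3) (Fin 3) R) {i j : ι} (h : i ≠ j) (f : (ι → Fin 3) → R) :
    op A i (op B j f) = op B j (op A i f) := by
  funext σ
  simp only [op, Finset.mul_sum]
  rw [Finset.sum_comm]
  refine Finset.sum_congr rfl fun t _ => Finset.sum_congr rfl fun u _ => ?_
  rw [Function.update_of_ne h.symm, Function.update_of_ne h, Function.update_comm h]
  ring

/-- The bond `S·S` between sites `i` and `j` in terms of the integer matrices. -/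
def bd (i j : ι) (f : (ι → Fin 3) → R) : (ι → Fin 3) → R :=
  op (zM R) i (op (zM R) j f) + op (pM R) i (op (mM R) j f) + op (mM R) i (op (pM R) j f)

theorem bd_comm {i j : ι} (h : i ≠ j) (f : (ι → Fin 3) → R) : bd i j f = bd j i f := by
  unfold bd
  rw [op_comm (zM R) (zM R) h, op_comm (pM R) (mM R) h, op_comm (mM R) (pM R) h]
  abel

theorem bd_sum_fun {α : Type*} (s : Finset α) (i j : ι) (f : α → (ι → Fin 3) → R) :
    bd i j (fun σ => ∑ a ∈ s, f a σ) = fun σ => ∑ a ∈ s, bd i j (f a) σ := by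
  funext σ
  simp only [bd, op_sum_fun, Pi.add_apply, Finset.sum_add_distrib]

theorem bd_smul_fun (i j : ι) (c : R) (f : (ι → Fin 3) → R) :
    bd i j (c • f) = c • bd i j f := by
  simp only [bd, op_smul_fun, smul_add]

theorem op_zM (j : ι) (f : (ι → Fin 3) → R) (σ : ι → Fin 3) :
    op (zM R) j f σ = (1 - ((σ j : ℕ) : R)) * f σ := by
  unfold op
  rw [Fin.sum_univ_three]
  rcases h : σ j with ⟨s, hs⟩
  have hu : Function.update σ j (⟨s, hs⟩ : Fin 3) = σ := by rw [← h]; exact Function.update_eq_self _ _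
  interval_cases s
  · have : Function.update σ j (0 : Fin 3) = σ := hu
    simp [zM, this]
  · simp [zM]
  · have : Function.update σ j (2 : Fin 3) = σ := hu
    simp [zM, this]
    ring

theorem fin3_cases (s : Fin 3) : s = 0 ∨ s = 1 ∨ s = 2 := by
  fin_cases s <;> simp

theorem op_pM (j : ι) (f : (ι → Fin 3) → R) (σ : ι → Fin 3) :
    op (pM R) j f σ =
      if h : (σ j : ℕ) + 1 ≤ 2 then f (Function.update σ j ⟨(σ j : ℕ) + 1, by omega⟩) else 0 := by
  unfold op
  rw [Fin.sum_univ_three]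
  rcases fin3_cases (σ j) with h | h | h
  · have h' : (σ j : ℕ) + 1 ≤ 2 := by simp [h]
    have e : (⟨(σ j : ℕ) + 1, by omega⟩ : Fin 3) = 1 := by ext; simp [h]
    rw [dif_pos h', e, h]
    simp [pM]
  · have h' : (σ j : ℕ) + 1 ≤ 2 := by simp [h]
    have e : (⟨(σ j : ℕ) + 1, by omega⟩ : Fin 3) = 2 := by ext; simp [h]
    rw [dif_pos h', e, h]
    simp [pM]
  · have h' : ¬ ((σ j : ℕ) + 1 ≤ 2) := by simp [h]
    rw [dif_neg h', h]
    simp [pM]

theorem op_mM (j : ι) (f : (ι → Fin 3) → R) (σ : ι → Fin 3) :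
    op (mM R) j f σ =
      if h : 1 ≤ (σ j : ℕ) then f (Function.update σ j ⟨(σ j : ℕ) - 1, by omega⟩) else 0 := by
  unfold op
  rw [Fin.sum_univ_three]
  rcases fin3_cases (σ j) with h | h | h
  · have h' : ¬ (1 ≤ (σ j : ℕ)) := by simp [h]
    rw [dif_neg h', h]
    simp [mM]
  · have h' : 1 ≤ (σ j : ℕ) := by simp [h]
    have e : (⟨(σ j : ℕ) - 1, by omega⟩ : Fin 3) = 0 := by ext; simp [h]
    rw [dif_pos h', e, h]
    simp [mM]
  · have h' : 1 ≤ (σ j : ℕ) := by simp [h]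
    have e : (⟨(σ j : ℕ) - 1, by omega⟩ : Fin 3) = 1 := by ext; simp [h]
    rw [dif_pos h', e, h]
    simp [mM]

end op

section matrix
variable {ι : Type*} [Fintype ι] [DecidableEq ι]

theorem onSite_mulVec (A : Matrix (Fin 3) (Fin 3) ℂ) (j : ι) (f : (ι → Fin 3) → ℂ) :
    (onSite A j).mulVec f = op A j f := by
  funext σ
  simp only [Matrix.mulVec, dotProduct, onSite, Matrix.of_apply, op]
  rw [← Finset.sum_subset (s₁ := Finset.univ.image (fun t => Function.update σ j t))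
    (Finset.subset_univ _)]
  · rw [Finset.sum_image]
    · refine Finset.sum_congr rfl fun t _ => ?_
      rw [if_pos]
      · simp
      · intro k hk
        simp [hk]
    · intro a _ b _ hab
      have := congrFun hab j
      simpa using this
  · intro τ _ hτ
    rw [if_neg, zero_mul]
    intro hk
    apply hτ
    rw [Finset.mem_image]
    refine ⟨τ j, Finset.mem_univ _, ?_⟩
    funext k
    by_cases h : k = j
    · subst h; simp
    · simp [h, hk k h]

theorem spinPlus_eq : spinPlus = ((Real.sqrt 2 : ℝ) : ℂ) • pM ℂ := by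
  ext i j
  fin_cases i <;> fin_cases j <;> simp [spinPlus, pM]

theorem spinMinus_eq : spinMinus = ((Real.sqrt 2 : ℝ) : ℂ) • mM ℂ := by
  rw [spinMinus, spinPlus_eq]
  ext i j
  fin_cases i <;> fin_cases j <;> simp [Matrix.conjTranspose_apply, pM, mM]

theorem spinZ_eq' : spinZ = zM ℂ := by
  ext i j
  fin_cases i <;> fin_cases j <;> simp [spinZ, magneticNumber, zM, Matrix.diagonal]
  norm_num

theorem bond_mulVec (i j : ι) (f : (ι → Fin 3) → ℂ) :
    (bond i j).mulVec f = bd i j f := by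
  have h2 : ((Real.sqrt 2 : ℝ) : ℂ) * ((Real.sqrt 2 : ℝ) : ℂ) = 2 := by
    rw [← Complex.ofReal_mul, Real.mul_self_sqrt (by norm_num)]
    norm_num
  unfold bond
  rw [Fin.sum_univ_three, Matrix.add_mulVec, Matrix.add_mulVec]
  simp only [← Matrix.mulVec_mulVec, onSite_mulVec]
  have e0 : spinOp 0 = (1 / 2 * ((Real.sqrt 2 : ℝ) : ℂ)) • (pM ℂ + mM ℂ) := by
    show spinX = _
    rw [spinX, spinPlus_eq, spinMinus_eq, ← smul_add, smul_smul]
  have e1 : spinOp 1 = (1 / (2 * Complex.I) * ((Real.sqrt 2 : ℝ) : ℂ)) • (pM ℂ + (-1 : ℂ) • mM ℂ) := by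
    show spinY = _
    rw [spinY, spinPlus_eq, spinMinus_eq, ← smul_sub, smul_smul, neg_one_smul, ← sub_eq_add_neg]
  have e2 : spinOp 2 = zM ℂ := by
    show spinZ = _
    exact spinZ_eq'
  rw [e0, e1, e2]
  simp only [op_smul_mat, op_add_mat, op_smul_fun, op_add_fun, smul_smul]
  unfold bd
  funext σ
  simp only [Pi.add_apply, Pi.smul_apply, smul_eq_mul]
  have hI : (1 / (2 * Complex.I) * ((Real.sqrt 2 : ℝ) : ℂ)) *
      (1 / (2 * Complex.I) * ((Real.sqrt 2 : ℝ) : ℂ)) = -(1 / 2) := by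
    have : (1 / (2 * Complex.I) * ((Real.sqrt 2 : ℝ) : ℂ)) *
      (1 / (2 * Complex.I) * ((Real.sqrt 2 : ℝ) : ℂ)) =
      (((Real.sqrt 2 : ℝ) : ℂ) * ((Real.sqrt 2 : ℝ) : ℂ)) / (4 * (Complex.I * Complex.I)) := by
      field_simp
      norm_num
    rw [this, h2, Complex.I_mul_I]
    norm_num
  have hX : (1 / 2 * ((Real.sqrt 2 : ℝ) : ℂ)) * (1 / 2 * ((Real.sqrt 2 : ℝ) : ℂ)) = 1 / 2 := by
    have : (1 / 2 * ((Real.sqrt 2 : ℝ) : ℂ)) * (1 / 2 * ((Real.sqrt 2 : ℝ) : ℂ)) =
      (((Real.sqrt 2 : ℝ) : ℂ) * ((Real.sqrt 2 : ℝ) : ℂ)) / 4 := by ring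
    rw [this, h2]
    norm_num
  generalize 1 / (2 * Complex.I) * ((Real.sqrt 2 : ℝ) : ℂ) = y at hI
  generalize 1 / 2 * ((Real.sqrt 2 : ℝ) : ℂ) = x at hX
  generalize op (pM ℂ) i (op (pM ℂ) j f) σ = a
  generalize op (pM ℂ) i (op (mM ℂ) j f) σ = b
  generalize op (mM ℂ) i (op (pM ℂ) j f) σ = c
  generalize op (mM ℂ) i (op (mM ℂ) j f) σ = d
  linear_combination (a + b + c + d) * hX + (a - b - c + d) * hI

end matrix

section left

/-- Adding one site to a family of left vectors. -/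
def ext (H : Half) (k : ℕ) (F : ℕ → ℕ → (Fin k → Fin 3) → ℤ) (q' j : ℕ)
    (σ : Fin (k + 1) → Fin 3) : ℤ :=
  ∑ i ∈ range (H.d k (q' + (σ (Fin.last k) : ℕ) - 1)),
    F (q' + (σ (Fin.last k) : ℕ) - 1) i (fun j => σ (Fin.castSucc j)) *
      H.a k (σ (Fin.last k) : ℕ) (q' + (σ (Fin.last k) : ℕ) - 1) i j

theorem V_succ_zero (H : Half) (k q' j : ℕ) :
    V H (k + 1) 0 q' j = ext H k (V H k 0) q' j := by
  funext σ
  simp only [V, ext, Finset.sum_range_succ, Finset.sum_range_zero, kap, mu]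
  simp

theorem V_succ_one (H : Half) (k q' j : ℕ) :
    V H (k + 1) 1 q' j = op (zM ℤ) (Fin.last k) (V H (k + 1) 0 q' j) := by
  funext σ
  rw [op_zM]
  simp only [V, Finset.sum_range_succ, Finset.sum_range_zero, kap, mu]
  simp

theorem V_succ_two (H : Half) (k q' j : ℕ) :
    V H (k + 1) 2 q' j = op (pM ℤ) (Fin.last k) (V H (k + 1) 0 q' j) := by
  funext σ
  rw [op_pM]
  simp only [V, Finset.sum_range_succ, Finset.sum_range_zero, kap, mu]
  by_cases h : (σ (Fin.last k) : ℕ) + 1 ≤ 2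
  · rw [dif_pos h]
    simp [h]
  · rw [dif_neg h]
    simp [h]

theorem V_succ_three (H : Half) (k q' j : ℕ) :
    V H (k + 1) 3 q' j = op (mM ℤ) (Fin.last k) (V H (k + 1) 0 q' j) := by
  funext σ
  rw [op_mM]
  simp only [V, Finset.sum_range_succ, Finset.sum_range_zero, kap, mu]
  by_cases h : 1 ≤ (σ (Fin.last k) : ℕ)
  · rw [dif_pos h]
    simp [h]
  · rw [dif_neg h]
    have h' : (σ (Fin.last k) : ℕ) = 0 := by omega
    simp [h']

theorem V_zero_of_ne (H : Half) (w q i : ℕ) (hw : w ≠ 0) (σ : Fin 0 → Fin 3) :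
    V H 0 w q i σ = 0 := by
  simp [V, hw]

theorem op_last_ext (H : Half) (k : ℕ) (A : Matrix (Fin 3) (Fin 3) ℤ)
    (F : ℕ → ℕ → (Fin k → Fin 3) → ℤ) (j : Fin k) (q' i : ℕ) :
    op A (Fin.castSucc j) (ext H k F q' i) = ext H k (fun q i => op A j (F q i)) q' i := by
  funext σ
  have hne : Fin.last k ≠ Fin.castSucc j := (Fin.castSucc_lt_last j).ne'
  simp only [op, ext]
  simp only [Finset.sum_mul, Finset.mul_sum, Function.update_of_ne hne]
  rw [Finset.sum_comm]
  refine Finset.sum_congr rfl fun a _ => Finset.sum_congr rfl fun t _ => ?_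
  have : (fun l => Function.update σ (Fin.castSucc j) t (Fin.castSucc l)) =
      Function.update (fun l => σ (Fin.castSucc l)) j t := by
    funext l
    by_cases hl : l = j
    · subst hl; simp
    · rw [Function.update_of_ne hl, Function.update_of_ne]
      intro h
      exact hl (Fin.castSucc_injective _ h)
  rw [this]
  ring

theorem ext_add (H : Half) (k : ℕ) (F G : ℕ → ℕ → (Fin k → Fin 3) → ℤ) (q' j : ℕ) :
    ext H k (fun q i => F q i + G q i) q' j = ext H k F q' j + ext H k G q' j := by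
  funext σ
  simp only [ext, Pi.add_apply, add_mul, Finset.sum_add_distrib]

theorem ext_smul (H : Half) (k : ℕ) (c : ℤ) (F : ℕ → ℕ → (Fin k → Fin 3) → ℤ) (q' j : ℕ) :
    ext H k (fun q i => c • F q i) q' j = c • ext H k F q' j := by
  funext σ
  simp only [ext, Pi.smul_apply, smul_eq_mul, Finset.mul_sum, mul_assoc]

theorem ext_sum {α : Type*} (s : Finset α) (H : Half) (k : ℕ)
    (F : α → ℕ → ℕ → (Fin k → Fin 3) → ℤ) (q' j : ℕ) :
    ext H k (fun q i => ∑ a ∈ s, F a q i) q' j = ∑ a ∈ s, ext H k (F a) q' j := by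
  funext σ
  simp only [ext, Finset.sum_apply, Finset.sum_mul]
  rw [Finset.sum_comm]

theorem V_succ_four (H : Half) (k q' j : ℕ) :
    V H (k + 1) 4 q' j =
      (if k = 0 then (-3 : ℤ) else 0) • op (zM ℤ) (Fin.last k) (ext H k (V H k 0) q' j) +
      (5 : ℤ) • op (zM ℤ) (Fin.last k) (ext H k (V H k 1) q' j) +
      (5 : ℤ) • op (mM ℤ) (Fin.last k) (ext H k (V H k 2) q' j) +
      (5 : ℤ) • op (pM ℤ) (Fin.last k) (ext H k (V H k 3) q' j) +
      ext H k (V H k 4) q' j := by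
  funext σ
  simp only [Pi.add_apply, Pi.smul_apply]
  rw [op_zM, op_zM, op_mM, op_pM]
  simp only [V, Finset.sum_range_succ, Finset.sum_range_zero, kap, mu, ext]
  rcases fin3_cases (σ (Fin.last k)) with h | h | h
  · simp [h]
  · simp [h]
  · simp [h]
    split_ifs <;> simp

theorem bd_last_ext (H : Half) (k : ℕ)
    (F : ℕ → ℕ → (Fin k → Fin 3) → ℤ) (a b : Fin k) (q' i : ℕ) :
    bd (Fin.castSucc a) (Fin.castSucc b) (ext H k F q' i) =
      ext H k (fun q i => bd a b (F q i)) q' i := by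
  unfold bd
  simp only [op_last_ext]
  rw [ext_add, ext_add]

/-- The half-chain Hamiltonian `K = 5 ∑ bonds - 3 S^z_0`. -/
theorem V_four (H : Half) (k q i : ℕ) :
    V H (k + 1) 4 q i =
      (5 : ℤ) • (∑ j : Fin k, bd (Fin.castSucc j) (Fin.succ j) (V H (k + 1) 0 q i)) +
      (-3 : ℤ) • op (zM ℤ) 0 (V H (k + 1) 0 q i) := by
  induction k generalizing q i with
  | zero =>
    rw [V_succ_four, V_succ_zero]
    have h0 : ∀ w, w ≠ 0 → ext H 0 (V H 0 w) q i = 0 := by
      intro w hw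
      funext σ
      simp only [ext, V_zero_of_ne H w _ _ hw, zero_mul, Finset.sum_const_zero, Pi.zero_apply]
    rw [h0 1 (by norm_num), h0 2 (by norm_num), h0 3 (by norm_num), h0 4 (by norm_num)]
    have hz : ∀ (A : Matrix (Fin 3) (Fin 3) ℤ) (l : Fin (0 + 1)),
        op A l (0 : (Fin (0 + 1) → Fin 3) → ℤ) = 0 := by
      intro A l
      funext σ
      simp [op]
    rw [hz, hz, hz]
    simp
  | succ k ih =>
    rw [V_succ_four, if_neg (Nat.succ_ne_zero k)]
    have e1 : ext H (k + 1) (V H (k + 1) 1) q i =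
        op (zM ℤ) (Fin.castSucc (Fin.last k)) (V H (k + 1 + 1) 0 q i) := by
      rw [V_succ_zero H (k + 1), op_last_ext]
      congr 1
      funext q' j'
      exact V_succ_one H k q' j'
    have e2 : ext H (k + 1) (V H (k + 1) 2) q i =
        op (pM ℤ) (Fin.castSucc (Fin.last k)) (V H (k + 1 + 1) 0 q i) := by
      rw [V_succ_zero H (k + 1), op_last_ext]
      congr 1
      funext q' j'
      exact V_succ_two H k q' j'
    have e3 : ext H (k + 1) (V H (k + 1) 3) q i =
        op (mM ℤ) (Fin.castSucc (Fin.last k)) (V H (k + 1 + 1) 0 q i) := by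
      rw [V_succ_zero H (k + 1), op_last_ext]
      congr 1
      funext q' j'
      exact V_succ_three H k q' j'
    have e4 : ext H (k + 1) (V H (k + 1) 4) q i =
        (5 : ℤ) • (∑ j : Fin k, bd (Fin.castSucc (Fin.castSucc j)) (Fin.castSucc (Fin.succ j))
          (V H (k + 1 + 1) 0 q i)) +
        (-3 : ℤ) • op (zM ℤ) 0 (V H (k + 1 + 1) 0 q i) := by
      rw [V_succ_zero H (k + 1)]
      simp only [bd_last_ext]
      have : (0 : Fin (k + 1 + 1)) = Fin.castSucc (0 : Fin (k + 1)) := rfl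
      rw [this, op_last_ext, ← ext_sum, ← ext_smul, ← ext_smul, ← ext_add]
      congr 1
      funext q' j'
      exact ih q' j'
    rw [e1, e2, e3, e4, Fin.sum_univ_castSucc (n := k)]
    have hne : Fin.castSucc (Fin.last k) ≠ Fin.last (k + 1) := (Fin.castSucc_lt_last _).ne
    have hb : bd (Fin.castSucc (Fin.last k)) (Fin.succ (Fin.last k)) (V H (k + 1 + 1) 0 q i) =
        op (zM ℤ) (Fin.last (k + 1)) (op (zM ℤ) (Fin.castSucc (Fin.last k))
          (V H (k + 1 + 1) 0 q i)) +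
        op (mM ℤ) (Fin.last (k + 1)) (op (pM ℤ) (Fin.castSucc (Fin.last k))
          (V H (k + 1 + 1) 0 q i)) +
        op (pM ℤ) (Fin.last (k + 1)) (op (mM ℤ) (Fin.castSucc (Fin.last k))
          (V H (k + 1 + 1) 0 q i)) := by
      rw [Fin.succ_last]
      unfold bd
      rw [op_comm (zM ℤ) (zM ℤ) hne, op_comm (pM ℤ) (mM ℤ) hne, op_comm (mM ℤ) (pM ℤ) hne]
    rw [hb]
    simp only [Fin.succ_castSucc]
    simp only [smul_add, zero_smul]
    abel

end left

section mirror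
variable {m : ℕ}

theorem lft_update_left (σ : Fin (m + m) → Fin 3) (j : Fin m) (t : Fin 3) :
    lft (Function.update σ (Fin.castAdd m j) t) = Function.update (lft σ) j t := by
  funext l
  unfold lft
  by_cases h : l = j
  · subst h; simp
  · rw [Function.update_of_ne h, Function.update_of_ne]
    intro h'
    exact h (Fin.castAdd_injective _ _ h')

theorem lft_update_right (σ : Fin (m + m) → Fin 3) (j : Fin m) (t : Fin 3) :
    lft (Function.update σ (Fin.natAdd m j) t) = lft σ := by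
  funext l
  unfold lft
  rw [Function.update_of_ne]
  intro h'
  have := congrArg Fin.val h'
  simp at this
  omega

theorem rgt_update_left (σ : Fin (m + m) → Fin 3) (j : Fin m) (t : Fin 3) :
    rgt (Function.update σ (Fin.castAdd m j) t) = rgt σ := by
  funext l
  unfold rgt
  rw [Function.update_of_ne]
  intro h'
  have := congrArg Fin.val h'
  simp at this
  omega

theorem rgt_update_right (σ : Fin (m + m) → Fin 3) (j : Fin m) (t : Fin 3) :
    rgt (Function.update σ (Fin.natAdd m j) t) =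
      Function.update (rgt σ) (Fin.rev j) (Fin.rev t) := by
  funext l
  unfold rgt
  by_cases h : l = Fin.rev j
  · subst h; simp
  · rw [Function.update_of_ne h, Function.update_of_ne]
    intro h'
    apply h
    have := Fin.natAdd_injective _ _ h'
    rw [← this, Fin.rev_rev]

/-- Product of a function of the left half and a function of the mirrored right half. -/
def lr (f g : (Fin m → Fin 3) → ℤ) (σ : Fin (m + m) → Fin 3) : ℤ := f (lft σ) * g (rgt σ)

theorem op_left (A : Matrix (Fin 3) (Fin 3) ℤ) (j : Fin m) (f g : (Fin m → Fin 3) → ℤ) :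
    op A (Fin.castAdd m j) (lr f g) = lr (op A j f) g := by
  funext σ
  simp only [op, lr, lft_update_left, rgt_update_left, Finset.sum_mul]
  refine Finset.sum_congr rfl fun t _ => ?_
  rw [mul_assoc]
  rfl

theorem op_right (A : Matrix (Fin 3) (Fin 3) ℤ) (j : Fin m) (f g : (Fin m → Fin 3) → ℤ) :
    op A (Fin.natAdd m j) (lr f g) = lr f (op (A.submatrix Fin.rev Fin.rev) (Fin.rev j) g) := by
  funext σ
  simp only [op, lr, lft_update_right, rgt_update_right, Finset.mul_sum]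
  rw [← Equiv.sum_comp (Fin.revPerm : Equiv.Perm (Fin 3))]
  refine Finset.sum_congr rfl fun t _ => ?_
  simp only [Fin.revPerm_apply, Fin.rev_rev, Matrix.submatrix_apply, rgt]
  ring

theorem zM_rev : (zM ℤ).submatrix Fin.rev Fin.rev = (-1 : ℤ) • zM ℤ := by
  ext i j; fin_cases i <;> fin_cases j <;> rfl
theorem pM_rev : (pM ℤ).submatrix Fin.rev Fin.rev = mM ℤ := by
  ext i j; fin_cases i <;> fin_cases j <;> rfl
theorem mM_rev : (mM ℤ).submatrix Fin.rev Fin.rev = pM ℤ := by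
  ext i j; fin_cases i <;> fin_cases j <;> rfl

theorem lr_add_left (f f' g : (Fin m → Fin 3) → ℤ) : lr (f + f') g = lr f g + lr f' g := by
  funext σ; simp only [lr, Pi.add_apply, add_mul]
theorem lr_add_right (f g g' : (Fin m → Fin 3) → ℤ) : lr f (g + g') = lr f g + lr f g' := by
  funext σ; simp only [lr, Pi.add_apply, mul_add]
theorem lr_smul_left (c : ℤ) (f g : (Fin m → Fin 3) → ℤ) : lr (c • f) g = c • lr f g := by
  funext σ; simp only [lr, Pi.smul_apply, smul_eq_mul, mul_assoc]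
theorem lr_smul_right (c : ℤ) (f g : (Fin m → Fin 3) → ℤ) : lr f (c • g) = c • lr f g := by
  funext σ; simp only [lr, Pi.smul_apply, smul_eq_mul]; ring
theorem lr_sum_left {α : Type*} (s : Finset α) (f : α → (Fin m → Fin 3) → ℤ)
    (g : (Fin m → Fin 3) → ℤ) : lr (∑ a ∈ s, f a) g = ∑ a ∈ s, lr (f a) g := by
  funext σ; simp only [lr, Finset.sum_apply, Finset.sum_mul]
theorem lr_sum_right {α : Type*} (s : Finset α) (f : (Fin m → Fin 3) → ℤ)
    (g : α → (Fin m → Fin 3) → ℤ) : lr f (∑ a ∈ s, g a) = ∑ a ∈ s, lr f (g a) := by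
  funext σ; simp only [lr, Finset.sum_apply, Finset.mul_sum]

theorem bd_left (a b : Fin m) (f g : (Fin m → Fin 3) → ℤ) :
    bd (Fin.castAdd m a) (Fin.castAdd m b) (lr f g) = lr (bd a b f) g := by
  unfold bd
  simp only [op_left, lr_add_left]

theorem bd_right (a b : Fin m) (f g : (Fin m → Fin 3) → ℤ) :
    bd (Fin.natAdd m a) (Fin.natAdd m b) (lr f g) = lr f (bd (Fin.rev a) (Fin.rev b) g) := by
  unfold bd
  simp only [op_right, zM_rev, pM_rev, mM_rev, op_smul_mat, op_smul_fun, lr_add_right,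
    lr_smul_right, smul_smul]
  rw [show ((-1 : ℤ) * -1) = 1 by norm_num, one_smul]
  abel

theorem bd_center (a b : Fin m) (f g : (Fin m → Fin 3) → ℤ) :
    bd (Fin.castAdd m a) (Fin.natAdd m b) (lr f g) =
      (-1 : ℤ) • lr (op (zM ℤ) a f) (op (zM ℤ) (Fin.rev b) g) +
      lr (op (pM ℤ) a f) (op (pM ℤ) (Fin.rev b) g) +
      lr (op (mM ℤ) a f) (op (mM ℤ) (Fin.rev b) g) := by
  unfold bd
  simp only [op_right, zM_rev, pM_rev, mM_rev, op_smul_mat, op_smul_fun, lr_smul_right, op_left]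

/-- The action of the integer Hamiltonian on a product of left vectors. -/
theorem K_lr (H : Half) (p q i : ℕ) :
    (5 : ℤ) • (∑ j : Fin (p + 1 + p), bd (Fin.castSucc j) (Fin.succ j)
        (lr (m := p + 1) (V H (p + 1) 0 q i) (V H (p + 1) 0 q i))) +
      (-3 : ℤ) • op (zM ℤ) (0 : Fin (p + 1 + p + 1))
        (lr (m := p + 1) (V H (p + 1) 0 q i) (V H (p + 1) 0 q i)) +
      (3 : ℤ) • op (zM ℤ) (Fin.last (p + 1 + p))
        (lr (m := p + 1) (V H (p + 1) 0 q i) (V H (p + 1) 0 q i)) =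
      fun σ => ∑ w ∈ range 5, cst w * (V H (p + 1) w q i (lft (m := p + 1) σ) *
        V H (p + 1) (wst w) q i (rgt (m := p + 1) σ)) := by
  have hV := V_four H p q i
  have h1 := V_succ_one H p q i
  have h2 := V_succ_two H p q i
  have h3 := V_succ_three H p q i
  have hR : (fun σ : Fin (p + 1 + (p + 1)) → Fin 3 =>
      ∑ w ∈ range 5, cst w * (V H (p + 1) w q i (lft (m := p + 1) σ) *
        V H (p + 1) (wst w) q i (rgt (m := p + 1) σ))) =
      lr (m := p + 1) (V H (p + 1) 0 q i) (V H (p + 1) 4 q i) +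
      (-5 : ℤ) • lr (m := p + 1) (V H (p + 1) 1 q i) (V H (p + 1) 1 q i) +
      (5 : ℤ) • lr (m := p + 1) (V H (p + 1) 2 q i) (V H (p + 1) 2 q i) +
      (5 : ℤ) • lr (m := p + 1) (V H (p + 1) 3 q i) (V H (p + 1) 3 q i) +
      lr (m := p + 1) (V H (p + 1) 4 q i) (V H (p + 1) 0 q i) := by
    funext σ
    simp only [Finset.sum_range_succ, Finset.sum_range_zero, cst, wst, lr, Pi.add_apply,
      Pi.smul_apply, smul_eq_mul]
    simp
  refine Eq.trans ?_ hR.symm
  rw [hV, h1, h2, h3]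
  generalize V H (p + 1) 0 q i = f
  have hz0 : op (zM ℤ) (0 : Fin (p + 1 + p + 1)) (lr (m := p + 1) f f) =
      lr (m := p + 1) (op (zM ℤ) 0 f) f := by
    have : (0 : Fin (p + 1 + p + 1)) = Fin.castAdd (p + 1) (0 : Fin (p + 1)) := rfl
    rw [this]
    exact op_left _ _ _ _
  have hzl : op (zM ℤ) (Fin.last (p + 1 + p)) (lr (m := p + 1) f f) =
      (-1 : ℤ) • lr (m := p + 1) f (op (zM ℤ) 0 f) := by
    have : Fin.last (p + 1 + p) = Fin.natAdd (p + 1) (Fin.last p) := rfl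
    rw [this]
    refine (op_right _ _ _ _).trans ?_
    rw [Fin.rev_last, zM_rev, op_smul_mat, lr_smul_right]
  rw [hz0, hzl]
  have hs : (∑ j : Fin (p + 1 + p), bd (Fin.castSucc j) (Fin.succ j) (lr (m := p + 1) f f)) =
      (∑ j : Fin p, lr (m := p + 1) (bd (Fin.castSucc j) (Fin.succ j) f) f) +
      ((-1 : ℤ) • lr (m := p + 1) (op (zM ℤ) (Fin.last p) f) (op (zM ℤ) (Fin.last p) f) +
      lr (m := p + 1) (op (pM ℤ) (Fin.last p) f) (op (pM ℤ) (Fin.last p) f) +
      lr (m := p + 1) (op (mM ℤ) (Fin.last p) f) (op (mM ℤ) (Fin.last p) f)) +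
      (∑ j : Fin p, lr (m := p + 1) f (bd (Fin.castSucc j) (Fin.succ j) f)) := by
    rw [Fin.sum_univ_add, Fin.sum_univ_castSucc]
    congr 1
    · congr 1
      · refine Finset.sum_congr rfl fun j _ => ?_
        exact bd_left (m := p + 1) (Fin.castSucc j) (Fin.succ j) f f
      · refine (bd_center (m := p + 1) (Fin.last p) 0 f f).trans ?_
        rw [Fin.rev_zero]
    · rw [← Equiv.sum_comp (Fin.revPerm : Equiv.Perm (Fin p))]
      refine Finset.sum_congr rfl fun j _ => ?_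
      refine (bd_right (m := p + 1) (Fin.castSucc (Fin.rev j)) (Fin.succ (Fin.rev j)) f f).trans ?_
      rw [Fin.rev_castSucc, Fin.rev_succ, Fin.rev_rev, bd_comm (Fin.castSucc_lt_succ).ne]
  rw [hs]
  simp only [lr_add_left, lr_add_right, lr_smul_left, lr_smul_right, lr_sum_left, lr_sum_right,
    smul_add, smul_smul]
  norm_num
  abel

end mirror

/-- Casting of the integer operators. -/
theorem op_cast {ι : Type*} [DecidableEq ι] (A : Matrix (Fin 3) (Fin 3) ℤ) (B : Matrix (Fin 3) (Fin 3) ℂ)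
    (hAB : ∀ i j, ((A i j : ℤ) : ℂ) = B i j) (j : ι) (f : (ι → Fin 3) → ℤ) :
    (fun σ => ((op A j f σ : ℤ) : ℂ)) = op B j (fun σ => ((f σ : ℤ) : ℂ)) := by
  funext σ
  simp only [op]
  push_cast
  exact Finset.sum_congr rfl fun t _ => by rw [hAB]

theorem zM_cast (i j : Fin 3) : ((zM ℤ i j : ℤ) : ℂ) = zM ℂ i j := by
  fin_cases i <;> fin_cases j <;> simp [zM]
theorem pM_cast (i j : Fin 3) : ((pM ℤ i j : ℤ) : ℂ) = pM ℂ i j := by
  fin_cases i <;> fin_cases j <;> simp [pM]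
theorem mM_cast (i j : Fin 3) : ((mM ℤ i j : ℤ) : ℂ) = mM ℂ i j := by
  fin_cases i <;> fin_cases j <;> simp [mM]

theorem bd_cast {ι : Type*} [DecidableEq ι] (i j : ι) (f : (ι → Fin 3) → ℤ) :
    (fun σ => ((bd i j f σ : ℤ) : ℂ)) = bd i j (fun σ => ((f σ : ℤ) : ℂ)) := by
  unfold bd
  rw [← op_cast (zM ℤ) (zM ℂ) zM_cast j, ← op_cast (pM ℤ) (pM ℂ) pM_cast j,
    ← op_cast (mM ℤ) (mM ℂ) mM_cast j, ← op_cast (zM ℤ) (zM ℂ) zM_cast i,
    ← op_cast (pM ℤ) (pM ℂ) pM_cast i, ← op_cast (mM ℤ) (mM ℂ) mM_cast i]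
  funext σ
  simp only [Pi.add_apply]
  push_cast
  rfl

/-- The integer Hamiltonian `5 H`. -/
def Kop (n : ℕ) (f : (Fin (n + 1) → Fin 3) → ℤ) : (Fin (n + 1) → Fin 3) → ℤ :=
  (5 : ℤ) • (∑ j : Fin n, bd (Fin.castSucc j) (Fin.succ j) f) +
    (-3 : ℤ) • op (zM ℤ) (0 : Fin (n + 1)) f + (3 : ℤ) • op (zM ℤ) (Fin.last n) f

theorem Kop_sum {α : Type*} (s : Finset α) (n : ℕ) (f : α → (Fin (n + 1) → Fin 3) → ℤ) :
    Kop n (fun σ => ∑ a ∈ s, f a σ) = fun σ => ∑ a ∈ s, Kop n (f a) σ := by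
  funext σ
  simp only [Kop, bd_sum_fun, op_sum_fun, Pi.add_apply, Pi.smul_apply, Finset.sum_apply,
    smul_eq_mul, Finset.sum_add_distrib, ← Finset.mul_sum]
  rw [Finset.sum_comm]

theorem Kop_smul (n : ℕ) (c : ℤ) (f : (Fin (n + 1) → Fin 3) → ℤ) :
    Kop n (c • f) = c • Kop n f := by
  funext σ
  simp only [Kop, bd_smul_fun, op_smul_fun, Pi.add_apply, Pi.smul_apply, Finset.sum_apply,
    smul_eq_mul, ← Finset.mul_sum]
  ring

/-- `5 H` acting on the cast of an integer vector. -/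
theorem openH_cast (n : ℕ) (f : (Fin (n + 1) → Fin 3) → ℤ) :
    (openH n (3 / 5) (-(3 / 5))).mulVec (fun σ => ((f σ : ℤ) : ℂ)) =
      fun σ => ((Kop n f σ : ℤ) : ℂ) / 5 := by
  rw [openH, Matrix.sub_mulVec, Matrix.sub_mulVec, Matrix.smul_mulVec, Matrix.smul_mulVec,
    Matrix.sum_mulVec]
  simp only [bond_mulVec, onSite_mulVec, spinZ_eq', ← bd_cast, ← op_cast (zM ℤ) (zM ℂ) zM_cast]
  funext σ
  simp only [Kop, Pi.sub_apply, Pi.smul_apply, Finset.sum_apply, smul_eq_mul, Pi.add_apply]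
  push_cast
  ring

/-- `5 H ψ = φ`.  (`p + 1 + p + 1 = (p + 1) + (p + 1)` definitionally.) -/
theorem openH_psi (H : Half) (hH : H.Ok) (p : ℕ) (ε : ℕ → ℕ → ℤ) :
    (openH (p + 1 + p) (3 / 5) (-(3 / 5))).mulVec
        (fun σ => ((psi H (p + 1) ε σ : ℤ) : ℂ)) =
      fun σ => ((phi H (p + 1) ε σ : ℤ) : ℂ) / 5 := by
  rw [openH_cast]
  have key : Kop (p + 1 + p) (fun σ => ∑ q ∈ range 9, ∑ i ∈ range (H.d (p + 1) q),
        (ε q i • lr (m := p + 1) (V H (p + 1) 0 q i) (V H (p + 1) 0 q i)) σ) =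
      fun σ => ∑ q ∈ range 9, ∑ i ∈ range (H.d (p + 1) q),
      ε q i * ∑ w ∈ range 5, cst w * (V H (p + 1) w q i (lft (m := p + 1) σ) *
        V H (p + 1) (wst w) q i (rgt (m := p + 1) σ)) := by
    rw [Kop_sum]
    funext σ
    refine Finset.sum_congr rfl fun q _ => ?_
    rw [Kop_sum]
    refine Finset.sum_congr rfl fun i _ => ?_
    rw [Kop_smul, Pi.smul_apply, smul_eq_mul]
    congr 1
    exact congrFun (K_lr H p q i) σ
  funext σ
  congr 2
  exact congrFun key σ

end Crest.Agent.R347.OChain
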