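import Crest.Agent.R347.OGram

/-! A priori bound for the Gram matrices. -/

set_option autoImplicit false

namespace Crest.Agent.R347.OChain

open Finset

/-- bound of the `ℓ¹` norm of the extended left vectors -/
def beta (Sb : ℤ) (k w : ℕ) : ℤ := if w = 4 then 18 * k * Sb ^ k else Sb ^ k

theorem beta_nonneg {Sb : ℤ} (h : 0 ≤ Sb) (k w : ℕ) : 0 ≤ beta Sb k w := by
  unfold beta
  split_ifs <;> positivity

/-- column sums -/
def Tc (H : Half) (k e q' j : ℕ) : ℤ :=
  ∑ i ∈ range (H.d k (q' + e - 1)), |H.a k e (q' + e - 1) i j|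

theorem Tc_nonneg (H : Half) (k e q' j : ℕ) : 0 ≤ Tc H k e q' j :=
  Finset.sum_nonneg fun _ _ => abs_nonneg _

theorem abs_V_succ (H : Half) (k w1 q' j : ℕ) :
    ∑ σ, |V H (k + 1) w1 q' j σ| ≤ ∑ s ∈ range 3, ∑ w ∈ range 5, |kap k s w w1| *
      ∑ i ∈ range (H.d k (q' + (s + mu w1 - mu w) - 1)),
        (∑ σ : Fin k → Fin 3, |V H k w (q' + (s + mu w1 - mu w) - 1) i σ|) *
          |H.a k (s + mu w1 - mu w) (q' + (s + mu w1 - mu w) - 1) i j| := by
  rw [sum_snoc]
  refine Finset.sum_le_sum fun s hs => ?_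
  have hs3 : s < 3 := Finset.mem_range.mp hs
  simp only [dif_pos hs3]
  calc ∑ σ : Fin k → Fin 3, |V H (k + 1) w1 q' j (Fin.snoc (α := fun _ => Fin 3) σ ⟨s, hs3⟩)|
      ≤ ∑ σ : Fin k → Fin 3, ∑ w ∈ range 5, |kap k s w w1| *
        ∑ i ∈ range (H.d k (q' + (s + mu w1 - mu w) - 1)),
          |V H k w (q' + (s + mu w1 - mu w) - 1) i σ| *
          |H.a k (s + mu w1 - mu w) (q' + (s + mu w1 - mu w) - 1) i j| := by
        refine Finset.sum_le_sum fun σ _ => ?_
        rw [V_snoc]
        refine (Finset.abs_sum_le_sum_abs _ _).trans (Finset.sum_le_sum fun w _ => ?_)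
        rw [abs_mul]
        refine mul_le_mul_of_nonneg_left ?_ (abs_nonneg _)
        refine (Finset.abs_sum_le_sum_abs _ _).trans (Finset.sum_le_sum fun i _ => ?_)
        rw [abs_mul]
    _ = _ := by
        rw [Finset.sum_comm]
        refine Finset.sum_congr rfl fun w _ => ?_
        rw [← Finset.mul_sum, Finset.sum_comm]
        simp only [Finset.sum_mul]

theorem l1_bound (H : Half) (m : ℕ) (Sb : ℤ) (h0 : 0 ≤ Sb)
    (hS : ∀ k < m, ∀ q' j, ∑ e ∈ range 3, Tc H k e q' j ≤ Sb) :
    ∀ k ≤ m, ∀ w < 5, ∀ q i, ∑ σ, |V H k w q i σ| ≤ beta Sb k w := by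
  intro k
  induction k with
  | zero =>
    intro _ w _ q i
    simp only [V, Finset.univ_unique, Finset.sum_singleton]
    unfold beta
    split_ifs with h1 h2
    · omega
    · simp
    · simp
    · simp
  | succ k ih =>
    intro hk w1 hw1 q' j
    have hk' : k < m := by omega
    have ih' := ih (by omega)
    refine (abs_V_succ H k w1 q' j).trans ?_
    have hT : Tc H k 0 q' j + Tc H k 1 q' j + Tc H k 2 q' j ≤ Sb := by
      have := hS k hk' q' j
      simpa [Finset.sum_range_succ] using this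
    have step : ∀ s ∈ range 3, ∀ w ∈ range 5, |kap k s w w1| *
        ∑ i ∈ range (H.d k (q' + (s + mu w1 - mu w) - 1)),
          (∑ σ : Fin k → Fin 3, |V H k w (q' + (s + mu w1 - mu w) - 1) i σ|) *
            |H.a k (s + mu w1 - mu w) (q' + (s + mu w1 - mu w) - 1) i j| ≤
        |kap k s w w1| * (beta Sb k w * Tc H k (s + mu w1 - mu w) q' j) := by
      intro s _ w hw
      refine mul_le_mul_of_nonneg_left ?_ (abs_nonneg _)
      rw [Tc, Finset.mul_sum]
      refine Finset.sum_le_sum fun i _ => ?_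
      exact mul_le_mul_of_nonneg_right (ih' w (Finset.mem_range.mp hw) _ _) (abs_nonneg _)
    refine (Finset.sum_le_sum fun s hs => Finset.sum_le_sum fun w hw => step s hs w hw).trans ?_
    have t0 := Tc_nonneg H k 0 q' j
    have t1 := Tc_nonneg H k 1 q' j
    have t2 := Tc_nonneg H k 2 q' j
    have hP : 0 ≤ Sb ^ k := by positivity
    have hP1 : Sb ^ (k + 1) = Sb ^ k * Sb := pow_succ _ _
    have key : Sb ^ k * (Tc H k 0 q' j + Tc H k 1 q' j + Tc H k 2 q' j) ≤ Sb ^ k * Sb :=
      mul_le_mul_of_nonneg_left hT hP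
    have p0 := mul_nonneg hP t0
    have p1 := mul_nonneg hP t1
    have p2 := mul_nonneg hP t2
    have hk0 : (0 : ℤ) ≤ 18 * (k : ℤ) := by positivity
    have key4 := mul_le_mul_of_nonneg_left key hk0
    interval_cases w1
    · simp only [Finset.sum_range_succ, Finset.range_zero, Finset.sum_empty, kap, mu, beta]
      norm_num
      linarith
    · simp only [Finset.sum_range_succ, Finset.range_zero, Finset.sum_empty, kap, mu, beta]
      norm_num
      linarith
    · simp only [Finset.sum_range_succ, Finset.range_zero, Finset.sum_empty, kap, mu, beta]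
      norm_num
      linarith
    · simp only [Finset.sum_range_succ, Finset.range_zero, Finset.sum_empty, kap, mu, beta]
      norm_num
      linarith
    · by_cases hk00 : k = 0
      · subst hk00
        simp only [Finset.sum_range_succ, Finset.range_zero, Finset.sum_empty, kap, mu, beta]
        norm_num
        norm_num at key
        linarith
      · simp only [Finset.sum_range_succ, Finset.range_zero, Finset.sum_empty, kap, mu, beta,
          if_neg hk00]
        norm_num
        rw [hP1]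
        nlinarith [key, key4, p0, p1, p2]

theorem gram_bound (H : Half) (m : ℕ) (Sb : ℤ) (h0 : 0 ≤ Sb)
    (hS : ∀ k < m, ∀ q' j, ∑ e ∈ range 3, Tc H k e q' j ≤ Sb)
    {k : ℕ} (hk : k ≤ m) {w1 w2 : ℕ} (hw1 : w1 < 5) (hw2 : w2 < 5) (q i j : ℕ) :
    |gram H k w1 w2 q i j| ≤ beta Sb k w1 * beta Sb k w2 := by
  unfold gram
  refine (Finset.abs_sum_le_sum_abs _ _).trans ?_
  have h1 := l1_bound H m Sb h0 hS k hk w1 hw1 q i
  have h2 := l1_bound H m Sb h0 hS k hk w2 hw2 (q + mu w1 - mu w2) j
  refine le_trans ?_ (mul_le_mul h1 h2 (Finset.sum_nonneg fun _ _ => abs_nonneg _)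
    (beta_nonneg h0 k w1))
  rw [Finset.sum_mul]
  refine Finset.sum_le_sum fun σ hσ => ?_
  rw [abs_mul]
  refine mul_le_mul_of_nonneg_left ?_ (abs_nonneg _)
  exact Finset.single_le_sum (f := fun σ => |V H k w2 (q + mu w1 - mu w2) j σ|)
    (fun _ _ => abs_nonneg _) hσ

end Crest.Agent.R347.OChain
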