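import Crest.Agent.R347.OBound
import Crest.Agent.R347.OEngine

/-! Correctness of the kernel engine. -/

set_option autoImplicit false

namespace Crest.Agent.R347.OChain

open Finset

/-! ### Digits -/

theorem dsum_lt (B : ℕ) (u : ℕ → ℕ) : ∀ n, (∀ j < n, u j < B) →
    ∑ j ∈ range n, u j * B ^ j < B ^ n ∨ n = 0
  | 0, _ => Or.inr rfl
  | n + 1, hu => by
    left
    rw [Finset.sum_range_succ]
    have h1 := hu n (Nat.lt_succ_self n)
    have ih := dsum_lt B u n fun j hj => hu j (by omega)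
    rcases ih with ih | ih
    · calc ∑ j ∈ range n, u j * B ^ j + u n * B ^ n < B ^ n + u n * B ^ n := by omega
        _ = (u n + 1) * B ^ n := by ring
        _ ≤ B * B ^ n := Nat.mul_le_mul_right _ h1
        _ = B ^ (n + 1) := by ring
    · subst ih
      simpa using h1

theorem dsum_digit (B : ℕ) (hB : 0 < B) : ∀ (l n : ℕ) (u : ℕ → ℕ), (∀ j < n, u j < B) → l < n →
    (∑ j ∈ range n, u j * B ^ j) / B ^ l % B = u l
  | 0, n, u, hu, hl => by
    obtain ⟨n, rfl⟩ : ∃ m, n = m + 1 := ⟨n - 1, by omega⟩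
    rw [Finset.sum_range_succ']
    have : ∑ k ∈ range n, u (k + 1) * B ^ (k + 1) = B * ∑ k ∈ range n, u (k + 1) * B ^ k := by
      rw [Finset.mul_sum]
      exact Finset.sum_congr rfl fun _ _ => by ring
    rw [this]
    simp [Nat.mod_eq_of_lt (hu 0 hl)]
  | l + 1, n, u, hu, hl => by
    obtain ⟨n, rfl⟩ : ∃ m, n = m + 1 := ⟨n - 1, by omega⟩
    have h0 := hu 0 (by omega)
    have e1 : ∑ j ∈ range (n + 1), u j * B ^ j = u 0 + B * ∑ k ∈ range n, u (k + 1) * B ^ k := by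
      rw [Finset.sum_range_succ', Finset.mul_sum]
      simp only [pow_zero, mul_one]
      rw [add_comm]
      congr 1
      exact Finset.sum_congr rfl fun _ _ => by ring
    have e2 : (u 0 + B * ∑ k ∈ range n, u (k + 1) * B ^ k) / B =
        ∑ k ∈ range n, u (k + 1) * B ^ k := by
      rw [Nat.add_mul_div_left _ _ hB, Nat.div_eq_of_lt h0, zero_add]
    rw [e1, pow_succ', ← Nat.div_div_eq_div_mul, e2]
    exact dsum_digit B hB l n (fun j => u (j + 1)) (fun j hj => hu (j + 1) (by omega)) (by omega)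

/-- packed value of nine signed digits -/
def PK (b : ℕ) (x : ℕ → ℤ) : ℤ := ∑ j ∈ range 9, x j * 2 ^ (b * j)

theorem digits_of_cast {b : ℕ} (hb : 1 ≤ b) (x : ℕ → ℤ)
    (hx : ∀ j < 9, |x j| < 2 ^ (b - 1)) (R : ℕ)
    (hR : (R : ZMod (2 ^ (9 * b))) = ((PK b x : ℤ) : ZMod (2 ^ (9 * b)))) (l : ℕ) (hl : l < 9) :
    ((((R + 2 ^ (b - 1) * ∑ j ∈ range 9, 2 ^ (b * j)) % 2 ^ (9 * b)) / 2 ^ (b * l) % 2 ^ b : ℕ) : ℤ)
      = x l + 2 ^ (b - 1) := by
  have hpow : (2 : ℤ) ^ b = 2 * 2 ^ (b - 1) := by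
    conv_lhs => rw [show b = (b - 1) + 1 by omega]
    ring
  set u : ℕ → ℕ := fun j => (x j + 2 ^ (b - 1)).toNat with hu
  have hu1 : ∀ j < 9, (u j : ℤ) = x j + 2 ^ (b - 1) := by
    intro j hj
    have := abs_lt.mp (hx j hj)
    rw [hu]
    exact Int.toNat_of_nonneg (by linarith)
  have hu2 : ∀ j < 9, u j < 2 ^ b := by
    intro j hj
    have h1 := abs_lt.mp (hx j hj)
    have h2 := hu1 j hj
    have : (u j : ℤ) < ((2 ^ b : ℕ) : ℤ) := by
      rw [h2]; push_cast; rw [hpow]; linarith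
    exact_mod_cast this
  have hcast : ((R + 2 ^ (b - 1) * ∑ j ∈ range 9, 2 ^ (b * j) : ℕ) : ZMod (2 ^ (9 * b))) =
      ((∑ j ∈ range 9, u j * (2 ^ b) ^ j : ℕ) : ZMod (2 ^ (9 * b))) := by
    have h1 : ((∑ j ∈ range 9, u j * (2 ^ b) ^ j : ℕ) : ℤ) =
        PK b x + 2 ^ (b - 1) * ∑ j ∈ range 9, 2 ^ (b * j) := by
      push_cast
      rw [PK, Finset.mul_sum, ← Finset.sum_add_distrib]
      refine Finset.sum_congr rfl fun j hj => ?_
      rw [hu1 j (Finset.mem_range.mp hj), ← pow_mul]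
      ring
    have h2 : ((∑ j ∈ range 9, u j * (2 ^ b) ^ j : ℕ) : ZMod (2 ^ (9 * b))) =
        (((∑ j ∈ range 9, u j * (2 ^ b) ^ j : ℕ) : ℤ) : ZMod (2 ^ (9 * b))) := by
      push_cast; rfl
    rw [h2, h1]
    push_cast
    rw [hR]
  rw [ZMod.natCast_eq_natCast_iff] at hcast
  have hlt : ∑ j ∈ range 9, u j * (2 ^ b) ^ j < 2 ^ (9 * b) := by
    rcases dsum_lt (2 ^ b) u 9 hu2 with h | h
    · rwa [← pow_mul, mul_comm b 9] at h
    · omega
  have hmod : (R + 2 ^ (b - 1) * ∑ j ∈ range 9, 2 ^ (b * j)) % 2 ^ (9 * b) =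
      ∑ j ∈ range 9, u j * (2 ^ b) ^ j := by
    rw [hcast, Nat.mod_eq_of_lt hlt]
  rw [hmod, pow_mul, dsum_digit (2 ^ b) (by positivity) l 9 u hu2 hl, hu1 l hl]

theorem ones_le {b c : ℕ} (h : c < 2 ^ b) : c * ∑ j ∈ range 9, 2 ^ (b * j) ≤ 2 ^ (9 * b) := by
  rcases dsum_lt (2 ^ b) (fun _ => c) 9 (fun _ _ => h) with h1 | h1
  · rw [← pow_mul, mul_comm b 9] at h1
    rw [Finset.mul_sum]
    refine le_trans (le_of_eq ?_) h1.le
    refine Finset.sum_congr rfl fun j _ => ?_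
    rw [pow_mul]
  · omega

/-! ### Parameters -/

theorem wd_eq (lS k : ℕ) : wd lS k = 2 * lS * k + 20 := rfl
theorem MM_eq (lS k : ℕ) : MM lS k = 2 ^ (9 * wd lS k) := rfl
theorem OO_eq (lS k : ℕ) : OO lS k = 2 ^ (wd lS k - 1) := rfl
theorem mkM_eq (lS k : ℕ) : mkM lS k = 2 ^ (9 * wd lS k) - 1 := rfl
theorem mkw_eq (lS k : ℕ) : mkw lS k = 2 ^ wd lS k - 1 := rfl
theorem ones_eq (lS k : ℕ) : ones lS k = ∑ j ∈ range 9, 2 ^ (wd lS k * j) := by
  rw [ones, S_eq]; rfl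
theorem Kp_eq (lS k : ℕ) : Kp lS k = 2 ^ (wd lS k - 1) * ∑ j ∈ range 9, 2 ^ (wd lS k * j) := by
  show OO lS k * ones lS k = _
  rw [ones_eq, OO_eq]

theorem land_mask (x n : ℕ) : Nat.land x (2 ^ n - 1) = x % 2 ^ n :=
  Nat.and_two_pow_sub_one_eq_mod x n

theorem wd_ge (lS k : ℕ) : 20 ≤ wd lS k := by rw [wd_eq]; omega

theorem two_pow_wd (lS k : ℕ) : 2 ^ 20 ≤ 2 ^ wd lS k :=
  Nat.pow_le_pow_right (by norm_num) (wd_ge lS k)

theorem MM_ge (lS k : ℕ) : 2 ^ 20 ≤ MM lS k := by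
  rw [MM_eq]
  exact Nat.pow_le_pow_right (by norm_num) (by have := wd_ge lS k; omega)

theorem emu_eq : ∀ w < 5, emu w = mu w := by decide

theorem table_zero : ∀ s < 3, ∀ w < 5, ∀ w1 < 5,
    ((dig 4 (pT 0) (tpos s w w1) : ℕ) : ℤ) - (dig 4 (nT 0) (tpos s w w1) : ℕ) =
      kap 0 s w w1 := by decide +kernel

theorem table_one : ∀ s < 3, ∀ w < 5, ∀ w1 < 5,
    ((dig 4 (pT 1) (tpos s w w1) : ℕ) : ℤ) - (dig 4 (nT 1) (tpos s w w1) : ℕ) =
      kap 1 s w w1 := by decide +kernel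

theorem pT_succ (k : ℕ) : pT (k + 1) = pT 1 := rfl
theorem nT_succ (k : ℕ) : nT (k + 1) = nT 1 := rfl

theorem table_eq (k : ℕ) {s w w1 : ℕ} (hs : s < 3) (hw : w < 5) (hw1 : w1 < 5) :
    ((dig 4 (pT k) (tpos s w w1) : ℕ) : ℤ) - (dig 4 (nT k) (tpos s w w1) : ℕ) =
      kap k s w w1 := by
  rcases k with _ | k
  · exact table_zero s hs w hw w1 hw1
  · have h := table_one s hs w hw w1 hw1
    have e : kap (k + 1) s w w1 = kap 1 s w w1 := by
      unfold kap
      simp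
    rw [e, ← h, pT_succ, nT_succ]

theorem dig_lt (b R l : ℕ) : dig b R l < 2 ^ b := by
  rw [dig_eq]
  exact Nat.mod_lt _ (by positivity)

theorem coef_cast (lS k : ℕ) {M : ℕ} (hM : M = MM lS (k + 1)) {s w w1 : ℕ} (hs : s < 3)
    (hw : w < 5) (hw1 : w1 < 5) :
    ((coef lS k s w w1 : ℕ) : ZMod M) = ((kap k s w w1 : ℤ) : ZMod M) := by
  rw [← table_eq k hs hw hw1]
  have e : coef lS k s w w1 = dig 4 (pT k) (tpos s w w1) +
      (if dig 4 (nT k) (tpos s w w1) = 0 then 0 else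
        MM lS (k + 1) - dig 4 (nT k) (tpos s w w1)) := by
    unfold coef
    show dig 4 (pT k) (tpos s w w1) + _ = _
    congr 1
    rcases dig 4 (nT k) (tpos s w w1) with _ | n
    · rfl
    · rfl
  rw [e]
  have hle : dig 4 (nT k) (tpos s w w1) ≤ MM lS (k + 1) :=
    (dig_lt _ _ _).le.trans ((by norm_num : 2 ^ 4 ≤ 2 ^ 20).trans (MM_ge _ _))
  rw [← hM] at hle ⊢
  split_ifs with h
  · rw [h]; push_cast; ring
  · push_cast [Nat.cast_sub hle]
    rw [ZMod.natCast_self]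
    ring

/-! ### The half chain of the data -/

section
variable (lS : ℕ) (A D : ℕ → ℕ) (m : ℕ)

/-- dimensions from the data -/
def dH (k q : ℕ) : ℕ := if k ≤ m ∧ 1 ≤ q ∧ q < 9 then dd D k q else 0

/-- The half chain encoded by the data. -/
def HD : Half where
  d := dH D m
  a k e q i j := if e < 3 ∧ q < 9 ∧ i < 9 ∧ j < dH D m (k + 1) (q + 1 - e) then
    (ent A k e q i j : ℤ) - 32768 else 0

theorem HD_ok : (HD A D m).Ok where
  d_zero k := by simp [HD, dH]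
  d_large k q hq := by
    show dH D m k q = 0
    unfold dH
    rw [if_neg]; omega
  a_zero k e q i j h := by
    show (if _ then _ else _) = _
    rw [if_neg]
    intro h'
    exact absurd h (not_le.mpr h'.2.2.2)

variable {lS A D m}

theorem bad_fst (h : bad lS A D m = 0) {k : ℕ} (hk : k ≤ m) :
    dd D k 0 = 0 ∧ dd D k 9 = 0 ∧ dd D k 10 = 0 ∧ ∀ q < 9, dd D k q ≤ 9 := by
  have h1 := (Nat.add_eq_zero_iff.mp h).1
  rw [S_eq, Finset.sum_eq_zero_iff] at h1
  have h2 := h1 k (Finset.mem_range.mpr (Nat.lt_succ_of_le hk))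
  obtain ⟨h3, h4⟩ := Nat.add_eq_zero_iff.mp h2
  obtain ⟨h5, h6⟩ := Nat.add_eq_zero_iff.mp h3
  obtain ⟨h7, h8⟩ := Nat.add_eq_zero_iff.mp h6
  refine ⟨h5, h7, h8, fun q hq => ?_⟩
  rw [S_eq, Finset.sum_eq_zero_iff] at h4
  exact Nat.sub_eq_zero_iff_le.mp (h4 q (Finset.mem_range.mpr hq))

theorem dH_eq (h : bad lS A D m = 0) {k q : ℕ} (hk : k ≤ m) (hq : q ≤ 10) :
    dd D k q = (HD A D m).d k q := by
  obtain ⟨h0, h9, h10, -⟩ := bad_fst h hk
  show _ = dH D m k q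
  unfold dH
  split_ifs with hc
  · rfl
  · have : q = 0 ∨ q = 9 ∨ q = 10 := by omega
    rcases this with rfl | rfl | rfl
    · exact h0
    · exact h9
    · exact h10

theorem dH_le (h : bad lS A D m = 0) (k q : ℕ) : (HD A D m).d k q ≤ 9 := by
  show dH D m k q ≤ 9
  unfold dH
  split_ifs with hc
  · exact (bad_fst h hc.1).2.2.2 q hc.2.2
  · omega

theorem eab_eq (k e q i j : ℕ) : ((eab A k e q i j : ℕ) : ℤ) = |(ent A k e q i j : ℤ) - 32768| := by
  show (((ent A k e q i j - 32768) + (32768 - ent A k e q i j) : ℕ) : ℤ) = _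
  rcases le_total (ent A k e q i j) 32768 with h | h
  · rw [Nat.sub_eq_zero_of_le h, abs_of_nonpos (by
      have : (ent A k e q i j : ℤ) ≤ 32768 := by exact_mod_cast h
      linarith)]
    push_cast [Nat.cast_sub h]; ring
  · rw [Nat.sub_eq_zero_of_le h, abs_of_nonneg (by
      have : (32768 : ℤ) ≤ (ent A k e q i j : ℤ) := by exact_mod_cast h
      linarith)]
    push_cast [Nat.cast_sub h]; ring

theorem ent_zero (h : bad lS A D m = 0) {k e q i j : ℕ} (hk : k < m) (he : e < 3) (hq : q < 9)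
    (hi : i < 9) (hj : j < 9) (hd : dd D (k + 1) (q + 1 - e) ≤ j) :
    (ent A k e q i j : ℤ) - 32768 = 0 := by
  have h1 := (Nat.add_eq_zero_iff.mp h).2
  rw [S_eq, Finset.sum_eq_zero_iff] at h1
  have h2 := (Nat.add_eq_zero_iff.mp (h1 k (Finset.mem_range.mpr hk))).1
  rw [S_eq, Finset.sum_eq_zero_iff] at h2
  have h3 := h2 e (Finset.mem_range.mpr he)
  rw [S_eq, Finset.sum_eq_zero_iff] at h3
  have h4 := h3 q (Finset.mem_range.mpr hq)
  rw [S_eq, Finset.sum_eq_zero_iff] at h4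
  have h5 := h4 i (Finset.mem_range.mpr hi)
  rw [S_eq, Finset.sum_eq_zero_iff] at h5
  have h6 := h5 j (Finset.mem_range.mpr hj)
  rw [sel_eq, Nat.mul_eq_zero] at h6
  rcases h6 with h6 | h6
  · exfalso
    have h6' : j + 1 - dd D (k + 1) (q + 1 - e) = 0 := h6
    omega
  · have := eab_eq (A := A) k e q i j
    rw [h6] at this
    exact abs_eq_zero.mp (by rw [← this]; rfl)

theorem a_eq (h : bad lS A D m = 0) {k e q i j : ℕ} (hk : k < m) (he : e < 3) (hq : q < 9)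
    (hi : i < 9) (hj : j < 9) :
    (HD A D m).a k e q i j = (ent A k e q i j : ℤ) - 32768 := by
  show (if _ then _ else _) = _
  split_ifs with hc
  · rfl
  · rw [ent_zero h hk he hq hi hj]
    rw [dH_eq h hk (by omega)]
    show dH D m (k + 1) (q + 1 - e) ≤ j
    by_contra hn
    exact hc ⟨he, hq, hi, by omega⟩

theorem Tc_bound (h : bad lS A D m = 0) {k : ℕ} (hk : k < m) (q' j : ℕ) :
    ∑ e ∈ range 3, Tc (HD A D m) k e q' j ≤ 2 ^ lS := by
  by_cases hqj : q' < 9 ∧ j < 9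
  · obtain ⟨hq, hj⟩ := hqj
    have h1 := (Nat.add_eq_zero_iff.mp h).2
    rw [S_eq, Finset.sum_eq_zero_iff] at h1
    have h2 := (Nat.add_eq_zero_iff.mp (h1 k (Finset.mem_range.mpr hk))).2
    rw [S_eq, Finset.sum_eq_zero_iff] at h2
    have h3 := h2 q' (Finset.mem_range.mpr hq)
    rw [S_eq, Finset.sum_eq_zero_iff] at h3
    have h4 := h3 j (Finset.mem_range.mpr hj)
    have h5 : S 3 (fun e => force (Nat.sub (Nat.add q' e) 1) fun q =>
      S (dd D k q) fun i => eab A k e q i j) ≤ 2 ^ lS := Nat.sub_eq_zero_iff_le.mp h4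
    have h6 : ((S 3 (fun e => force (Nat.sub (Nat.add q' e) 1) fun q =>
      S (dd D k q) fun i => eab A k e q i j) : ℕ) : ℤ) ≤ 2 ^ lS := by exact_mod_cast h5
    refine le_trans (le_of_eq ?_) h6
    rw [S_eq]
    push_cast
    refine Finset.sum_congr rfl fun e he => ?_
    have he3 := Finset.mem_range.mp he
    rw [force_eq, S_eq]
    show Tc (HD A D m) k e q' j = ((∑ i ∈ range (dd D k (q' + e - 1)),
      eab A k e (q' + e - 1) i j : ℕ) : ℤ)
    rw [Tc, dH_eq h hk.le (by omega : q' + e - 1 ≤ 10)]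
    push_cast
    refine Finset.sum_congr rfl fun i hi => ?_
    have hi9 : i < 9 := lt_of_lt_of_le (Finset.mem_range.mp hi) (dH_le h _ _)
    have hq9 : q' + e - 1 < 9 := by
      by_contra hc
      rw [HD_ok A D m |>.d_large k _ (by omega)] at hi
      simp at hi
    rw [a_eq h hk he3 hq9 hi9 hj, eab_eq]
  · have : ∑ e ∈ range 3, Tc (HD A D m) k e q' j = 0 := by
      refine Finset.sum_eq_zero fun e he => ?_
      have he3 := Finset.mem_range.mp he
      refine Finset.sum_eq_zero fun i hi => ?_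
      rw [abs_eq_zero]
      apply (HD_ok A D m).a_zero
      by_cases hj : j < 9
      · have hq : 9 ≤ q' := by
          by_contra hc
          exact hqj ⟨by omega, hj⟩
        have h9 : 9 ≤ q' + e - 1 + 1 - e := by
          by_contra hc
          omega
        rw [(HD_ok A D m).d_large _ _ h9]
        omega
      · exact (dH_le h _ _).trans (by omega)
    rw [this]
    positivity

theorem asc_cast {k : ℕ} {M : ℕ} (hM : M = MM lS (k + 1)) (e q i j : ℕ) :
    ((asc lS A k e q i j : ℕ) : ZMod M) = (((ent A k e q i j : ℤ) - 32768 : ℤ) : ZMod M) := by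
  show ((ent A k e q i j + (MM lS (k + 1) - 32768) : ℕ) : ZMod M) = _
  rw [← hM]
  have h1 : 32768 ≤ M := by rw [hM]; exact (by norm_num : 32768 ≤ 2 ^ 20).trans (MM_ge _ _)
  push_cast [Nat.cast_sub h1]
  rw [ZMod.natCast_self]
  ring

theorem At_le {k : ℕ} (e q i : ℕ) : At lS A k e q i ≤ 2 * MM lS (k + 1) := by
  show S 9 _ + (MM lS (k + 1) - 32768 * ones lS (k + 1)) ≤ _
  rw [S_eq]
  have h1 : ∑ j ∈ range 9, ent A k e q i j * 2 ^ (wd lS (k + 1) * j) ≤ MM lS (k + 1) := by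
    refine le_trans ?_ (ones_le (b := wd lS (k + 1)) (c := 65535)
      (by have := two_pow_wd lS (k + 1); omega))
    rw [Finset.mul_sum]
    refine Finset.sum_le_sum fun j _ => Nat.mul_le_mul_right _ ?_
    have := dig_lt 16 (arow A k e q i) j
    unfold ent
    omega
  have h2 : ∑ l ∈ range 9, Nat.mul (ent A k e q i l) (Nat.pow 2 (Nat.mul (wd lS (Nat.succ k)) l))
      ≤ MM lS (k + 1) := h1
  omega

theorem At_cast {k : ℕ} {M : ℕ} (hM : M = MM lS (k + 1)) (e q i : ℕ) :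
    ((At lS A k e q i : ℕ) : ZMod M) =
      ((PK (wd lS (k + 1)) (fun j => (ent A k e q i j : ℤ) - 32768) : ℤ) : ZMod M) := by
  have h1 : 32768 * ones lS (k + 1) ≤ MM lS (k + 1) := by
    rw [ones_eq]
    exact ones_le (by have := two_pow_wd lS (k + 1); omega)
  have e1 : At lS A k e q i = ∑ j ∈ range 9, ent A k e q i j * 2 ^ (wd lS (k + 1) * j) +
      (MM lS (k + 1) - 32768 * ones lS (k + 1)) := by
    show S 9 _ + _ = _
    rw [S_eq]
    rfl
  rw [e1, ones_eq] at *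
  rw [← hM] at h1 ⊢
  push_cast [Nat.cast_sub h1]
  rw [ZMod.natCast_self, PK]
  push_cast
  simp only [sub_mul, Finset.sum_sub_distrib, Finset.mul_sum]
  ring

theorem Corr_cast {k : ℕ} {M : ℕ} (hM : M = MM lS (k + 1)) (e q : ℕ) :
    ((Corr lS A D k e q : ℕ) : ZMod M) =
      -((2 : ZMod M) ^ (wd lS k - 1) * ∑ l ∈ range (dd D k q), ((At lS A k e q l : ℕ) : ZMod M)) := by
  have e1 : Corr lS A D k e q = 2 ^ (wd lS k - 1) *
      ∑ l ∈ range (dd D k q), (2 * MM lS (k + 1) - At lS A k e q l) := by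
    show OO lS k * S _ _ = _
    rw [S_eq, OO_eq]
    rfl
  rw [e1]
  push_cast
  have : ∀ l, ((2 * MM lS (k + 1) - At lS A k e q l : ℕ) : ZMod M) =
      -((At lS A k e q l : ℕ) : ZMod M) := by
    intro l
    rw [Nat.cast_sub (At_le e q l), ← hM]
    push_cast
    rw [ZMod.natCast_self]
    ring
  simp only [this, Finset.sum_neg_distrib]
  ring

theorem RP_def (k R e q : ℕ) : RP lS A D k R e q = ∑ l ∈ range (dd D k q),
    (R / 2 ^ (wd lS k * l) % 2 ^ wd lS k) * At lS A k e q l + Corr lS A D k e q := by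
  have e1 : RP lS A D k R e q = S (dd D k q) (fun l =>
      (Nat.land (Nat.shiftRight R (Nat.mul (wd lS k) l)) (mkw lS k)) * (At lS A k e q l)) +
      Corr lS A D k e q := rfl
  have e2 : ∀ l, Nat.land (Nat.shiftRight R (Nat.mul (wd lS k) l)) (mkw lS k) =
      R / 2 ^ (wd lS k * l) % 2 ^ wd lS k := by
    intro l
    rw [mkw_eq, land_mask]
    exact congrArg (· % 2 ^ wd lS k) (Nat.shiftRight_eq_div_pow _ _)
  rw [e1, S_eq]
  simp only [e2]

/-- Packed row times matrix. -/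
theorem RP_cast {k : ℕ} {M : ℕ} (hM : M = MM lS (k + 1)) (R e q : ℕ) (x : ℕ → ℤ)
    (hx : ∀ l < dd D k q, ((R / 2 ^ (wd lS k * l) % 2 ^ wd lS k : ℕ) : ℤ) =
      x l + 2 ^ (wd lS k - 1)) :
    ((RP lS A D k R e q : ℕ) : ZMod M) =
      ∑ l ∈ range (dd D k q), ((x l : ℤ) : ZMod M) * ((At lS A k e q l : ℕ) : ZMod M) := by
  rw [RP_def]
  push_cast
  rw [Corr_cast hM, Finset.mul_sum, ← sub_eq_add_neg, ← Finset.sum_sub_distrib]
  refine Finset.sum_congr rfl fun l hl => ?_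
  have h1 := hx l (Finset.mem_range.mp hl)
  have h2 : (((R / 2 ^ (wd lS k * l) % 2 ^ wd lS k : ℕ) : ℤ) : ZMod M) =
      ((x l + 2 ^ (wd lS k - 1) : ℤ) : ZMod M) := by rw [h1]
  rw [Int.cast_natCast] at h2
  rw [h2]
  push_cast
  ring

end

end Crest.Agent.R347.OChain
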