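import Crest.Agent.R347.OCorrect

/-! Correctness of the kernel engine, part 2. -/

set_option autoImplicit false

namespace Crest.Agent.R347.OChain

open Finset

attribute [local irreducible] wd MM

section
variable {lS : ℕ} {A D : ℕ → ℕ} {m : ℕ}

theorem beta_le (k w : ℕ) : beta (2 ^ lS) k w ≤ (18 * k + 1) * 2 ^ (lS * k) := by
  unfold beta
  rw [pow_mul]
  have : (0 : ℤ) ≤ ((2 : ℤ) ^ lS) ^ k := by positivity
  have h0 : (0 : ℤ) ≤ k := by positivity
  split_ifs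
  · nlinarith
  · nlinarith

theorem gram_lt (h : bad lS A D m = 0) (hm : m ≤ 40) {k : ℕ} (hk : k ≤ m) {w1 w2 : ℕ}
    (hw1 : w1 < 5) (hw2 : w2 < 5) (q i j : ℕ) :
    |gram (HD A D m) k w1 w2 q i j| < 2 ^ (wd lS k - 1) := by
  have h1 := gram_bound (HD A D m) m (2 ^ lS) (by positivity)
    (fun k hk q' j => Tc_bound h hk q' j) hk hw1 hw2 q i j
  have hb0 := beta_nonneg (Sb := 2 ^ lS) (by positivity) k w2
  have h2 : beta (2 ^ lS) k w1 * beta (2 ^ lS) k w2 ≤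
      ((18 * k + 1) * 2 ^ (lS * k)) * ((18 * k + 1) * 2 ^ (lS * k)) :=
    mul_le_mul (beta_le k w1) (beta_le k w2) hb0 (by positivity)
  have hk40 : (k : ℤ) ≤ 40 := by exact_mod_cast hk.trans hm
  have h3 : ((18 * k + 1) * 2 ^ (lS * k)) * ((18 * k + 1) * 2 ^ (lS * k)) <
      (2 : ℤ) ^ (wd lS k - 1) := by
    have e : wd lS k - 1 = 19 + (lS * k + lS * k) := by rw [wd_eq]; ring_nf; omega
    rw [e, pow_add, pow_add]
    have hp : (0 : ℤ) < 2 ^ (lS * k) := by positivity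
    have hk0 : (0 : ℤ) ≤ k := by positivity
    have : ((18 * k + 1) * (18 * k + 1) : ℤ) < 2 ^ 19 := by nlinarith
    nlinarith [mul_pos hp hp]
  exact lt_of_le_of_lt (h1.trans h2) h3

theorem Ghat_def (k w w' q i : ℕ) (Gk : ℕ → ℕ → ℕ → ℕ → ℕ) :
    Ghat lS k Gk w w' q i = (Gk w w' q i +
      2 ^ (wd lS k - 1) * ∑ j ∈ range 9, 2 ^ (wd lS k * j)) % 2 ^ (9 * wd lS k) := by
  show Nat.land (Gk w w' q i + Kp lS k) (mkM lS k) = _
  rw [mkM_eq, land_mask, Kp_eq]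

theorem Ghat_dig (h : bad lS A D m = 0) (hm : m ≤ 40) {k : ℕ} (hk : k ≤ m) {w w' q i : ℕ}
    (hw : w < 5) (hw' : w' < 5) {M : ℕ} (hM : M = MM lS k)
    (hG : ((G lS A D k w w' q i : ℕ) : ZMod M) =
      ((PK (wd lS k) (fun j => gram (HD A D m) k w w' q i j) : ℤ) : ZMod M)) {l : ℕ} (hl : l < 9) :
    ((Ghat lS k (G lS A D k) w w' q i / 2 ^ (wd lS k * l) % 2 ^ wd lS k : ℕ) : ℤ) =
      gram (HD A D m) k w w' q i l + 2 ^ (wd lS k - 1) := by
  rw [Ghat_def]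
  rw [MM_eq] at hM
  subst hM
  exact digits_of_cast (by have := wd_ge lS k; omega) _
    (fun j _ => gram_lt h hm hk hw hw' q i j) _ hG l hl

theorem G0_def (w1 w2 q i : ℕ) :
    G0 w1 w2 q i = if w1 = 0 ∧ w2 = 0 ∧ q = 4 ∧ i = 0 then 1 else 0 := by
  show Nat.rec (motive := fun _ => ℕ) 1 (fun _ _ => 0) (w1 + w2 + (q - 4 + (4 - q) + i)) = _
  split_ifs with hc
  · obtain ⟨rfl, rfl, rfl, rfl⟩ := hc
    rfl
  · obtain ⟨n, hn⟩ : ∃ n, w1 + w2 + (q - 4 + (4 - q) + i) = n + 1 :=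
      ⟨w1 + w2 + (q - 4 + (4 - q) + i) - 1, by omega⟩
    rw [hn]

theorem G_zero_cast (w1 w2 q i : ℕ) (M : ℕ) :
    ((G lS A D 0 w1 w2 q i : ℕ) : ZMod M) =
      ((PK (wd lS 0) (fun j => gram (HD A D m) 0 w1 w2 q i j) : ℤ) : ZMod M) := by
  rw [G_zero, G0_def, PK]
  simp only [gram_zero]
  split_ifs with hc
  · obtain ⟨rfl, rfl, rfl, rfl⟩ := hc
    simp
  · have : ∀ j, (if w1 = 0 ∧ w2 = 0 ∧ q = 4 ∧ i = 0 ∧ j = 0 then (1 : ℤ) else 0) = 0 := by
      intro j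
      rw [if_neg]
      rintro ⟨a, b, c, d, _⟩
      exact hc ⟨a, b, c, d⟩
    simp [this]

theorem X_def (k : ℕ) (Gk : ℕ → ℕ → ℕ → ℕ → ℕ) (s w w2 q i : ℕ) :
    X lS A D k Gk s w w2 q i = (∑ w' ∈ range 5, coef lS k s w' w2 *
      RP lS A D k (Ghat lS k Gk w w' q i) (s + emu w2 - emu w') (q + emu w - emu w')) %
        2 ^ (9 * wd lS (k + 1)) := by
  have e1 : X lS A D k Gk s w w2 q i = Nat.land (S 5 (fun w' => sel (coef lS k s w' w2)
      (RP lS A D k (Ghat lS k Gk w w' q i) (s + emu w2 - emu w') (q + emu w - emu w'))))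
        (mkM lS (k + 1)) := rfl
  rw [e1, mkM_eq, land_mask, S_eq]
  simp only [sel_eq]

theorem Gstep_def (k : ℕ) (Gk : ℕ → ℕ → ℕ → ℕ → ℕ) (w1 w2 q' i : ℕ) :
    Gstep lS A D k Gk w1 w2 q' i = (∑ s ∈ range 3, ∑ w ∈ range 5, coef lS k s w w1 *
      ∑ kk ∈ range (dd D k (q' + (s + emu w1 - emu w) - 1)),
        asc lS A k (s + emu w1 - emu w) (q' + (s + emu w1 - emu w) - 1) kk i *
        X lS A D k Gk s w w2 (q' + (s + emu w1 - emu w) - 1) kk) %
        2 ^ (9 * wd lS (k + 1)) := by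
  have e1 : Gstep lS A D k Gk w1 w2 q' i = Nat.land (S 3 (fun s => S 5 (fun w =>
      sel (coef lS k s w w1) (S (dd D k (q' + (s + emu w1 - emu w) - 1)) (fun kk =>
        asc lS A k (s + emu w1 - emu w) (q' + (s + emu w1 - emu w) - 1) kk i *
        X lS A D k Gk s w w2 (q' + (s + emu w1 - emu w) - 1) kk))))) (mkM lS (k + 1)) := rfl
  rw [e1, mkM_eq, land_mask, S_eq]
  simp only [sel_eq, S_eq]

/-- The statement to be propagated. -/
def GOK (lS : ℕ) (A D : ℕ → ℕ) (m k : ℕ) : Prop :=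
  ∀ M, M = MM lS k → ∀ w1 < 5, ∀ w2 < 5, ∀ q i, i < (HD A D m).d k q →
    ((G lS A D k w1 w2 q i : ℕ) : ZMod M) =
      ((PK (wd lS k) (fun j => gram (HD A D m) k w1 w2 q i j) : ℤ) : ZMod M)

theorem d_pos_lt {k q i : ℕ} (hi : i < (HD A D m).d k q) : 1 ≤ q ∧ q < 9 := by
  constructor
  · by_contra hc
    have : q = 0 := by omega
    rw [this, (HD_ok A D m).d_zero] at hi
    omega
  · by_contra hc
    rw [(HD_ok A D m).d_large k q (by omega)] at hi
    omega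

theorem cast_mod (M x y : ℕ) (h : M = y) : ((x % y : ℕ) : ZMod M) = (x : ZMod M) := by
  subst h
  exact ZMod.natCast_mod x M

theorem X_cast (h : bad lS A D m = 0) (hm : m ≤ 40) {k : ℕ} (hk : k < m) {M : ℕ}
    (hM : M = MM lS (k + 1)) (hG : GOK lS A D m k) {s w w2 q i : ℕ} (hs : s < 3) (hw : w < 5)
    (hw2 : w2 < 5) (hi : i < (HD A D m).d k q) :
    ((X lS A D k (G lS A D k) s w w2 q i : ℕ) : ZMod M) =
      ((∑ w' ∈ range 5, kap k s w' w2 * ∑ l ∈ range ((HD A D m).d k (q + mu w - mu w')),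
        gram (HD A D m) k w w' q i l * PK (wd lS (k + 1)) (fun j =>
          (HD A D m).a k (s + mu w2 - mu w') (q + mu w - mu w') l j) : ℤ) : ZMod M) := by
  rw [X_def, cast_mod M _ _ (by rw [hM, MM_eq])]
  push_cast
  refine Finset.sum_congr rfl fun w' hw' => ?_
  have hw'5 := Finset.mem_range.mp hw'
  rw [coef_cast lS k hM hs hw'5 hw2]
  by_cases hk0 : kap k s w' w2 = 0
  · rw [hk0, Int.cast_zero, zero_mul, zero_mul]
  obtain ⟨h1, h2⟩ := kap_ne hs hk0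
  congr 1
  rw [emu_eq w' hw'5, emu_eq w hw, emu_eq w2 hw2]
  obtain ⟨hq1, hq2⟩ := d_pos_lt hi
  have hmw : mu w ≤ 2 := by unfold mu; split_ifs <;> omega
  rw [RP_cast hM _ _ _ (fun l => gram (HD A D m) k w w' q i l)]
  · rw [dH_eq h hk.le (by omega)]
    refine Finset.sum_congr rfl fun l hl => ?_
    have hl' := Finset.mem_range.mp hl
    obtain ⟨hq3, hq4⟩ := d_pos_lt hl'
    congr 1
    rw [At_cast hM]
    congr 1
    unfold PK
    refine Finset.sum_congr rfl fun j hj => ?_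
    beta_reduce
    rw [a_eq h hk h2 hq4 (lt_of_lt_of_le hl' (dH_le h _ _)) (Finset.mem_range.mp hj)]
  · intro l hl
    rw [dH_eq h hk.le (by omega)] at hl
    exact Ghat_dig h hm hk.le hw hw'5 rfl (hG _ rfl w hw w' hw'5 q i hi)
      (lt_of_lt_of_le hl (dH_le h _ _))

theorem PK_sum {ι : Type*} (s : Finset ι) (b : ℕ) (f : ι → ℕ → ℤ) :
    PK b (fun j => ∑ x ∈ s, f x j) = ∑ x ∈ s, PK b (f x) := by
  unfold PK
  rw [Finset.sum_comm]
  exact Finset.sum_congr rfl fun j _ => Finset.sum_mul _ _ _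

theorem PK_mul (b : ℕ) (c : ℤ) (f : ℕ → ℤ) : PK b (fun j => c * f j) = c * PK b f := by
  unfold PK
  rw [Finset.mul_sum]
  exact Finset.sum_congr rfl fun j _ => by ring

theorem G_step (h : bad lS A D m = 0) (hm : m ≤ 40) {k : ℕ} (hk : k < m)
    (hG : GOK lS A D m k) : GOK lS A D m (k + 1) := by
  intro M hM w1 hw1 w2 hw2 q' i hi
  obtain ⟨hq1, hq2⟩ := d_pos_lt hi
  have hi9 : i < 9 := lt_of_lt_of_le hi (dH_le h _ _)
  rw [G_succ, Gstep_def, cast_mod M _ _ (by rw [hM, MM_eq])]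
  have e1 : (fun j => gram (HD A D m) (k + 1) w1 w2 q' i j) = fun j =>
      ∑ s ∈ range 3, ∑ w ∈ range 5, kap k s w w1 *
        ∑ i' ∈ range ((HD A D m).d k (q' + (s + mu w1 - mu w) - 1)),
          (HD A D m).a k (s + mu w1 - mu w) (q' + (s + mu w1 - mu w) - 1) i' i *
          ∑ w' ∈ range 5, kap k s w' w2 *
            ∑ l ∈ range ((HD A D m).d k (q' + (s + mu w1 - mu w) - 1 + mu w - mu w')),
              gram (HD A D m) k w w' (q' + (s + mu w1 - mu w) - 1) i' l *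
              (HD A D m).a k (s + mu w2 - mu w')
                (q' + (s + mu w1 - mu w) - 1 + mu w - mu w') l j := by
    funext j
    exact gram_succ (HD A D m) (HD_ok A D m) k w1 w2 q' i j
  rw [e1]
  simp only [PK_sum, PK_mul]
  push_cast
  refine Finset.sum_congr rfl fun s hs => Finset.sum_congr rfl fun w hw => ?_
  have hs3 := Finset.mem_range.mp hs
  have hw5 := Finset.mem_range.mp hw
  rw [coef_cast lS k hM hs3 hw5 hw1]
  by_cases hk0 : kap k s w w1 = 0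
  · rw [hk0, Int.cast_zero, zero_mul, zero_mul]
  obtain ⟨h1, h2⟩ := kap_ne hs3 hk0
  congr 1
  rw [emu_eq w hw5, emu_eq w1 hw1, dH_eq h hk.le (by omega)]
  refine Finset.sum_congr rfl fun kk hkk => ?_
  have hkk' := Finset.mem_range.mp hkk
  obtain ⟨hq3, hq4⟩ := d_pos_lt hkk'
  rw [asc_cast hM, X_cast h hm hk hM hG hs3 hw5 hw2 hkk',
    ← a_eq h hk h2 hq4 (lt_of_lt_of_le hkk' (dH_le h _ _)) hi9]
  push_cast
  rfl

theorem G_correct (h : bad lS A D m = 0) (hm : m ≤ 40) : ∀ k ≤ m, GOK lS A D m k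
  | 0, _ => fun M _ w1 _ w2 _ q i _ => G_zero_cast w1 w2 q i M
  | k + 1, hk => G_step h hm hk (G_correct h hm k (by omega))

end

end Crest.Agent.R347.OChain
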