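import Crest.Agent.R347.OBound

/-! Size of the exact integers. -/

set_option autoImplicit false

namespace Crest.Agent.R347.OChain

open Finset

theorem abs_sum_range_le (n : ℕ) (f : ℕ → ℤ) (c : ℤ) (hf : ∀ i < n, |f i| ≤ c) :
    |∑ i ∈ range n, f i| ≤ n * c := by
  refine (Finset.abs_sum_le_sum_abs _ _).trans ?_
  refine (Finset.sum_le_sum fun i hi => hf i (Finset.mem_range.mp hi)).trans ?_
  simp

theorem abs_cst (w : ℕ) : |cst w| ≤ 5 := by
  unfold cst; split_ifs <;> simp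

theorem wst_lt' {w : ℕ} (hw : w < 5) : wst w < 5 := by
  unfold wst; split_ifs <;> omega

theorem term_bd {e1 e2 c g1 g2 C Bd : ℤ} (h1 : |e1| ≤ 1) (h2 : |e2| ≤ 1) (hc : |c| ≤ C)
    (hg1 : |g1| ≤ Bd) (hg2 : |g2| ≤ Bd) : |e1 * e2 * c * (g1 * g2)| ≤ C * (Bd * Bd) := by
  have hB : 0 ≤ Bd := (abs_nonneg _).trans hg1
  have hC : 0 ≤ C := (abs_nonneg _).trans hc
  rw [abs_mul, abs_mul, abs_mul, abs_mul]
  have a1 : |e1| * |e2| ≤ 1 := by
    calc |e1| * |e2| ≤ 1 * 1 := mul_le_mul h1 h2 (abs_nonneg _) (by norm_num)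
      _ = 1 := by norm_num
  have a2 : |e1| * |e2| * |c| ≤ C := by
    calc |e1| * |e2| * |c| ≤ 1 * C := mul_le_mul a1 hc (abs_nonneg _) (by norm_num)
      _ = C := one_mul _
  exact mul_le_mul a2 (mul_le_mul hg1 hg2 (abs_nonneg _) hB) (by positivity) hC

theorem sum3_bd (d1 d2 : ℕ → ℕ) (h1 : ∀ q, d1 q ≤ 9) (h2 : ∀ q, d2 q ≤ 9) (f : ℕ → ℕ → ℕ → ℤ)
    {c : ℤ} (hc : 0 ≤ c) (hf : ∀ q i j, |f q i j| ≤ c) :
    |∑ q ∈ range 9, ∑ i ∈ range (d1 q), ∑ j ∈ range (d2 q), f q i j| ≤ 729 * c := by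
  have a1 : ∀ q i, |∑ j ∈ range (d2 q), f q i j| ≤ 9 * c := by
    intro q i
    refine (abs_sum_range_le _ _ c fun j _ => hf q i j).trans ?_
    have : ((d2 q : ℕ) : ℤ) ≤ 9 := by exact_mod_cast h2 q
    nlinarith
  have a2 : ∀ q, |∑ i ∈ range (d1 q), ∑ j ∈ range (d2 q), f q i j| ≤ 9 * (9 * c) := by
    intro q
    refine (abs_sum_range_le _ _ (9 * c) fun i _ => a1 q i).trans ?_
    have : ((d1 q : ℕ) : ℤ) ≤ 9 := by exact_mod_cast h1 q
    nlinarith
  refine (abs_sum_range_le 9 _ (9 * (9 * c)) fun q _ => a2 q).trans ?_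
  push_cast
  linarith

theorem cN_bounds (H : Half) (m : ℕ) (ε : ℕ → ℕ → ℤ) (Bd : ℤ) (hd : ∀ q, H.d m q ≤ 9)
    (hε : ∀ q i, |ε q i| ≤ 1)
    (hg : ∀ u < 5, ∀ v < 5, ∀ q i j, |gram H m u v q i j| ≤ Bd) :
    |cN0 H m ε| ≤ 2 ^ 20 * Bd ^ 2 ∧ |cN1 H m ε| ≤ 2 ^ 20 * Bd ^ 2 ∧
      |cN2 H m ε| ≤ 2 ^ 20 * Bd ^ 2 := by
  have hB : 0 ≤ Bd := (abs_nonneg _).trans (hg 0 (by norm_num) 0 (by norm_num) 0 0 0)
  have hBB : 0 ≤ Bd * Bd := mul_nonneg hB hB
  refine ⟨?_, ?_, ?_⟩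
  · have := sum3_bd (fun q => H.d m q) (fun q => H.d m q) hd hd
      (fun q i j => ε q i * ε q j * (gram H m 0 0 q i j * gram H m 0 0 q i j)) hBB
      (fun q i j => by
        have := term_bd (c := 1) (C := 1) (hε q i) (hε q j) (by norm_num)
          (hg 0 (by norm_num) 0 (by norm_num) q i j) (hg 0 (by norm_num) 0 (by norm_num) q i j)
        simpa using this)
    unfold cN0
    nlinarith
  · unfold cN1
    have h5 : ∀ v < 5, |∑ q ∈ range 9, ∑ i ∈ range (H.d m q),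
        ∑ j ∈ range (H.d m (q + 1 - mu v)),
        ε q i * ε (q + 1 - mu v) j * cst v * (gram H m 0 v q i j * gram H m 0 (wst v) q i j)| ≤
        729 * (5 * (Bd * Bd)) := by
      intro v hv
      exact sum3_bd (fun q => H.d m q) (fun q => H.d m (q + 1 - mu v)) hd (fun q => hd _)
        (fun q i j => ε q i * ε (q + 1 - mu v) j * cst v *
          (gram H m 0 v q i j * gram H m 0 (wst v) q i j)) (by positivity)
        (fun q i j => term_bd (hε _ _) (hε _ _) (abs_cst v) (hg 0 (by norm_num) v hv q i j)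
          (hg 0 (by norm_num) (wst v) (wst_lt' hv) q i j))
    refine (abs_sum_range_le 5 _ _ h5).trans ?_
    push_cast
    nlinarith
  · unfold cN2
    have h5 : ∀ u < 5, |∑ v ∈ range 5, ∑ q ∈ range 9, ∑ i ∈ range (H.d m q),
        ∑ j ∈ range (H.d m (q + mu u - mu v)),
        ε q i * ε (q + mu u - mu v) j * (cst u * cst v) *
          (gram H m u v q i j * gram H m (wst u) (wst v) q i j)| ≤
        5 * (729 * (25 * (Bd * Bd))) := by
      intro u hu
      refine (abs_sum_range_le 5 _ (729 * (25 * (Bd * Bd))) ?_).trans (by push_cast; exact le_rfl)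
      intro v hv
      have hcc : |cst u * cst v| ≤ 25 := by
        rw [abs_mul]
        calc |cst u| * |cst v| ≤ 5 * 5 :=
              mul_le_mul (abs_cst u) (abs_cst v) (abs_nonneg _) (by norm_num)
          _ = 25 := by norm_num
      exact sum3_bd (fun q => H.d m q) (fun q => H.d m (q + mu u - mu v)) hd (fun q => hd _)
        (fun q i j => ε q i * ε (q + mu u - mu v) j * (cst u * cst v) *
          (gram H m u v q i j * gram H m (wst u) (wst v) q i j)) (by positivity)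
        (fun q i j => term_bd (hε _ _) (hε _ _) hcc (hg u hu v hv q i j)
          (hg (wst u) (wst_lt' hu) (wst v) (wst_lt' hv) q i j))
    refine (abs_sum_range_le 5 _ _ h5).trans ?_
    push_cast
    nlinarith

end Crest.Agent.R347.OChain
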