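import Crest.Agent.R347.OCorrect2

/-! Correctness of the final evaluation. -/

set_option autoImplicit false

namespace Crest.Agent.R347.OChain

open Finset

theorem WW_eq : WW = 2 ^ 4096 := rfl

attribute [local irreducible] wd MM WW

/-- The signs encoded by `E`. -/
def epsE (E q i : ℕ) : ℤ := if dig 1 E (9 * q + i) = 0 then -1 else 1

theorem epsE_abs (E q i : ℕ) : |epsE E q i| ≤ 1 := by
  unfold epsE; split_ifs <;> simp

section
variable {lS : ℕ} {A D : ℕ → ℕ} {m : ℕ}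

theorem eres_cast {M : ℕ} (hM : M = WW) (E q i : ℕ) :
    ((eres E q i : ℕ) : ZMod M) = ((epsE E q i : ℤ) : ZMod M) := by
  have e1 : eres E q i = if dig 1 E (9 * q + i) = 0 then WW - 1 else 1 := by
    show Nat.rec (motive := fun _ => ℕ) (Nat.sub WW 1) (fun _ _ => 1) (dig 1 E (9 * q + i)) = _
    rcases dig 1 E (9 * q + i) with _ | n
    · rfl
    · rfl
  rw [e1, epsE]
  split_ifs with h
  · have h1 : 1 ≤ WW := by rw [WW_eq]; exact Nat.one_le_two_pow
    rw [← hM] at h1 ⊢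
    push_cast [Nat.cast_sub h1]
    rw [ZMod.natCast_self]; ring
  · simp

theorem cres_table : ∀ w < 5, ((dig 4 0x15501 w : ℕ) : ℤ) - (dig 4 0x00050 w : ℕ) = cst w := by
  decide

theorem cres_cast {M : ℕ} (hM : M = WW) {w : ℕ} (hw : w < 5) :
    ((cres w : ℕ) : ZMod M) = ((cst w : ℤ) : ZMod M) := by
  rw [← cres_table w hw]
  show ((dig 4 0x15501 w + WW - dig 4 0x00050 w : ℕ) : ZMod M) = _
  have h1 : dig 4 0x00050 w ≤ dig 4 0x15501 w + WW := by
    refine (dig_lt _ _ _).le.trans ?_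
    rw [WW_eq]
    exact (Nat.pow_le_pow_right (by norm_num) (by norm_num : 4 ≤ 4096)).trans (Nat.le_add_left _ _)
  rw [← hM] at h1 ⊢
  push_cast [Nat.cast_sub h1]
  rw [ZMod.natCast_self]; ring

theorem est_eq : ∀ w < 5, est w = wst w := by decide

theorem gres_cast (h : bad lS A D m = 0) (hm : m ≤ 40) (hW : wd lS m ≤ 4096) {M : ℕ}
    (hM : M = WW) {u v q i j : ℕ} (hu : u < 5) (hv : v < 5) (hi : i < (HD A D m).d m q)
    (hj : j < 9) :
    ((gres lS A D m u v q i j : ℕ) : ZMod M) =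
      ((gram (HD A D m) m u v q i j : ℤ) : ZMod M) := by
  have h1 := Ghat_dig h hm le_rfl hu hv rfl
    (G_correct h hm m le_rfl _ rfl u hu v hv q i hi) hj
  show ((dig (wd lS m) (Ghat lS m (G lS A D m) u v q i) j + (WW - OO lS m) : ℕ) : ZMod M) = _
  rw [dig_eq, OO_eq]
  have h2 : 2 ^ (wd lS m - 1) ≤ WW := by
    rw [WW_eq]
    exact Nat.pow_le_pow_right (by norm_num) (by omega)
  have h3 : (((Ghat lS m (G lS A D m) u v q i / 2 ^ (wd lS m * j) % 2 ^ wd lS m : ℕ) : ℤ) :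
      ZMod M) = ((gram (HD A D m) m u v q i j + 2 ^ (wd lS m - 1) : ℤ) : ZMod M) := by rw [h1]
  rw [Int.cast_natCast] at h3
  rw [← hM] at h2 ⊢
  push_cast [Nat.cast_sub h2]
  push_cast at h3
  rw [h3, ZMod.natCast_self]
  ring

theorem term_cast (h : bad lS A D m = 0) (hm : m ≤ 40) (hW : wd lS m ≤ 4096) {M : ℕ}
    (hM : M = WW) (E : ℕ) {u v u' v' q i j q2 : ℕ} (hu : u < 5) (hv : v < 5) (hu' : u' < 5)
    (hv' : v' < 5) (hi : i < (HD A D m).d m q) (hj : j < 9) :
    ((term lS A D m E u v u' v' q i j q2 : ℕ) : ZMod M) =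
      ((epsE E q i * epsE E q2 j * (gram (HD A D m) m u v q i j *
        gram (HD A D m) m u' v' q i j) : ℤ) : ZMod M) := by
  show (((eres E q i * eres E q2 j) * (gres lS A D m u v q i j * gres lS A D m u' v' q i j) : ℕ) :
    ZMod M) = _
  push_cast
  rw [eres_cast hM, eres_cast hM, gres_cast h hm hW hM hu hv hi hj,
    gres_cast h hm hW hM hu' hv' hi hj]

theorem eN0_cast (h : bad lS A D m = 0) (hm : m ≤ 40) (hW : wd lS m ≤ 4096) {M : ℕ}
    (hM : M = WW) (E : ℕ) :
    ((eN0 lS A D m E : ℕ) : ZMod M) = ((cN0 (HD A D m) m (epsE E) : ℤ) : ZMod M) := by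
  have e1 : eN0 lS A D m E = ∑ q ∈ range 9, ∑ i ∈ range (dd D m q), ∑ j ∈ range (dd D m q),
      term lS A D m E 0 0 0 0 q i j q := by
    unfold eN0
    simp only [S_eq]
  rw [e1, cN0]
  push_cast
  refine Finset.sum_congr rfl fun q hq => ?_
  have hq9 := Finset.mem_range.mp hq
  rw [dH_eq h le_rfl (by omega)]
  refine Finset.sum_congr rfl fun i hi => Finset.sum_congr rfl fun j hj => ?_
  rw [term_cast h hm hW hM E (by norm_num) (by norm_num) (by norm_num) (by norm_num)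
    (Finset.mem_range.mp hi) (lt_of_lt_of_le (Finset.mem_range.mp hj) (dH_le h _ _))]
  push_cast
  rfl

theorem wst_lt {w : ℕ} (hw : w < 5) : wst w < 5 := by
  unfold wst; split_ifs <;> omega

theorem mu_le (w : ℕ) : mu w ≤ 2 := by unfold mu; split_ifs <;> omega

theorem eN1_cast (h : bad lS A D m = 0) (hm : m ≤ 40) (hW : wd lS m ≤ 4096) {M : ℕ}
    (hM : M = WW) (E : ℕ) :
    ((eN1 lS A D m E : ℕ) : ZMod M) = ((cN1 (HD A D m) m (epsE E) : ℤ) : ZMod M) := by
  have e1 : eN1 lS A D m E = ∑ v ∈ range 5, cres v * ∑ q ∈ range 9,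
      ∑ i ∈ range (dd D m q), ∑ j ∈ range (dd D m (q + 1 - emu v)),
      term lS A D m E 0 v 0 (est v) q i j (q + 1 - emu v) := by
    unfold eN1
    simp only [S_eq, force_eq]
    rfl
  rw [e1, cN1]
  push_cast
  refine Finset.sum_congr rfl fun v hv => ?_
  have hv5 := Finset.mem_range.mp hv
  rw [emu_eq v hv5, est_eq v hv5, cres_cast hM hv5, Finset.mul_sum]
  refine Finset.sum_congr rfl fun q hq => ?_
  have hq9 := Finset.mem_range.mp hq
  rw [dH_eq h le_rfl (by omega : q ≤ 10), dH_eq h le_rfl (by omega : q + 1 - mu v ≤ 10),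
    Finset.mul_sum]
  refine Finset.sum_congr rfl fun i hi => ?_
  rw [Finset.mul_sum]
  refine Finset.sum_congr rfl fun j hj => ?_
  rw [term_cast h hm hW hM E (by norm_num) hv5 (by norm_num) (wst_lt hv5)
    (Finset.mem_range.mp hi) (lt_of_lt_of_le (Finset.mem_range.mp hj) (dH_le h _ _))]
  push_cast
  ring

theorem eN2_cast (h : bad lS A D m = 0) (hm : m ≤ 40) (hW : wd lS m ≤ 4096) {M : ℕ}
    (hM : M = WW) (E : ℕ) :
    ((eN2 lS A D m E : ℕ) : ZMod M) = ((cN2 (HD A D m) m (epsE E) : ℤ) : ZMod M) := by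
  have e1 : eN2 lS A D m E = ∑ u ∈ range 5, ∑ v ∈ range 5, (cres u * cres v) * ∑ q ∈ range 9,
      ∑ i ∈ range (dd D m q), ∑ j ∈ range (dd D m (q + emu u - emu v)),
      term lS A D m E u v (est u) (est v) q i j (q + emu u - emu v) := by
    unfold eN2
    simp only [S_eq, force_eq]
    rfl
  rw [e1, cN2]
  push_cast
  refine Finset.sum_congr rfl fun u hu => Finset.sum_congr rfl fun v hv => ?_
  have hu5 := Finset.mem_range.mp hu
  have hv5 := Finset.mem_range.mp hv
  rw [emu_eq v hv5, emu_eq u hu5, est_eq v hv5, est_eq u hu5, cres_cast hM hv5,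
    cres_cast hM hu5, Finset.mul_sum]
  refine Finset.sum_congr rfl fun q hq => ?_
  have hq9 := Finset.mem_range.mp hq
  have := mu_le u
  rw [dH_eq h le_rfl (by omega : q ≤ 10), dH_eq h le_rfl (by omega : q + mu u - mu v ≤ 10),
    Finset.mul_sum]
  refine Finset.sum_congr rfl fun i hi => ?_
  rw [Finset.mul_sum]
  refine Finset.sum_congr rfl fun j hj => ?_
  rw [term_cast h hm hW hM E hu5 hv5 (wst_lt hu5) (wst_lt hv5)
    (Finset.mem_range.mp hi) (lt_of_lt_of_le (Finset.mem_range.mp hj) (dH_le h _ _))]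
  push_cast
  ring

end

end Crest.Agent.R347.OChain
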