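import Crest.Agent.R347.OIface

/-! Recursion and a priori bound for the Gram matrices of the extended left vectors. -/

set_option autoImplicit false

namespace Crest.Agent.R347.OChain

open Finset

theorem gram_zero (H : Half) (w1 w2 q i j : ℕ) :
    gram H 0 w1 w2 q i j = if w1 = 0 ∧ w2 = 0 ∧ q = 4 ∧ i = 0 ∧ j = 0 then 1 else 0 := by
  unfold gram
  simp only [V, Finset.univ_unique, Finset.sum_singleton]
  by_cases h1 : w1 = 0 ∧ q = 4 ∧ i = 0
  · obtain ⟨rfl, rfl, rfl⟩ := h1
    by_cases h2 : w2 = 0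
    · subst h2
      by_cases h3 : j = 0
      · subst h3; simp [mu]
      · simp [h3]
    · simp [h2]
  · rw [if_neg h1, zero_mul, if_neg]
    rintro ⟨a, _, b, c, _⟩
    exact h1 ⟨a, b, c⟩

theorem kap_ne {k s w w1 : ℕ} (hs : s < 3) (h : kap k s w w1 ≠ 0) :
    mu w ≤ s + mu w1 ∧ s + mu w1 - mu w < 3 := by
  unfold kap at h
  unfold mu
  split_ifs at h ⊢ <;> simp_all <;> omega

theorem V_snoc (H : Half) (k w1 q' j : ℕ) (σ : Fin k → Fin 3) (s : Fin 3) :
    V H (k + 1) w1 q' j (Fin.snoc (α := fun _ => Fin 3) σ s) =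
      ∑ w ∈ range 5, kap k s w w1 *
        ∑ i ∈ range (H.d k (q' + ((s : ℕ) + mu w1 - mu w) - 1)),
          V H k w (q' + ((s : ℕ) + mu w1 - mu w) - 1) i σ *
          H.a k ((s : ℕ) + mu w1 - mu w) (q' + ((s : ℕ) + mu w1 - mu w) - 1) i j := by
  rw [V]
  simp only [Fin.snoc_last, Fin.snoc_castSucc]

theorem sum_snoc (k : ℕ) (F : (Fin (k + 1) → Fin 3) → ℤ) :
    ∑ σ, F σ = ∑ s ∈ range 3, ∑ σ : Fin k → Fin 3,
      (if h : s < 3 then F (Fin.snoc (α := fun _ => Fin 3) σ ⟨s, h⟩) else 0) := by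
  rw [← (Fin.snocEquiv (fun _ : Fin (k + 1) => Fin 3)).sum_comp, Fintype.sum_prod_type,
    Finset.sum_range]
  refine Finset.sum_congr rfl fun s _ => ?_
  refine Finset.sum_congr rfl fun σ _ => ?_
  simp [Fin.snocEquiv]

/-- Label bookkeeping. -/
theorem col_sum (H : Half) (hH : H.Ok) {k s w w1 w' w2 q' : ℕ} (i' j : ℕ)
    (h1 : mu w ≤ s + mu w1)
    (h2 : mu w' ≤ s + mu w2) (h2' : s + mu w2 - mu w' < 3)
    (hq : 1 ≤ q' + (s + mu w1 - mu w) - 1) :
    ∑ l ∈ range (H.d k (q' + mu w1 - mu w2 + (s + mu w2 - mu w') - 1)),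
      (∑ σ : Fin k → Fin 3, V H k w (q' + (s + mu w1 - mu w) - 1) i' σ *
        V H k w' (q' + mu w1 - mu w2 + (s + mu w2 - mu w') - 1) l σ) *
        H.a k (s + mu w2 - mu w') (q' + mu w1 - mu w2 + (s + mu w2 - mu w') - 1) l j =
    ∑ l ∈ range (H.d k (q' + (s + mu w1 - mu w) - 1 + mu w - mu w')),
      gram H k w w' (q' + (s + mu w1 - mu w) - 1) i' l *
        H.a k (s + mu w2 - mu w') (q' + (s + mu w1 - mu w) - 1 + mu w - mu w') l j := by
  by_cases hc : mu w2 ≤ q' + mu w1
  · have e : q' + mu w1 - mu w2 + (s + mu w2 - mu w') - 1 =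
        q' + (s + mu w1 - mu w) - 1 + mu w - mu w' := by omega
    rw [e]
    rfl
  · push Not at hc
    have e1 : q' + (s + mu w1 - mu w) - 1 + mu w - mu w' = 0 := by omega
    have e2 : q' + mu w1 - mu w2 = 0 := by omega
    rw [e1, e2, hH.d_zero, Finset.range_zero, Finset.sum_empty, zero_add]
    refine Finset.sum_eq_zero fun l hl => ?_
    rw [hH.a_zero k _ _ l j, mul_zero]
    have : s + mu w2 - mu w' - 1 + 1 - (s + mu w2 - mu w') = 0 := by
      rcases Nat.eq_zero_or_pos (s + mu w2 - mu w') with h0 | h0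
      · rw [h0] at hl
        simp [hH.d_zero] at hl
      · omega
    rw [this, hH.d_zero]
    exact Nat.zero_le _

/-- The recursion of the Gram matrices. -/
theorem gram_succ (H : Half) (hH : H.Ok) (k w1 w2 q' i j : ℕ) :
    gram H (k + 1) w1 w2 q' i j =
      ∑ s ∈ range 3, ∑ w ∈ range 5, kap k s w w1 *
        ∑ i' ∈ range (H.d k (q' + (s + mu w1 - mu w) - 1)),
          H.a k (s + mu w1 - mu w) (q' + (s + mu w1 - mu w) - 1) i' i *
          ∑ w' ∈ range 5, kap k s w' w2 *
            ∑ l ∈ range (H.d k (q' + (s + mu w1 - mu w) - 1 + mu w - mu w')),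
              gram H k w w' (q' + (s + mu w1 - mu w) - 1) i' l *
              H.a k (s + mu w2 - mu w') (q' + (s + mu w1 - mu w) - 1 + mu w - mu w') l j := by
  rw [gram, sum_snoc]
  refine Finset.sum_congr rfl fun s hs => ?_
  have hs3 : s < 3 := Finset.mem_range.mp hs
  simp only [dif_pos hs3]
  calc ∑ σ : Fin k → Fin 3, V H (k + 1) w1 q' i (Fin.snoc (α := fun _ => Fin 3) σ ⟨s, hs3⟩) *
        V H (k + 1) w2 (q' + mu w1 - mu w2) j (Fin.snoc (α := fun _ => Fin 3) σ ⟨s, hs3⟩)
      = ∑ σ : Fin k → Fin 3, ∑ w ∈ range 5,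
          ∑ i' ∈ range (H.d k (q' + (s + mu w1 - mu w) - 1)), ∑ w' ∈ range 5,
          ∑ l ∈ range (H.d k (q' + mu w1 - mu w2 + (s + mu w2 - mu w') - 1)),
          kap k s w w1 * (H.a k (s + mu w1 - mu w) (q' + (s + mu w1 - mu w) - 1) i' i *
            (kap k s w' w2 * ((V H k w (q' + (s + mu w1 - mu w) - 1) i' σ *
              V H k w' (q' + mu w1 - mu w2 + (s + mu w2 - mu w') - 1) l σ) *
            H.a k (s + mu w2 - mu w') (q' + mu w1 - mu w2 + (s + mu w2 - mu w') - 1) l j))) := by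
        refine Finset.sum_congr rfl fun σ _ => ?_
        rw [V_snoc, V_snoc, Finset.sum_mul]
        refine Finset.sum_congr rfl fun w _ => ?_
        rw [mul_assoc, Finset.sum_mul, Finset.mul_sum]
        refine Finset.sum_congr rfl fun i' _ => ?_
        rw [Finset.mul_sum, Finset.mul_sum]
        refine Finset.sum_congr rfl fun w' _ => ?_
        simp only [Finset.mul_sum]
        refine Finset.sum_congr rfl fun l _ => ?_
        ring
    _ = ∑ w ∈ range 5, ∑ i' ∈ range (H.d k (q' + (s + mu w1 - mu w) - 1)), ∑ w' ∈ range 5,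
          ∑ l ∈ range (H.d k (q' + mu w1 - mu w2 + (s + mu w2 - mu w') - 1)),
          ∑ σ : Fin k → Fin 3,
          kap k s w w1 * (H.a k (s + mu w1 - mu w) (q' + (s + mu w1 - mu w) - 1) i' i *
            (kap k s w' w2 * ((V H k w (q' + (s + mu w1 - mu w) - 1) i' σ *
              V H k w' (q' + mu w1 - mu w2 + (s + mu w2 - mu w') - 1) l σ) *
            H.a k (s + mu w2 - mu w') (q' + mu w1 - mu w2 + (s + mu w2 - mu w') - 1) l j))) := by
        rw [Finset.sum_comm]
        refine Finset.sum_congr rfl fun w _ => ?_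
        rw [Finset.sum_comm]
        refine Finset.sum_congr rfl fun i' _ => ?_
        rw [Finset.sum_comm]
        refine Finset.sum_congr rfl fun w' _ => ?_
        rw [Finset.sum_comm]
    _ = _ := by
        refine Finset.sum_congr rfl fun w _ => ?_
        rw [Finset.mul_sum]
        refine Finset.sum_congr rfl fun i' hi' => ?_
        rw [Finset.mul_sum, Finset.mul_sum]
        refine Finset.sum_congr rfl fun w' _ => ?_
        by_cases hk1 : kap k s w w1 = 0
        · simp [hk1]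
        by_cases hk2 : kap k s w' w2 = 0
        · simp [hk2]
        obtain ⟨h1, -⟩ := kap_ne hs3 hk1
        obtain ⟨h2, h2'⟩ := kap_ne hs3 hk2
        have hq : 1 ≤ q' + (s + mu w1 - mu w) - 1 := by
          rcases Nat.eq_zero_or_pos (q' + (s + mu w1 - mu w) - 1) with h0 | h0
          · rw [h0, hH.d_zero] at hi'
            simp at hi'
          · exact h0
        rw [← col_sum H hH i' j h1 h2 h2' hq]
        simp only [← Finset.mul_sum, Finset.sum_mul]

end Crest.Agent.R347.OChain
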