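import Crest.Agent.R347.OIface

/-! Inner products of the mirror trial state. -/

set_option autoImplicit false

namespace Crest.Agent.R347.OChain

open Matrix Crest.MathPhysics.SpinChain Finset

/-- A nonzero transition coefficient has a legal spin index. -/
theorem kap_ne_zero {k s w w1 : ℕ} (h : kap k s w w1 ≠ 0) : mu w ≤ s + mu w1 := by
  unfold kap at h
  unfold mu
  split_ifs at h ⊢ <;> omega

/-- Charge conservation. -/
theorem V_charge (H : Half) (hH : H.Ok) (k w q i : ℕ) (σ : Fin k → Fin 3)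
    (h : V H k w q i σ ≠ 0) :
    ((q : ℤ) - 4) + ((mu w : ℤ) - 1) = ∑ j, (1 - ((σ j : ℕ) : ℤ)) := by
  induction k generalizing w q i with
  | zero =>
    have h' : (if w = 0 ∧ q = 4 ∧ i = 0 then (1 : ℤ) else 0) ≠ 0 := h
    by_cases hc : w = 0 ∧ q = 4 ∧ i = 0
    · obtain ⟨rfl, rfl, rfl⟩ := hc
      simp [mu]
    · rw [if_neg hc] at h'
      exact absurd rfl h'
  | succ k ih =>
    have h' : (∑ w' ∈ range 5, kap k (σ (Fin.last k)) w' w *
        ∑ i' ∈ range (H.d k (q + ((σ (Fin.last k) : ℕ) + mu w - mu w') - 1)),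
          V H k w' (q + ((σ (Fin.last k) : ℕ) + mu w - mu w') - 1) i'
            (fun j => σ (Fin.castSucc j)) *
          H.a k ((σ (Fin.last k) : ℕ) + mu w - mu w')
            (q + ((σ (Fin.last k) : ℕ) + mu w - mu w') - 1) i' i) ≠ 0 := h
    obtain ⟨w', hw', h1⟩ := Finset.exists_ne_zero_of_sum_ne_zero h'
    have hk := left_ne_zero_of_mul h1
    obtain ⟨i', hi', h2⟩ := Finset.exists_ne_zero_of_sum_ne_zero (right_ne_zero_of_mul h1)
    have hV := ih _ _ _ _ (left_ne_zero_of_mul h2)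
    have hmu := kap_ne_zero hk
    have hd : q + ((σ (Fin.last k) : ℕ) + mu w - mu w') - 1 ≠ 0 := by
      intro h0
      rw [h0, hH.d_zero] at hi'
      simp at hi'
    rw [Fin.sum_univ_castSucc, ← hV]
    have e1 : ((q + ((σ (Fin.last k) : ℕ) + mu w - mu w') - 1 : ℕ) : ℤ) =
        (q : ℤ) + (((σ (Fin.last k) : ℕ) : ℤ) + (mu w : ℤ) - (mu w' : ℤ)) - 1 := by
      omega
    rw [e1]
    ring

theorem V_orth (H : Half) (hH : H.Ok) (k w1 w2 q q2 i j : ℕ) (h : q + mu w1 ≠ q2 + mu w2) :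
    ∑ σ : Fin k → Fin 3, V H k w1 q i σ * V H k w2 q2 j σ = 0 := by
  refine Finset.sum_eq_zero fun σ _ => ?_
  by_contra hne
  have h1 := V_charge H hH k w1 q i σ (left_ne_zero_of_mul hne)
  have h2 := V_charge H hH k w2 q2 j σ (right_ne_zero_of_mul hne)
  rw [← h2] at h1
  omega

theorem mu_wst (w : ℕ) : mu (wst w) = mu w := by
  unfold wst
  split_ifs with h1 h2
  · subst h1; rfl
  · subst h2; rfl
  · rfl

/-- Splitting a configuration into its left half and the mirror image of its right half. -/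
def splitEquiv (m : ℕ) :
    (Fin (m + m) → Fin 3) ≃ (Fin m → Fin 3) × (Fin m → Fin 3) where
  toFun σ := (lft σ, rgt σ)
  invFun p := Fin.append p.1 (fun i => Fin.rev (p.2 (Fin.rev i)))
  left_inv σ := by
    funext i
    refine Fin.addCases (fun i => ?_) (fun i => ?_) i
    · simp only [Fin.append_left]
      rfl
    · simp only [Fin.append_right, rgt, Fin.rev_rev]
  right_inv p := by
    refine Prod.ext ?_ ?_
    · funext i
      simp only [lft, Fin.append_left]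
    · funext i
      simp only [rgt, Fin.append_right, Fin.rev_rev]

theorem sum_lft_rgt (m : ℕ) (F : (Fin m → Fin 3) → (Fin m → Fin 3) → ℤ) :
    ∑ σ : Fin (m + m) → Fin 3, F (lft σ) (rgt σ) = ∑ α, ∑ β, F α β := by
  rw [← Fintype.sum_prod_type' (f := F)]
  exact (splitEquiv m).sum_comp (fun p => F p.1 p.2)

/-- Products of sums of product functions. -/
theorem sum_bilin {A B X Y : Type*} [Fintype A] [Fintype B] (sX : Finset X) (sY : Finset Y)
    (c : X → ℤ) (c' : Y → ℤ) (a : X → A → ℤ) (b : X → B → ℤ) (a' : Y → A → ℤ)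
    (b' : Y → B → ℤ) :
    ∑ α, ∑ β, (∑ x ∈ sX, c x * (a x α * b x β)) * (∑ y ∈ sY, c' y * (a' y α * b' y β)) =
      ∑ x ∈ sX, ∑ y ∈ sY, c x * c' y * ((∑ α, a x α * a' y α) * ∑ β, b x β * b' y β) := by
  have h1 : ∀ α β, (∑ x ∈ sX, c x * (a x α * b x β)) *
      (∑ y ∈ sY, c' y * (a' y α * b' y β)) =
      ∑ x ∈ sX, ∑ y ∈ sY, c x * c' y * ((a x α * a' y α) * (b x β * b' y β)) := by
    intro α β
    rw [Finset.sum_mul_sum]
    refine Finset.sum_congr rfl fun x _ => Finset.sum_congr rfl fun y _ => ?_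
    ring
  simp only [h1]
  have h2 : ∀ α, ∑ β, ∑ x ∈ sX, ∑ y ∈ sY, c x * c' y * ((a x α * a' y α) * (b x β * b' y β)) =
      ∑ x ∈ sX, ∑ y ∈ sY, ∑ β, c x * c' y * ((a x α * a' y α) * (b x β * b' y β)) := by
    intro α
    rw [Finset.sum_comm]
    refine Finset.sum_congr rfl fun x _ => ?_
    rw [Finset.sum_comm]
  simp only [h2]
  rw [Finset.sum_comm]
  refine Finset.sum_congr rfl fun x _ => ?_
  rw [Finset.sum_comm]
  refine Finset.sum_congr rfl fun y _ => ?_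
  rw [Finset.sum_mul_sum, Finset.mul_sum]
  refine Finset.sum_congr rfl fun α _ => ?_
  rw [Finset.mul_sum]

/-- The index set of the middle bond. -/
def idx (H : Half) (m : ℕ) : Finset (Σ _ : ℕ, ℕ) :=
  (range 9).sigma fun q => range (H.d m q)

theorem psi_eq (H : Half) (m : ℕ) (ε : ℕ → ℕ → ℤ) (σ : Fin (m + m) → Fin 3) :
    psi H m ε σ = ∑ x ∈ idx H m, ε x.1 x.2 * (V H m 0 x.1 x.2 (lft σ) *
      V H m 0 x.1 x.2 (rgt σ)) := by
  rw [psi, idx, Finset.sum_sigma]

theorem phi_eq (H : Half) (m : ℕ) (ε : ℕ → ℕ → ℤ) (σ : Fin (m + m) → Fin 3) :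
    phi H m ε σ = ∑ y ∈ range 5 ×ˢ idx H m, (ε y.2.1 y.2.2 * cst y.1) *
      (V H m y.1 y.2.1 y.2.2 (lft σ) * V H m (wst y.1) y.2.1 y.2.2 (rgt σ)) := by
  rw [phi, Finset.sum_product, Finset.sum_comm, idx, Finset.sum_sigma]
  refine Finset.sum_congr rfl fun q _ => Finset.sum_congr rfl fun i _ => ?_
  rw [Finset.mul_sum]
  refine Finset.sum_congr rfl fun w _ => ?_
  ring

/-- Collapse of the sum over the charge of the second factor. -/
theorem collapse (H : Half) (hH : H.Ok) (m u v u' v' q i : ℕ) (hu : mu u' = mu u)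
    (hv : mu v' = mu v) (f : ℕ → ℕ → ℤ) :
    ∑ y ∈ idx H m, f y.1 y.2 * ((∑ σ : Fin m → Fin 3, V H m u q i σ * V H m v y.1 y.2 σ) *
        ∑ σ : Fin m → Fin 3, V H m u' q i σ * V H m v' y.1 y.2 σ) =
      ∑ j ∈ range (H.d m (q + mu u - mu v)), f (q + mu u - mu v) j *
        (gram H m u v q i j * gram H m u' v' q i j) := by
  rw [idx, Finset.sum_sigma]
  by_cases hc : mu v ≤ q + mu u ∧ q + mu u - mu v < 9
  · rw [Finset.sum_eq_single_of_mem (q + mu u - mu v) (Finset.mem_range.mpr hc.2)]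
    · refine Finset.sum_congr rfl fun j _ => ?_
      rw [gram, gram, hu, hv]
    · intro q2 _ hq2
      refine Finset.sum_eq_zero fun j _ => ?_
      rw [V_orth H hH m u v q q2 i j (by omega), zero_mul, mul_zero]
  · have h0 : H.d m (q + mu u - mu v) = 0 := by
      by_cases h1 : mu v ≤ q + mu u
      · exact hH.d_large _ _ (by omega)
      · have : q + mu u - mu v = 0 := by omega
        rw [this]
        exact hH.d_zero _
    rw [h0, Finset.range_zero, Finset.sum_empty]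
    refine Finset.sum_eq_zero fun q2 hq2 => Finset.sum_eq_zero fun j hj => ?_
    have h2 := Finset.mem_range.mp hq2
    have h3 : q2 ≠ 0 := by
      rintro rfl
      rw [hH.d_zero] at hj
      simp at hj
    rw [V_orth H hH m u v q q2 i j (by omega), zero_mul, mul_zero]

theorem inner_psi_psi (H : Half) (hH : H.Ok) (m : ℕ) (ε : ℕ → ℕ → ℤ) :
    ∑ σ, psi H m ε σ * psi H m ε σ = cN0 H m ε := by
  simp only [psi_eq]
  rw [sum_lft_rgt m (fun α β => (∑ x ∈ idx H m, ε x.1 x.2 * (V H m 0 x.1 x.2 α *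
      V H m 0 x.1 x.2 β)) * (∑ x ∈ idx H m, ε x.1 x.2 * (V H m 0 x.1 x.2 α *
      V H m 0 x.1 x.2 β))),
    sum_bilin (idx H m) (idx H m) (fun x => ε x.1 x.2) (fun x => ε x.1 x.2)
      (fun x α => V H m 0 x.1 x.2 α) (fun x α => V H m 0 x.1 x.2 α)
      (fun x α => V H m 0 x.1 x.2 α) (fun x α => V H m 0 x.1 x.2 α), cN0]
  nth_rewrite 1 [idx]
  rw [Finset.sum_sigma]
  refine Finset.sum_congr rfl fun q _ => Finset.sum_congr rfl fun i _ => ?_
  exact collapse H hH m 0 0 0 0 q i rfl rfl (fun q2 j => ε q i * ε q2 j)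

theorem inner_psi_phi (H : Half) (hH : H.Ok) (m : ℕ) (ε : ℕ → ℕ → ℤ) :
    ∑ σ, psi H m ε σ * phi H m ε σ = cN1 H m ε := by
  simp only [psi_eq, phi_eq]
  rw [sum_lft_rgt m (fun α β => (∑ x ∈ idx H m, ε x.1 x.2 * (V H m 0 x.1 x.2 α *
      V H m 0 x.1 x.2 β)) * (∑ y ∈ range 5 ×ˢ idx H m, (ε y.2.1 y.2.2 * cst y.1) *
      (V H m y.1 y.2.1 y.2.2 α * V H m (wst y.1) y.2.1 y.2.2 β))),
    sum_bilin (idx H m) (range 5 ×ˢ idx H m) (fun x => ε x.1 x.2)
      (fun y => ε y.2.1 y.2.2 * cst y.1)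
      (fun x α => V H m 0 x.1 x.2 α) (fun x α => V H m 0 x.1 x.2 α)
      (fun y α => V H m y.1 y.2.1 y.2.2 α) (fun y β => V H m (wst y.1) y.2.1 y.2.2 β), cN1]
  simp only [Finset.sum_product]
  rw [Finset.sum_comm]
  refine Finset.sum_congr rfl fun v _ => ?_
  nth_rewrite 1 [idx]
  rw [Finset.sum_sigma]
  refine Finset.sum_congr rfl fun q _ => Finset.sum_congr rfl fun i _ => ?_
  refine (collapse H hH m 0 v 0 (wst v) q i rfl (mu_wst v)
    (fun q2 j => ε q i * (ε q2 j * cst v))).trans ?_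
  refine Finset.sum_congr rfl fun j _ => ?_
  have e : mu 0 = 1 := rfl
  rw [e]
  ring

theorem inner_phi_phi (H : Half) (hH : H.Ok) (m : ℕ) (ε : ℕ → ℕ → ℤ) :
    ∑ σ, phi H m ε σ * phi H m ε σ = cN2 H m ε := by
  simp only [phi_eq]
  rw [sum_lft_rgt m (fun α β => (∑ y ∈ range 5 ×ˢ idx H m, (ε y.2.1 y.2.2 * cst y.1) *
      (V H m y.1 y.2.1 y.2.2 α * V H m (wst y.1) y.2.1 y.2.2 β)) *
      (∑ y ∈ range 5 ×ˢ idx H m, (ε y.2.1 y.2.2 * cst y.1) *
      (V H m y.1 y.2.1 y.2.2 α * V H m (wst y.1) y.2.1 y.2.2 β))),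
    sum_bilin (range 5 ×ˢ idx H m) (range 5 ×ˢ idx H m)
      (fun y => ε y.2.1 y.2.2 * cst y.1) (fun y => ε y.2.1 y.2.2 * cst y.1)
      (fun y α => V H m y.1 y.2.1 y.2.2 α) (fun y β => V H m (wst y.1) y.2.1 y.2.2 β)
      (fun y α => V H m y.1 y.2.1 y.2.2 α) (fun y β => V H m (wst y.1) y.2.1 y.2.2 β), cN2]
  simp only [Finset.sum_product]
  refine Finset.sum_congr rfl fun u _ => ?_
  rw [Finset.sum_comm]
  refine Finset.sum_congr rfl fun v _ => ?_
  nth_rewrite 1 [idx]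
  rw [Finset.sum_sigma]
  refine Finset.sum_congr rfl fun q _ => Finset.sum_congr rfl fun i _ => ?_
  refine (collapse H hH m u v (wst u) (wst v) q i (mu_wst u) (mu_wst v)
    (fun q2 j => ε q i * cst u * (ε q2 j * cst v))).trans ?_
  refine Finset.sum_congr rfl fun j _ => ?_
  ring

end Crest.Agent.R347.OChain
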