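import Crest.Agent.R347.OAction
import Crest.Agent.R347.OInner

/-! From the exact integers to the trial state. -/

set_option autoImplicit false

namespace Crest.Agent.R347.OChain

open Matrix Crest.MathPhysics.SpinChain Finset

theorem dot_int {κ : Type*} [Fintype κ] (f g : κ → ℤ) :
    star (fun σ => ((f σ : ℤ) : ℂ)) ⬝ᵥ (fun σ => ((g σ : ℤ) : ℂ)) =
      ((∑ σ, f σ * g σ : ℤ) : ℂ) := by
  rw [dotProduct]
  push_cast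
  refine Finset.sum_congr rfl fun σ _ => ?_
  rw [Pi.star_apply, RCLike.star_def, map_intCast]

theorem fun_div5 {κ : Type*} (g : κ → ℤ) :
    (fun σ => ((g σ : ℤ) : ℂ) / 5) = (1 / 5 : ℂ) • (fun σ => ((g σ : ℤ) : ℂ)) := by
  funext σ
  simp only [Pi.smul_apply, smul_eq_mul]
  ring

theorem star_fifth : star (1 / 5 : ℂ) = 1 / 5 := by
  have h : (1 / 5 : ℂ) = ((1 / 5 : ℝ) : ℂ) := by push_cast; rfl
  rw [h, RCLike.star_def, Complex.conj_ofReal]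

/-- the trial vector -/
noncomputable def tv (H : Half) (p : ℕ) (ε : ℕ → ℕ → ℤ) : (Fin (p + 1 + p + 1) → Fin 3) → ℂ :=
  fun σ => ((psi H (p + 1) ε σ : ℤ) : ℂ)

theorem tv_facts (H : Half) (hH : H.Ok) (p : ℕ) (ε : ℕ → ℕ → ℤ) :
    star (tv H p ε) ⬝ᵥ tv H p ε = ((cN0 H (p + 1) ε : ℤ) : ℂ) ∧
    star (tv H p ε) ⬝ᵥ (openH (p + 1 + p) (3 / 5) (-(3 / 5))).mulVec (tv H p ε) =
      ((cN1 H (p + 1) ε : ℤ) : ℂ) / 5 ∧
    star ((openH (p + 1 + p) (3 / 5) (-(3 / 5))).mulVec (tv H p ε)) ⬝ᵥ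
      (openH (p + 1 + p) (3 / 5) (-(3 / 5))).mulVec (tv H p ε) =
      ((cN2 H (p + 1) ε : ℤ) : ℂ) / 25 := by
  have hA : (openH (p + 1 + p) (3 / 5) (-(3 / 5))).mulVec (tv H p ε) =
      (1 / 5 : ℂ) • (fun σ : Fin (p + 1 + p + 1) → Fin 3 =>
        ((phi H (p + 1) ε σ : ℤ) : ℂ)) := by
    rw [← fun_div5]
    exact openH_psi H hH p ε
  refine ⟨?_, ?_, ?_⟩
  · rw [← inner_psi_psi H hH (p + 1) ε]
    exact dot_int _ _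
  · rw [hA, dotProduct_smul, smul_eq_mul, ← inner_psi_phi H hH (p + 1) ε]
    rw [show star (tv H p ε) ⬝ᵥ (fun σ : Fin (p + 1 + p + 1) → Fin 3 =>
        ((phi H (p + 1) ε σ : ℤ) : ℂ)) = _ from dot_int _ _]
    rw [one_div, mul_comm, ← div_eq_mul_inv]
    rfl
  · rw [hA, star_smul, smul_dotProduct, dotProduct_smul, smul_eq_mul, smul_eq_mul, star_fifth,
      ← inner_phi_phi H hH (p + 1) ε]
    rw [show star (fun σ : Fin (p + 1 + p + 1) → Fin 3 => ((phi H (p + 1) ε σ : ℤ) : ℂ)) ⬝ᵥ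
        (fun σ : Fin (p + 1 + p + 1) → Fin 3 => ((phi H (p + 1) ε σ : ℤ) : ℂ)) = _
        from dot_int _ _]
    rw [← mul_assoc, show (1 / 5 : ℂ) * (1 / 5) = 1 / 25 by norm_num, one_div, mul_comm,
      ← div_eq_mul_inv]
    rfl

theorem tv_ne (H : Half) (hH : H.Ok) (p : ℕ) (ε : ℕ → ℕ → ℤ) {N0 : ℤ}
    (h0 : cN0 H (p + 1) ε = N0) (hpos : 0 < N0) : tv H p ε ≠ 0 := by
  intro h
  have h1 := (tv_facts H hH p ε).1
  rw [h, h0, dotProduct_zero] at h1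
  have : (N0 : ℂ) ≠ 0 := by exact_mod_cast hpos.ne'
  exact this h1.symm

theorem trial_of_exact (H : Half) (hH : H.Ok) (p : ℕ) (ε : ℕ → ℕ → ℤ) (N0 N1 N2 : ℤ)
    (h0 : cN0 H (p + 1) ε = N0) (h1 : cN1 H (p + 1) ε = N1) (h2 : cN2 H (p + 1) ε = N2)
    (hpos : 0 < N0) :
    ∃ ψ : (Fin (p + 1 + p + 1) → Fin 3) → ℂ, ψ ≠ 0 ∧
      star ψ ⬝ᵥ (openH (p + 1 + p) (3 / 5) (-(3 / 5))).mulVec ψ =
        (((N1 : ℝ) / (5 * (N0 : ℝ)) : ℝ) : ℂ) * (star ψ ⬝ᵥ ψ) ∧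
      (star ((openH (p + 1 + p) (3 / 5) (-(3 / 5))).mulVec ψ) ⬝ᵥ
        (openH (p + 1 + p) (3 / 5) (-(3 / 5))).mulVec ψ).re =
        ((N2 : ℝ) / (25 * (N0 : ℝ))) * (star ψ ⬝ᵥ ψ).re := by
  obtain ⟨f0, f1, f2⟩ := tv_facts H hH p ε
  refine ⟨tv H p ε, tv_ne H hH p ε h0 hpos, ?_, ?_⟩
  · have hne : (N0 : ℂ) ≠ 0 := by exact_mod_cast hpos.ne'
    rw [f1, f0, h0, h1]
    push_cast
    field_simp
  · have hne : (N0 : ℝ) ≠ 0 := by exact_mod_cast hpos.ne'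
    rw [f2, f0, h0, h2]
    have e1 : ((N2 : ℂ) / 25) = (((N2 : ℝ) / 25 : ℝ) : ℂ) := by push_cast; rfl
    have e2 : (N0 : ℂ) = ((N0 : ℝ) : ℂ) := by push_cast; rfl
    rw [e1, e2, Complex.ofReal_re, Complex.ofReal_re]
    field_simp

/-- Variational version. -/
theorem trial_of_exact' (H : Half) (hH : H.Ok) (p : ℕ) (ε : ℕ → ℕ → ℤ) (N0 N1 : ℤ)
    (h0 : cN0 H (p + 1) ε = N0) (h1 : cN1 H (p + 1) ε = N1) (hpos : 0 < N0) :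
    ∃ ψ : (Fin (p + 1 + p + 1) → Fin 3) → ℂ, ψ ≠ 0 ∧
      (star ψ ⬝ᵥ (openH (p + 1 + p) (3 / 5) (-(3 / 5))).mulVec ψ).re =
        ((N1 : ℝ) / (5 * (N0 : ℝ))) * (star ψ ⬝ᵥ ψ).re := by
  obtain ⟨f0, f1, -⟩ := tv_facts H hH p ε
  refine ⟨tv H p ε, tv_ne H hH p ε h0 hpos, ?_⟩
  have hne : (N0 : ℝ) ≠ 0 := by exact_mod_cast hpos.ne'
  rw [f1, f0, h0, h1]
  have e1 : ((N1 : ℂ) / 5) = (((N1 : ℝ) / 5 : ℝ) : ℂ) := by push_cast; rfl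
  have e2 : (N0 : ℂ) = ((N0 : ℝ) : ℂ) := by push_cast; rfl
  rw [e1, e2, Complex.ofReal_re, Complex.ofReal_re]
  field_simp

end Crest.Agent.R347.OChain
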