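import Crest.Agent.R347.Basic

/-! Open chains with end fields: definitions. -/

set_option autoImplicit false

namespace Crest.Agent.R347

open Matrix Crest.MathPhysics.SpinChain

/-- Open chain with `n + 1` sites and end fields `-hl S^z_0 - hr S^z_n`. -/
noncomputable def openH (n : ℕ) (hl hr : ℝ) :
    Matrix (Fin (n + 1) → Fin 3) (Fin (n + 1) → Fin 3) ℂ :=
  (∑ j : Fin n, bond (Fin.castSucc j) (Fin.succ j)) -
    (hl : ℂ) • onSite spinZ (0 : Fin (n + 1)) - (hr : ℂ) • onSite spinZ (Fin.last n)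

theorem openH_same (n : ℕ) (h : ℝ) : openH n h h = openChainEndField n h := by
  rw [openH, openChainEndField, smul_add, sub_sub]

/-- Twisted partition function of the open chain with `N = n + 1` sites:
`Tr (U_b e^{-β H})`, `b = 0`: none, `b = 3`: `(-1)^{S^z}`.  Number of sites `N`; for `N = 0`
we put `0`. -/
noncomputable def Zop (b : Fin 4) (hl hr : ℝ) (β : ℝ) : ℕ → ℝ
  | 0 => 0
  | (n + 1) => (Matrix.trace (piK (fun _ : Fin (n + 1) => rotC b) *
      NormedSpace.exp (-(β : ℂ) • openH n hl hr))).re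

/-- Same end fields `3/5`. -/
noncomputable def Xo (β : ℝ) (N : ℕ) : ℝ := Zop 0 (3 / 5) (3 / 5) β N
/-- Opposite end fields `±3/5`. -/
noncomputable def Yo (β : ℝ) (N : ℕ) : ℝ := Zop 0 (3 / 5) (-(3 / 5)) β N
/-- Same end fields, parity twist. -/
noncomputable def Xp (β : ℝ) (N : ℕ) : ℝ := Zop 3 (3 / 5) (3 / 5) β N
/-- Opposite end fields, parity twist. -/
noncomputable def Yp (β : ℝ) (N : ℕ) : ℝ := Zop 3 (3 / 5) (-(3 / 5)) β N

end Crest.Agent.R347
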