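import Crest.Agent.R347.OpenEngine

/-! Kernel evaluated Collatz-Wielandt checks of the open chain certificate. -/

set_option autoImplicit false
set_option Elab.async false
set_option maxRecDepth 100000

namespace Crest.Agent.R347.OSec

open Crest.Agent.R347.Num

theorem loY8 : chkLo 96 38 8 obL foY = true := by decide +kernel
theorem loY7 : chkLo 92 56 7 obL foY = true := by decide +kernel
theorem loY9 : chkLo 92 56 9 obL foY = true := by decide +kernel
theorem loY6 : chkLo 87 53 6 obL foY = true := by decide +kernel
theorem loY10 : chkLo 87 53 10 obL foY = true := by decide +kernel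

/-- remaining sectors, opposite fields -/
def restY : List ℕ := [0, 1, 2, 3, 4, 5, 11, 12, 13, 14, 15, 16]

theorem loYr : restY.all (fun s => chkLo 80 18 s obL foY) = true := by decide +kernel

theorem hiY : (List.range 17).all (fun s => chkHi s obL foY) = true := by decide +kernel

theorem loX7 : chkLo 95 30 7 obL foX = true := by decide +kernel
theorem loX8 : chkLo 93 43 8 obL foX = true := by decide +kernel
theorem loX6 : chkLo 91 39 6 obL foX = true := by decide +kernel
theorem loX9 : chkLo 89 34 9 obL foX = true := by decide +kernel
theorem loX5 : chkLo 84 25 5 obL foX = true := by decide +kernel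
theorem loX10 : chkLo 83 58 10 obL foX = true := by decide +kernel

/-- remaining sectors, equal fields -/
def restX : List ℕ := [0, 1, 2, 3, 4, 11, 12, 13, 14, 15, 16]

theorem loXr : restX.all (fun s => chkLo 76 12 s obL foX) = true := by decide +kernel

theorem hiX : (List.range 17).all (fun s => chkHi s obL foX) = true := by decide +kernel

end Crest.Agent.R347.OSec
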