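import Crest.Agent.R347.Open
import Crest.Agent.R347.Crossing

/-! Crossing for open chains with end fields. -/

set_option autoImplicit false

namespace Crest.Agent.R347

open Matrix Filter Topology Crest.MathPhysics.SpinChain

/-- Boundary label weights: `(1, 0, 0, -i e h)`. -/
noncomputable def bv (h e : ℝ) (a : Fin 4) : ℂ :=
  if a = 0 then 1 else if a = 3 then -(Complex.I * (e * h : ℝ)) else 0

/-- Real part of the boundary vector (even number of labels `3`). -/
noncomputable def bp (h e : ℝ) (n : ℕ) (ω : Fin n → Fin 4) : ℝ := (∏ k, bv h e (ω k)).re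
/-- Imaginary part of the boundary vector (odd number of labels `3`). -/
noncomputable def bq (h e : ℝ) (n : ℕ) (ω : Fin n → Fin 4) : ℝ := (∏ k, bv h e (ω k)).im

/-- Boundary weights without the coupling. -/
noncomputable def bt (h : ℝ) (a : Fin 4) : ℂ :=
  if a = 0 then 1 else if a = 3 then -(h : ℂ) else 0

@[simp] theorem bt_zero (h : ℝ) : bt h 0 = 1 := rfl

theorem bt_succ (h : ℝ) (c : Fin 3) : bt h c.succ = if c = 2 then -(h : ℂ) else 0 := by
  unfold bt
  rw [if_neg (Fin.succ_ne_zero c)]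
  fin_cases c <;> rfl

theorem bv_eq (h e : ℝ) (a : Fin 4) : bv h e a = bt h a * (Complex.I * e) ^ wt a := by
  refine Fin.cases ?_ (fun c => ?_) a
  · simp [bv, bt]
  · rw [bt_succ, wt_succ, pow_one]
    unfold bv
    rw [if_neg (Fin.succ_ne_zero c)]
    fin_cases c
    · simp
    · simp
    · show (if (3 : Fin 4) = 3 then -(Complex.I * ((e * h : ℝ) : ℂ)) else 0) = _
      rw [if_pos rfl]
      push_cast
      simp
      ring

/-- The operator attached to a label configuration of the open chain. -/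
noncomputable def Yopen (n : ℕ) (a : Fin (n + 2) → Fin 4) :
    Matrix (Fin (n + 1) → Fin 3) (Fin (n + 1) → Fin 3) ℂ :=
  piK (fun j : Fin (n + 1) => Mten spinOp 1 (a j.castSucc) (a j.succ))

theorem Gopen_eq_sum (hl hr e : ℝ) (n : ℕ) :
    Gopen (bv hl e) (bv hr e) (Mten (fun c => Complex.I • spinOp c) (e : ℂ)) (n + 1) =
      ∑ a : Fin (n + 2) → Fin 4,
        (bt hl (a 0) * bt hr (a (Fin.last (n + 1))) * (-((e : ℂ) ^ 2)) ^ NN a) • Yopen n a := by
  unfold Gopen Yopen
  refine Finset.sum_congr rfl fun a _ => ?_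
  have h1 : (fun j : Fin (n + 1) => Mten (fun c => Complex.I • spinOp c) (e : ℂ)
      (a j.castSucc) (a j.succ)) =
      fun j : Fin (n + 1) => ((Complex.I * e) ^ (wt (a j.castSucc) + wt (a j.succ))) •
        Mten spinOp 1 (a j.castSucc) (a j.succ) := by
    funext j
    exact Mten_scale _ _ _ _
  rw [h1, piK_smul, smul_smul]
  congr 1
  rw [Finset.prod_pow_eq_pow_sum, Finset.sum_add_distrib, bv_eq, bv_eq]
  have h2 : (wt (a 0) + wt (a (Fin.last (n + 1)))) +
      (∑ j : Fin (n + 1), wt (a j.castSucc) + ∑ j : Fin (n + 1), wt (a j.succ)) = 2 * NN a := by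
    have e1 : NN a = wt (a 0) + ∑ j : Fin (n + 1), wt (a j.succ) := by
      unfold NN
      exact Fin.sum_univ_succ _
    have e2 : NN a = ∑ j : Fin (n + 1), wt (a j.castSucc) + wt (a (Fin.last (n + 1))) := by
      unfold NN
      exact Fin.sum_univ_castSucc _
    omega
  have h3 : (-((e : ℂ) ^ 2)) ^ NN a = (Complex.I * e) ^ (2 * NN a) := by
    rw [pow_mul]
    congr 1
    rw [mul_pow, Complex.I_sq]
    ring
  rw [h3, ← h2, pow_add, pow_add]
  ring

theorem Yopen_zero (n : ℕ) : Yopen n 0 = 1 := by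
  unfold Yopen
  have : (fun j : Fin (n + 1) => Mten spinOp (1 : ℂ)
      ((0 : Fin (n + 2) → Fin 4) j.castSucc)
      ((0 : Fin (n + 2) → Fin 4) j.succ)) = fun _ => 1 := by
    funext j
    simp
  rw [this, piK_one]

theorem Yopen_single_zero (n : ℕ) (c : Fin 3) :
    Yopen n (Pi.single 0 c.succ) = onSite (spinOp c) 0 := by
  unfold Yopen
  rw [onSite_eq_piK]
  congr 1
  funext k
  rw [Pi.single_eq_of_ne (Fin.succ_ne_zero k)]
  by_cases h : k = 0
  · subst h
    rw [Fin.castSucc_zero, Pi.single_eq_same, if_pos rfl]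
    simp
  · rw [if_neg h, Pi.single_eq_of_ne (by
      intro h'
      apply h
      rw [← Fin.castSucc_zero] at h'
      exact Fin.castSucc_injective _ h')]
    simp

theorem Yopen_single_last (n : ℕ) (c : Fin 3) :
    Yopen n (Pi.single (Fin.last (n + 1)) c.succ) = onSite (spinOp c) (Fin.last n) := by
  unfold Yopen
  rw [onSite_eq_piK]
  congr 1
  funext k
  rw [Pi.single_eq_of_ne (Fin.castSucc_lt_last k).ne]
  by_cases h : k = Fin.last n
  · subst h
    rw [Fin.succ_last, Pi.single_eq_same, if_pos rfl]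
    simp
  · rw [if_neg h, Pi.single_eq_of_ne (by
      intro h'
      apply h
      rw [← Fin.succ_last] at h'
      exact Fin.succ_injective _ h')]
    simp

theorem Yopen_single_mid (n : ℕ) (i : Fin n) (c : Fin 3) :
    Yopen n (Pi.single i.succ.castSucc c.succ) =
      onSite (spinOp c) i.castSucc * onSite (spinOp c) i.succ := by
  unfold Yopen
  rw [onSite_eq_piK, onSite_eq_piK, piK_mul]
  congr 1
  funext k
  by_cases h1 : k = i.succ
  · subst h1
    have hne : (i.succ : Fin (n + 1)) ≠ i.castSucc := (Fin.castSucc_lt_succ (i := i)).ne'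
    have hne2 : (i.succ.succ : Fin (n + 2)) ≠ i.succ.castSucc :=
      (Fin.castSucc_lt_succ (i := i.succ)).ne'
    rw [Pi.single_eq_same, Pi.single_eq_of_ne hne2, if_neg hne, if_pos rfl]
    simp
  · have hc : (k.castSucc : Fin (n + 2)) ≠ i.succ.castSucc := fun h =>
      h1 (Fin.castSucc_injective _ h)
    rw [Pi.single_eq_of_ne hc, if_neg h1]
    by_cases h2 : k = i.castSucc
    · subst h2
      rw [← Fin.succ_castSucc, Pi.single_eq_same, if_pos rfl]
      simp
    · have hs : (k.succ : Fin (n + 2)) ≠ i.succ.castSucc := fun h => by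
        rw [← Fin.succ_castSucc] at h
        exact h2 (Fin.succ_injective _ h)
      rw [Pi.single_eq_of_ne hs, if_neg h2]
      simp

/-- `Gopen` is `1 - e² H + O(e⁴)`, entrywise. -/
theorem Gopen_expand (hl hr : ℝ) (n : ℕ) :
    ∃ C : ℝ, ∀ e : ℝ, 0 ≤ e → e ≤ 1 → ∀ σ τ,
      ‖(Gopen (bv hl e) (bv hr e) (Mten (fun c => Complex.I • spinOp c) (e : ℂ)) (n + 1)
        - (1 - ((e : ℂ) ^ 2) • openH n hl hr)) σ τ‖ ≤ C * e ^ 4 := by
  classical
  set w : (Fin (n + 2) → Fin 4) → ℂ := fun ω => bt hl (ω 0) * bt hr (ω (Fin.last (n + 1)))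
    with hw
  refine ⟨∑ σ, ∑ τ, ∑ ω : Fin (n + 2) → Fin 4, ‖w ω * Yopen n ω σ τ‖, ?_⟩
  intro e he0 he1 σ τ
  have hsplit : Gopen (bv hl e) (bv hr e) (Mten (fun c => Complex.I • spinOp c) (e : ℂ)) (n + 1)
        - (1 - ((e : ℂ) ^ 2) • openH n hl hr) =
      ∑ ω ∈ Finset.univ.filter (fun ω : Fin (n + 2) → Fin 4 => 2 ≤ NN ω),
        (w ω * (-((e : ℂ) ^ 2)) ^ NN ω) • Yopen n ω := by
    rw [Gopen_eq_sum, sum_split]
    have h0 : (bt hl ((0 : Fin (n + 2) → Fin 4) 0) *
        bt hr ((0 : Fin (n + 2) → Fin 4) (Fin.last (n + 1))) *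
        (-((e : ℂ) ^ 2)) ^ NN (0 : Fin (n + 2) → Fin 4)) • Yopen n 0 = 1 := by
      have : NN (0 : Fin (n + 2) → Fin 4) = 0 := (NN_eq_zero_iff _).mpr rfl
      rw [this, Yopen_zero]
      simp
    have h1 : ∑ j : Fin (n + 2), ∑ c : Fin 3,
        (bt hl ((Pi.single j c.succ : Fin (n + 2) → Fin 4) 0) *
          bt hr ((Pi.single j c.succ : Fin (n + 2) → Fin 4) (Fin.last (n + 1))) *
          (-((e : ℂ) ^ 2)) ^ NN (Pi.single j c.succ : Fin (n + 2) → Fin 4)) •
          Yopen n (Pi.single j c.succ) = -(((e : ℂ) ^ 2) • openH n hl hr) := by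
      have hlast : (Fin.last (n + 1) : Fin (n + 2)) ≠ 0 := (Fin.last_pos).ne'
      rw [Fin.sum_univ_succ, Fin.sum_univ_castSucc (n := n)]
      have t0 : ∑ c : Fin 3,
          (bt hl ((Pi.single 0 c.succ : Fin (n + 2) → Fin 4) 0) *
          bt hr ((Pi.single 0 c.succ : Fin (n + 2) → Fin 4) (Fin.last (n + 1))) *
          (-((e : ℂ) ^ 2)) ^ NN (Pi.single 0 c.succ : Fin (n + 2) → Fin 4)) •
          Yopen n (Pi.single 0 c.succ) = ((e : ℂ) ^ 2 * hl) • onSite spinZ 0 := by
        rw [Fin.sum_univ_three]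
        simp only [Pi.single_eq_same, NN_single, Pi.single_eq_of_ne hlast, bt_succ, bt_zero,
          Yopen_single_zero]
        simp [spinOp]
        ring_nf
      have t1 : ∑ c : Fin 3,
          (bt hl ((Pi.single (Fin.last n).succ c.succ : Fin (n + 2) → Fin 4) 0) *
          bt hr ((Pi.single (Fin.last n).succ c.succ : Fin (n + 2) → Fin 4) (Fin.last (n + 1))) *
          (-((e : ℂ) ^ 2)) ^ NN (Pi.single (Fin.last n).succ c.succ : Fin (n + 2) → Fin 4)) •
          Yopen n (Pi.single (Fin.last n).succ c.succ) =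
            ((e : ℂ) ^ 2 * hr) • onSite spinZ (Fin.last n) := by
        rw [Fin.sum_univ_three, Fin.succ_last]
        simp only [Pi.single_eq_same, NN_single, Pi.single_eq_of_ne hlast.symm, bt_succ, bt_zero,
          Yopen_single_last]
        simp [spinOp]
        ring_nf
      have t2 : ∀ i : Fin n, ∑ c : Fin 3,
          (bt hl ((Pi.single i.castSucc.succ c.succ : Fin (n + 2) → Fin 4) 0) *
          bt hr ((Pi.single i.castSucc.succ c.succ : Fin (n + 2) → Fin 4) (Fin.last (n + 1))) *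
          (-((e : ℂ) ^ 2)) ^ NN (Pi.single i.castSucc.succ c.succ : Fin (n + 2) → Fin 4)) •
          Yopen n (Pi.single i.castSucc.succ c.succ) =
            -(((e : ℂ) ^ 2) • bond i.castSucc i.succ) := by
        intro i
        have e1 : (i.castSucc.succ : Fin (n + 2)) = i.succ.castSucc := Fin.succ_castSucc i
        have hne0 : (0 : Fin (n + 2)) ≠ i.castSucc.succ := (Fin.succ_ne_zero _).symm
        have hnel : (Fin.last (n + 1) : Fin (n + 2)) ≠ i.castSucc.succ := by
          rw [e1]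
          exact (Fin.castSucc_lt_last _).ne'
        unfold bond
        rw [Finset.smul_sum, ← Finset.sum_neg_distrib]
        refine Finset.sum_congr rfl fun c _ => ?_
        rw [Pi.single_eq_of_ne hne0, Pi.single_eq_of_ne hnel, NN_single, e1, Yopen_single_mid]
        simp
      rw [t0, t1, Finset.sum_congr rfl (fun i _ => t2 i)]
      unfold openH
      rw [Finset.sum_neg_distrib, ← Finset.smul_sum]
      simp only [smul_sub, smul_smul, neg_sub]
      abel
    rw [h0, h1]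
    abel
  rw [hsplit, Matrix.sum_apply]
  calc ‖∑ ω ∈ Finset.univ.filter (fun ω : Fin (n + 2) → Fin 4 => 2 ≤ NN ω),
        ((w ω * (-((e : ℂ) ^ 2)) ^ NN ω) • Yopen n ω) σ τ‖
      ≤ ∑ ω ∈ Finset.univ.filter (fun ω : Fin (n + 2) → Fin 4 => 2 ≤ NN ω),
        ‖((w ω * (-((e : ℂ) ^ 2)) ^ NN ω) • Yopen n ω) σ τ‖ :=
        norm_sum_le _ _
    _ ≤ ∑ ω ∈ Finset.univ.filter (fun ω : Fin (n + 2) → Fin 4 => 2 ≤ NN ω),
        ‖w ω * Yopen n ω σ τ‖ * e ^ 4 := by
        refine Finset.sum_le_sum fun ω hω => ?_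
        have h2 : 2 ≤ NN ω := (Finset.mem_filter.mp hω).2
        rw [Matrix.smul_apply, smul_eq_mul]
        have hre : w ω * (-((e : ℂ) ^ 2)) ^ NN ω * Yopen n ω σ τ =
            (w ω * Yopen n ω σ τ) * (-((e : ℂ) ^ 2)) ^ NN ω := by ring
        rw [hre, norm_mul]
        refine mul_le_mul_of_nonneg_left ?_ (norm_nonneg _)
        rw [norm_pow, norm_neg, norm_pow, Complex.norm_real, Real.norm_of_nonneg he0]
        calc (e ^ 2) ^ NN ω ≤ (e ^ 2) ^ 2 :=
              pow_le_pow_of_le_one (by positivity) (pow_le_one₀ he0 he1) h2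
          _ = e ^ 4 := by ring
    _ ≤ ∑ ω : Fin (n + 2) → Fin 4, ‖w ω * Yopen n ω σ τ‖ * e ^ 4 := by
        refine Finset.sum_le_sum_of_subset_of_nonneg (Finset.subset_univ _) ?_
        intro ω _ _
        positivity
    _ = (∑ ω : Fin (n + 2) → Fin 4, ‖w ω * Yopen n ω σ τ‖) * e ^ 4 := by
        rw [Finset.sum_mul]
    _ ≤ _ := by
        refine mul_le_mul_of_nonneg_right ?_ (by positivity)
        calc ∑ ω : Fin (n + 2) → Fin 4, ‖w ω * Yopen n ω σ τ‖
            ≤ ∑ τ, ∑ ω : Fin (n + 2) → Fin 4, ‖w ω * Yopen n ω σ τ‖ :=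
              Finset.single_le_sum (f := fun τ => ∑ ω : Fin (n + 2) → Fin 4,
                ‖w ω * Yopen n ω σ τ‖)
                (fun τ _ => Finset.sum_nonneg fun ω _ => norm_nonneg _) (Finset.mem_univ τ)
          _ ≤ _ := Finset.single_le_sum (f := fun σ => ∑ τ, ∑ ω : Fin (n + 2) → Fin 4,
                ‖w ω * Yopen n ω σ τ‖)
                (fun σ _ => Finset.sum_nonneg fun τ _ => Finset.sum_nonneg fun ω _ =>
                  norm_nonneg _) (Finset.mem_univ σ)

section norm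
attribute [local instance] Matrix.linftyOpNormedRing Matrix.linftyOpNormedAlgebra

/-- General Trotter limit from an entrywise expansion. -/
theorem pow_tendsto_of_expand {κ : Type*} [Fintype κ] [DecidableEq κ] (F : ℝ → Matrix κ κ ℂ)
    (H : Matrix κ κ ℂ)
    (hF : ∃ C : ℝ, ∀ e : ℝ, 0 ≤ e → e ≤ 1 → ∀ σ τ,
      ‖(F e - (1 - ((e : ℂ) ^ 2) • H)) σ τ‖ ≤ C * e ^ 4) (β : ℝ) (hβ : 0 < β) :
    Tendsto (fun n : ℕ => (F (Real.sqrt (β / n))) ^ n) atTop
      (𝓝 (NormedSpace.exp (-(β : ℂ) • H))) := by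
  obtain ⟨C, hC⟩ := hF
  set X : Matrix κ κ ℂ := -(β : ℂ) • H with hX
  let G : ℕ → Matrix κ κ ℂ := fun n =>
    if β ≤ n then F (Real.sqrt (β / n)) else 1 + ((1 / (n : ℂ)) • X)
  have hC0 : 0 ≤ |C| * β ^ 2 := by positivity
  have key := trotter_limit X G
    (Fintype.card κ * (|C| * β ^ 2)) (by
      intro n hn
      have hn0 : (0 : ℝ) < n := by exact_mod_cast hn
      by_cases hb : β ≤ n
      · simp only [G, if_pos hb]
        have hnn : (0 : ℝ) ≤ β / n := by positivity
        have he1 : Real.sqrt (β / n) ≤ 1 := by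
          rw [Real.sqrt_le_one]
          rw [div_le_one hn0]
          exact hb
        have hsq : ((Real.sqrt (β / n) : ℝ) : ℂ) ^ 2 = (β : ℂ) / n := by
          rw [← Complex.ofReal_pow, Real.sq_sqrt hnn]
          push_cast
          rfl
        have hent := hC (Real.sqrt (β / n)) (Real.sqrt_nonneg _) he1
        have hmat : (1 : Matrix κ κ ℂ) + ((1 / (n : ℂ)) • X) =
            1 - (((Real.sqrt (β / n) : ℝ) : ℂ) ^ 2) • H := by
          rw [hsq, hX, smul_smul, sub_eq_add_neg, ← neg_smul]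
          congr 2
          ring
        rw [hmat]
        have hfour : Real.sqrt (β / n) ^ 4 = β ^ 2 / n ^ 2 := by
          have : Real.sqrt (β / n) ^ 4 = (Real.sqrt (β / n) ^ 2) ^ 2 := by ring
          rw [this, Real.sq_sqrt hnn, div_pow]
        calc _ ≤ (Fintype.card κ : ℝ) * (|C| * (β ^ 2 / n ^ 2)) := by
              refine norm_le_of_entries _ (by positivity) fun σ τ => ?_
              refine (hent σ τ).trans ?_
              rw [hfour]
              exact mul_le_mul_of_nonneg_right (le_abs_self C) (by positivity)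
          _ = _ := by ring
      · simp only [G, if_neg hb, sub_self, norm_zero]
        positivity)
  refine key.congr' ?_
  filter_upwards [eventually_ge_atTop ⌈β⌉₊] with n hn
  have : β ≤ n := (Nat.le_ceil β).trans (by exact_mod_cast hn)
  simp only [G, if_pos this]

end norm

/-- Finite-`n` exchange identity for the open chain. -/
theorem crossing_open_finite (b : Fin 4) (hl hr e : ℝ) (n L : ℕ) :
    (piK (fun _ : Fin L => rotC b) *
      (Gopen (bv hl e) (bv hr e) (Mten (fun c => Complex.I • spinOp c) (e : ℂ)) L) ^ n).trace =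
      (fun ω : Fin n → Fin 4 => ∏ k, bv hl e (ω k)) ⬝ᵥ
        (((tauR b e n) ^ L).map (fun x : ℝ => (x : ℂ))).mulVec
          (fun ω : Fin n → Fin 4 => ∏ k, bv hr e (ω k)) := by
  rw [transfer_identity_open, tau_complex_eq, map_ofReal_pow]

theorem bv_neg (h e : ℝ) (a : Fin 4) : bv (-h) e a = (starRingEnd ℂ) (bv h e a) := by
  unfold bv
  split_ifs <;> simp

theorem bvprod_eq (h e : ℝ) (n : ℕ) (ω : Fin n → Fin 4) :
    ∏ k, bv h e (ω k) = (bp h e n ω : ℂ) + (bq h e n ω : ℂ) * Complex.I :=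
  (Complex.re_add_im _).symm

theorem bvprod_neg_eq (h e : ℝ) (n : ℕ) (ω : Fin n → Fin 4) :
    ∏ k, bv (-h) e (ω k) = (bp h e n ω : ℂ) - (bq h e n ω : ℂ) * Complex.I := by
  simp only [bv_neg]
  rw [← map_prod, bvprod_eq]
  simp [sub_eq_add_neg]

theorem re_quad {κ : Type*} [Fintype κ] (T : Matrix κ κ ℝ) (p q r s : κ → ℝ) :
    ((fun ω => (p ω : ℂ) + (q ω : ℂ) * Complex.I) ⬝ᵥ
      (T.map (fun x : ℝ => (x : ℂ))).mulVec (fun ω => (r ω : ℂ) + (s ω : ℂ) * Complex.I)).re =
      p ⬝ᵥ T.mulVec r - q ⬝ᵥ T.mulVec s := by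
  simp only [dotProduct, Matrix.mulVec, Matrix.map_apply, Complex.re_sum, Complex.mul_re,
    Complex.add_re, Complex.add_im, Complex.ofReal_re, Complex.ofReal_im, Complex.mul_im,
    Complex.I_re, Complex.I_im, Complex.im_sum]
  rw [← Finset.sum_sub_distrib]
  refine Finset.sum_congr rfl fun i _ => ?_
  simp

theorem re_crossing_same (b : Fin 4) (h e : ℝ) (n N : ℕ) :
    ((fun ω : Fin n → Fin 4 => ∏ k, bv h e (ω k)) ⬝ᵥ
        (((tauR b e n) ^ N).map (fun x : ℝ => (x : ℂ))).mulVec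
          (fun ω : Fin n → Fin 4 => ∏ k, bv h e (ω k))).re =
      (bp h e n) ⬝ᵥ ((tauR b e n) ^ N).mulVec (bp h e n) -
      (bq h e n) ⬝ᵥ ((tauR b e n) ^ N).mulVec (bq h e n) := by
  rw [← re_quad]
  congr 2
  · funext ω
    exact bvprod_eq h e n ω
  · congr 1
    funext ω
    exact bvprod_eq h e n ω

theorem re_crossing_opp (b : Fin 4) (h e : ℝ) (n N : ℕ) :
    ((fun ω : Fin n → Fin 4 => ∏ k, bv h e (ω k)) ⬝ᵥ
        (((tauR b e n) ^ N).map (fun x : ℝ => (x : ℂ))).mulVec
          (fun ω : Fin n → Fin 4 => ∏ k, bv (-h) e (ω k))).re =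
      (bp h e n) ⬝ᵥ ((tauR b e n) ^ N).mulVec (bp h e n) +
      (bq h e n) ⬝ᵥ ((tauR b e n) ^ N).mulVec (bq h e n) := by
  have hq : (bq h e n) ⬝ᵥ ((tauR b e n) ^ N).mulVec (bq h e n) =
      -((bq h e n) ⬝ᵥ ((tauR b e n) ^ N).mulVec (fun ω => -(bq h e n ω))) := by
    have : (fun ω => -(bq h e n ω)) = -(bq h e n) := rfl
    rw [this, Matrix.mulVec_neg, dotProduct_neg, neg_neg]
  rw [hq, ← sub_eq_add_neg, ← re_quad]
  congr 2
  · funext ω
    exact bvprod_eq h e n ω
  · congr 1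
    funext ω
    rw [bvprod_neg_eq]
    push_cast
    ring

/-- Common part of the two crossing theorems. -/
theorem Zop_tendsto_aux (b : Fin 4) (hl hr β : ℝ) (hβ : 0 < β) (N : ℕ) (hN : 1 ≤ N) :
    Tendsto (fun n : ℕ => ((fun ω : Fin n → Fin 4 => ∏ k, bv hl (Real.sqrt (β / n)) (ω k)) ⬝ᵥ
        (((tauR b (Real.sqrt (β / n)) n) ^ N).map (fun x : ℝ => (x : ℂ))).mulVec
          (fun ω : Fin n → Fin 4 => ∏ k, bv hr (Real.sqrt (β / n)) (ω k))).re) atTop
      (𝓝 (Zop b hl hr β N)) := by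
  obtain ⟨L, rfl⟩ : ∃ L, N = L + 1 := ⟨N - 1, by omega⟩
  have hlim := pow_tendsto_of_expand
    (fun e : ℝ => Gopen (bv hl e) (bv hr e) (Mten (fun c => Complex.I • spinOp c) (e : ℂ)) (L + 1))
    (openH L hl hr) (Gopen_expand hl hr L) β hβ
  have hcont : Continuous fun M : Matrix (Fin (L + 1) → Fin 3) (Fin (L + 1) → Fin 3) ℂ =>
      ((piK (fun _ : Fin (L + 1) => rotC b) * M).trace).re :=
    Complex.continuous_re.comp
      (Continuous.matrix_trace (Continuous.matrix_mul continuous_const continuous_id))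
  have h2 := (hcont.tendsto _).comp hlim
  unfold Zop
  refine h2.congr fun n => ?_
  simp only [Function.comp]
  rw [crossing_open_finite]

/-- Crossing for the open chain with opposite fields. -/
theorem Zop_tendsto_opp (b : Fin 4) (h β : ℝ) (hβ : 0 < β) (N : ℕ) (hN : 1 ≤ N) :
    Tendsto (fun n : ℕ =>
      (bp h (Real.sqrt (β / n)) n) ⬝ᵥ ((tauR b (Real.sqrt (β / n)) n) ^ N).mulVec
        (bp h (Real.sqrt (β / n)) n) +
      (bq h (Real.sqrt (β / n)) n) ⬝ᵥ ((tauR b (Real.sqrt (β / n)) n) ^ N).mulVec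
        (bq h (Real.sqrt (β / n)) n)) atTop (𝓝 (Zop b h (-h) β N)) :=
  (Zop_tendsto_aux b h (-h) β hβ N hN).congr fun n => re_crossing_opp b h _ n N

/-- Crossing for the open chain with equal fields. -/
theorem Zop_tendsto_same (b : Fin 4) (h β : ℝ) (hβ : 0 < β) (N : ℕ) (hN : 1 ≤ N) :
    Tendsto (fun n : ℕ =>
      (bp h (Real.sqrt (β / n)) n) ⬝ᵥ ((tauR b (Real.sqrt (β / n)) n) ^ N).mulVec
        (bp h (Real.sqrt (β / n)) n) -
      (bq h (Real.sqrt (β / n)) n) ⬝ᵥ ((tauR b (Real.sqrt (β / n)) n) ^ N).mulVec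
        (bq h (Real.sqrt (β / n)) n)) atTop (𝓝 (Zop b h h β N)) :=
  (Zop_tendsto_aux b h h β hβ N hN).congr fun n => re_crossing_same b h _ n N

end Crest.Agent.R347
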