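import Crest.Agent.R347.OpenPar

/-! Kernel evaluated runs of the open chain certificate (generated). -/

set_option autoImplicit false
set_option Elab.async false
set_option maxRecDepth 100000

namespace Crest.Agent.R347.OSec

open Crest.Agent.R347.Num

theorem rY0_0 : run1 5 576 34 1000 272 23120 22848 obL foY JY0_0 usY0 =
    49125596181929079026333286525779531711142599760239739204155162304556386095 := by
  decide +kernel

theorem rY0_1 : run1 5 576 34 1000 272 23120 22848 obL foY JY0_1 usY0 =
    6401157029426642484021938824710731242791835564432910589197056666109826849361 := by
  decide +kernel

theorem rY0_2 : run1 5 576 34 1000 272 23120 22848 obL foY JY0_2 usY0 =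
    94444327562955578631057534666468587093485661146093474696926156146281349710791 := by
  decide +kernel

theorem rY0_3 : run1 5 576 34 1000 272 23120 22848 obL foY JY0_3 usY0 =
    132813010672140913599458886418529511493110767612941495122271359443383909389959 := by
  decide +kernel

end Crest.Agent.R347.OSec
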