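import Crest.Agent.R347.OpenDa

/-! Kernel evaluated runs of the open chain certificate (generated). -/

set_option autoImplicit false
set_option Elab.async false
set_option maxRecDepth 100000

namespace Crest.Agent.R347.OSec

open Crest.Agent.R347.Num

theorem rY0_4 : run1 5 576 34 1000 272 23120 22848 obL foY JY0_4 usY0 =
    1836975457291523210270399588151766886319566586535272722967350058602326726942519 := by
  decide +kernel

theorem rY0_5 : run1 5 576 34 1000 272 23120 22848 obL foY JY0_5 usY0 =
    926264089583280641653251818679940009172962192993627188583967726166374247738092 := by
  decide +kernel

theorem rY0_6 : run1 5 576 34 1000 272 22848 22576 obL foY JY0_6 usY0 =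
    5434242025209843339674604998499834814551585407269094664624501005756332123395059 := by
  decide +kernel

theorem rY1_0 : run1 5 529 36 1000 221 28067 27846 obL foY JY1_0 usY1 =
    6802717915191803891222529852667473932412705287171398562857516 := by
  decide +kernel

end Crest.Agent.R347.OSec
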