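import Crest.Agent.R347.OpenDb

/-! Kernel evaluated runs of the open chain certificate (generated). -/

set_option autoImplicit false
set_option Elab.async false
set_option maxRecDepth 100000

namespace Crest.Agent.R347.OSec

open Crest.Agent.R347.Num

theorem rY1_1 : run1 5 529 36 1000 221 28067 27846 obL foY JY1_1 usY1 =
    416195864380139895957518418248363112538070762484913521450300527 := by
  decide +kernel

theorem rY1_2 : run1 5 529 36 1000 221 28067 27846 obL foY JY1_2 usY1 =
    1089852013119834896813725611893215919090311563104606458978787020 := by
  decide +kernel

theorem rY1_3 : run1 5 529 36 1000 221 28067 27846 obL foY JY1_3 usY1 =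
    864887463891900582034357704126058213236130136082027891400354841 := by
  decide +kernel

theorem rY1_4 : run1 5 529 36 1000 221 28067 27846 obL foY JY1_4 usY1 =
    1793621615194729208136104113556778767324077537911350602214584908 := by
  decide +kernel

end Crest.Agent.R347.OSec
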