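import Crest.Agent.R347.OpenDc

/-! Kernel evaluated runs of the open chain certificate (generated). -/

set_option autoImplicit false
set_option Elab.async false
set_option maxRecDepth 100000

namespace Crest.Agent.R347.OSec

open Crest.Agent.R347.Num

theorem rY1_5 : run1 5 529 36 1000 221 28067 27846 obL foY JY1_5 usY1 =
    416741227171082739300166352529380572932803458971603011687722639 := by
  decide +kernel

theorem rY1_6 : run1 5 529 36 1000 221 28067 27846 obL foY JY1_6 usY1 =
    2017656307900061353515104915946663557419802673719654704132981408 := by
  decide +kernel

theorem rY1_7 : run1 5 529 36 1000 221 28067 27846 obL foY JY1_7 usY1 =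
    312386268200874218921561299164668222391672607819087250085912101 := by
  decide +kernel

theorem rY2_0 : run1 5 484 39 1000 166 43492 43326 obL foY JY2_0 usY2 =
    20440291693679845800195315332729507040957239059 := by
  decide +kernel

end Crest.Agent.R347.OSec
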