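import Crest.Agent.R347.OpenDd

/-! Kernel evaluated runs of the open chain certificate (generated). -/

set_option autoImplicit false
set_option Elab.async false
set_option maxRecDepth 100000

namespace Crest.Agent.R347.OSec

open Crest.Agent.R347.Num

theorem rY2_1 : run1 5 484 39 1000 166 43492 43326 obL foY JY2_1 usY2 =
    77043175359751045778132880620656199788232692858 := by
  decide +kernel

theorem rY2_2 : run1 5 484 39 1000 166 43160 42994 obL foY JY2_2 usY2 =
    24945734313675949529299780481849261821892395592 := by
  decide +kernel

theorem rX1_0 : run1 5 576 35 1000 259 26418 26159 obL foX JX1_0 usX1 =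
    1721852528449937906395962982497576588505035135990180869918063441142735809 := by
  decide +kernel

theorem rX1_1 : run1 5 576 35 1000 259 26418 26159 obL foX JX1_1 usX1 =
    59514118001129619183219622494214204222512065164122736370293940037316994677 := by
  decide +kernel

end Crest.Agent.R347.OSec
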