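import Crest.Agent.R347.OpenDe

/-! Kernel evaluated runs of the open chain certificate (generated). -/

set_option autoImplicit false
set_option Elab.async false
set_option maxRecDepth 100000

namespace Crest.Agent.R347.OSec

open Crest.Agent.R347.Num

theorem rX1_2 : run1 5 576 35 1000 259 26418 26159 obL foX JX1_2 usX1 =
    460049750210721514003009353753738304043629364637151403574870718296402254271 := by
  decide +kernel

theorem rX1_3 : run1 5 576 35 1000 259 26418 26159 obL foX JX1_3 usX1 =
    35086829205885828402606893123663244517989130727021800879399564570295075091 := by
  decide +kernel

theorem rX1_4 : run1 5 576 35 1000 259 25900 25641 obL foX JX1_4 usX1 =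
    23789804844486398694202786911513573525890891086976186293614002028417149429 := by
  decide +kernel

theorem rX0_0 : run1 5 576 37 1000 246 23124 22878 obL foX JX0_0 usX0 =
    640449468466855177640347643076592972323972170740610380971690568322575 := by
  decide +kernel

end Crest.Agent.R347.OSec
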