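import Crest.Agent.R347.OpenDf

/-! Kernel evaluated runs of the open chain certificate (generated). -/

set_option autoImplicit false
set_option Elab.async false
set_option maxRecDepth 100000

namespace Crest.Agent.R347.OSec

open Crest.Agent.R347.Num

theorem rX0_1 : run1 5 576 37 1000 246 23124 22878 obL foX JX0_1 usX0 =
    21037019853285702273155529119734567031432248707521194383571615077962823 := by
  decide +kernel

theorem rX0_2 : run1 5 576 37 1000 246 23124 22878 obL foX JX0_2 usX0 =
    119050222701499255408800189610574179407472615350640668052720165185050249 := by
  decide +kernel

theorem rX0_3 : run1 5 576 37 1000 246 23124 22878 obL foX JX0_3 usX0 =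
    9556519820703628762865642984931824170934280386054785312449523704438815 := by
  decide +kernel

theorem rX0_4 : run1 5 576 37 1000 246 23124 22878 obL foX JX0_4 usX0 =
    23303912886337879642495242090430494685467285974862698734513796768695415 := by
  decide +kernel

end Crest.Agent.R347.OSec
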