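import Crest.Agent.R347.OpenDg

/-! Kernel evaluated runs of the open chain certificate (generated). -/

set_option autoImplicit false
set_option Elab.async false
set_option maxRecDepth 100000

namespace Crest.Agent.R347.OSec

open Crest.Agent.R347.Num

theorem rX0_5 : run1 5 576 37 1000 246 22878 22632 obL foX JX0_5 usX0 =
    2089608422868698395859086545824019551285106014670775776688392542655312 := by
  decide +kernel

theorem rX2_0 : run1 5 529 37 1000 210 42000 41790 obL foX JX2_0 usX2 =
    182261501609272005637657543108681867821586924286267309502109 := by
  decide +kernel

theorem rX2_1 : run1 5 529 37 1000 210 42000 41790 obL foX JX2_1 usX2 =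
    636076165782262164708079561983854323330034330533098272584601 := by
  decide +kernel

theorem rXm1_0 : run1 5 529 39 1000 196 33320 33124 obL foX JXm1_0 usXm1 =
    10592589093247703421963945589877944935351864824054532149 := by
  decide +kernel

end Crest.Agent.R347.OSec
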