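import Crest.Agent.R347.OpenDh

/-! Kernel evaluated runs of the open chain certificate (generated). -/

set_option autoImplicit false
set_option Elab.async false
set_option maxRecDepth 100000

namespace Crest.Agent.R347.OSec

open Crest.Agent.R347.Num

theorem rXm1_1 : run1 5 529 39 1000 196 33320 33124 obL foX JXm1_1 usXm1 =
    27840706814892514645164179879533205385840420306369277639 := by
  decide +kernel

theorem rXm1_2 : run1 5 529 39 1000 196 32928 32732 obL foX JXm1_2 usXm1 =
    37541745512856697169925243102216172081534576392610565953 := by
  decide +kernel

theorem rX3_0 : run1 5 441 40 1000 115 28980 28865 obL foX JX3_0 usX3 =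
    15991019761631354999304580841001 := by
  decide +kernel

theorem rXm2_0 : run1 5 441 41 1000 105 42000 41895 obL foX JXm2_0 usXm2 =
    14862981473409745775118517953 := by
  decide +kernel

end Crest.Agent.R347.OSec
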