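import Crest.Agent.R347.NumCWEngine

/-! Kernel programs for the open chain certificate: Collatz-Wielandt checks in a sector and
checks of lists of representatives. -/

set_option autoImplicit false

namespace Crest.Agent.R347.OSec

open Crest.Agent.R347.Num

noncomputable section

/-- all digits at most two, at most `L` digits -/
def okc : ℕ → ℕ → Bool
  | 0, c => Nat.beq c 0
  | L + 1, c => Bool.and (Nat.ble (c % 4) 2) (okc L (c / 4))

/-- digit sum -/
def dsc : ℕ → ℕ → ℕ
  | 0, _ => 0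
  | L + 1, c => c % 4 + dsc L (c / 4)

/-- reversed code, `acc` accumulates -/
def rvc : ℕ → ℕ → ℕ → ℕ
  | 0, _, acc => acc
  | L + 1, c, acc => rvc L (c / 4) (4 * acc + c % 4)

/-- reversed and flipped code, `acc` accumulates -/
def rfc : ℕ → ℕ → ℕ → ℕ
  | 0, _, acc => acc
  | L + 1, c, acc => rfc L (c / 4) (4 * acc + (2 - c % 4))

/-- number of strings of length `L` with digit sum `s` -/
def cnt : ℕ → ℕ → ℕ
  | 0, s => if s = 0 then 1 else 0
  | L + 1, s => cnt L s + (if 1 ≤ s then cnt L (s - 1) else 0) + (if 2 ≤ s then cnt L (s - 2) else 0)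

/-- check of a list of pairs (code, weight): codes increasing above `prev`, valid, in the
sector, with the right weight with respect to `rc`. -/
def chkJ (L s : ℕ) (rc : ℕ → ℕ) : List (ℕ × ℕ) → ℕ → Bool
  | [], _ => true
  | x :: J, prev =>
    Bool.and (Nat.ble prev x.1) (Bool.and (okc L x.1) (Bool.and (Nat.beq (dsc L x.1) s)
      (Bool.and (Nat.beq x.2 (Bool.rec (Bool.rec 0 1 (Nat.beq x.1 (rc x.1))) 2
        (Nat.ble (x.1 + 1) (rc x.1)))) (chkJ L s rc J (x.1 + 1)))))

/-- all codes of a sector (`s` = remaining digit sum) -/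
def allS (pred : ℕ → Bool) (n : ℕ) : ℕ → ℕ → ℕ → Bool :=
  Nat.rec (motive := fun _ => ℕ → ℕ → ℕ → Bool)
    (fun _ s pre => Bool.rec (motive := fun _ => Bool) true (force pre pred) (Nat.beq s 0))
    (fun _ ih pw s pre =>
      force (Nat.mul 4 pw) fun pw4 =>
      force pre fun pre =>
      Bool.and (ih pw4 s pre)
        (Bool.and (Bool.rec (motive := fun _ => Bool) true
            (force (Nat.sub s 1) fun s => ih pw4 s (Nat.add pre pw)) (Nat.ble 1 s))
          (Bool.rec (motive := fun _ => Bool) true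
            (force (Nat.sub s 2) fun s => ih pw4 s (Nat.add pre (Nat.mul 2 pw))) (Nat.ble 2 s))))
    n

/-- lower bound check in the sector `s` -/
def chkLo (R n s : ℕ) (bs : List Bd) (fs : List Fd) : Bool :=
  iterV (rowV 5 (fun D => Nat.sub 83 D) bs fs)
    (fun f => allS (predV (rowV 5 (fun D => Nat.sub 82 D) bs fs) R f) 8 1 s 0) n (fun _ => 1)

/-- upper bound check in the sector `s` -/
def chkHi (s : ℕ) (bs : List Bd) (fs : List Fd) : Bool :=
  allS (predV (rowV 5 (fun D => D) bs fs) 82 (fun i => Nat.pow 2 (Nat.div (ones 8 i) 2))) 8 1 s 0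

/-- bonds of the open chain of eight sites -/
def obL : List Bd := [⟨0, 2, 1, 4, false⟩, ⟨2, 4, 4, 16, false⟩, ⟨4, 6, 16, 64, false⟩,
  ⟨6, 8, 64, 256, false⟩, ⟨8, 10, 256, 1024, false⟩, ⟨10, 12, 1024, 4096, false⟩,
  ⟨12, 14, 4096, 16384, false⟩]

/-- opposite fields -/
def foY : List Fd := [⟨0, 0, 3, 6⟩, ⟨14, 6, 3, 0⟩]

/-- equal fields -/
def foX : List Fd := [⟨0, 0, 3, 6⟩, ⟨14, 0, 3, 6⟩]

end

end Crest.Agent.R347.OSec
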