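import Crest.Agent.R347.OpenSector
import Crest.Agent.R347.NumCW
import Crest.Agent.R347.Open

/-! The integer matrix of the open chain of eight sites, its symmetries and spectral bounds. -/

set_option autoImplicit false

namespace Crest.Agent.R347.OSec

open Matrix Crest.MathPhysics.SpinChain Crest.Agent.R347.Num

noncomputable section

/-- bonds of the open chain of `8` sites -/
def ob : List (Bond 8) := (List.finRange 7).map fun j => ⟨j.castSucc, j.succ, false⟩

theorem ob_ne : ∀ b ∈ ob, b.j ≠ b.k := by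
  intro b hb
  unfold ob at hb
  rw [List.mem_map] at hb
  obtain ⟨j, _, rfl⟩ := hb
  exact (Fin.castSucc_lt_succ (i := j)).ne

theorem ob_length : ob.length = 7 := by simp [ob]

/-- field tables (five times the field energy, shifted); `true`: opposite fields -/
def fO (t : Bool) : List (Fld 8) :=
  [⟨0, 0, 3, 6⟩, bif t then ⟨7, 6, 3, 0⟩ else ⟨7, 0, 3, 6⟩]

/-- right field -/
def hr (t : Bool) : ℝ := bif t then -(3 / 5) else 3 / 5

/-- the Hamiltonian -/
def HO (t : Bool) : Matrix (Cfg 8) (Cfg 8) ℂ := openH 7 (3 / 5) (hr t)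

theorem onSite_Z {L : ℕ} (j : Fin L) :
    onSite spinZ j = Matrix.diagonal (fun σ : Cfg L => (1 : ℂ) - ((σ j : ℕ) : ℂ)) := by
  ext σ τ
  have hz : ∀ a b : Fin 3, spinZ a b = if a = b then (1 : ℂ) - ((a : ℕ) : ℂ) else 0 := by
    intro a b
    rw [DirectGen.spinZ_eq]
    fin_cases a <;> fin_cases b <;> simp <;> norm_num
  simp only [onSite, Matrix.of_apply]
  by_cases h : σ = τ
  · subst h
    rw [if_pos (fun _ _ => rfl), hz, if_pos rfl, Matrix.diagonal_apply_eq]
  · rw [Matrix.diagonal_apply_ne _ h]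
    split_ifs with h1
    · rw [hz, if_neg]
      intro h2
      apply h
      funext k
      by_cases hk : k = j
      · rw [hk]; exact h2
      · exact h1 k hk
    · rfl

theorem bond_cx {L : ℕ} (j k : Fin L) (hjk : j ≠ k) : bond j k = cx (Hb ⟨j, k, false⟩) := by
  have h := bond_eq_Hb j k hjk false
  simp only [Bool.false_eq_true, false_and, if_false, one_smul] at h
  exact h

theorem fD_fO (t : Bool) (σ : Cfg 8) : ((fD (fO t) σ : ℕ) : ℂ) =
    6 - (3 : ℂ) * (1 - ((σ 0 : ℕ) : ℂ)) - 5 * ((hr t : ℝ) : ℂ) * (1 - ((σ 7 : ℕ) : ℂ)) := by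
  have h1 : ∀ a : Fin 3, ((tbl 0 3 6 (a : ℕ) : ℕ) : ℂ) = 3 * ((a : ℕ) : ℂ) := by
    intro a; fin_cases a <;> norm_num [tbl]
  have h2 : ∀ a : Fin 3, ((tbl 6 3 0 (a : ℕ) : ℕ) : ℂ) = 6 - 3 * ((a : ℕ) : ℂ) := by
    intro a; fin_cases a <;> norm_num [tbl]
  unfold fD fO hr
  cases t
  · simp only [cond_false, List.map_cons, List.map_nil, List.sum_cons, List.sum_nil, add_zero,
      Nat.cast_add, h1]
    push_cast
    ring
  · simp only [cond_true, List.map_cons, List.map_nil, List.sum_cons, List.sum_nil, add_zero,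
      Nat.cast_add, h1, h2]
    push_cast
    ring

theorem ob_sum {M : Type*} [AddCommMonoid M] (f : Bond 8 → M) :
    (ob.map f).sum = ∑ j : Fin 7, f ⟨j.castSucc, j.succ, false⟩ := by
  unfold ob
  rw [List.map_map, ← Fin.sum_univ_def]
  rfl

/-- the link between the integer matrix and the Hamiltonian -/
theorem cxG (t : Bool) (c1 : ℕ) :
    cx (Gmat 5 c1 ob (fO t)) =
      (((c1 : ℝ) - 41 : ℝ) : ℂ) • (1 : Matrix (Cfg 8) (Cfg 8) ℂ) - (5 : ℂ) • HO t := by
  have hb : (∑ j : Fin 7, bond (Fin.castSucc j) (Fin.succ j) : Matrix (Cfg 8) (Cfg 8) ℂ) =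
      cx ((ob.map Hb).sum) := by
    rw [ob_sum]
    ext σ τ
    rw [Matrix.sum_apply, cx, Matrix.map_apply, Matrix.sum_apply, Int.cast_sum]
    refine Finset.sum_congr rfl fun j _ => ?_
    rw [bond_cx _ _ (Fin.castSucc_lt_succ (i := j)).ne]
    rfl
  unfold HO openH
  rw [hb, onSite_Z, onSite_Z]
  ext σ τ
  unfold Gmat
  rw [ob_length]
  simp only [cx, Matrix.map_apply, Matrix.sub_apply, Matrix.smul_apply, smul_eq_mul]
  by_cases h : σ = τ
  · subst h
    simp only [Matrix.one_apply_eq, Matrix.diagonal_apply_eq]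
    have h2 := fD_fO t σ
    have e7 : (Fin.last 7 : Fin 8) = 7 := rfl
    rw [e7]
    push_cast
    rw [h2]
    ring
  · simp only [Matrix.one_apply_ne h, Matrix.diagonal_apply_ne _ h]
    push_cast
    ring

theorem G_label (t : Bool) (c1 : ℕ) (σ τ : Cfg 8) (h : dsum σ ≠ dsum τ) :
    Gmat 5 c1 ob (fO t) σ τ = 0 := by
  have hne : σ ≠ τ := fun h' => h (by rw [h'])
  unfold Gmat
  simp only [Matrix.sub_apply, Matrix.smul_apply, smul_eq_mul, Matrix.one_apply_ne hne,
    Matrix.diagonal_apply_ne _ hne]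
  rw [ob_sum, Matrix.sum_apply, Finset.sum_eq_zero]
  · simp
  · intro j _
    exact Hb_label _ (Fin.castSucc_lt_succ (i := j)).ne σ τ h

theorem dsum_lt {L : ℕ} (σ : Cfg L) : dsum σ < 2 * L + 1 := by
  have h := dsum_fl σ
  omega

/-- sector label -/
def lab (σ : Cfg 8) : Fin 17 := ⟨dsum σ, dsum_lt σ⟩

theorem lab_eq (σ : Cfg 8) (s : Fin 17) : lab σ = s ↔ dsum σ = (s : ℕ) := by
  unfold lab
  rw [Fin.ext_iff]

theorem HO_label (t : Bool) (σ τ : Cfg 8) (h : lab σ ≠ lab τ) : HO t σ τ = 0 := by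
  have h1 : dsum σ ≠ dsum τ := by
    intro h'
    exact h (Fin.ext h')
  have hne : σ ≠ τ := fun h' => h (by rw [h'])
  have h2 := congrFun (congrFun (cxG t 41) σ) τ
  rw [cx, Matrix.map_apply, G_label t 41 σ τ h1] at h2
  simp only [Matrix.sub_apply, Matrix.smul_apply, smul_eq_mul, Matrix.one_apply_ne hne,
    mul_zero, zero_sub, Int.cast_zero] at h2
  have h3 : (5 : ℂ) * HO t σ τ = 0 := by
    rw [← neg_eq_zero]; exact h2.symm
  rcases mul_eq_zero.mp h3 with h4 | h4
  · norm_num at h4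
  · exact h4

theorem G_symm (t : Bool) (c1 : ℕ) : (Gmat 5 c1 ob (fO t))ᵀ = Gmat 5 c1 ob (fO t) :=
  Gmat_symm 5 c1 ob (fO t) ob_ne

theorem HO_herm (t : Bool) : (HO t).IsHermitian := by
  have h := cx_isHermitian (G_symm t 41)
  have h2 : HO t = -((1 / 5 : ℂ)) • cx (Gmat 5 41 ob (fO t)) := by
    rw [cxG]
    ext σ τ
    simp
  rw [h2]
  ext σ τ
  have h3 := congrFun (congrFun h σ) τ
  rw [conjTranspose_apply] at h3
  rw [conjTranspose_apply, Matrix.smul_apply, Matrix.smul_apply, smul_eq_mul, smul_eq_mul,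
    star_mul', h3]
  congr 1
  simp

/-- diagonalisation data -/
theorem exists_Dg (t : Bool) : Nonempty (Dg (HO t) lab) := by
  obtain ⟨U, lam, h1, h2, h3, h4⟩ := exists_diag_sector (HO_herm t) lab (HO_label t)
  exact ⟨⟨U, lam, h1, h2, h3, h4⟩⟩

/-! ### reflection symmetry -/

theorem Hb_swap {L : ℕ} (j k : Fin L) (hjk : j ≠ k) (tw : Bool) (σ τ : Cfg L) :
    Hb ⟨k, j, tw⟩ σ τ = Hb ⟨j, k, tw⟩ σ τ := by
  rw [Hb_apply hjk, Hb_apply hjk.symm]
  have hh : ∀ (tw : Bool) (a c a' c' : Fin 3), hl tw c a c' a' = hl tw a c a' c' := by decide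
  rw [hh]
  by_cases h : ∀ l, l ≠ j → l ≠ k → σ l = τ l
  · rw [if_pos h, if_pos (fun l h1 h2 => h l h2 h1)]
  · rw [if_neg h, if_neg (fun h' => h fun l h1 h2 => h' l h2 h1)]

theorem Hb_rv {L : ℕ} (j k : Fin L) (hjk : j ≠ k) (tw : Bool) (σ τ : Cfg L) :
    Hb ⟨j, k, tw⟩ (rv σ) (rv τ) = Hb ⟨j.rev, k.rev, tw⟩ σ τ := by
  have hjk' : j.rev ≠ k.rev := fun h => hjk (Fin.rev_injective h)
  rw [Hb_apply hjk, Hb_apply hjk']
  by_cases h : ∀ l, l ≠ j.rev → l ≠ k.rev → σ l = τ l
  · rw [if_pos h, if_pos]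
    · rfl
    · intro l h1 h2
      exact h l.rev (fun h' => h1 (Fin.rev_injective h')) (fun h' => h2 (Fin.rev_injective h'))
  · rw [if_neg h, if_neg]
    intro h'
    apply h
    intro l h1 h2
    have := h' l.rev (fun h'' => h1 (by rw [← h'', Fin.rev_rev]))
      (fun h'' => h2 (by rw [← h'', Fin.rev_rev]))
    unfold rv at this
    rw [Fin.rev_rev] at this
    exact this

theorem bonds_rv (σ τ : Cfg 8) :
    (ob.map Hb).sum (rv σ) (rv τ) = (ob.map Hb).sum σ τ := by
  rw [ob_sum, Matrix.sum_apply, Matrix.sum_apply, ← Equiv.sum_comp Fin.revPerm]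
  refine Finset.sum_congr rfl fun j _ => ?_
  have hne : (j.castSucc : Fin 8) ≠ j.succ := (Fin.castSucc_lt_succ (i := j)).ne
  have hne' : (j.rev.castSucc : Fin 8) ≠ j.rev.succ := (Fin.castSucc_lt_succ (i := j.rev)).ne
  rw [Fin.revPerm_apply, Hb_rv _ _ hne', Fin.rev_castSucc, Fin.rev_succ, Fin.rev_rev,
    Hb_swap _ _ hne]

theorem bonds_fl (σ τ : Cfg 8) :
    (ob.map Hb).sum (fl σ) (fl τ) = (ob.map Hb).sum σ τ := by
  rw [ob_sum, Matrix.sum_apply, Matrix.sum_apply]
  exact Finset.sum_congr rfl fun j _ => Hb_fl _ σ τ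

/-- the symmetry: reflection (equal fields), reflection and flip (opposite fields) -/
def Ro (t : Bool) (σ : Cfg 8) : Cfg 8 := bif t then rfl' σ else rv σ

theorem Ro_Ro (t : Bool) (σ : Cfg 8) : Ro t (Ro t σ) = σ := by
  cases t
  · exact rv_rv σ
  · exact rfl'_rfl' σ

/-- as a permutation -/
def RoE (t : Bool) : Equiv.Perm (Cfg 8) where
  toFun := Ro t
  invFun := Ro t
  left_inv := Ro_Ro t
  right_inv := Ro_Ro t

theorem fD_Ro (t : Bool) (σ : Cfg 8) : fD (fO t) (Ro t σ) = fD (fO t) σ := by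
  have h2 : ∀ a : Fin 3, tbl 6 3 0 (a.rev : ℕ) = tbl 0 3 6 (a : ℕ) := by decide
  have h3 : ∀ a : Fin 3, tbl 0 3 6 (a.rev : ℕ) = tbl 6 3 0 (a : ℕ) := by decide
  unfold fD fO
  cases t
  · simp only [cond_false, List.map_cons, List.map_nil, List.sum_cons, List.sum_nil, add_zero]
    exact add_comm _ _
  · simp only [cond_true, List.map_cons, List.map_nil, List.sum_cons, List.sum_nil, add_zero]
    have e1 : Ro true σ 0 = (σ 7).rev := rfl
    have e2 : Ro true σ 7 = (σ 0).rev := rfl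
    rw [e1, e2, h2, h3]
    exact add_comm _ _

theorem G_Ro (t : Bool) (c1 : ℕ) (σ τ : Cfg 8) :
    (1 : ℤ) * 1 * Gmat 5 c1 ob (fO t) (RoE t σ) (RoE t τ) = Gmat 5 c1 ob (fO t) σ τ := by
  show (1 : ℤ) * 1 * Gmat 5 c1 ob (fO t) (Ro t σ) (Ro t τ) = _
  unfold Gmat
  simp only [Matrix.sub_apply, Matrix.smul_apply, smul_eq_mul, one_mul]
  have hb : (ob.map Hb).sum (Ro t σ) (Ro t τ) = (ob.map Hb).sum σ τ := by
    cases t
    · exact bonds_rv σ τ
    · exact (bonds_fl (rv σ) (rv τ)).trans (bonds_rv σ τ)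
  rw [hb]
  by_cases h : σ = τ
  · subst h
    simp only [Matrix.one_apply_eq, Matrix.diagonal_apply_eq, fD_Ro]
  · have h' : Ro t σ ≠ Ro t τ := fun h' => h ((RoE t).injective h')
    rw [Matrix.one_apply_ne h, Matrix.one_apply_ne h', Matrix.diagonal_apply_ne _ h,
      Matrix.diagonal_apply_ne _ h']

theorem clv_Ro (t : Bool) (c1 ρ : ℕ) (us : List ℕ) (σ : Cfg 8) :
    clv (Gmat 5 c1 ob (fO t)) ρ us (Ro t σ) (Ro t σ) = clv (Gmat 5 c1 ob (fO t)) ρ us σ σ := by
  have := clv_conj (RoE t) (fun _ => 1) (fun _ => by norm_num) _ (G_Ro t c1) ρ us σ σ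
  rw [one_mul, one_mul] at this
  exact this

/-! ### Collatz-Wielandt in a sector -/

theorem row_abs {L : ℕ} (κ c1 : ℕ) (bl : List (Bond L)) (fs : List (Fld L))
    (hbl : ∀ b ∈ bl, b.j ≠ b.k) (s : ℤ) (cD : ℕ → ℕ) (σ : Cfg L)
    (hd : |(c1 : ℤ) - Dn κ bl fs σ + s| ≤ cD (Dn κ bl fs σ)) (f : ℕ → ℕ) :
    ∑ τ, |Gmat κ c1 bl fs σ τ + (if σ = τ then s else 0)| * (f (code τ) : ℤ) ≤
      ((rowV κ cD (bl.map fun b => b.un.toBd) (fs.map Fld.toFd) (code σ)).run f : ℕ) := by
  set Nz : Cfg L → ℤ := fun τ =>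
    if σ = τ then (cD (Dn κ bl fs σ) : ℤ) else κ * (bl.map fun b => Hb b.un σ τ).sum with hNz
  have hrow : ∑ τ, Nz τ * (f (code τ) : ℤ) =
      ((rowV κ cD (bl.map fun b => b.un.toBd) (fs.map Fld.toFd) (code σ)).run f : ℕ) := by
    rw [rowV_run, Dn_eq]
    push_cast
    rw [adjR_int 0 (code σ) _ (by
      intro b hb
      rw [List.mem_map] at hb
      obtain ⟨b', _, rfl⟩ := hb
      rfl) (fun _ => 0) f]
    have e1 : ∀ τ, Nz τ * (f (code τ) : ℤ) =
        (if σ = τ then ((cD (Dn κ bl fs σ) : ℤ) -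
          κ * (bl.map fun b => Hb b.un σ σ).sum) * f (code σ) else 0) +
        κ * ((bl.map fun b => Hb b.un σ τ).sum * (f (code τ) : ℤ)) := by
      intro τ
      rw [hNz]
      by_cases h : σ = τ
      · subst h
        simp only [if_true]
        ring
      · simp only [if_neg h]
        ring
    simp only [e1]
    rw [Finset.sum_add_distrib, Finset.sum_ite_eq, if_pos (Finset.mem_univ _),
      ← Finset.mul_sum]
    have e2 : ∑ τ, (bl.map fun b => Hb b.un σ τ).sum * (f (code τ) : ℤ) =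
        (bl.map fun b => Hb b.un σ σ).sum * f (code σ) +
        ((bl.map fun b => b.un.toBd).map fun b => flZ (code σ) b f).sum := by
      rw [List.map_map]
      clear hd hNz e1
      clear Nz
      induction bl with
      | nil => simp
      | cons b bl ih =>
        have ih' := ih (fun b hb => hbl b (List.mem_cons_of_mem _ hb))
        simp only [List.map_cons, List.sum_cons, Function.comp_apply] at ih' ⊢
        simp only [add_mul, Finset.sum_add_distrib]
        rw [ih', bond_value_int b (hbl b List.mem_cons_self)]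
        have hbu := Hb_diag b.un (hbl b List.mem_cons_self) σ
        rw [hbu]
        show _ + _ = ((((diagv (σ b.j) (σ b.k) : ℕ) : ℤ) - 1) * _ + _) + _
        ring
    rw [e2]
    push_cast
    ring
  rw [← hrow]
  refine Finset.sum_le_sum fun τ _ => ?_
  refine mul_le_mul_of_nonneg_right ?_ (Int.natCast_nonneg _)
  by_cases h : σ = τ
  · subst h
    rw [hNz]
    simp only [if_true]
    rw [Gmat_entry κ c1 bl fs hbl]
    exact hd
  · rw [hNz]
    simp only [if_neg h, add_zero]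
    exact Gmat_entry_ne κ c1 bl fs hbl σ τ h

theorem tbl_le6 (t : Bool) (σ : Cfg 8) : fD (fO t) σ ≤ 12 := by
  have h1 : ∀ a : Fin 3, tbl 0 3 6 (a : ℕ) ≤ 6 := by decide
  have h2 : ∀ a : Fin 3, tbl 6 3 0 (a : ℕ) ≤ 6 := by decide
  unfold fD fO
  cases t
  · simp only [cond_false, List.map_cons, List.map_nil, List.sum_cons, List.sum_nil, add_zero]
    have := h1 (σ 0)
    have := h1 (σ 7)
    omega
  · simp only [cond_true, List.map_cons, List.map_nil, List.sum_cons, List.sum_nil, add_zero]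
    have := h1 (σ 0)
    have := h2 (σ 7)
    omega

theorem Dn_le82 (t : Bool) (σ : Cfg 8) : Dn 5 ob (fO t) σ ≤ 82 := by
  unfold Dn
  have h1 := tbl_le6 t σ
  have h2 : (ob.map fun b => diagv (σ b.j) (σ b.k)).sum ≤ 14 := by
    rw [ob_sum]
    calc ∑ j : Fin 7, diagv (σ j.castSucc) (σ j.succ) ≤ ∑ _j : Fin 7, 2 :=
          Finset.sum_le_sum fun j _ => diagv_le _ _
      _ = 14 := by simp
  omega

theorem allS_spec (pred : ℕ → Bool) (n : ℕ) : ∀ pw s pre : ℕ, allS pred n pw s pre = true →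
    ∀ σ : Cfg n, dsum σ = s → pred (pre + pw * code σ) = true := by
  induction n with
  | zero =>
    intro pw s pre h σ hs
    have e : code σ = 0 := by simp [code]
    have e2 : s = 0 := by rw [← hs]; simp [dsum]
    subst e2
    rw [e, mul_zero, add_zero]
    exact h
  | succ n ih =>
    intro pw s pre h σ hs
    have e : allS pred (n + 1) pw s pre = (allS pred n (4 * pw) s pre &&
      ((Bool.rec (motive := fun _ => Bool) true (allS pred n (4 * pw) (s - 1) (pre + pw))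
        (Nat.ble 1 s)) &&
        (Bool.rec (motive := fun _ => Bool) true (allS pred n (4 * pw) (s - 2) (pre + 2 * pw))
        (Nat.ble 2 s)))) := rfl
    rw [e, Bool.and_eq_true, Bool.and_eq_true] at h
    rw [code_succ]
    rw [dsum_succ] at hs
    have h3 : (σ 0 : ℕ) = 0 ∨ (σ 0 : ℕ) = 1 ∨ (σ 0 : ℕ) = 2 := by
      have := (σ 0).isLt
      omega
    rcases h3 with h0 | h0 | h0
    · rw [h0, zero_add] at hs
      have := ih _ _ _ h.1 (fun j : Fin n => σ j.succ) hs
      rw [h0]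
      convert this using 2
      ring
    · rw [h0] at hs
      have hb : Nat.ble 1 s = true := Nat.ble_eq.mpr (by omega)
      have h1 := h.2.1
      rw [hb] at h1
      have := ih _ _ _ h1 (fun j : Fin n => σ j.succ) (by omega)
      rw [h0]
      convert this using 2
      ring
    · rw [h0] at hs
      have hb : Nat.ble 2 s = true := Nat.ble_eq.mpr (by omega)
      have h1 := h.2.2
      rw [hb] at h1
      have := ih _ _ _ h1 (fun j : Fin n => σ j.succ) (by omega)
      rw [h0]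
      convert this using 2
      ring

theorem cw_sector (t : Bool) {H : Matrix (Cfg 8) (Cfg 8) ℂ} (D : Dg H lab) (c1 : ℕ) (g0 : ℝ)
    (hG : cx (Gmat 5 c1 ob (fO t)) = (g0 : ℂ) • (1 : Matrix (Cfg 8) (Cfg 8) ℂ) - (5 : ℂ) • H)
    (a : ℤ) (cD : ℕ → ℕ)
    (hd : ∀ σ : Cfg 8, |(c1 : ℤ) - Dn 5 ob (fO t) σ + a| ≤ cD (Dn 5 ob (fO t) σ)) (R : ℕ)
    (f : ℕ → ℕ) (s : Fin 17)
    (hall : ∀ σ : Cfg 8, dsum σ = (s : ℕ) → predV (rowV 5 cD (ob.map fun b => b.un.toBd)
      ((fO t).map Fld.toFd)) R f (code σ) = true) (i : Cfg 8) (hi : lab i = s) :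
    |g0 + a - 5 * D.lam i| ≤ R := by
  set A : Matrix (Cfg 8) (Cfg 8) ℤ := Matrix.of fun σ τ =>
    Gmat 5 c1 ob (fO t) σ τ + (if σ = τ then a else 0) with hA
  have hcA : cx A = (((g0 + a : ℝ)) : ℂ) • (1 : Matrix (Cfg 8) (Cfg 8) ℂ) + ((-5 : ℝ) : ℂ) • H := by
    ext σ τ
    have h1 := congrFun (congrFun hG σ) τ
    rw [cx, Matrix.map_apply] at h1
    rw [cx, Matrix.map_apply, hA, Matrix.of_apply]
    push_cast
    rw [h1]
    simp only [Matrix.sub_apply, Matrix.add_apply, Matrix.smul_apply, smul_eq_mul]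
    by_cases h : σ = τ
    · subst h
      simp only [Matrix.one_apply_eq, if_true]
      ring
    · simp only [Matrix.one_apply_ne h, if_neg h]
      simp
  have hpred : ∀ σ : Cfg 8, dsum σ = (s : ℕ) → 1 ≤ f (code σ) ∧
      (rowV 5 cD (ob.map fun b => b.un.toBd) ((fO t).map Fld.toFd) (code σ)).run f ≤
        R * f (code σ) := by
    intro σ hσ
    have h2 : (Nat.ble 1 (f (code σ)) && Nat.ble ((rowV 5 cD
      (ob.map fun b => b.un.toBd) ((fO t).map Fld.toFd) (code σ)).run f)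
      (Nat.mul R (f (code σ)))) = true := hall σ hσ
    rw [Bool.and_eq_true, Nat.ble_eq, Nat.ble_eq] at h2
    exact h2
  have key := D.collatz hcA s (fun σ => (f (code σ) : ℝ)) (fun σ => Nat.cast_nonneg _)
    (fun σ hσ => by
      have := (hpred σ ((lab_eq σ s).mp hσ)).1
      exact_mod_cast this) (R : ℝ) (fun σ hσ => by
      have h1 := row_abs 5 c1 ob (fO t) ob_ne a cD σ (hd σ) f
      have h2 := (hpred σ ((lab_eq σ s).mp hσ)).2
      have h3 : ∑ τ, |A σ τ| * (f (code τ) : ℤ) ≤ (R : ℤ) * f (code σ) := by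
        refine le_trans h1 ?_
        exact_mod_cast h2
      have h4 : ((∑ τ, |A σ τ| * (f (code τ) : ℤ) : ℤ) : ℝ) ≤ (((R : ℤ) * f (code σ) : ℤ) : ℝ) :=
        Int.cast_le.mpr h3
      push_cast at h4
      exact h4) i hi
  have e : g0 + a - 5 * D.lam i = g0 + a + (-5 : ℝ) * D.lam i := by ring
  rw [e]
  exact key

theorem lo_sector (t : Bool) (D : Dg (HO t) lab) (R n : ℕ) (s : Fin 17)
    (hchk : chkLo R n s (ob.map fun b => b.un.toBd) ((fO t).map Fld.toFd) = true)
    (i : Cfg 8) (hi : lab i = s) : 41 - (R : ℝ) ≤ 5 * D.lam i := by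
  unfold chkLo at hchk
  obtain ⟨f, hf⟩ := iterV_exists (rowV 5 (fun D => Nat.sub 83 D)
    (ob.map fun b => b.un.toBd) ((fO t).map Fld.toFd))
    (fun f => allS (predV (rowV 5 (fun D => Nat.sub 82 D) (ob.map fun b => b.un.toBd)
      ((fO t).map Fld.toFd)) R f) 8 1 s 0) n (fun _ => 1)
  rw [hf] at hchk
  have h := allS_spec _ 8 1 s 0 hchk
  have key := cw_sector t D 82 (((82 : ℕ) : ℝ) - 41) (cxG t 82) 0 (fun D => Nat.sub 82 D) (by
    intro σ
    have hle := Dn_le82 t σ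
    have e : ((82 : ℕ) : ℤ) - Dn 5 ob (fO t) σ + 0 = ((82 - Dn 5 ob (fO t) σ : ℕ) : ℤ) := by
      rw [Nat.cast_sub hle, add_zero]
    rw [e, Nat.abs_cast]
    exact le_refl _) R f s (fun σ hσ => by
      have := h σ hσ
      rw [zero_add, one_mul] at this
      exact this) i hi
  have := (abs_le.mp key).2
  push_cast at this
  linarith

theorem hi_sector (t : Bool) (D : Dg (HO t) lab) (s : Fin 17)
    (hchk : chkHi s (ob.map fun b => b.un.toBd) ((fO t).map Fld.toFd) = true)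
    (i : Cfg 8) (hi : lab i = s) : 5 * D.lam i ≤ 41 := by
  unfold chkHi at hchk
  have h := allS_spec _ 8 1 s 0 hchk
  have key := cw_sector t D 0 (((0 : ℕ) : ℝ) - 41) (cxG t 0) 0 (fun D => D) (by
    intro σ
    have e : ((0 : ℕ) : ℤ) - Dn 5 ob (fO t) σ + 0 = -((Dn 5 ob (fO t) σ : ℕ) : ℤ) := by
      push_cast; ring
    rw [e, abs_neg, Nat.abs_cast]) 82 _ s (fun σ hσ => by
      have := h σ hσ
      rw [zero_add, one_mul] at this
      exact this) i hi
  have := (abs_le.mp key).1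
  push_cast at this
  linarith

end

end Crest.Agent.R347.OSec
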