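import Crest.Agent.R347.Data
import Crest.Agent.R347.OExact
import Crest.Agent.R347.OTrial

/-! The certified matrix product states of the open chains. -/

set_option autoImplicit false

namespace Crest.Agent.R347

open Matrix Crest.MathPhysics.SpinChain OChain

theorem star_dot_self_nonneg {κ : Type*} [Fintype κ] (ψ : κ → ℂ) : 0 ≤ (star ψ ⬝ᵥ ψ).re := by
  have : (star ψ ⬝ᵥ ψ) = ((∑ i, ‖ψ i‖ ^ 2 : ℝ) : ℂ) := by
    rw [dotProduct]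
    push_cast
    refine Finset.sum_congr rfl fun i _ => ?_
    rw [Pi.star_apply, RCLike.star_def, RCLike.conj_mul]
    rfl
  rw [this, Complex.ofReal_re]
  positivity

theorem ex40_of {N0 N1 N2 : ℤ} (h0 : 0 < N0) (hlo : -5565721 * (5 * N0) ≤ N1 * 100000)
    (hhi : N1 * 100000 ≤ -5565711 * (5 * N0))
    (hv : (N2 * N0 - N1 * N1) * 100000 ≤ 200 * (N0 * N0))
    (hex : ∃ ψ : (Fin 40 → Fin 3) → ℂ, ψ ≠ 0 ∧
      star ψ ⬝ᵥ (openH 39 (3 / 5) (-(3 / 5))).mulVec ψ =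
        (((N1 : ℝ) / (5 * (N0 : ℝ)) : ℝ) : ℂ) * (star ψ ⬝ᵥ ψ) ∧
      (star ((openH 39 (3 / 5) (-(3 / 5))).mulVec ψ) ⬝ᵥ
        (openH 39 (3 / 5) (-(3 / 5))).mulVec ψ).re =
        ((N2 : ℝ) / (25 * (N0 : ℝ))) * (star ψ ⬝ᵥ ψ).re) :
    ∃ (ψ : (Fin 40 → Fin 3) → ℂ) (E v : ℝ), ψ ≠ 0 ∧
    star ψ ⬝ᵥ (openH 39 (3 / 5) (-(3 / 5))).mulVec ψ = (E : ℂ) * (star ψ ⬝ᵥ ψ) ∧
    (star ((openH 39 (3 / 5) (-(3 / 5))).mulVec ψ) ⬝ᵥ
        (openH 39 (3 / 5) (-(3 / 5))).mulVec ψ).re ≤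
      (E ^ 2 + v) * (star ψ ⬝ᵥ ψ).re ∧
    40 * e0 + 40215 / 100000 ≤ E ∧ E ≤ 40 * e0 + 40225 / 100000 ∧ v ≤ 8 / 100000 := by
  obtain ⟨ψ, h1, h2, h3⟩ := hex
  have h0' : (0 : ℝ) < N0 := by exact_mod_cast h0
  have hlo' : (-5565721 : ℝ) * (5 * N0) ≤ N1 * 100000 := by exact_mod_cast hlo
  have hhi' : (N1 : ℝ) * 100000 ≤ -5565711 * (5 * N0) := by exact_mod_cast hhi
  have hv' : ((N2 : ℝ) * N0 - N1 * N1) * 100000 ≤ 200 * (N0 * N0) := by exact_mod_cast hv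
  refine ⟨ψ, (N1 : ℝ) / (5 * (N0 : ℝ)), (N2 : ℝ) / (25 * (N0 : ℝ)) -
    ((N1 : ℝ) / (5 * (N0 : ℝ))) ^ 2, h1, h2, ?_, ?_, ?_, ?_⟩
  · rw [h3, add_sub_cancel]
  · rw [show (40 : ℝ) * e0 + 40215 / 100000 = -5565721 / 100000 by unfold e0; norm_num,
      div_le_div_iff₀ (by norm_num) (by positivity)]
    linarith
  · rw [show (40 : ℝ) * e0 + 40225 / 100000 = -5565711 / 100000 by unfold e0; norm_num,
      div_le_div_iff₀ (by positivity) (by norm_num)]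
    linarith
  · have e : (N2 : ℝ) / (25 * (N0 : ℝ)) - ((N1 : ℝ) / (5 * (N0 : ℝ))) ^ 2 =
        ((N2 : ℝ) * N0 - N1 * N1) / (25 * (N0 * N0)) := by
      field_simp
      ring
    rw [e, div_le_div_iff₀ (by positivity) (by norm_num)]
    linarith

theorem ex80_of {N0 N1 : ℤ} (h0 : 0 < N0) (hhi : N1 * 100000 ≤ -11171592 * (5 * N0))
    (hex : ∃ ψ : (Fin 80 → Fin 3) → ℂ, ψ ≠ 0 ∧
      (star ψ ⬝ᵥ (openH 79 (3 / 5) (-(3 / 5))).mulVec ψ).re =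
        ((N1 : ℝ) / (5 * (N0 : ℝ))) * (star ψ ⬝ᵥ ψ).re) :
    ∃ (ψ : (Fin 80 → Fin 3) → ℂ), ψ ≠ 0 ∧
    (star ψ ⬝ᵥ (openH 79 (3 / 5) (-(3 / 5))).mulVec ψ).re ≤
      (80 * e0 + 4028 / 10000) * (star ψ ⬝ᵥ ψ).re := by
  obtain ⟨ψ, h1, h2⟩ := hex
  refine ⟨ψ, h1, ?_⟩
  have h0' : (0 : ℝ) < N0 := by exact_mod_cast h0
  have hhi' : (N1 : ℝ) * 100000 ≤ -11171592 * (5 * N0) := by exact_mod_cast hhi
  rw [h2]
  refine mul_le_mul_of_nonneg_right ?_ ?_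
  · rw [show (80 : ℝ) * e0 + 4028 / 10000 = -11171592 / 100000 by unfold e0; norm_num,
      div_le_div_iff₀ (by positivity) (by norm_num)]
    linarith
  · exact star_dot_self_nonneg ψ

theorem openMPS : OpenMPS where
  ex40 := ex40_of (by decide +kernel) (by decide +kernel) (by decide +kernel) (by decide +kernel)
    (trial_of_exact (HD A40 D40 20) (HD_ok A40 D40 20) 19 (epsE E40)
      _ _ _ exact40_0 exact40_1 exact40_2 (by decide +kernel))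
  ex80 := ex80_of (by decide +kernel) (by decide +kernel)
    (trial_of_exact' (HD A80 D80 40) (HD_ok A80 D80 40) 39 (epsE E80)
      _ _ exact80_0 exact80_1 (by decide +kernel))

end Crest.Agent.R347
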