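import Crest.Agent.R347.NumTrace
import Crest.Agent.R347.NumInv
import Crest.Agent.R347.NumScalar
import Crest.Agent.R347.OpenEngine

/-! Sector-resolved polynomial approximation of traces (open chain certificate, N6). -/

set_option autoImplicit false
set_option linter.unusedSectionVars false

namespace Crest.Agent.R347.OSec

open Matrix Crest.Agent.R347.Num

noncomputable section

section dg
variable {κ : Type*} [Fintype κ] [DecidableEq κ] {S : Type*} [DecidableEq S]

/-- diagonalisation data of `H` adapted to the label `c` -/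
structure Dg (H : Matrix κ κ ℂ) (c : κ → S) where
  U : Matrix κ κ ℂ
  lam : κ → ℝ
  h1 : Uᴴ * U = 1
  h2 : U * Uᴴ = 1
  h3 : H = U * diagonal (fun i => ((lam i : ℝ) : ℂ)) * Uᴴ
  h4 : ∀ σ i, c σ ≠ c i → U σ i = 0

variable {H : Matrix κ κ ℂ} {c : κ → S}

theorem Dg.cx_eq (D : Dg H c) {G : Matrix κ κ ℤ} {g0 : ℝ}
    (hG : cx G = (g0 : ℂ) • (1 : Matrix κ κ ℂ) - (5 : ℂ) • H) :
    cx G = D.U * diagonal (fun i => ((g0 - 5 * D.lam i : ℝ) : ℂ)) * D.Uᴴ := by
  have e1 : diagonal (fun i => ((g0 - 5 * D.lam i : ℝ) : ℂ)) =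
      (g0 : ℂ) • (1 : Matrix κ κ ℂ) - (5 : ℂ) • diagonal (fun i => ((D.lam i : ℝ) : ℂ)) := by
    ext i j
    by_cases h : i = j
    · subst h; simp
    · simp [h]
  rw [e1, mul_sub, sub_mul, Matrix.mul_smul, Matrix.smul_mul, mul_one, D.h2, Matrix.mul_smul,
    Matrix.smul_mul, ← D.h3, hG]

/-- entries in the diagonalising basis -/
theorem Dg.entry (D : Dg H c) (f : κ → ℝ) (σ τ : κ) :
    (D.U * diagonal (fun i => ((f i : ℝ) : ℂ)) * D.Uᴴ) σ τ =
      ∑ i, (f i : ℂ) * (D.U σ i * star (D.U τ i)) := by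
  rw [mul_apply]
  refine Finset.sum_congr rfl fun i _ => ?_
  rw [mul_diagonal, conjTranspose_apply]
  ring

theorem Dg.col (D : Dg H c) (i : κ) : ∑ σ, D.U σ i * star (D.U σ i) = 1 := by
  have h := congrFun (congrFun D.h1 i) i
  rw [mul_apply, one_apply_eq] at h
  rw [← h]
  refine Finset.sum_congr rfl fun σ _ => ?_
  rw [conjTranspose_apply]
  ring

theorem Dg.row (D : Dg H c) (σ : κ) : ∑ i, ‖D.U σ i‖ ^ 2 = 1 := by
  have h := congrFun (congrFun D.h2 σ) σ
  rw [mul_apply, one_apply_eq] at h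
  have h3 : ((∑ k, ‖D.U σ k‖ ^ 2 : ℝ) : ℂ) = 1 := by
    rw [← h, Complex.ofReal_sum]
    refine Finset.sum_congr rfl fun k _ => ?_
    rw [conjTranspose_apply, Complex.star_def, Complex.mul_conj', Complex.ofReal_pow]
  exact_mod_cast h3

/-- (B) sector trace -/
theorem Dg.sector_trace (D : Dg H c) (f : κ → ℝ) (s : S) :
    ∑ σ ∈ Finset.univ.filter (fun σ => c σ = s),
      (D.U * diagonal (fun i => ((f i : ℝ) : ℂ)) * D.Uᴴ) σ σ =
      ((∑ i ∈ Finset.univ.filter (fun i => c i = s), f i : ℝ) : ℂ) := by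
  simp only [D.entry]
  rw [Finset.sum_comm, Complex.ofReal_sum, Finset.sum_filter]
  refine Finset.sum_congr rfl fun i _ => ?_
  rw [← Finset.mul_sum]
  by_cases hi : c i = s
  · have h1 : ∑ σ ∈ Finset.univ.filter (fun σ => c σ = s), D.U σ i * star (D.U σ i) = 1 := by
      rw [← D.col i]
      refine Finset.sum_subset (Finset.subset_univ _) fun σ _ hσ => ?_
      rw [D.h4 σ i (by
        intro h
        apply hσ
        rw [Finset.mem_filter]
        exact ⟨Finset.mem_univ _, h.trans hi⟩), zero_mul]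
    rw [if_pos hi, h1, mul_one]
  · rw [if_neg hi]
    rw [Finset.sum_eq_zero, mul_zero]
    intro σ hσ
    rw [Finset.mem_filter] at hσ
    rw [D.h4 σ i (by intro h; exact hi (h.symm.trans hσ.2)), zero_mul]

/-- sector trace of a polynomial in an integer matrix -/
theorem Dg.sector_clv (D : Dg H c) {G : Matrix κ κ ℤ} {g0 : ℝ}
    (hG : cx G = (g0 : ℂ) • (1 : Matrix κ κ ℂ) - (5 : ℂ) • H) (ρ : ℕ) (us : List ℕ) (s : S) :
    ((∑ σ ∈ Finset.univ.filter (fun σ => c σ = s), clv G ρ us σ σ : ℤ) : ℝ) =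
      ∑ i ∈ Finset.univ.filter (fun i => c i = s), clv (g0 - 5 * D.lam i) ρ us := by
  have h1 := clv_of_diag D.h1 D.h2 (D.cx_eq hG) ρ us
  have h2 := D.sector_trace (fun i => clv (g0 - 5 * D.lam i) ρ us) s
  rw [← h1] at h2
  have h3 : (((∑ σ ∈ Finset.univ.filter (fun σ => c σ = s), clv G ρ us σ σ : ℤ) : ℝ) : ℂ) =
      ((∑ i ∈ Finset.univ.filter (fun i => c i = s), clv (g0 - 5 * D.lam i) ρ us : ℝ) : ℂ) := by
    rw [← h2]
    push_cast
    rfl
  exact_mod_cast h3

/-- (C) sector entry bound -/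
theorem Dg.entry_bound (D : Dg H c) {G : Matrix κ κ ℤ} {g0 : ℝ}
    (hG : cx G = (g0 : ℂ) • (1 : Matrix κ κ ℂ) - (5 : ℂ) • H) (ρ : ℕ) (us : List ℕ) (s : S)
    (Qb : ℕ) (hb : ∀ i, c i = s → |clv (g0 - 5 * D.lam i) ρ us| ≤ Qb) (σ τ : κ) (hσ : c σ = s) :
    |clv G ρ us σ τ| ≤ Qb := by
  have h1 := congrFun (congrFun (clv_of_diag D.h1 D.h2 (D.cx_eq hG) ρ us) σ) τ
  rw [map_apply, D.entry] at h1
  have hn : ‖((clv G ρ us σ τ : ℤ) : ℂ)‖ ≤ Qb := by
    rw [h1]
    calc ‖∑ i, ((clv (g0 - 5 * D.lam i) ρ us : ℝ) : ℂ) * (D.U σ i * star (D.U τ i))‖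
        ≤ ∑ i, ‖((clv (g0 - 5 * D.lam i) ρ us : ℝ) : ℂ) * (D.U σ i * star (D.U τ i))‖ :=
          norm_sum_le _ _
      _ ≤ ∑ i, (Qb : ℝ) * (‖D.U σ i‖ * ‖D.U τ i‖) := by
          refine Finset.sum_le_sum fun i _ => ?_
          by_cases hi : c σ = c i
          · rw [norm_mul, norm_mul, norm_star, Complex.norm_real, Real.norm_eq_abs]
            exact mul_le_mul_of_nonneg_right (hb i (hi.symm.trans hσ)) (by positivity)
          · rw [D.h4 σ i hi]
            simp
      _ = Qb * ∑ i, ‖D.U σ i‖ * ‖D.U τ i‖ := by rw [Finset.mul_sum]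
      _ ≤ Qb * 1 := by
          gcongr
          have h5 := Finset.sum_mul_sq_le_sq_mul_sq Finset.univ (fun i => ‖D.U σ i‖)
            (fun i => ‖D.U τ i‖)
          rw [D.row, D.row, one_mul] at h5
          have h6 : 0 ≤ ∑ i, ‖D.U σ i‖ * ‖D.U τ i‖ :=
            Finset.sum_nonneg fun i _ => mul_nonneg (norm_nonneg _) (norm_nonneg _)
          nlinarith
      _ = Qb := mul_one _
  rw [Complex.norm_intCast] at hn
  exact_mod_cast hn

/-- column eigenvector equation -/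
theorem Dg.eig (D : Dg H c) {A : Matrix κ κ ℤ} {a : ℝ} {b : ℝ}
    (hA : cx A = (a : ℂ) • (1 : Matrix κ κ ℂ) + (b : ℂ) • H) (i σ : κ) :
    ∑ τ, ((A σ τ : ℤ) : ℂ) * D.U τ i = ((a + b * D.lam i : ℝ) : ℂ) * D.U σ i := by
  have h : cx A * D.U = D.U * diagonal (fun i => ((a + b * D.lam i : ℝ) : ℂ)) := by
    have e1 : diagonal (fun i => ((a + b * D.lam i : ℝ) : ℂ)) =
        (a : ℂ) • (1 : Matrix κ κ ℂ) + (b : ℂ) • diagonal (fun i => ((D.lam i : ℝ) : ℂ)) := by
      ext i j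
      by_cases h : i = j
      · subst h; simp
      · simp [h]
    have hHU : H * D.U = D.U * diagonal (fun i => ((D.lam i : ℝ) : ℂ)) := by
      have h3 : H * D.U = D.U * diagonal (fun i => ((D.lam i : ℝ) : ℂ)) * D.Uᴴ * D.U :=
        congrArg (fun M => M * D.U) D.h3
      rw [h3, mul_assoc, D.h1, mul_one]
    rw [hA, e1, mul_add, add_mul, Matrix.mul_smul, Matrix.mul_smul, Matrix.smul_mul,
      Matrix.smul_mul, mul_one, one_mul, hHU]
  have h2 := congrFun (congrFun h σ) i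
  rw [mul_apply, mul_diagonal] at h2
  rw [mul_comm ((a + b * D.lam i : ℝ) : ℂ)]
  exact h2

/-- (E) Collatz-Wielandt bound in a sector, real positive vector -/
theorem Dg.collatz (D : Dg H c) {A : Matrix κ κ ℤ} {a b : ℝ}
    (hA : cx A = (a : ℂ) • (1 : Matrix κ κ ℂ) + (b : ℂ) • H) (s : S) (v : κ → ℝ)
    (hv0 : ∀ σ, 0 ≤ v σ) (hv : ∀ σ, c σ = s → 0 < v σ) (R : ℝ)
    (hR : ∀ σ, c σ = s → ∑ τ, |((A σ τ : ℤ) : ℝ)| * v τ ≤ R * v σ) (i : κ) (hi : c i = s) :
    |a + b * D.lam i| ≤ R := by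
  obtain ⟨i0, hi0⟩ : ∃ σ, D.U σ i ≠ 0 := by
    by_contra hcon
    push Not at hcon
    have := D.col i
    simp [hcon] at this
  have : Nonempty κ := ⟨i0⟩
  obtain ⟨j, hj⟩ := Finite.exists_max (fun j => ‖D.U j i‖ / v j)
  have hsec : ∀ σ, D.U σ i ≠ 0 → c σ = s := by
    intro σ h
    by_contra hne
    exact h (D.h4 σ i (by rw [hi]; exact hne))
  have hpos : 0 < ‖D.U j i‖ / v j :=
    (div_pos (norm_pos_iff.mpr hi0) (hv i0 (hsec i0 hi0))).trans_le (hj i0)
  have hUj : D.U j i ≠ 0 := by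
    intro h
    rw [h, norm_zero, zero_div] at hpos
    exact lt_irrefl _ hpos
  have hcj := hsec j hUj
  have hvj := hv j hcj
  set t := ‖D.U j i‖ / v j with ht
  have hle : ∀ τ, ‖D.U τ i‖ ≤ t * v τ := by
    intro τ
    by_cases h : D.U τ i = 0
    · rw [h, norm_zero]
      exact mul_nonneg hpos.le (hv0 τ)
    · exact (div_le_iff₀ (hv τ (hsec τ h))).mp (hj τ)
  have hUpos : 0 < ‖D.U j i‖ := norm_pos_iff.mpr hUj
  have h1 : |a + b * D.lam i| * ‖D.U j i‖ ≤ R * ‖D.U j i‖ := by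
    have h2 : |a + b * D.lam i| * ‖D.U j i‖ = ‖∑ τ, ((A j τ : ℤ) : ℂ) * D.U τ i‖ := by
      rw [D.eig hA i j, norm_mul, Complex.norm_real, Real.norm_eq_abs]
    rw [h2]
    calc ‖∑ τ, ((A j τ : ℤ) : ℂ) * D.U τ i‖ ≤ ∑ τ, ‖((A j τ : ℤ) : ℂ) * D.U τ i‖ :=
          norm_sum_le _ _
      _ ≤ ∑ τ, |((A j τ : ℤ) : ℝ)| * (t * v τ) := by
          refine Finset.sum_le_sum fun τ _ => ?_
          rw [norm_mul, Complex.norm_intCast]
          exact mul_le_mul_of_nonneg_left (hle τ) (abs_nonneg _)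
      _ = t * ∑ τ, |((A j τ : ℤ) : ℝ)| * v τ := by
          rw [Finset.mul_sum]
          refine Finset.sum_congr rfl fun τ _ => ?_
          ring
      _ ≤ t * (R * v j) := by
          gcongr
          exact hR j hcj
      _ = R * ‖D.U j i‖ := by
          rw [ht]
          field_simp [hvj.ne']
  exact le_of_mul_le_mul_right h1 hUpos

/-- (F) the sector partition function versus the sector trace of the polynomial -/
theorem Dg.sector_approx (D : Dg H c) {G : Matrix κ κ ℤ} {g0 : ℝ}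
    (hG : cx G = (g0 : ℂ) • (1 : Matrix κ κ ℂ) - (5 : ℂ) • H) (r : ℕ) (hr : 0 < r)
    (us : List ℕ) (hne : us ≠ []) {acc pm : ℤ}
    (h : (ExpApprox.go r (12 * r) 5 0 1 (alt false us.reverse)).2.2 = (acc, pm)) (s : S)
    (left : ℝ) (hleft : g0 = left + 2 * r)
    (hspec : ∀ i, c i = s → left ≤ 5 * D.lam i ∧ 5 * D.lam i ≤ left + 4 * r) :
    |(pm : ℝ) * Real.exp (6 / 5 * left) *
        (∑ i ∈ Finset.univ.filter (fun i => c i = s), Real.exp (-6 * D.lam i)) -
      ((∑ σ ∈ Finset.univ.filter (fun σ => c σ = s), clv G (r ^ 2) us σ σ : ℤ) : ℝ)| ≤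
      ((Finset.univ.filter (fun σ => c σ = s)).card : ℝ) * ((acc : ℝ) / (12 * r)) := by
  rw [D.sector_clv hG, Finset.mul_sum, ← Finset.sum_sub_distrib]
  refine (Finset.abs_sum_le_sum_abs _ _).trans ?_
  rw [← nsmul_eq_mul, ← Finset.sum_const]
  refine Finset.sum_le_sum fun i hi => ?_
  rw [Finset.mem_filter] at hi
  obtain ⟨hl, hu⟩ := hspec i hi.2
  have hr' : (0 : ℝ) < r := by exact_mod_cast hr
  have key := exp_clv_approx r hr (12 * r) 5 (by positivity) (by norm_num) us hne h (6 / 5)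
    (by push_cast; ring) (g0 - 5 * D.lam i) (by
      rw [abs_le]
      constructor <;> linarith)
  have e : (pm : ℝ) * Real.exp (6 / 5 * left) * Real.exp (-6 * D.lam i) =
      (pm : ℝ) * Real.exp (-((((12 * r : ℤ)) : ℝ) / ((5 : ℤ) : ℝ))) *
        Real.exp (6 / 5 * (g0 - 5 * D.lam i)) := by
    rw [mul_assoc, mul_assoc, ← Real.exp_add, ← Real.exp_add]
    congr 2
    rw [hleft]
    push_cast
    ring
  rw [e]
  refine key.trans (le_of_eq ?_)
  push_cast
  rfl

end dg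

/-! ### one block of columns -/

theorem block_spec {L : ℕ} (κ ρ c1 Cn w : ℕ) (bl : List (Bond L)) (fs : List (Fld L))
    (hbl : ∀ b ∈ bl, b.j ≠ b.k)
    (hC : κ * (2 * bl.length) + (2 * κ * bl.length + (fs.map fun b => b.t0 + b.t1 + b.t2).sum)
      + ρ ≤ Cn) (us : List ℕ)
    (hlab : ∀ σ τ : Cfg L, dsum σ ≠ dsum τ → Gmat κ c1 bl fs σ τ = 0) (s : ℕ) (Qb : ℕ)
    (hQ : ∀ σ τ : Cfg L, dsum σ = s → |clv (Gmat κ c1 bl fs) ρ us σ τ| ≤ Qb)
    (hw : 1 ≤ w) (J : List (Cfg L × ℕ)) (hJ0 : J ≠ []) (hJ : (J.map Prod.fst).Nodup)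
    (hJs : ∀ x ∈ J, dsum x.1 = s) (hs : 2 * ((J.map Prod.snd).sum * Qb) < 2 ^ w) :
    sgnd w (run1 κ ρ c1 Cn w (w * J.length) (w * (J.length - 1)) (bl.map Bond.toBd)
      (fs.map Fld.toFd) (J.map fun x => (code x.1, x.2)) us) ≤
        wdiag (clv (Gmat κ c1 bl fs) ρ us) id J ∧
    wdiag (clv (Gmat κ c1 bl fs) ρ us) id J ≤
      sgnd w (run1 κ ρ c1 Cn w (w * J.length) (w * (J.length - 1)) (bl.map Bond.toBd)
      (fs.map Fld.toFd) (J.map fun x => (code x.1, x.2)) us) + 1 := by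
  set Q := clv (Gmat κ c1 bl fs) ρ us with hQdef
  have hQlab : ∀ σ τ : Cfg L, dsum σ ≠ dsum τ → Q σ τ = 0 := by
    intro σ τ h
    refine clv_zero_of_label _ (fun σ => (dsum σ : ℤ)) ?_ ρ us σ τ (by exact_mod_cast h)
    intro a b hab
    exact hlab a b (by exact_mod_cast hab)
  let Q' : Matrix (Cfg L) (Cfg L) ℤ := Matrix.of fun σ τ => if dsum σ = s then Q σ τ else 0
  have hQ' : ∀ σ τ, |Q' σ τ| ≤ Qb := by
    intro σ τ
    show |if dsum σ = s then Q σ τ else 0| ≤ _
    split_ifs with h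
    · exact hQ σ τ h
    · simp
  have hwd : wdiag Q id J = wdiag Q' id J := by
    unfold wdiag
    refine congrArg List.sum (List.map_congr_left fun x hx => ?_)
    show _ = _ * (if dsum (id x.1) = s then Q (id x.1) x.1 else 0)
    rw [if_pos (show dsum (id x.1) = s from hJs x hx)]
  obtain ⟨f, hf1, hf2, hf3⟩ := go_spec κ ρ c1 Cn (w * J.length) bl fs hbl
    (esel (2 ^ w) (J.map fun x => (code x.1, x.2))) hC
    (fun f => outT (2 ^ w) (w * J.length) (w * (J.length - 1)) (2 ^ (w * J.length) - 1)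
      (fun c => c) f (J.map fun x => (code x.1, x.2))) us
  have hrun : run1 κ ρ c1 Cn w (w * J.length) (w * (J.length - 1)) (bl.map Bond.toBd)
      (fs.map Fld.toFd) (J.map fun x => (code x.1, x.2)) us =
      outT (2 ^ w) (w * J.length) (w * (J.length - 1)) (2 ^ (w * J.length) - 1)
      (fun c => c) f (J.map fun x => (code x.1, x.2)) := by
    rw [← hf1]
    rfl
  rw [hrun, hwd]
  refine out_spec w hw J hJ0 hJ Q' Qb hQ' hs id (fun c => c) (fun _ => rfl) f ?_ (w * J.length)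
  intro σ
  rw [hf3 σ]
  by_cases hσ : dsum σ = s
  · refine Finset.sum_congr rfl fun τ _ => ?_
    have : Q' σ τ = Q σ τ := if_pos hσ
    rw [this]
  · rw [Finset.sum_eq_zero, Finset.sum_eq_zero]
    · intro τ _
      have : Q' σ τ = 0 := if_neg hσ
      rw [this]
      simp
    · intro τ _
      by_cases hτ : dsum τ = s
      · rw [← hQdef, hQlab σ τ (by rw [hτ]; exact hσ)]
        simp
      · have : esel (2 ^ w) (J.map fun x => (code x.1, x.2)) (code τ) = 0 := by
          have h2 : esel (2 ^ w) (J.map fun x => (code x.1, x.2)) (code τ) =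
            eselP (2 ^ w) (J.map fun x => (code x.1, x.2)) (code τ) 1 := rfl
          rw [h2]
          refine eselP_notMem _ _ _ 1 fun j hj h => hτ ?_
          rw [List.mem_map] at hj
          obtain ⟨x, hx, rfl⟩ := hj
          have : τ = x.1 := code_injective h
          rw [this]
          exact hJs x hx
        rw [this]
        simp

/-! ### covering a sector by representatives -/

theorem sum_cover {κ : Type*} [DecidableEq κ] (A : Finset κ) (ω : κ → ℕ)
    (J : List (κ × ℕ)) (hJ : (J.map Prod.fst).Nodup) (hmem : ∀ x ∈ J, x.1 ∈ A)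
    (hw : ∀ x ∈ J, x.2 = ω x.1) (hs : (J.map Prod.snd).sum = ∑ σ ∈ A, ω σ) (f : κ → ℤ) :
    ∑ σ ∈ A, (ω σ : ℤ) * f σ = (J.map fun x => (x.2 : ℤ) * f x.1).sum := by
  set B : Finset κ := (J.map Prod.fst).toFinset with hB
  have hBA : B ⊆ A := by
    intro x hx
    rw [hB, List.mem_toFinset, List.mem_map] at hx
    obtain ⟨y, hy, rfl⟩ := hx
    exact hmem y hy
  have hsumB : ∀ g : κ → ℤ, ∑ σ ∈ B, (ω σ : ℤ) * g σ = (J.map fun x => (x.2 : ℤ) * g x.1).sum := by
    intro g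
    rw [hB, List.sum_toFinset _ hJ, List.map_map]
    refine congrArg List.sum (List.map_congr_left fun x hx => ?_)
    show (ω x.1 : ℤ) * g x.1 = _
    rw [hw x hx]
  have hzero : ∀ σ ∈ A \ B, ω σ = 0 := by
    have h1 : ((∑ σ ∈ B, ω σ : ℕ) : ℤ) = ((∑ σ ∈ A, ω σ : ℕ) : ℤ) := by
      rw [← hs]
      have := hsumB (fun _ => 1)
      simp only [mul_one] at this
      push_cast
      rw [this, List.map_map]
      rfl
    have h2 : ∑ σ ∈ B, ω σ = ∑ σ ∈ A, ω σ := by exact_mod_cast h1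
    have h3 := Finset.sum_sdiff hBA (f := ω)
    have h4 : ∑ σ ∈ A \ B, ω σ = 0 := by omega
    exact fun σ hσ => (Finset.sum_eq_zero_iff.mp h4) σ hσ
  rw [← hsumB f, ← Finset.sum_sdiff hBA, Finset.sum_eq_zero, zero_add]
  intro σ hσ
  rw [hzero σ hσ]
  simp

/-- weight of a representative for an involution acting on codes -/
def omg (x y : ℕ) : ℕ := if x < y then 2 else if x = y then 1 else 0

theorem omg_add (x y : ℕ) : omg x y + omg y x = 2 := by
  unfold omg
  rcases lt_trichotomy x y with h | h | h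
  · rw [if_pos h, if_neg (by omega), if_neg (by omega)]
  · rw [if_neg (by omega), if_pos h, if_neg (by omega), if_pos h.symm]
  · rw [if_neg (by omega), if_neg (by omega), if_pos h]

theorem sum_invol {κ : Type*} (A : Finset κ) (R : κ → κ) (hR : ∀ σ, R (R σ) = σ)
    (hA : ∀ σ ∈ A, R σ ∈ A) (cd : κ → ℕ) (f : κ → ℤ) (hf : ∀ σ, f (R σ) = f σ) :
    ∑ σ ∈ A, (omg (cd σ) (cd (R σ)) : ℤ) * f σ = ∑ σ ∈ A, f σ := by
  have h1 : ∑ σ ∈ A, (omg (cd σ) (cd (R σ)) : ℤ) * f σ =
      ∑ σ ∈ A, (omg (cd (R σ)) (cd σ) : ℤ) * f σ := by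
    refine Finset.sum_nbij' R R hA hA (fun σ _ => hR σ) (fun σ _ => hR σ) ?_
    intro σ _
    rw [hR, hf]
  have h2 : ∑ σ ∈ A, (omg (cd σ) (cd (R σ)) : ℤ) * f σ +
      ∑ σ ∈ A, (omg (cd (R σ)) (cd σ) : ℤ) * f σ = 2 * ∑ σ ∈ A, f σ := by
    rw [← Finset.sum_add_distrib, Finset.mul_sum]
    refine Finset.sum_congr rfl fun σ _ => ?_
    have := omg_add (cd σ) (cd (R σ))
    have h3 : (omg (cd σ) (cd (R σ)) : ℤ) + (omg (cd (R σ)) (cd σ) : ℤ) = 2 := by
      exact_mod_cast this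
    rw [← add_mul, h3]
  rw [← h1] at h2
  linarith

theorem sum_omg {κ : Type*} (A : Finset κ) (R : κ → κ) (hR : ∀ σ, R (R σ) = σ)
    (hA : ∀ σ ∈ A, R σ ∈ A) (cd : κ → ℕ) :
    ∑ σ ∈ A, omg (cd σ) (cd (R σ)) = A.card := by
  have := sum_invol A R hR hA cd (fun _ => 1) (fun _ => rfl)
  simp only [mul_one, Finset.sum_const, nsmul_eq_mul] at this
  exact_mod_cast this

/-! ### codes -/

/-- decoding -/
def dec (L : ℕ) (c : ℕ) : Cfg L := fun j =>
  if h : c / 4 ^ (j : ℕ) % 4 < 3 then ⟨c / 4 ^ (j : ℕ) % 4, h⟩ else 0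

theorem dec_succ (L c : ℕ) : (fun j : Fin L => dec (L + 1) c j.succ) = dec L (c / 4) := by
  funext j
  unfold dec
  have h : c / 4 ^ ((j.succ : Fin (L + 1)) : ℕ) = c / 4 / 4 ^ (j : ℕ) := by
    rw [Fin.val_succ, pow_succ', ← Nat.div_div_eq_div_mul]
  simp only [h]

theorem dec_zero_val (L c : ℕ) (h : c % 4 ≤ 2) : ((dec (L + 1) c 0 : Fin 3) : ℕ) = c % 4 := by
  unfold dec
  have h1 : c / 4 ^ ((0 : Fin (L + 1)) : ℕ) % 4 = c % 4 := by simp
  rw [dif_pos (by rw [h1]; omega)]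
  exact h1

theorem code_dec (L c : ℕ) (h : okc L c = true) : code (dec L c) = c := by
  induction L generalizing c with
  | zero =>
    have : c = 0 := Nat.eq_of_beq_eq_true h
    rw [this]
    rfl
  | succ L ih =>
    have h' : Bool.and (Nat.ble (c % 4) 2) (okc L (c / 4)) = true := h
    have h1 : (Nat.ble (c % 4) 2 && okc L (c / 4)) = true := h'
    rw [Bool.and_eq_true, Nat.ble_eq] at h1
    rw [code_succ, dec_succ, ih _ h1.2, dec_zero_val _ _ h1.1]
    omega

theorem dsum_succ {L : ℕ} (σ : Cfg (L + 1)) :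
    dsum σ = (σ 0 : ℕ) + dsum (fun j : Fin L => σ j.succ) := by
  unfold dsum
  rw [Fin.sum_univ_succ]

theorem dsum_dec (L c : ℕ) (h : okc L c = true) : dsum (dec L c) = dsc L c := by
  induction L generalizing c with
  | zero => rfl
  | succ L ih =>
    have h' : Bool.and (Nat.ble (c % 4) 2) (okc L (c / 4)) = true := h
    have h1 : (Nat.ble (c % 4) 2 && okc L (c / 4)) = true := h'
    rw [Bool.and_eq_true, Nat.ble_eq] at h1
    rw [dsum_succ, dec_succ, ih _ h1.2, dec_zero_val _ _ h1.1]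
    rfl

/-- reversal of the order of the sites -/
def rv {L : ℕ} (σ : Cfg L) : Cfg L := fun j => σ j.rev

/-- reversal and flip -/
def rfl' {L : ℕ} (σ : Cfg L) : Cfg L := fun j => (σ j.rev).rev

theorem rv_rv {L : ℕ} (σ : Cfg L) : rv (rv σ) = σ := by funext j; simp [rv]

theorem rfl'_rfl' {L : ℕ} (σ : Cfg L) : rfl' (rfl' σ) = σ := by funext j; simp [rfl']

theorem dsum_rv {L : ℕ} (σ : Cfg L) : dsum (rv σ) = dsum σ := by
  unfold dsum rv
  exact Equiv.sum_comp Fin.revPerm (fun j => (σ j : ℕ))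

theorem rfl'_eq {L : ℕ} (σ : Cfg L) : rfl' σ = fl (rv σ) := rfl

theorem dsum_rfl' {L : ℕ} (σ : Cfg L) : dsum (rfl' σ) + dsum σ = 2 * L := by
  rw [rfl'_eq, ← dsum_rv σ]
  exact dsum_fl (rv σ)

/-- code of a configuration, most significant digit first -/
theorem code_rev_succ {L : ℕ} (σ : Cfg (L + 1)) :
    code (rv σ) = (σ 0 : ℕ) * 4 ^ L + code (rv (fun j : Fin L => σ j.succ)) := by
  unfold code rv
  rw [Fin.sum_univ_castSucc, add_comm]
  congr 1
  · simp
  · refine Finset.sum_congr rfl fun j _ => ?_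
    rw [Fin.rev_castSucc]
    simp

theorem rvc_eq (L : ℕ) : ∀ c acc, okc L c = true →
    rvc L c acc = acc * 4 ^ L + code (rv (dec L c)) := by
  induction L with
  | zero => intro c acc _; simp [rvc, code]
  | succ L ih =>
    intro c acc h
    have h1 : (Nat.ble (c % 4) 2 && okc L (c / 4)) = true := h
    rw [Bool.and_eq_true, Nat.ble_eq] at h1
    rw [rvc, ih _ _ h1.2, code_rev_succ, dec_succ, dec_zero_val _ _ h1.1, pow_succ]
    ring

theorem rfc_eq (L : ℕ) : ∀ c acc, okc L c = true →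
    rfc L c acc = acc * 4 ^ L + code (rfl' (dec L c)) := by
  have hc : ∀ {L : ℕ} (σ : Cfg (L + 1)), code (rfl' σ) =
      (2 - (σ 0 : ℕ)) * 4 ^ L + code (rfl' (fun j : Fin L => σ j.succ)) := by
    intro L σ
    have h := code_rev_succ (fl σ)
    have e1 : rv (fl σ) = rfl' σ := rfl
    have e2 : rv (fun j : Fin L => fl σ j.succ) = rfl' (fun j : Fin L => σ j.succ) := rfl
    have e3 : ((fl σ 0 : Fin 3) : ℕ) = 2 - (σ 0 : ℕ) := by
      show (((σ 0).rev : Fin 3) : ℕ) = _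
      rw [Fin.val_rev]
      omega
    rw [e1, e2, e3] at h
    exact h
  induction L with
  | zero => intro c acc _; simp [rfc, code]
  | succ L ih =>
    intro c acc h
    have h1 : (Nat.ble (c % 4) 2 && okc L (c / 4)) = true := h
    rw [Bool.and_eq_true, Nat.ble_eq] at h1
    rw [rfc, ih _ _ h1.2, hc, dec_succ, dec_zero_val _ _ h1.1, pow_succ]
    ring

/-! ### number of configurations in a sector -/

theorem card_sector (L : ℕ) : ∀ s, (Finset.univ.filter fun σ : Cfg L => dsum σ = s).card =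
    cnt L s := by
  induction L with
  | zero =>
    intro s
    by_cases h : s = 0
    · subst h
      simp [cnt, dsum]
    · have : (Finset.univ.filter fun σ : Cfg 0 => dsum σ = s) = ∅ := by
        rw [Finset.filter_eq_empty_iff]
        intro σ _ h2
        apply h
        rw [← h2]
        simp [dsum]
      rw [this]
      simp [cnt, h]
  | succ L ih =>
    intro s
    have h1 : (Finset.univ.filter fun σ : Cfg (L + 1) => dsum σ = s).card =
        ∑ a : Fin 3, (Finset.univ.filter fun τ : Cfg L => (a : ℕ) + dsum τ = s).card := by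
      rw [Finset.card_filter, ← Equiv.sum_comp (Fin.consEquiv (fun _ : Fin (L + 1) => Fin 3)),
        Fintype.sum_prod_type]
      refine Finset.sum_congr rfl fun a _ => ?_
      rw [Finset.card_filter]
      refine Finset.sum_congr rfl fun τ _ => ?_
      have : dsum (Fin.consEquiv (fun _ : Fin (L + 1) => Fin 3) (a, τ)) = (a : ℕ) + dsum τ := by
        rw [dsum_succ]
        rfl
      rw [this]
    rw [h1, Fin.sum_univ_three]
    have h2 : ∀ a : ℕ, (Finset.univ.filter fun τ : Cfg L => a + dsum τ = s).card =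
        if a ≤ s then cnt L (s - a) else 0 := by
      intro a
      split_ifs with ha
      · rw [← ih]
        congr 1
        ext τ
        simp only [Finset.mem_filter, Finset.mem_univ, true_and]
        omega
      · rw [Finset.card_eq_zero, Finset.filter_eq_empty_iff]
        intro τ _
        omega
    rw [h2, h2, h2]
    simp [cnt]

/-! ### the check of a list of representatives -/

theorem omg_eq (x y : ℕ) : (Bool.rec (Bool.rec 0 1 (Nat.beq x y)) 2 (Nat.ble (x + 1) y) : ℕ) =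
    omg x y := by
  unfold omg
  by_cases h : x < y
  · rw [if_pos h]
    have : Nat.ble (x + 1) y = true := Nat.ble_eq.mpr h
    rw [this]
  · rw [if_neg h]
    have h1 : Nat.ble (x + 1) y = false := by
      cases hb : Nat.ble (x + 1) y with
      | false => rfl
      | true => exact absurd (Nat.ble_eq.mp hb) h
    rw [h1]
    by_cases h2 : x = y
    · rw [if_pos h2]
      have : Nat.beq x y = true := by rw [h2]; exact Nat.beq_refl y
      rw [this]
    · rw [if_neg h2]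
      have : Nat.beq x y = false := by
        cases hb : Nat.beq x y with
        | false => rfl
        | true => exact absurd (Nat.eq_of_beq_eq_true hb) h2
      rw [this]

theorem chkJ_cons (L s : ℕ) (rc : ℕ → ℕ) (x : ℕ × ℕ) (J : List (ℕ × ℕ)) (prev : ℕ)
    (h : chkJ L s rc (x :: J) prev = true) :
    prev ≤ x.1 ∧ okc L x.1 = true ∧ dsc L x.1 = s ∧ x.2 = omg x.1 (rc x.1) ∧
      chkJ L s rc J (x.1 + 1) = true := by
  have h' : (Nat.ble prev x.1 && (okc L x.1 && (Nat.beq (dsc L x.1) s &&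
      (Nat.beq x.2 (Bool.rec (Bool.rec 0 1 (Nat.beq x.1 (rc x.1))) 2
        (Nat.ble (x.1 + 1) (rc x.1))) && chkJ L s rc J (x.1 + 1))))) = true := h
  rw [Bool.and_eq_true, Bool.and_eq_true, Bool.and_eq_true, Bool.and_eq_true, omg_eq] at h'
  exact ⟨Nat.ble_eq.mp h'.1, h'.2.1, Nat.eq_of_beq_eq_true h'.2.2.1,
    Nat.eq_of_beq_eq_true h'.2.2.2.1, h'.2.2.2.2⟩

theorem chkJ_spec (L s : ℕ) (rc : ℕ → ℕ) (J : List (ℕ × ℕ)) : ∀ prev,
    chkJ L s rc J prev = true →
    (∀ x ∈ J, prev ≤ x.1 ∧ okc L x.1 = true ∧ dsc L x.1 = s ∧ x.2 = omg x.1 (rc x.1)) ∧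
      (J.map Prod.fst).Nodup := by
  induction J with
  | nil => intro prev _; simp
  | cons x J ih =>
    intro prev h
    obtain ⟨h1, h2, h3, h4, h5⟩ := chkJ_cons L s rc x J prev h
    obtain ⟨h6, h7⟩ := ih _ h5
    refine ⟨?_, ?_⟩
    · intro y hy
      rcases List.mem_cons.mp hy with rfl | hy
      · exact ⟨h1, h2, h3, h4⟩
      · have := h6 y hy
        exact ⟨by omega, this.2⟩
    · rw [List.map_cons, List.nodup_cons]
      refine ⟨?_, h7⟩
      intro hmem
      rw [List.mem_map] at hmem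
      obtain ⟨y, hy, hyx⟩ := hmem
      have := (h6 y hy).1
      omega

/-- the list of configurations of a list of codes -/
def dJ (L : ℕ) (J : List (ℕ × ℕ)) : List (Cfg L × ℕ) := J.map fun x => (dec L x.1, x.2)

theorem dJ_codes (L : ℕ) (J : List (ℕ × ℕ)) (h : ∀ x ∈ J, okc L x.1 = true) :
    ((dJ L J).map fun x => (code x.1, x.2)) = J := by
  unfold dJ
  rw [List.map_map]
  conv_rhs => rw [← List.map_id J]
  refine List.map_congr_left fun x hx => ?_
  show (code (dec L x.1), x.2) = x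
  rw [code_dec L x.1 (h x hx)]

theorem dJ_nodup (L : ℕ) (J : List (ℕ × ℕ)) (h : ∀ x ∈ J, okc L x.1 = true)
    (hn : (J.map Prod.fst).Nodup) : ((dJ L J).map Prod.fst).Nodup := by
  have h2 : ((dJ L J).map Prod.fst).map code = J.map Prod.fst := by
    conv_rhs => rw [← dJ_codes L J h]
    rw [List.map_map, List.map_map]
    rfl
  rw [← h2] at hn
  exact List.Nodup.of_map _ hn

theorem dJ_snd (L : ℕ) (J : List (ℕ × ℕ)) : (dJ L J).map Prod.snd = J.map Prod.snd := by
  unfold dJ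
  rw [List.map_map]
  rfl

theorem dJ_length (L : ℕ) (J : List (ℕ × ℕ)) : (dJ L J).length = J.length := by
  unfold dJ
  rw [List.length_map]

theorem dJ_append (L : ℕ) (J J' : List (ℕ × ℕ)) : dJ L (J ++ J') = dJ L J ++ dJ L J' := by
  unfold dJ
  rw [List.map_append]

/-- covering of a sector: the sector sum of an invariant function is the weighted sum over the
representatives -/
theorem sector_cover (L s : ℕ) (R : Cfg L → Cfg L) (hR : ∀ σ, R (R σ) = σ)
    (hRs : ∀ σ, dsum σ = s → dsum (R σ) = s) (rc : ℕ → ℕ)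
    (hrc : ∀ c, okc L c = true → rc c = code (R (dec L c))) (J : List (ℕ × ℕ)) (prev : ℕ)
    (hchk : chkJ L s rc J prev = true) (hsum : (J.map Prod.snd).sum = cnt L s)
    (f : Cfg L → ℤ) (hf : ∀ σ, f (R σ) = f σ) :
    ∑ σ ∈ Finset.univ.filter (fun σ : Cfg L => dsum σ = s), f σ =
      ((dJ L J).map fun x => (x.2 : ℤ) * f x.1).sum := by
  obtain ⟨h1, h2⟩ := chkJ_spec L s rc J prev hchk
  set A := Finset.univ.filter (fun σ : Cfg L => dsum σ = s) with hA
  have hAR : ∀ σ ∈ A, R σ ∈ A := by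
    intro σ hσ
    rw [hA, Finset.mem_filter] at hσ ⊢
    exact ⟨Finset.mem_univ _, hRs σ hσ.2⟩
  rw [← sum_invol A R hR hAR code f hf]
  refine sum_cover A (fun σ => omg (code σ) (code (R σ))) (dJ L J)
    (dJ_nodup L J (fun x hx => (h1 x hx).2.1) h2) ?_ ?_ ?_ f
  · intro x hx
    unfold dJ at hx
    rw [List.mem_map] at hx
    obtain ⟨y, hy, rfl⟩ := hx
    rw [hA, Finset.mem_filter]
    refine ⟨Finset.mem_univ _, ?_⟩
    show dsum (dec L y.1) = s
    rw [dsum_dec L y.1 (h1 y hy).2.1]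
    exact (h1 y hy).2.2.1
  · intro x hx
    unfold dJ at hx
    rw [List.mem_map] at hx
    obtain ⟨y, hy, rfl⟩ := hx
    show y.2 = omg (code (dec L y.1)) (code (R (dec L y.1)))
    rw [code_dec L y.1 (h1 y hy).2.1, ← hrc y.1 (h1 y hy).2.1]
    exact (h1 y hy).2.2.2
  · rw [dJ_snd, hsum, sum_omg A R hR hAR code, hA, card_sector]

end

end Crest.Agent.R347.OSec
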