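import Crest.Agent.R347.OpenTrace
import Crest.Agent.R347.OpenCW

/-! Spectral bounds of the open chain in each sector. -/

set_option autoImplicit false

namespace Crest.Agent.R347.OSec

open Matrix Crest.MathPhysics.SpinChain Crest.Agent.R347.Num

noncomputable section

theorem hiAll (t : Bool) (s : Fin 17) : chkHi s obL (foL t) = true := by
  cases t
  · exact List.all_eq_true.mp hiX s (List.mem_range.mpr s.isLt)
  · exact List.all_eq_true.mp hiY s (List.mem_range.mpr s.isLt)

theorem lo_of {t : Bool} (D : Dg (HO t) lab) (R n : ℕ) (s : Fin 17)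
    (hlo : chkLo R n s obL (foL t) = true) :
    ∀ i, lab i = s → 41 - (R : ℝ) ≤ 5 * D.lam i := by
  intro i hi
  exact lo_sector t D R n s (by rw [ob_un_toBd, fO_toFd]; exact hlo) i hi

theorem spec_of {t : Bool} (D : Dg (HO t) lab) (R n : ℕ) (s : Fin 17) (left : ℤ) (r : ℕ)
    (hlo : chkLo R n s obL (foL t) = true) (h1 : left + R = 41) (h2 : 41 ≤ left + 4 * r) :
    ∀ i, lab i = s → (left : ℝ) ≤ 5 * D.lam i ∧ 5 * D.lam i ≤ left + 4 * r := by
  intro i hi
  have h3 := lo_of D R n s hlo i hi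
  have h4 := hi_sector t D s (by rw [ob_un_toBd, fO_toFd]; exact hiAll t s) i hi
  have h5 : ((left + R : ℤ) : ℝ) = ((41 : ℤ) : ℝ) := by rw [h1]
  have h6 : ((41 : ℤ) : ℝ) ≤ ((left + 4 * r : ℤ) : ℝ) := Int.cast_le.mpr h2
  push_cast at h5 h6
  constructor
  · linarith
  · linarith

theorem restY_lo (D : Dg (HO true) lab) (s : Fin 17) (hs : (s : ℕ) ∈ restY) :
    ∀ i, lab i = s → (-39 : ℝ) ≤ 5 * D.lam i := by
  intro i hi
  have h := lo_of D 80 18 s (List.all_eq_true.mp loYr s hs) i hi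
  push_cast at h
  linarith

theorem restX_lo (D : Dg (HO false) lab) (s : Fin 17) (hs : (s : ℕ) ∈ restX) :
    ∀ i, lab i = s → (-35 : ℝ) ≤ 5 * D.lam i := by
  intro i hi
  have h := lo_of D 76 12 s (List.all_eq_true.mp loXr s hs) i hi
  push_cast at h
  linarith

end

end Crest.Agent.R347.OSec
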