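import Crest.Agent.R347.OpenGmat

/-! Sector partition functions of the open chain from kernel runs. -/

set_option autoImplicit false

namespace Crest.Agent.R347.OSec

open Matrix Crest.MathPhysics.SpinChain Crest.Agent.R347.Num

noncomputable section

/-! ### crude bound -/

def qbl (r : ℕ) : List ℕ → ℕ → ℕ → ℕ
  | [], _, _ => 0
  | u :: l, k, rk => u * rk * (k + 1) + qbl r l (k + 1) (rk * r)

theorem qbl_eq (r : ℕ) (l : List ℕ) : ∀ k rk : ℕ, ((qbl r l k rk : ℕ) : ℝ) =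
    ∑ j ∈ Finset.range l.length, ((l.getD j 0 : ℕ) : ℝ) * (rk * (r : ℝ) ^ j) * (k + j + 1) := by
  induction l with
  | nil => intro k rk; simp [qbl]
  | cons u l ih =>
    intro k rk
    rw [qbl, List.length_cons, Finset.sum_range_succ']
    push_cast
    rw [ih]
    simp only [List.getD_cons_zero, List.getD_cons_succ, pow_zero]
    rw [add_comm]
    congr 1
    · refine Finset.sum_congr rfl fun j _ => ?_
      push_cast
      ring
    · ring

theorem clv_le_qbl (r : ℕ) (hr : 0 < r) (us : List ℕ) (g : ℝ) (hg : |g| ≤ 2 * r) :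
    |clv g (r ^ 2) us| ≤ ((qbl r us.reverse 0 1 : ℕ) : ℝ) := by
  refine (clv_abs_le r hr us g hg).trans (le_of_eq ?_)
  rw [qbl_eq, List.length_reverse]
  refine Finset.sum_congr rfl fun k _ => ?_
  push_cast
  ring

/-! ### sector sums -/

/-- Boltzmann weights of a sector -/
def zS {t : Bool} (D : Dg (HO t) lab) (s : Fin 17) : ℝ :=
  ∑ i ∈ Finset.univ.filter (fun i => lab i = s), Real.exp (-6 * D.lam i)

/-- sector trace of the polynomial -/
def TS (t : Bool) (c1 ρ : ℕ) (us : List ℕ) (s : ℕ) : ℤ :=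
  ∑ σ ∈ Finset.univ.filter (fun σ : Cfg 8 => dsum σ = s),
    clv (Gmat 5 c1 ob (fO t)) ρ us σ σ

theorem filter_lab (s : Fin 17) : Finset.univ.filter (fun σ : Cfg 8 => lab σ = s) =
    Finset.univ.filter (fun σ : Cfg 8 => dsum σ = (s : ℕ)) :=
  Finset.filter_congr fun σ _ => lab_eq σ s

theorem TS_flip (c1 ρ : ℕ) (us : List ℕ) (s s' : ℕ) (h : s + s' = 16) :
    TS true c1 ρ us s' = TS true c1 ρ us s := by
  unfold TS
  have hmem : ∀ a b : ℕ, a + b = 16 → ∀ σ : Cfg 8,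
      σ ∈ Finset.univ.filter (fun σ : Cfg 8 => dsum σ = a) →
      Ro true σ ∈ Finset.univ.filter (fun σ : Cfg 8 => dsum σ = b) := by
    intro a b hab σ hσ
    rw [Finset.mem_filter] at hσ ⊢
    refine ⟨Finset.mem_univ _, ?_⟩
    have h1 : dsum (Ro true σ) + dsum σ = 2 * 8 := dsum_rfl' σ
    omega
  refine Finset.sum_nbij' (Ro true) (Ro true) (hmem s' s (by omega)) (hmem s s' h)
    (fun σ _ => Ro_Ro true σ) (fun σ _ => Ro_Ro true σ) ?_
  intro σ _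
  exact (clv_Ro true c1 ρ us σ).symm

/-- code level fields -/
def foL (t : Bool) : List Fd := bif t then foY else foX

theorem ob_toBd : ob.map Bond.toBd = obL := by rfl

theorem ob_un_toBd : (ob.map fun b => b.un.toBd) = obL := by rfl

theorem fO_toFd (t : Bool) : (fO t).map Fld.toFd = foL t := by
  cases t <;> rfl

/-- facts about one block -/
def BlkRun (t : Bool) (r c1 : ℕ) (us : List ℕ) (pm : ℕ) (J : List (ℕ × ℕ)) (R : ℕ) : Prop :=
  ∃ w K K1 : ℕ, run1 5 (r ^ 2) c1 1000 w K K1 obL (foL t) J us = R ∧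
    (Nat.beq K (w * J.length) && Nat.beq K1 (w * (J.length - 1)) && Nat.ble 1 w &&
      Nat.ble (2 * ((J.map Prod.snd).sum * pm) + 1) (2 ^ w) && Nat.ble (R + 1) (2 ^ (w - 1)) &&
      Nat.ble 1 J.length) = true

theorem block_ok (t : Bool) (r c1 : ℕ) (us : List ℕ) (pm : ℕ) (hr : r ^ 2 ≤ 800) (s : ℕ)
    (hQ : ∀ σ τ : Cfg 8, dsum σ = s → |clv (Gmat 5 c1 ob (fO t)) (r ^ 2) us σ τ| ≤ pm)
    (J : List (ℕ × ℕ)) (R : ℕ) (h : BlkRun t r c1 us pm J R)
    (hJ1 : ∀ x ∈ J, okc 8 x.1 = true ∧ dsc 8 x.1 = s) (hJ2 : (J.map Prod.fst).Nodup) :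
    (R : ℤ) ≤ wdiag (clv (Gmat 5 c1 ob (fO t)) (r ^ 2) us) id (dJ 8 J) ∧
    wdiag (clv (Gmat 5 c1 ob (fO t)) (r ^ 2) us) id (dJ 8 J) ≤ R + 1 := by
  obtain ⟨w, K, K1, hrun, hchk⟩ := h
  simp only [Bool.and_eq_true, Nat.ble_eq] at hchk
  obtain ⟨⟨⟨⟨⟨h1, h2⟩, h3⟩, h4⟩, h5⟩, h6⟩ := hchk
  have hK := Nat.eq_of_beq_eq_true h1
  have hK1 := Nat.eq_of_beq_eq_true h2
  have hok : ∀ x ∈ J, okc 8 x.1 = true := fun x hx => (hJ1 x hx).1
  have key := block_spec 5 (r ^ 2) c1 1000 w ob (fO t) ob_ne (by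
    rw [ob_length]
    have : ((fO t).map fun b => b.t0 + b.t1 + b.t2).sum = 18 := by
      cases t <;> decide
    rw [this]
    omega) us (G_label t c1) s pm hQ h3 (dJ 8 J) (by
      intro h0
      have h7 := congrArg List.length h0
      rw [dJ_length, List.length_nil] at h7
      omega) (dJ_nodup 8 J hok hJ2) (by
      intro x hx
      unfold dJ at hx
      rw [List.mem_map] at hx
      obtain ⟨y, hy, rfl⟩ := hx
      show dsum (dec 8 y.1) = s
      rw [dsum_dec 8 y.1 (hok y hy)]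
      exact (hJ1 y hy).2) (by
      rw [dJ_snd]
      omega)
  rw [dJ_length, dJ_codes 8 J hok, ob_toBd, fO_toFd, ← hK, ← hK1, hrun] at key
  have hs : sgnd w R = (R : ℤ) := by
    unfold sgnd
    rw [if_pos (by omega)]
  rw [hs] at key
  exact key

theorem wdiag_append {L : ℕ} (Q : Matrix (Cfg L) (Cfg L) ℤ) (J J' : List (Cfg L × ℕ)) :
    wdiag Q id (J ++ J') = wdiag Q id J + wdiag Q id J' := by
  unfold wdiag
  rw [List.map_append, List.sum_append]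

theorem blocks_ok (t : Bool) (r c1 : ℕ) (us : List ℕ) (pm : ℕ) (hr : r ^ 2 ≤ 800) (s : ℕ)
    (hQ : ∀ σ τ : Cfg 8, dsum σ = s → |clv (Gmat 5 c1 ob (fO t)) (r ^ 2) us σ τ| ≤ pm)
    (Bs : List (List (ℕ × ℕ) × ℕ)) (h : ∀ p ∈ Bs, BlkRun t r c1 us pm p.1 p.2)
    (hJ1 : ∀ x ∈ (Bs.map Prod.fst).flatten, okc 8 x.1 = true ∧ dsc 8 x.1 = s)
    (hJ2 : ((Bs.map Prod.fst).flatten.map Prod.fst).Nodup) :
    (((Bs.map Prod.snd).sum : ℕ) : ℤ) ≤
        wdiag (clv (Gmat 5 c1 ob (fO t)) (r ^ 2) us) id (dJ 8 (Bs.map Prod.fst).flatten) ∧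
    wdiag (clv (Gmat 5 c1 ob (fO t)) (r ^ 2) us) id (dJ 8 (Bs.map Prod.fst).flatten) ≤
      (((Bs.map Prod.snd).sum : ℕ) : ℤ) + Bs.length := by
  induction Bs with
  | nil => simp [wdiag, dJ]
  | cons p Bs ih =>
    have e : ((p :: Bs).map Prod.fst).flatten = p.1 ++ (Bs.map Prod.fst).flatten := by simp
    rw [e] at hJ1 hJ2 ⊢
    rw [List.map_append] at hJ2
    have hn := List.nodup_append.mp hJ2
    obtain ⟨h1, h2⟩ := ih (fun q hq => h q (List.mem_cons_of_mem _ hq))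
      (fun x hx => hJ1 x (List.mem_append_right _ hx)) hn.2.1
    obtain ⟨h3, h4⟩ := block_ok t r c1 us pm hr s hQ p.1 p.2 (h p List.mem_cons_self)
      (fun x hx => hJ1 x (List.mem_append_left _ hx)) hn.1
    rw [dJ_append, wdiag_append, List.map_cons, List.sum_cons, List.length_cons, Nat.cast_add,
      Nat.cast_add, Nat.cast_one]
    constructor <;> linarith

/-- reversed code according to the symmetry used -/
def rcode (m : Fin 3) (c : ℕ) : ℕ :=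
  match m with
  | 0 => c
  | 1 => rvc 8 c 0
  | 2 => rfc 8 c 0

/-- bounds for the sector trace of the polynomial -/
theorem TS_bounds (t : Bool) (r c1 : ℕ) (us : List ℕ) (pm : ℕ) (hr : r ^ 2 ≤ 800) (s : ℕ)
    (hQ : ∀ σ τ : Cfg 8, dsum σ = s → |clv (Gmat 5 c1 ob (fO t)) (r ^ 2) us σ τ| ≤ pm)
    (m : Fin 3) (hm : m = 0 ∨ (m = 1 ∧ t = false) ∨ (m = 2 ∧ t = true ∧ s = 8))
    (Bs : List (List (ℕ × ℕ) × ℕ)) (h : ∀ p ∈ Bs, BlkRun t r c1 us pm p.1 p.2)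
    (hchk : chkJ 8 s (rcode m) (Bs.map Prod.fst).flatten 0 = true)
    (hsum : ((Bs.map Prod.fst).flatten.map Prod.snd).sum = cnt 8 s) :
    (((Bs.map Prod.snd).sum : ℕ) : ℤ) ≤ TS t c1 (r ^ 2) us s ∧
      TS t c1 (r ^ 2) us s ≤ (((Bs.map Prod.snd).sum : ℕ) : ℤ) + Bs.length := by
  obtain ⟨h1, h2⟩ := chkJ_spec 8 s _ _ _ hchk
  have hb := blocks_ok t r c1 us pm hr s hQ Bs h (fun x hx => ⟨(h1 x hx).2.1, (h1 x hx).2.2.1⟩) h2
  have hT : TS t c1 (r ^ 2) us s =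
      wdiag (clv (Gmat 5 c1 ob (fO t)) (r ^ 2) us) id (dJ 8 (Bs.map Prod.fst).flatten) := by
    rcases hm with rfl | ⟨rfl, rfl⟩ | ⟨rfl, rfl, rfl⟩
    · exact sector_cover 8 s id (fun _ => rfl) (fun _ h => h) (rcode 0) (fun c hc =>
        (code_dec 8 c hc).symm) _ 0 hchk hsum _ (fun _ => rfl)
    · exact sector_cover 8 s rv rv_rv (fun σ h => by rw [dsum_rv, h]) (rcode 1) (fun c hc => by
        show rvc 8 c 0 = _
        rw [rvc_eq 8 c 0 hc]; simp) _ 0 hchk hsum _ (fun σ => clv_Ro false c1 _ us σ)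
    · exact sector_cover 8 8 rfl' rfl'_rfl' (fun σ h => by
        have := dsum_rfl' σ; omega) (rcode 2) (fun c hc => by
        show rfc 8 c 0 = _
        rw [rfc_eq 8 c 0 hc]; simp) _ 0 hchk hsum _ (fun σ => clv_Ro true c1 _ us σ)
  rw [hT]
  exact hb

/-- the sector partition function, from the polynomial trace -/
theorem zS_approx {t : Bool} (D : Dg (HO t) lab) (r c1 : ℕ) (hr : 0 < r) (us : List ℕ)
    (hne : us ≠ []) {acc pm : ℤ}
    (hgo : (ExpApprox.go r (12 * r) 5 0 1 (alt false us.reverse)).2.2 = (acc, pm)) (s : Fin 17)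
    (left : ℤ) (hc1 : (c1 : ℤ) = 41 + left + 2 * r)
    (hspec : ∀ i, lab i = s → (left : ℝ) ≤ 5 * D.lam i ∧ 5 * D.lam i ≤ left + 4 * r) :
    |(pm : ℝ) * Real.exp (6 / 5 * left) * zS D s - (TS t c1 (r ^ 2) us s : ℝ)| ≤
      (cnt 8 s : ℝ) * ((acc : ℝ) / (12 * r)) := by
  have hc : ((c1 : ℝ) - 41) = (left : ℝ) + 2 * r := by
    have : ((c1 : ℤ) : ℝ) = ((41 + left + 2 * r : ℤ) : ℝ) := by rw [hc1]
    push_cast at this
    linarith
  have key := D.sector_approx (cxG t c1) r hr us hne hgo s left hc hspec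
  rw [filter_lab, card_sector] at key
  have e : (∑ i ∈ Finset.univ.filter (fun i : Cfg 8 => dsum i = (s : ℕ)),
      Real.exp (-6 * D.lam i)) = zS D s := by
    unfold zS
    rw [filter_lab]
  rw [e] at key
  exact key

theorem entry_pm {t : Bool} (D : Dg (HO t) lab) (r c1 : ℕ) (hr : 0 < r) (us : List ℕ)
    (pm : ℕ) (hq : qbl r us.reverse 0 1 = pm) (s : Fin 17)
    (left : ℤ) (hc1 : (c1 : ℤ) = 41 + left + 2 * r)
    (hspec : ∀ i, lab i = s → (left : ℝ) ≤ 5 * D.lam i ∧ 5 * D.lam i ≤ left + 4 * r)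
    (σ τ : Cfg 8) (hσ : dsum σ = (s : ℕ)) :
    |clv (Gmat 5 c1 ob (fO t)) (r ^ 2) us σ τ| ≤ pm := by
  have hc : ((c1 : ℝ) - 41) = (left : ℝ) + 2 * r := by
    have : ((c1 : ℤ) : ℝ) = ((41 + left + 2 * r : ℤ) : ℝ) := by rw [hc1]
    push_cast at this
    linarith
  refine D.entry_bound (cxG t c1) (r ^ 2) us s pm ?_ σ τ ((lab_eq σ s).mpr hσ)
  intro i hi
  rw [← hq]
  refine clv_le_qbl r hr us _ ?_
  obtain ⟨h1, h2⟩ := hspec i hi
  rw [hc, abs_le]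
  constructor <;> linarith

/-- **one sector**: `s` computed, `s'` target (equal, or mirror image for opposite fields) -/
theorem sector_val {t : Bool} (D : Dg (HO t) lab) (r c1 : ℕ) (hr0 : 0 < r) (hr : r ^ 2 ≤ 800)
    (us : List ℕ) (hne : us ≠ []) {acc : ℤ} {pm : ℕ}
    (hgo : (ExpApprox.go r (12 * r) 5 0 1 (alt false us.reverse)).2.2 = (acc, (pm : ℤ)))
    (hq : qbl r us.reverse 0 1 = pm) (s s' : Fin 17)
    (hss : s' = s ∨ (t = true ∧ (s : ℕ) + s' = 16))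
    (left : ℤ) (hc1 : (c1 : ℤ) = 41 + left + 2 * r)
    (hspec : ∀ i, lab i = s → (left : ℝ) ≤ 5 * D.lam i ∧ 5 * D.lam i ≤ left + 4 * r)
    (hspec' : ∀ i, lab i = s' → (left : ℝ) ≤ 5 * D.lam i ∧ 5 * D.lam i ≤ left + 4 * r)
    (m : Fin 3) (hm : m = 0 ∨ (m = 1 ∧ t = false) ∨ (m = 2 ∧ t = true ∧ (s : ℕ) = 8))
    (Bs : List (List (ℕ × ℕ) × ℕ)) (h : ∀ p ∈ Bs, BlkRun t r c1 us pm p.1 p.2)
    (hchk : chkJ 8 s (rcode m) (Bs.map Prod.fst).flatten 0 = true)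
    (hsum : ((Bs.map Prod.fst).flatten.map Prod.snd).sum = cnt 8 s) :
    |(pm : ℝ) * Real.exp (6 / 5 * left) * zS D s' - (((Bs.map Prod.snd).sum : ℕ) : ℝ)| ≤
      (cnt 8 s' : ℝ) * ((acc : ℝ) / (12 * r)) + Bs.length := by
  have h1 := TS_bounds t r c1 us pm hr s (entry_pm D r c1 hr0 us pm hq s left hc1 hspec) m hm Bs h
    hchk hsum
  have h2 := zS_approx D r c1 hr0 us hne hgo s' left hc1 hspec'
  have h3 : TS t c1 (r ^ 2) us s' = TS t c1 (r ^ 2) us s := by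
    rcases hss with h7 | ⟨rfl, h7⟩
    · rw [h7]
    · exact TS_flip c1 (r ^ 2) us s s' h7
  rw [h3] at h2
  have h4 : |((TS t c1 (r ^ 2) us s : ℤ) : ℝ) - (((Bs.map Prod.snd).sum : ℕ) : ℝ)| ≤ Bs.length := by
    have h5 : |TS t c1 (r ^ 2) us s - (((Bs.map Prod.snd).sum : ℕ) : ℤ)| ≤ (Bs.length : ℤ) := by
      rw [abs_le]
      constructor <;> linarith [h1.1, h1.2, (Int.natCast_nonneg Bs.length)]
    have h6 : ((|TS t c1 (r ^ 2) us s - (((Bs.map Prod.snd).sum : ℕ) : ℤ)| : ℤ) : ℝ) ≤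
        ((Bs.length : ℤ) : ℝ) := Int.cast_le.mpr h5
    rw [Int.cast_abs, Int.cast_sub, Int.cast_natCast, Int.cast_natCast] at h6
    exact h6
  have e : ((((pm : ℕ) : ℤ)) : ℝ) = (pm : ℝ) := by push_cast; rfl
  rw [e] at h2
  calc |(pm : ℝ) * Real.exp (6 / 5 * left) * zS D s' - (((Bs.map Prod.snd).sum : ℕ) : ℝ)|
      = |((pm : ℝ) * Real.exp (6 / 5 * left) * zS D s' - (TS t c1 (r ^ 2) us s : ℝ)) +
        (((TS t c1 (r ^ 2) us s : ℤ) : ℝ) - (((Bs.map Prod.snd).sum : ℕ) : ℝ))| := by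
        congr 1; ring
    _ ≤ _ := (abs_add_le _ _).trans (add_le_add h2 h4)

/-- crude bound of a sector -/
theorem zS_le {t : Bool} (D : Dg (HO t) lab) (s : Fin 17) (left : ℝ)
    (hspec : ∀ i, lab i = s → left ≤ 5 * D.lam i) :
    0 ≤ zS D s ∧ zS D s ≤ (cnt 8 s : ℝ) * Real.exp (-(6 / 5 * left)) := by
  unfold zS
  refine ⟨Finset.sum_nonneg fun i _ => (Real.exp_pos _).le, ?_⟩
  have h : ∑ i ∈ Finset.univ.filter (fun i => lab i = s), Real.exp (-6 * D.lam i) ≤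
      ∑ _i ∈ Finset.univ.filter (fun i : Cfg 8 => lab i = s), Real.exp (-(6 / 5 * left)) := by
    refine Finset.sum_le_sum fun i hi => ?_
    rw [Finset.mem_filter] at hi
    rw [Real.exp_le_exp]
    have := hspec i hi.2
    linarith
  refine h.trans (le_of_eq ?_)
  rw [Finset.sum_const, nsmul_eq_mul, filter_lab, card_sector]

/-! ### the partition functions -/

theorem Zop_succ (b : Fin 4) (hl hr β : ℝ) (n : ℕ) : Zop b hl hr β (n + 1) =
    (Matrix.trace (piK (fun _ : Fin (n + 1) => rotC b) *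
      NormedSpace.exp (-(β : ℂ) • openH n hl hr))).re := rfl

theorem trace_zero (t : Bool) (D : Dg (HO t) lab) :
    Zop 0 (3 / 5) (hr t) 6 8 = ∑ s : Fin 17, zS D s := by
  have h := trace_sector_exp D.h1 D.h2 D.h3 D.h4 (fun _ => (1 : ℂ)) 6
  have e1 : (diagonal (fun _ : Cfg 8 => (1 : ℂ))) = 1 := Matrix.diagonal_one
  rw [e1] at h
  have e2 : piK (fun _ : Fin 8 => rotC 0) = 1 := piK_one
  rw [Zop_succ 0 (3 / 5) (hr t) 6 7, e2]
  change (trace ((1 : Matrix (Cfg 8) (Cfg 8) ℂ) *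
    NormedSpace.exp (-((6 : ℝ) : ℂ) • HO t))).re = _
  rw [h]
  simp only [one_mul]
  rw [← Complex.ofReal_sum, Complex.ofReal_re]
  unfold zS
  exact (Finset.sum_fiberwise Finset.univ lab (fun i => Real.exp (-6 * D.lam i))).symm

theorem trace_three (t : Bool) (D : Dg (HO t) lab) :
    Zop 3 (3 / 5) (hr t) 6 8 = ∑ s : Fin 17, (-1) ^ (s : ℕ) * zS D s := by
  have h := trace_sector_exp D.h1 D.h2 D.h3 D.h4 (fun s : Fin 17 => (-1 : ℂ) ^ (s : ℕ)) 6
  have e2 : piK (fun _ : Fin 8 => rotC 3) =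
      diagonal (fun σ : Cfg 8 => (-1 : ℂ) ^ ((lab σ : Fin 17) : ℕ)) := by
    rw [piK_rotC_three]
    congr 1
    funext σ
    have h1 : ∀ a : Fin 3, (if a = 1 then (1 : ℂ) else -1) = (-1) ^ ((a : ℕ) + 1) := by
      intro a
      fin_cases a <;> norm_num
    simp only [h1]
    rw [Finset.prod_pow_eq_pow_sum, Finset.sum_add_distrib]
    show _ = (-1 : ℂ) ^ (dsum σ)
    unfold dsum
    rw [pow_add]
    norm_num
  rw [Zop_succ 3 (3 / 5) (hr t) 6 7, e2]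
  change (trace ((diagonal (fun σ : Cfg 8 => (-1 : ℂ) ^ ((lab σ : Fin 17) : ℕ))) *
    NormedSpace.exp (-((6 : ℝ) : ℂ) • HO t))).re = _
  rw [h]
  have e3 : ∀ i : Cfg 8, (-1 : ℂ) ^ ((lab i : Fin 17) : ℕ) * ((Real.exp (-6 * D.lam i) : ℝ) : ℂ) =
      (((-1 : ℝ) ^ ((lab i : Fin 17) : ℕ) * Real.exp (-6 * D.lam i) : ℝ) : ℂ) := by
    intro i; push_cast; ring
  simp only [e3]
  rw [← Complex.ofReal_sum, Complex.ofReal_re]
  rw [← Finset.sum_fiberwise Finset.univ lab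
    (fun i => (-1 : ℝ) ^ ((lab i : Fin 17) : ℕ) * Real.exp (-6 * D.lam i))]
  refine Finset.sum_congr rfl fun s _ => ?_
  unfold zS
  rw [Finset.mul_sum]
  refine Finset.sum_congr rfl fun i hi => ?_
  rw [Finset.mem_filter] at hi
  rw [hi.2]

end

end Crest.Agent.R347.OSec
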