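import Crest.Agent.R347.OpenTrace
import Crest.Agent.R347.OpenDi
import Crest.Agent.R347.OpenCW

/-! Sector values of the open chain certificate (generated). -/

set_option autoImplicit false
set_option Elab.async false
set_option maxRecDepth 100000

namespace Crest.Agent.R347.OSec

open Matrix Crest.MathPhysics.SpinChain Crest.Agent.R347.Num

noncomputable section

def pmY0 : ℕ := 16628757810046647957234550455349716197237439191179668870762210219208796993294358

def accY0 : ℤ := 26491204735994275709972722666959075708525645651337184656237657029581897184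

def BsY0 : List (List (ℕ × ℕ) × ℕ) := [
  (JY0_0, 49125596181929079026333286525779531711142599760239739204155162304556386095),
  (JY0_1, 6401157029426642484021938824710731242791835564432910589197056666109826849361),
  (JY0_2, 94444327562955578631057534666468587093485661146093474696926156146281349710791),
  (JY0_3, 132813010672140913599458886418529511493110767612941495122271359443383909389959),
  (JY0_4, 1836975457291523210270399588151766886319566586535272722967350058602326726942519),
  (JY0_5, 926264089583280641653251818679940009172962192993627188583967726166374247738092),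
  (JY0_6, 5434242025209843339674604998499834814551585407269094664624501005756332123395059)]

theorem goY0 : (ExpApprox.go ((24 : ℕ) : ℤ) (12 * ((24 : ℕ) : ℤ)) 5 0 1
    (alt false usY0.reverse)).2.2 = (accY0, ((pmY0 : ℕ) : ℤ)) := by decide +kernel

theorem qY0 : qbl 24 usY0.reverse 0 1 = pmY0 := by decide +kernel

theorem runY0 : ∀ p ∈ BsY0, BlkRun true 24 34 usY0 pmY0 p.1 p.2 := by
  intro p hp
  unfold BsY0 at hp
  simp only [List.mem_cons, List.not_mem_nil, or_false] at hp
  rcases hp with rfl | rfl | rfl | rfl | rfl | rfl | rfl
  · exact ⟨272, 23120, 22848, rY0_0, by decide +kernel⟩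
  · exact ⟨272, 23120, 22848, rY0_1, by decide +kernel⟩
  · exact ⟨272, 23120, 22848, rY0_2, by decide +kernel⟩
  · exact ⟨272, 23120, 22848, rY0_3, by decide +kernel⟩
  · exact ⟨272, 23120, 22848, rY0_4, by decide +kernel⟩
  · exact ⟨272, 23120, 22848, rY0_5, by decide +kernel⟩
  · exact ⟨272, 22848, 22576, rY0_6, by decide +kernel⟩

theorem chkY0 : chkJ 8 8 (rcode 2) (BsY0.map Prod.fst).flatten 0 = true := by decide +kernel

theorem sumY0 : ((BsY0.map Prod.fst).flatten.map Prod.snd).sum = cnt 8 8 := by decide +kernel

theorem totY0 : (BsY0.map Prod.snd).sum = 8431189192945352255391821098527776319405213593721222696323417517943112740411876 := by decide +kernel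

def pmY1 : ℕ := 7779048419489909584220767997218419785445442336796758560831447446

def accY1 : ℤ := 3271596610906608779411156460776245523448741740005771808045532

def BsY1 : List (List (ℕ × ℕ) × ℕ) := [
  (JY1_0, 6802717915191803891222529852667473932412705287171398562857516),
  (JY1_1, 416195864380139895957518418248363112538070762484913521450300527),
  (JY1_2, 1089852013119834896813725611893215919090311563104606458978787020),
  (JY1_3, 864887463891900582034357704126058213236130136082027891400354841),
  (JY1_4, 1793621615194729208136104113556778767324077537911350602214584908),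
  (JY1_5, 416741227171082739300166352529380572932803458971603011687722639),
  (JY1_6, 2017656307900061353515104915946663557419802673719654704132981408),
  (JY1_7, 312386268200874218921561299164668222391672607819087250085912101)]

theorem goY1 : (ExpApprox.go ((23 : ℕ) : ℤ) (12 * ((23 : ℕ) : ℤ)) 5 0 1
    (alt false usY1.reverse)).2.2 = (accY1, ((pmY1 : ℕ) : ℤ)) := by decide +kernel

theorem qY1 : qbl 23 usY1.reverse 0 1 = pmY1 := by decide +kernel

theorem runY1 : ∀ p ∈ BsY1, BlkRun true 23 36 usY1 pmY1 p.1 p.2 := by
  intro p hp
  unfold BsY1 at hp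
  simp only [List.mem_cons, List.not_mem_nil, or_false] at hp
  rcases hp with rfl | rfl | rfl | rfl | rfl | rfl | rfl | rfl
  · exact ⟨221, 28067, 27846, rY1_0, by decide +kernel⟩
  · exact ⟨221, 28067, 27846, rY1_1, by decide +kernel⟩
  · exact ⟨221, 28067, 27846, rY1_2, by decide +kernel⟩
  · exact ⟨221, 28067, 27846, rY1_3, by decide +kernel⟩
  · exact ⟨221, 28067, 27846, rY1_4, by decide +kernel⟩
  · exact ⟨221, 28067, 27846, rY1_5, by decide +kernel⟩
  · exact ⟨221, 28067, 27846, rY1_6, by decide +kernel⟩
  · exact ⟨221, 28067, 27846, rY1_7, by decide +kernel⟩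

theorem chkY1 : chkJ 8 7 (rcode 0) (BsY1.map Prod.fst).flatten 0 = true := by decide +kernel

theorem sumY1 : ((BsY1.map Prod.fst).flatten.map Prod.snd).sum = cnt 8 7 := by decide +kernel

theorem totY1 : (BsY1.map Prod.snd).sum = 6918143477773814698569760945317795838865281445380414838513500960 := by decide +kernel

def pmY2 : ℕ := 137006842136149500996738179169209512867450660567

def accY2 : ℤ := 14487768184483089148497769405820657821815489848

def BsY2 : List (List (ℕ × ℕ) × ℕ) := [
  (JY2_0, 20440291693679845800195315332729507040957239059),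
  (JY2_1, 77043175359751045778132880620656199788232692858),
  (JY2_2, 24945734313675949529299780481849261821892395592)]

theorem goY2 : (ExpApprox.go ((22 : ℕ) : ℤ) (12 * ((22 : ℕ) : ℤ)) 5 0 1
    (alt false usY2.reverse)).2.2 = (accY2, ((pmY2 : ℕ) : ℤ)) := by decide +kernel

theorem qY2 : qbl 22 usY2.reverse 0 1 = pmY2 := by decide +kernel

theorem runY2 : ∀ p ∈ BsY2, BlkRun true 22 39 usY2 pmY2 p.1 p.2 := by
  intro p hp
  unfold BsY2 at hp
  simp only [List.mem_cons, List.not_mem_nil, or_false] at hp
  rcases hp with rfl | rfl | rfl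
  · exact ⟨166, 43492, 43326, rY2_0, by decide +kernel⟩
  · exact ⟨166, 43492, 43326, rY2_1, by decide +kernel⟩
  · exact ⟨166, 43160, 42994, rY2_2, by decide +kernel⟩

theorem chkY2 : chkJ 8 6 (rcode 0) (BsY2.map Prod.fst).flatten 0 = true := by decide +kernel

theorem sumY2 : ((BsY2.map Prod.fst).flatten.map Prod.snd).sum = cnt 8 6 := by decide +kernel

theorem totY2 : (BsY2.map Prod.snd).sum = 122429201367106841107627976435234968651082327509 := by decide +kernel

def pmX1 : ℕ := 1222774806571189184453785030576014188977267335594247791667573170561714794582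

def accX1 : ℤ := 14377402614043573438228229641441735482408562385520756398887389908719008

def BsX1 : List (List (ℕ × ℕ) × ℕ) := [
  (JX1_0, 1721852528449937906395962982497576588505035135990180869918063441142735809),
  (JX1_1, 59514118001129619183219622494214204222512065164122736370293940037316994677),
  (JX1_2, 460049750210721514003009353753738304043629364637151403574870718296402254271),
  (JX1_3, 35086829205885828402606893123663244517989130727021800879399564570295075091),
  (JX1_4, 23789804844486398694202786911513573525890891086976186293614002028417149429)]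

theorem goX1 : (ExpApprox.go ((24 : ℕ) : ℤ) (12 * ((24 : ℕ) : ℤ)) 5 0 1
    (alt false usX1.reverse)).2.2 = (accX1, ((pmX1 : ℕ) : ℤ)) := by decide +kernel

theorem qX1 : qbl 24 usX1.reverse 0 1 = pmX1 := by decide +kernel

theorem runX1 : ∀ p ∈ BsX1, BlkRun false 24 35 usX1 pmX1 p.1 p.2 := by
  intro p hp
  unfold BsX1 at hp
  simp only [List.mem_cons, List.not_mem_nil, or_false] at hp
  rcases hp with rfl | rfl | rfl | rfl | rfl
  · exact ⟨259, 26418, 26159, rX1_0, by decide +kernel⟩
  · exact ⟨259, 26418, 26159, rX1_1, by decide +kernel⟩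
  · exact ⟨259, 26418, 26159, rX1_2, by decide +kernel⟩
  · exact ⟨259, 26418, 26159, rX1_3, by decide +kernel⟩
  · exact ⟨259, 25900, 25641, rX1_4, by decide +kernel⟩

theorem chkX1 : chkJ 8 7 (rcode 1) (BsX1.map Prod.fst).flatten 0 = true := by decide +kernel

theorem sumX1 : ((BsX1.map Prod.fst).flatten.map Prod.snd).sum = cnt 8 7 := by decide +kernel

theorem totX1 : (BsX1.map Prod.snd).sum = 580162354790673298189434619265626902898526486751262307988096288373574209277 := by decide +kernel

def pmX0 : ℕ := 216655523715539360369182498735186333609884992621126647947460121132279647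

def accX0 : ℤ := 12314218294325493330091457186993403629019904609599199138099349323680

def BsX0 : List (List (ℕ × ℕ) × ℕ) := [
  (JX0_0, 640449468466855177640347643076592972323972170740610380971690568322575),
  (JX0_1, 21037019853285702273155529119734567031432248707521194383571615077962823),
  (JX0_2, 119050222701499255408800189610574179407472615350640668052720165185050249),
  (JX0_3, 9556519820703628762865642984931824170934280386054785312449523704438815),
  (JX0_4, 23303912886337879642495242090430494685467285974862698734513796768695415),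
  (JX0_5, 2089608422868698395859086545824019551285106014670775776688392542655312)]

theorem goX0 : (ExpApprox.go ((24 : ℕ) : ℤ) (12 * ((24 : ℕ) : ℤ)) 5 0 1
    (alt false usX0.reverse)).2.2 = (accX0, ((pmX0 : ℕ) : ℤ)) := by decide +kernel

theorem qX0 : qbl 24 usX0.reverse 0 1 = pmX0 := by decide +kernel

theorem runX0 : ∀ p ∈ BsX0, BlkRun false 24 37 usX0 pmX0 p.1 p.2 := by
  intro p hp
  unfold BsX0 at hp
  simp only [List.mem_cons, List.not_mem_nil, or_false] at hp
  rcases hp with rfl | rfl | rfl | rfl | rfl | rfl
  · exact ⟨246, 23124, 22878, rX0_0, by decide +kernel⟩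
  · exact ⟨246, 23124, 22878, rX0_1, by decide +kernel⟩
  · exact ⟨246, 23124, 22878, rX0_2, by decide +kernel⟩
  · exact ⟨246, 23124, 22878, rX0_3, by decide +kernel⟩
  · exact ⟨246, 23124, 22878, rX0_4, by decide +kernel⟩
  · exact ⟨246, 22878, 22632, rX0_5, by decide +kernel⟩

theorem chkX0 : chkJ 8 8 (rcode 1) (BsX0.map Prod.fst).flatten 0 = true := by decide +kernel

theorem sumX0 : ((BsX0.map Prod.fst).flatten.map Prod.snd).sum = cnt 8 8 := by decide +kernel

theorem totX0 : (BsX0.map Prod.snd).sum = 175677733153162019660816037994571677818915508604490732640915183847125189 := by decide +kernel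

def pmX2 : ℕ := 1144045510600120044851089301390247328016891545218265547183512

def accX2 : ℤ := 2402466472748548406737108425179329154587611555071452908118

def BsX2 : List (List (ℕ × ℕ) × ℕ) := [
  (JX2_0, 182261501609272005637657543108681867821586924286267309502109),
  (JX2_1, 636076165782262164708079561983854323330034330533098272584601)]

theorem goX2 : (ExpApprox.go ((23 : ℕ) : ℤ) (12 * ((23 : ℕ) : ℤ)) 5 0 1
    (alt false usX2.reverse)).2.2 = (accX2, ((pmX2 : ℕ) : ℤ)) := by decide +kernel

theorem qX2 : qbl 23 usX2.reverse 0 1 = pmX2 := by decide +kernel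

theorem runX2 : ∀ p ∈ BsX2, BlkRun false 23 37 usX2 pmX2 p.1 p.2 := by
  intro p hp
  unfold BsX2 at hp
  simp only [List.mem_cons, List.not_mem_nil, or_false] at hp
  rcases hp with rfl | rfl
  · exact ⟨210, 42000, 41790, rX2_0, by decide +kernel⟩
  · exact ⟨210, 42000, 41790, rX2_1, by decide +kernel⟩

theorem chkX2 : chkJ 8 6 (rcode 1) (BsX2.map Prod.fst).flatten 0 = true := by decide +kernel

theorem sumX2 : ((BsX2.map Prod.fst).flatten.map Prod.snd).sum = cnt 8 6 := by decide +kernel

theorem totX2 : (BsX2.map Prod.snd).sum = 818337667391534170345737105092536191151621254819365582086710 := by decide +kernel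

def pmXm1 : ℕ := 101352942384094542658256459446118617609092068227402078926

def accXm1 : ℤ := 813283903367448054241825186514859461302815527686646986

def BsXm1 : List (List (ℕ × ℕ) × ℕ) := [
  (JXm1_0, 10592589093247703421963945589877944935351864824054532149),
  (JXm1_1, 27840706814892514645164179879533205385840420306369277639),
  (JXm1_2, 37541745512856697169925243102216172081534576392610565953)]

theorem goXm1 : (ExpApprox.go ((23 : ℕ) : ℤ) (12 * ((23 : ℕ) : ℤ)) 5 0 1
    (alt false usXm1.reverse)).2.2 = (accXm1, ((pmXm1 : ℕ) : ℤ)) := by decide +kernel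

theorem qXm1 : qbl 23 usXm1.reverse 0 1 = pmXm1 := by decide +kernel

theorem runXm1 : ∀ p ∈ BsXm1, BlkRun false 23 39 usXm1 pmXm1 p.1 p.2 := by
  intro p hp
  unfold BsXm1 at hp
  simp only [List.mem_cons, List.not_mem_nil, or_false] at hp
  rcases hp with rfl | rfl | rfl
  · exact ⟨196, 33320, 33124, rXm1_0, by decide +kernel⟩
  · exact ⟨196, 33320, 33124, rXm1_1, by decide +kernel⟩
  · exact ⟨196, 32928, 32732, rXm1_2, by decide +kernel⟩

theorem chkXm1 : chkJ 8 9 (rcode 1) (BsXm1.map Prod.fst).flatten 0 = true := by decide +kernel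

theorem sumXm1 : ((BsXm1.map Prod.fst).flatten.map Prod.snd).sum = cnt 8 9 := by decide +kernel

theorem totXm1 : (BsXm1.map Prod.snd).sum = 75975041420996915237053368571627322402726861523034375741 := by decide +kernel

def pmX3 : ℕ := 26633841469031057990236036494300

def accX3 : ℤ := 189166659387267329336786101976070

def BsX3 : List (List (ℕ × ℕ) × ℕ) := [
  (JX3_0, 15991019761631354999304580841001)]

theorem goX3 : (ExpApprox.go ((21 : ℕ) : ℤ) (12 * ((21 : ℕ) : ℤ)) 5 0 1
    (alt false usX3.reverse)).2.2 = (accX3, ((pmX3 : ℕ) : ℤ)) := by decide +kernel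

theorem qX3 : qbl 21 usX3.reverse 0 1 = pmX3 := by decide +kernel

theorem runX3 : ∀ p ∈ BsX3, BlkRun false 21 40 usX3 pmX3 p.1 p.2 := by
  intro p hp
  unfold BsX3 at hp
  simp only [List.mem_cons, List.not_mem_nil, or_false] at hp
  subst hp
  · exact ⟨115, 28980, 28865, rX3_0, by decide +kernel⟩

theorem chkX3 : chkJ 8 5 (rcode 1) (BsX3.map Prod.fst).flatten 0 = true := by decide +kernel

theorem sumX3 : ((BsX3.map Prod.fst).flatten.map Prod.snd).sum = cnt 8 5 := by decide +kernel

theorem totX3 : (BsX3.map Prod.snd).sum = 15991019761631354999304580841001 := by decide +kernel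

def pmXm2 : ℕ := 15716955934130731798788750061

def accXm2 : ℤ := 244896819436113308980813524528

def BsXm2 : List (List (ℕ × ℕ) × ℕ) := [
  (JXm2_0, 14862981473409745775118517953)]

theorem goXm2 : (ExpApprox.go ((21 : ℕ) : ℤ) (12 * ((21 : ℕ) : ℤ)) 5 0 1
    (alt false usXm2.reverse)).2.2 = (accXm2, ((pmXm2 : ℕ) : ℤ)) := by decide +kernel

theorem qXm2 : qbl 21 usXm2.reverse 0 1 = pmXm2 := by decide +kernel

theorem runXm2 : ∀ p ∈ BsXm2, BlkRun false 21 41 usXm2 pmXm2 p.1 p.2 := by
  intro p hp
  unfold BsXm2 at hp
  simp only [List.mem_cons, List.not_mem_nil, or_false] at hp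
  subst hp
  · exact ⟨105, 42000, 41895, rXm2_0, by decide +kernel⟩

theorem chkXm2 : chkJ 8 10 (rcode 1) (BsXm2.map Prod.fst).flatten 0 = true := by decide +kernel

theorem sumXm2 : ((BsXm2.map Prod.fst).flatten.map Prod.snd).sum = cnt 8 10 := by decide +kernel

theorem totXm2 : (BsXm2.map Prod.snd).sum = 14862981473409745775118517953 := by decide +kernel

end

end Crest.Agent.R347.OSec
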