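import Crest.Agent.R347.OpenSpec
import Crest.Agent.R347.OpenVals
import Crest.Agent.R347.Data

/-! Certified open-chain traces (generated numbers). -/

set_option autoImplicit false
set_option maxRecDepth 100000

namespace Crest.Agent.R347.OSec

open Matrix Crest.MathPhysics.SpinChain Crest.Agent.R347.Num

noncomputable section

/-! ### two exponentials -/

def cA : ℝ := Real.exp (-(1271232 / 1000000))
def cB : ℝ := Real.exp (-(6 / 5))

theorem cA_bounds : (280485850259 / 10 ^ 12) ≤ cA ∧ cA ≤ (280485850260 / 10 ^ 12) := by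
  have h := Real.exp_bound (x := -(158904 / 1000000)) (by
    rw [abs_le]; constructor <;> norm_num) (n := 10) (by norm_num)
  have e : cA = Real.exp (-(158904 / 1000000)) ^ 8 := by
    unfold cA
    rw [← Real.exp_nat_mul]
    norm_num
  rw [abs_le] at h
  norm_num [Finset.sum_range_succ, Nat.factorial, abs_of_neg] at h
  have h1 : ((85307825055031 / 10 ^ 14) : ℝ) ≤ Real.exp (-(158904 / 1000000)) := by
    norm_num
    linarith [h.1]
  have h2 : Real.exp (-(158904 / 1000000)) ≤ ((85307825055034 / 10 ^ 14) : ℝ) := by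
    norm_num
    linarith [h.2]
  rw [e]
  constructor
  · calc ((280485850259 / 10 ^ 12) : ℝ) ≤ (85307825055031 / 10 ^ 14) ^ 8 := by norm_num
      _ ≤ _ := pow_le_pow_left₀ (by norm_num) h1 8
  · calc _ ≤ ((85307825055034 / 10 ^ 14) : ℝ) ^ 8 := pow_le_pow_left₀ (Real.exp_pos _).le h2 8
      _ ≤ (280485850260 / 10 ^ 12) := by norm_num

theorem cB_bounds : (301194211912 / 10 ^ 12) ≤ cB ∧ cB ≤ (301194211913 / 10 ^ 12) := by
  have h := Real.exp_bound (x := -(15 / 100)) (by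
    rw [abs_le]; constructor <;> norm_num) (n := 10) (by norm_num)
  have e : cB = Real.exp (-(15 / 100)) ^ 8 := by
    unfold cB
    rw [← Real.exp_nat_mul]
    norm_num
  rw [abs_le] at h
  norm_num [Finset.sum_range_succ, Nat.factorial, abs_of_neg] at h
  have h1 : ((86070797642504 / 10 ^ 14) : ℝ) ≤ Real.exp (-(15 / 100)) := by
    norm_num
    linarith [h.1]
  have h2 : Real.exp (-(15 / 100)) ≤ ((86070797642507 / 10 ^ 14) : ℝ) := by
    norm_num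
    linarith [h.2]
  rw [e]
  constructor
  · calc ((301194211912 / 10 ^ 12) : ℝ) ≤ (86070797642504 / 10 ^ 14) ^ 8 := by norm_num
      _ ≤ _ := pow_le_pow_left₀ (by norm_num) h1 8
  · calc _ ≤ ((86070797642507 / 10 ^ 14) : ℝ) ^ 8 := pow_le_pow_left₀ (Real.exp_pos _).le h2 8
      _ ≤ (301194211913 / 10 ^ 12) := by norm_num

theorem cAB (k : ℕ) (left : ℤ) (hk : left = -55 + k) :
    cA * cB ^ k = Real.exp (48 * e0 - 6 / 5 * left) := by
  unfold cA cB e0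
  rw [← Real.exp_nat_mul, ← Real.exp_add, hk]
  congr 1
  push_cast
  ring

theorem x0 : (2804858502590000 / 10 ^ 16) ≤ cA * cB ^ 0 ∧ cA * cB ^ 0 ≤ (2804858502600001 / 10 ^ 16) := by
  obtain ⟨h1, h2⟩ := cA_bounds
  obtain ⟨h3, h4⟩ := cB_bounds
  have hA : 0 < cA := Real.exp_pos _
  have hB : 0 < cB := Real.exp_pos _
  constructor
  · calc ((2804858502590000 / 10 ^ 16) : ℝ) ≤ (280485850259 / 10 ^ 12) * (301194211912 / 10 ^ 12) ^ 0 := by norm_num
      _ ≤ cA * cB ^ 0 := mul_le_mul h1 (pow_le_pow_left₀ (by norm_num) h3 0) (by positivity) hA.le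
  · calc cA * cB ^ 0 ≤ (280485850260 / 10 ^ 12) * (301194211913 / 10 ^ 12) ^ 0 :=
          mul_le_mul h2 (pow_le_pow_left₀ hB.le h4 0) (by positivity) (by norm_num)
      _ ≤ ((2804858502600001 / 10 ^ 16) : ℝ) := by norm_num

theorem x1 : (844807146212267 / 10 ^ 16) ≤ cA * cB ^ 1 ∧ cA * cB ^ 1 ≤ (844807146218085 / 10 ^ 16) := by
  obtain ⟨h1, h2⟩ := cA_bounds
  obtain ⟨h3, h4⟩ := cB_bounds
  have hA : 0 < cA := Real.exp_pos _
  have hB : 0 < cB := Real.exp_pos _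
  constructor
  · calc ((844807146212267 / 10 ^ 16) : ℝ) ≤ (280485850259 / 10 ^ 12) * (301194211912 / 10 ^ 12) ^ 1 := by norm_num
      _ ≤ cA * cB ^ 1 := mul_le_mul h1 (pow_le_pow_left₀ (by norm_num) h3 1) (by positivity) hA.le
  · calc cA * cB ^ 1 ≤ (280485850260 / 10 ^ 12) * (301194211913 / 10 ^ 12) ^ 1 :=
          mul_le_mul h2 (pow_le_pow_left₀ hB.le h4 1) (by positivity) (by norm_num)
      _ ≤ ((844807146218085 / 10 ^ 16) : ℝ) := by norm_num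

theorem x3 : (76639175228543 / 10 ^ 16) ≤ cA * cB ^ 3 ∧ cA * cB ^ 3 ≤ (76639175229581 / 10 ^ 16) := by
  obtain ⟨h1, h2⟩ := cA_bounds
  obtain ⟨h3, h4⟩ := cB_bounds
  have hA : 0 < cA := Real.exp_pos _
  have hB : 0 < cB := Real.exp_pos _
  constructor
  · calc ((76639175228543 / 10 ^ 16) : ℝ) ≤ (280485850259 / 10 ^ 12) * (301194211912 / 10 ^ 12) ^ 3 := by norm_num
      _ ≤ cA * cB ^ 3 := mul_le_mul h1 (pow_le_pow_left₀ (by norm_num) h3 3) (by positivity) hA.le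
  · calc cA * cB ^ 3 ≤ (280485850260 / 10 ^ 12) * (301194211913 / 10 ^ 12) ^ 3 :=
          mul_le_mul h2 (pow_le_pow_left₀ hB.le h4 3) (by positivity) (by norm_num)
      _ ≤ ((76639175229581 / 10 ^ 16) : ℝ) := by norm_num

theorem x4 : (23083275984546 / 10 ^ 16) ≤ cA * cB ^ 4 ∧ cA * cB ^ 4 ≤ (23083275984936 / 10 ^ 16) := by
  obtain ⟨h1, h2⟩ := cA_bounds
  obtain ⟨h3, h4⟩ := cB_bounds
  have hA : 0 < cA := Real.exp_pos _
  have hB : 0 < cB := Real.exp_pos _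
  constructor
  · calc ((23083275984546 / 10 ^ 16) : ℝ) ≤ (280485850259 / 10 ^ 12) * (301194211912 / 10 ^ 12) ^ 4 := by norm_num
      _ ≤ cA * cB ^ 4 := mul_le_mul h1 (pow_le_pow_left₀ (by norm_num) h3 4) (by positivity) hA.le
  · calc cA * cB ^ 4 ≤ (280485850260 / 10 ^ 12) * (301194211913 / 10 ^ 12) ^ 4 :=
          mul_le_mul h2 (pow_le_pow_left₀ hB.le h4 4) (by positivity) (by norm_num)
      _ ≤ ((23083275984936 / 10 ^ 16) : ℝ) := by norm_num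

theorem x5 : (6952549118512 / 10 ^ 16) ≤ cA * cB ^ 5 ∧ cA * cB ^ 5 ≤ (6952549118653 / 10 ^ 16) := by
  obtain ⟨h1, h2⟩ := cA_bounds
  obtain ⟨h3, h4⟩ := cB_bounds
  have hA : 0 < cA := Real.exp_pos _
  have hB : 0 < cB := Real.exp_pos _
  constructor
  · calc ((6952549118512 / 10 ^ 16) : ℝ) ≤ (280485850259 / 10 ^ 12) * (301194211912 / 10 ^ 12) ^ 5 := by norm_num
      _ ≤ cA * cB ^ 5 := mul_le_mul h1 (pow_le_pow_left₀ (by norm_num) h3 5) (by positivity) hA.le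
  · calc cA * cB ^ 5 ≤ (280485850260 / 10 ^ 12) * (301194211913 / 10 ^ 12) ^ 5 :=
          mul_le_mul h2 (pow_le_pow_left₀ hB.le h4 5) (by positivity) (by norm_num)
      _ ≤ ((6952549118653 / 10 ^ 16) : ℝ) := by norm_num

theorem x7 : (630721026174 / 10 ^ 16) ≤ cA * cB ^ 7 ∧ cA * cB ^ 7 ≤ (630721026192 / 10 ^ 16) := by
  obtain ⟨h1, h2⟩ := cA_bounds
  obtain ⟨h3, h4⟩ := cB_bounds
  have hA : 0 < cA := Real.exp_pos _
  have hB : 0 < cB := Real.exp_pos _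
  constructor
  · calc ((630721026174 / 10 ^ 16) : ℝ) ≤ (280485850259 / 10 ^ 12) * (301194211912 / 10 ^ 12) ^ 7 := by norm_num
      _ ≤ cA * cB ^ 7 := mul_le_mul h1 (pow_le_pow_left₀ (by norm_num) h3 7) (by positivity) hA.le
  · calc cA * cB ^ 7 ≤ (280485850260 / 10 ^ 12) * (301194211913 / 10 ^ 12) ^ 7 :=
          mul_le_mul h2 (pow_le_pow_left₀ hB.le h4 7) (by positivity) (by norm_num)
      _ ≤ ((630721026192 / 10 ^ 16) : ℝ) := by norm_num

theorem x9 : (57217720591 / 10 ^ 16) ≤ cA * cB ^ 9 ∧ cA * cB ^ 9 ≤ (57217720594 / 10 ^ 16) := by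
  obtain ⟨h1, h2⟩ := cA_bounds
  obtain ⟨h3, h4⟩ := cB_bounds
  have hA : 0 < cA := Real.exp_pos _
  have hB : 0 < cB := Real.exp_pos _
  constructor
  · calc ((57217720591 / 10 ^ 16) : ℝ) ≤ (280485850259 / 10 ^ 12) * (301194211912 / 10 ^ 12) ^ 9 := by norm_num
      _ ≤ cA * cB ^ 9 := mul_le_mul h1 (pow_le_pow_left₀ (by norm_num) h3 9) (by positivity) hA.le
  · calc cA * cB ^ 9 ≤ (280485850260 / 10 ^ 12) * (301194211913 / 10 ^ 12) ^ 9 :=
          mul_le_mul h2 (pow_le_pow_left₀ hB.le h4 9) (by positivity) (by norm_num)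
      _ ≤ ((57217720594 / 10 ^ 16) : ℝ) := by norm_num

theorem x12 : (1563401116 / 10 ^ 16) ≤ cA * cB ^ 12 ∧ cA * cB ^ 12 ≤ (1563401117 / 10 ^ 16) := by
  obtain ⟨h1, h2⟩ := cA_bounds
  obtain ⟨h3, h4⟩ := cB_bounds
  have hA : 0 < cA := Real.exp_pos _
  have hB : 0 < cB := Real.exp_pos _
  constructor
  · calc ((1563401116 / 10 ^ 16) : ℝ) ≤ (280485850259 / 10 ^ 12) * (301194211912 / 10 ^ 12) ^ 12 := by norm_num
      _ ≤ cA * cB ^ 12 := mul_le_mul h1 (pow_le_pow_left₀ (by norm_num) h3 12) (by positivity) hA.le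
  · calc cA * cB ^ 12 ≤ (280485850260 / 10 ^ 12) * (301194211913 / 10 ^ 12) ^ 12 :=
          mul_le_mul h2 (pow_le_pow_left₀ hB.le h4 12) (by positivity) (by norm_num)
      _ ≤ ((1563401117 / 10 ^ 16) : ℝ) := by norm_num

theorem x13 : (470887367 / 10 ^ 16) ≤ cA * cB ^ 13 ∧ cA * cB ^ 13 ≤ (470887368 / 10 ^ 16) := by
  obtain ⟨h1, h2⟩ := cA_bounds
  obtain ⟨h3, h4⟩ := cB_bounds
  have hA : 0 < cA := Real.exp_pos _
  have hB : 0 < cB := Real.exp_pos _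
  constructor
  · calc ((470887367 / 10 ^ 16) : ℝ) ≤ (280485850259 / 10 ^ 12) * (301194211912 / 10 ^ 12) ^ 13 := by norm_num
      _ ≤ cA * cB ^ 13 := mul_le_mul h1 (pow_le_pow_left₀ (by norm_num) h3 13) (by positivity) hA.le
  · calc cA * cB ^ 13 ≤ (280485850260 / 10 ^ 12) * (301194211913 / 10 ^ 12) ^ 13 :=
          mul_le_mul h2 (pow_le_pow_left₀ hB.le h4 13) (by positivity) (by norm_num)
      _ ≤ ((470887368 / 10 ^ 16) : ℝ) := by norm_num

theorem x16 : (12866395 / 10 ^ 16) ≤ cA * cB ^ 16 ∧ cA * cB ^ 16 ≤ (12866396 / 10 ^ 16) := by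
  obtain ⟨h1, h2⟩ := cA_bounds
  obtain ⟨h3, h4⟩ := cB_bounds
  have hA : 0 < cA := Real.exp_pos _
  have hB : 0 < cB := Real.exp_pos _
  constructor
  · calc ((12866395 / 10 ^ 16) : ℝ) ≤ (280485850259 / 10 ^ 12) * (301194211912 / 10 ^ 12) ^ 16 := by norm_num
      _ ≤ cA * cB ^ 16 := mul_le_mul h1 (pow_le_pow_left₀ (by norm_num) h3 16) (by positivity) hA.le
  · calc cA * cB ^ 16 ≤ (280485850260 / 10 ^ 12) * (301194211913 / 10 ^ 12) ^ 16 :=
          mul_le_mul h2 (pow_le_pow_left₀ hB.le h4 16) (by positivity) (by norm_num)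
      _ ≤ ((12866396 / 10 ^ 16) : ℝ) := by norm_num

theorem x20 : (105887 / 10 ^ 16) ≤ cA * cB ^ 20 ∧ cA * cB ^ 20 ≤ (105888 / 10 ^ 16) := by
  obtain ⟨h1, h2⟩ := cA_bounds
  obtain ⟨h3, h4⟩ := cB_bounds
  have hA : 0 < cA := Real.exp_pos _
  have hB : 0 < cB := Real.exp_pos _
  constructor
  · calc ((105887 / 10 ^ 16) : ℝ) ≤ (280485850259 / 10 ^ 12) * (301194211912 / 10 ^ 12) ^ 20 := by norm_num
      _ ≤ cA * cB ^ 20 := mul_le_mul h1 (pow_le_pow_left₀ (by norm_num) h3 20) (by positivity) hA.le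
  · calc cA * cB ^ 20 ≤ (280485850260 / 10 ^ 12) * (301194211913 / 10 ^ 12) ^ 20 :=
          mul_le_mul h2 (pow_le_pow_left₀ hB.le h4 20) (by positivity) (by norm_num)
      _ ≤ ((105888 / 10 ^ 16) : ℝ) := by norm_num

/-- from the sector bound to the normalised sector value -/
theorem extractZ {z : ℝ} {left : ℤ} {k : ℕ} (hk : left = -55 + k) {pm tot : ℕ} {acc : ℤ}
    {d r nb : ℕ} {xl xh lo hi : ℝ}
    (h : |(pm : ℝ) * Real.exp (6 / 5 * left) * z - (tot : ℝ)| ≤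
      (d : ℝ) * ((acc : ℝ) / (12 * r)) + nb)
    (hx : xl ≤ cA * cB ^ k ∧ cA * cB ^ k ≤ xh) (h0 : 0 ≤ xl) (hpm : 0 < (pm : ℝ))
    (hE : (d : ℝ) * ((acc : ℝ) / (12 * r)) + nb ≤ tot)
    (h1 : lo * pm ≤ xl * (tot - ((d : ℝ) * ((acc : ℝ) / (12 * r)) + nb)))
    (h2 : xh * (tot + ((d : ℝ) * ((acc : ℝ) / (12 * r)) + nb)) ≤ hi * pm) :
    lo ≤ Real.exp (48 * e0) * z ∧ Real.exp (48 * e0) * z ≤ hi := by
  set E := (d : ℝ) * ((acc : ℝ) / (12 * r)) + nb
  obtain ⟨h3, h4⟩ := abs_le.mp h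
  set Y := (pm : ℝ) * Real.exp (6 / 5 * left) * z with hY
  have hYp : 0 ≤ tot - E := by linarith
  have hx0 : 0 ≤ cA * cB ^ k := h0.trans hx.1
  have key : Real.exp (48 * e0) * z * pm = cA * cB ^ k * Y := by
    rw [cAB k left hk, hY, Real.exp_sub]
    have := (Real.exp_pos (6 / 5 * (left : ℝ))).ne'
    field_simp
  constructor
  · refine le_of_mul_le_mul_right ?_ hpm
    rw [key]
    refine h1.trans ?_
    exact mul_le_mul hx.1 (by linarith) hYp hx0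
  · refine le_of_mul_le_mul_right ?_ hpm
    rw [key]
    refine le_trans ?_ h2
    exact mul_le_mul hx.2 (by linarith) (by linarith) (hx0.trans hx.2)

/-- the same for tiny sectors: only the upper bound -/
theorem extractU {z : ℝ} {left : ℤ} {k : ℕ} (hk : left = -55 + k) {pm tot : ℕ} {acc : ℤ}
    {d r nb : ℕ} {xl xh hi : ℝ}
    (h : |(pm : ℝ) * Real.exp (6 / 5 * left) * z - (tot : ℝ)| ≤
      (d : ℝ) * ((acc : ℝ) / (12 * r)) + nb) (hz : 0 ≤ z)
    (hx : xl ≤ cA * cB ^ k ∧ cA * cB ^ k ≤ xh) (h0 : 0 ≤ xl) (hpm : 0 < (pm : ℝ))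
    (h2 : xh * (tot + ((d : ℝ) * ((acc : ℝ) / (12 * r)) + nb)) ≤ hi * pm) :
    0 ≤ Real.exp (48 * e0) * z ∧ Real.exp (48 * e0) * z ≤ hi := by
  set E := (d : ℝ) * ((acc : ℝ) / (12 * r)) + nb
  obtain ⟨h3, h4⟩ := abs_le.mp h
  set Y := (pm : ℝ) * Real.exp (6 / 5 * left) * z with hY
  have hY0 : 0 ≤ Y := by positivity
  have hx0 : 0 ≤ cA * cB ^ k := h0.trans hx.1
  have key : Real.exp (48 * e0) * z * pm = cA * cB ^ k * Y := by
    rw [cAB k left hk, hY, Real.exp_sub]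
    have := (Real.exp_pos (6 / 5 * (left : ℝ))).ne'
    field_simp
  constructor
  · positivity
  · refine le_of_mul_le_mul_right ?_ hpm
    rw [key]
    refine le_trans ?_ h2
    exact mul_le_mul hx.2 (by linarith) hY0 (hx0.trans hx.2)

/-- crude sectors -/
theorem restZ {z : ℝ} {left : ℝ} {k : ℕ} (hk : left = -55 + k) {d : ℕ} {xh : ℝ}
    (h : 0 ≤ z ∧ z ≤ (d : ℝ) * Real.exp (-(6 / 5 * left))) (hx : cA * cB ^ k ≤ xh) :
    0 ≤ Real.exp (48 * e0) * z ∧ Real.exp (48 * e0) * z ≤ d * xh := by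
  have hk' : cA * cB ^ k = Real.exp (48 * e0) * Real.exp (-(6 / 5 * left)) := by
    rw [cAB k (-55 + k) rfl, ← Real.exp_add, hk]
    congr 1
    push_cast
    ring
  have hp := Real.exp_pos (48 * e0)
  constructor
  · exact mul_nonneg hp.le h.1
  · calc Real.exp (48 * e0) * z ≤ Real.exp (48 * e0) * ((d : ℝ) * Real.exp (-(6 / 5 * left))) :=
          mul_le_mul_of_nonneg_left h.2 hp.le
      _ = d * (cA * cB ^ k) := by rw [hk']; ring
      _ ≤ d * xh := mul_le_mul_of_nonneg_left hx (Nat.cast_nonneg d)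

theorem vY8 (D : Dg (HO true) lab) :
    (14221150706867 / 10 ^ 14) ≤ Real.exp (48 * e0) * zS D 8 ∧ Real.exp (48 * e0) * zS D 8 ≤ (14221494215813 / 10 ^ 14) := by
  have h := sector_val D 24 34 (by norm_num) (by norm_num) usY0 (by decide) goY0 qY0 8 8
    (Or.inl rfl) (-55) (by norm_num)
    (spec_of D 96 38 8 (-55) 24 loY8 (by norm_num) (by norm_num))
    (spec_of D 96 38 8 (-55) 24 loY8 (by norm_num) (by norm_num)) 2
    (Or.inr (Or.inr ⟨rfl, rfl, rfl⟩)) BsY0 runY0 chkY0 sumY0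
  have hc : cnt 8 8 = 1107 := by decide
  have hl : BsY0.length = 7 := by decide
  have hs : (((8 : Fin 17)) : ℕ) = 8 := rfl
  rw [totY0, hs, hc, hl] at h
  refine extractZ (k := 0) (by norm_num) h x0 (by norm_num) ?_ ?_ ?_ ?_
  · norm_num [pmY0]
  · norm_num [accY0]
  · norm_num [accY0, pmY0]
  · norm_num [accY0, pmY0]

theorem vY7 (D : Dg (HO true) lab) :
    (204929200214 / 10 ^ 14) ≤ Real.exp (48 * e0) * zS D 7 ∧ Real.exp (48 * e0) * zS D 7 ≤ (205643935697 / 10 ^ 14) := by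
  have h := sector_val D 23 36 (by norm_num) (by norm_num) usY1 (by decide) goY1 qY1 7 7
    (Or.inl rfl) (-51) (by norm_num)
    (spec_of D 92 56 7 (-51) 23 loY7 (by norm_num) (by norm_num))
    (spec_of D 92 56 7 (-51) 23 loY7 (by norm_num) (by norm_num)) 0
    (Or.inl rfl) BsY1 runY1 chkY1 sumY1
  have hc : cnt 8 7 = 1016 := by decide
  have hl : BsY1.length = 8 := by decide
  have hs : (((7 : Fin 17)) : ℕ) = 7 := rfl
  rw [totY1, hs, hc, hl] at h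
  refine extractZ (k := 4) (by norm_num) h x4 (by norm_num) ?_ ?_ ?_ ?_
  · norm_num [pmY1]
  · norm_num [accY1]
  · norm_num [accY1, pmY1]
  · norm_num [accY1, pmY1]

theorem vY9 (D : Dg (HO true) lab) :
    (204929200214 / 10 ^ 14) ≤ Real.exp (48 * e0) * zS D 9 ∧ Real.exp (48 * e0) * zS D 9 ≤ (205643935697 / 10 ^ 14) := by
  have h := sector_val D 23 36 (by norm_num) (by norm_num) usY1 (by decide) goY1 qY1 7 9
    (Or.inr ⟨rfl, rfl⟩) (-51) (by norm_num)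
    (spec_of D 92 56 7 (-51) 23 loY7 (by norm_num) (by norm_num))
    (spec_of D 92 56 9 (-51) 23 loY9 (by norm_num) (by norm_num)) 0
    (Or.inl rfl) BsY1 runY1 chkY1 sumY1
  have hc : cnt 8 9 = 1016 := by decide
  have hl : BsY1.length = 8 := by decide
  have hs : (((9 : Fin 17)) : ℕ) = 9 := rfl
  rw [totY1, hs, hc, hl] at h
  refine extractZ (k := 4) (by norm_num) h x4 (by norm_num) ?_ ?_ ?_ ?_
  · norm_num [pmY1]
  · norm_num [accY1]
  · norm_num [accY1, pmY1]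
  · norm_num [accY1, pmY1]

theorem vY6 (D : Dg (HO true) lab) :
    (331616177 / 10 ^ 14) ≤ Real.exp (48 * e0) * zS D 6 ∧ Real.exp (48 * e0) * zS D 6 ≤ (690977983 / 10 ^ 14) := by
  have h := sector_val D 22 39 (by norm_num) (by norm_num) usY2 (by decide) goY2 qY2 6 6
    (Or.inl rfl) (-46) (by norm_num)
    (spec_of D 87 53 6 (-46) 22 loY6 (by norm_num) (by norm_num))
    (spec_of D 87 53 6 (-46) 22 loY6 (by norm_num) (by norm_num)) 0
    (Or.inl rfl) BsY2 runY2 chkY2 sumY2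
  have hc : cnt 8 6 = 784 := by decide
  have hl : BsY2.length = 3 := by decide
  have hs : (((6 : Fin 17)) : ℕ) = 6 := rfl
  rw [totY2, hs, hc, hl] at h
  refine extractZ (k := 9) (by norm_num) h x9 (by norm_num) ?_ ?_ ?_ ?_
  · norm_num [pmY2]
  · norm_num [accY2]
  · norm_num [accY2, pmY2]
  · norm_num [accY2, pmY2]

theorem vY10 (D : Dg (HO true) lab) :
    (331616177 / 10 ^ 14) ≤ Real.exp (48 * e0) * zS D 10 ∧ Real.exp (48 * e0) * zS D 10 ≤ (690977983 / 10 ^ 14) := by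
  have h := sector_val D 22 39 (by norm_num) (by norm_num) usY2 (by decide) goY2 qY2 6 10
    (Or.inr ⟨rfl, rfl⟩) (-46) (by norm_num)
    (spec_of D 87 53 6 (-46) 22 loY6 (by norm_num) (by norm_num))
    (spec_of D 87 53 10 (-46) 22 loY10 (by norm_num) (by norm_num)) 0
    (Or.inl rfl) BsY2 runY2 chkY2 sumY2
  have hc : cnt 8 10 = 784 := by decide
  have hl : BsY2.length = 3 := by decide
  have hs : (((10 : Fin 17)) : ℕ) = 10 := rfl
  rw [totY2, hs, hc, hl] at h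
  refine extractZ (k := 9) (by norm_num) h x9 (by norm_num) ?_ ?_ ?_ ?_
  · norm_num [pmY2]
  · norm_num [accY2]
  · norm_num [accY2, pmY2]
  · norm_num [accY2, pmY2]

theorem vX7 (D : Dg (HO false) lab) :
    (4007953482526 / 10 ^ 14) ≤ Real.exp (48 * e0) * zS D 7 ∧ Real.exp (48 * e0) * zS D 7 ≤ (4008654328794 / 10 ^ 14) := by
  have h := sector_val D 24 35 (by norm_num) (by norm_num) usX1 (by decide) goX1 qX1 7 7
    (Or.inl rfl) (-54) (by norm_num)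
    (spec_of D 95 30 7 (-54) 24 loX7 (by norm_num) (by norm_num))
    (spec_of D 95 30 7 (-54) 24 loX7 (by norm_num) (by norm_num)) 1
    (Or.inr (Or.inl ⟨rfl, rfl⟩)) BsX1 runX1 chkX1 sumX1
  have hc : cnt 8 7 = 1016 := by decide
  have hl : BsX1.length = 5 := by decide
  have hs : (((7 : Fin 17)) : ℕ) = 7 := rfl
  rw [totX1, hs, hc, hl] at h
  refine extractZ (k := 1) (by norm_num) h x1 (by norm_num) ?_ ?_ ?_ ?_
  · norm_num [pmX1]
  · norm_num [accX1]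
  · norm_num [accX1, pmX1]
  · norm_num [accX1, pmX1]

theorem vX8 (D : Dg (HO false) lab) :
    (621270521936 / 10 ^ 14) ≤ Real.exp (48 * e0) * zS D 8 ∧ Real.exp (48 * e0) * zS D 8 ≤ (621605389471 / 10 ^ 14) := by
  have h := sector_val D 24 37 (by norm_num) (by norm_num) usX0 (by decide) goX0 qX0 8 8
    (Or.inl rfl) (-52) (by norm_num)
    (spec_of D 93 43 8 (-52) 24 loX8 (by norm_num) (by norm_num))
    (spec_of D 93 43 8 (-52) 24 loX8 (by norm_num) (by norm_num)) 1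
    (Or.inr (Or.inl ⟨rfl, rfl⟩)) BsX0 runX0 chkX0 sumX0
  have hc : cnt 8 8 = 1107 := by decide
  have hl : BsX0.length = 6 := by decide
  have hs : (((8 : Fin 17)) : ℕ) = 8 := rfl
  rw [totX0, hs, hc, hl] at h
  refine extractZ (k := 3) (by norm_num) h x3 (by norm_num) ?_ ?_ ?_ ?_
  · norm_num [pmX0]
  · norm_num [accX0]
  · norm_num [accX0, pmX0]
  · norm_num [accX0, pmX0]

theorem vX6 (D : Dg (HO false) lab) :
    (49316970495 / 10 ^ 14) ≤ Real.exp (48 * e0) * zS D 6 ∧ Real.exp (48 * e0) * zS D 6 ≤ (50146429788 / 10 ^ 14) := by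
  have h := sector_val D 23 37 (by norm_num) (by norm_num) usX2 (by decide) goX2 qX2 6 6
    (Or.inl rfl) (-50) (by norm_num)
    (spec_of D 91 39 6 (-50) 23 loX6 (by norm_num) (by norm_num))
    (spec_of D 91 39 6 (-50) 23 loX6 (by norm_num) (by norm_num)) 1
    (Or.inr (Or.inl ⟨rfl, rfl⟩)) BsX2 runX2 chkX2 sumX2
  have hc : cnt 8 6 = 784 := by decide
  have hl : BsX2.length = 2 := by decide
  have hs : (((6 : Fin 17)) : ℕ) = 6 := rfl
  rw [totX2, hs, hc, hl] at h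
  refine extractZ (k := 5) (by norm_num) h x5 (by norm_num) ?_ ?_ ?_ ?_
  · norm_num [pmX2]
  · norm_num [accX2]
  · norm_num [accX2, pmX2]
  · norm_num [accX2, pmX2]

theorem vX9 (D : Dg (HO false) lab) :
    (4541632924 / 10 ^ 14) ≤ Real.exp (48 * e0) * zS D 9 ∧ Real.exp (48 * e0) * zS D 9 ≤ (4914245705 / 10 ^ 14) := by
  have h := sector_val D 23 39 (by norm_num) (by norm_num) usXm1 (by decide) goXm1 qXm1 9 9
    (Or.inl rfl) (-48) (by norm_num)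
    (spec_of D 89 34 9 (-48) 23 loX9 (by norm_num) (by norm_num))
    (spec_of D 89 34 9 (-48) 23 loX9 (by norm_num) (by norm_num)) 1
    (Or.inr (Or.inl ⟨rfl, rfl⟩)) BsXm1 runXm1 chkXm1 sumXm1
  have hc : cnt 8 9 = 1016 := by decide
  have hl : BsXm1.length = 3 := by decide
  have hs : (((9 : Fin 17)) : ℕ) = 9 := rfl
  rw [totXm1, hs, hc, hl] at h
  refine extractZ (k := 7) (by norm_num) h x7 (by norm_num) ?_ ?_ ?_ ?_
  · norm_num [pmXm1]
  · norm_num [accXm1]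
  · norm_num [accXm1, pmXm1]
  · norm_num [accXm1, pmXm1]

theorem vX5 (D : Dg (HO false) lab) :
    0 ≤ Real.exp (48 * e0) * zS D 5 ∧ Real.exp (48 * e0) * zS D 5 ≤ (231467591 / 10 ^ 14) := by
  have h := sector_val D 21 40 (by norm_num) (by norm_num) usX3 (by decide) goX3 qX3 5 5
    (Or.inl rfl) (-43) (by norm_num)
    (spec_of D 84 25 5 (-43) 21 loX5 (by norm_num) (by norm_num))
    (spec_of D 84 25 5 (-43) 21 loX5 (by norm_num) (by norm_num)) 1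
    (Or.inr (Or.inl ⟨rfl, rfl⟩)) BsX3 runX3 chkX3 sumX3
  have hc : cnt 8 5 = 504 := by decide
  have hl : BsX3.length = 1 := by decide
  have hs : (((5 : Fin 17)) : ℕ) = 5 := rfl
  rw [totX3, hs, hc, hl] at h
  refine extractU (k := 12) (by norm_num) h
    (Finset.sum_nonneg fun i _ => (Real.exp_pos _).le) x12 (by norm_num) ?_ ?_
  · norm_num [pmX3]
  · norm_num [accX3, pmX3]

theorem vX10 (D : Dg (HO false) lab) :
    0 ≤ Real.exp (48 * e0) * zS D 10 ∧ Real.exp (48 * e0) * zS D 10 ≤ (232722196 / 10 ^ 14) := by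
  have h := sector_val D 21 41 (by norm_num) (by norm_num) usXm2 (by decide) goXm2 qXm2 10 10
    (Or.inl rfl) (-42) (by norm_num)
    (spec_of D 83 58 10 (-42) 21 loX10 (by norm_num) (by norm_num))
    (spec_of D 83 58 10 (-42) 21 loX10 (by norm_num) (by norm_num)) 1
    (Or.inr (Or.inl ⟨rfl, rfl⟩)) BsXm2 runXm2 chkXm2 sumXm2
  have hc : cnt 8 10 = 784 := by decide
  have hl : BsXm2.length = 1 := by decide
  have hs : (((10 : Fin 17)) : ℕ) = 10 := rfl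
  rw [totXm2, hs, hc, hl] at h
  refine extractU (k := 13) (by norm_num) h
    (Finset.sum_nonneg fun i _ => (Real.exp_pos _).le) x13 (by norm_num) ?_ ?_
  · norm_num [pmXm2]
  · norm_num [accXm2, pmXm2]

theorem vY0 (D : Dg (HO true) lab) :
    0 ≤ Real.exp (48 * e0) * zS D 0 ∧ Real.exp (48 * e0) * zS D 0 ≤ 1 * (12866396 / 10 ^ 16) := by
  have h := zS_le D 0 (-39) (restY_lo D 0 (by decide))
  have hc : cnt 8 0 = 1 := by decide
  have hs : (((0 : Fin 17)) : ℕ) = 0 := rfl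
  rw [hs, hc] at h
  have h2 := restZ (k := 16) (by norm_num) h x16.2
  norm_num at h2 ⊢
  exact h2

theorem vY1 (D : Dg (HO true) lab) :
    0 ≤ Real.exp (48 * e0) * zS D 1 ∧ Real.exp (48 * e0) * zS D 1 ≤ 8 * (12866396 / 10 ^ 16) := by
  have h := zS_le D 1 (-39) (restY_lo D 1 (by decide))
  have hc : cnt 8 1 = 8 := by decide
  have hs : (((1 : Fin 17)) : ℕ) = 1 := rfl
  rw [hs, hc] at h
  have h2 := restZ (k := 16) (by norm_num) h x16.2
  norm_num at h2 ⊢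
  exact h2

theorem vY2 (D : Dg (HO true) lab) :
    0 ≤ Real.exp (48 * e0) * zS D 2 ∧ Real.exp (48 * e0) * zS D 2 ≤ 36 * (12866396 / 10 ^ 16) := by
  have h := zS_le D 2 (-39) (restY_lo D 2 (by decide))
  have hc : cnt 8 2 = 36 := by decide
  have hs : (((2 : Fin 17)) : ℕ) = 2 := rfl
  rw [hs, hc] at h
  have h2 := restZ (k := 16) (by norm_num) h x16.2
  norm_num at h2 ⊢
  exact h2

theorem vY3 (D : Dg (HO true) lab) :
    0 ≤ Real.exp (48 * e0) * zS D 3 ∧ Real.exp (48 * e0) * zS D 3 ≤ 112 * (12866396 / 10 ^ 16) := by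
  have h := zS_le D 3 (-39) (restY_lo D 3 (by decide))
  have hc : cnt 8 3 = 112 := by decide
  have hs : (((3 : Fin 17)) : ℕ) = 3 := rfl
  rw [hs, hc] at h
  have h2 := restZ (k := 16) (by norm_num) h x16.2
  norm_num at h2 ⊢
  exact h2

theorem vY4 (D : Dg (HO true) lab) :
    0 ≤ Real.exp (48 * e0) * zS D 4 ∧ Real.exp (48 * e0) * zS D 4 ≤ 266 * (12866396 / 10 ^ 16) := by
  have h := zS_le D 4 (-39) (restY_lo D 4 (by decide))
  have hc : cnt 8 4 = 266 := by decide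
  have hs : (((4 : Fin 17)) : ℕ) = 4 := rfl
  rw [hs, hc] at h
  have h2 := restZ (k := 16) (by norm_num) h x16.2
  norm_num at h2 ⊢
  exact h2

theorem vY5 (D : Dg (HO true) lab) :
    0 ≤ Real.exp (48 * e0) * zS D 5 ∧ Real.exp (48 * e0) * zS D 5 ≤ 504 * (12866396 / 10 ^ 16) := by
  have h := zS_le D 5 (-39) (restY_lo D 5 (by decide))
  have hc : cnt 8 5 = 504 := by decide
  have hs : (((5 : Fin 17)) : ℕ) = 5 := rfl
  rw [hs, hc] at h
  have h2 := restZ (k := 16) (by norm_num) h x16.2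
  norm_num at h2 ⊢
  exact h2

theorem vY11 (D : Dg (HO true) lab) :
    0 ≤ Real.exp (48 * e0) * zS D 11 ∧ Real.exp (48 * e0) * zS D 11 ≤ 504 * (12866396 / 10 ^ 16) := by
  have h := zS_le D 11 (-39) (restY_lo D 11 (by decide))
  have hc : cnt 8 11 = 504 := by decide
  have hs : (((11 : Fin 17)) : ℕ) = 11 := rfl
  rw [hs, hc] at h
  have h2 := restZ (k := 16) (by norm_num) h x16.2
  norm_num at h2 ⊢
  exact h2

theorem vY12 (D : Dg (HO true) lab) :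
    0 ≤ Real.exp (48 * e0) * zS D 12 ∧ Real.exp (48 * e0) * zS D 12 ≤ 266 * (12866396 / 10 ^ 16) := by
  have h := zS_le D 12 (-39) (restY_lo D 12 (by decide))
  have hc : cnt 8 12 = 266 := by decide
  have hs : (((12 : Fin 17)) : ℕ) = 12 := rfl
  rw [hs, hc] at h
  have h2 := restZ (k := 16) (by norm_num) h x16.2
  norm_num at h2 ⊢
  exact h2

theorem vY13 (D : Dg (HO true) lab) :
    0 ≤ Real.exp (48 * e0) * zS D 13 ∧ Real.exp (48 * e0) * zS D 13 ≤ 112 * (12866396 / 10 ^ 16) := by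
  have h := zS_le D 13 (-39) (restY_lo D 13 (by decide))
  have hc : cnt 8 13 = 112 := by decide
  have hs : (((13 : Fin 17)) : ℕ) = 13 := rfl
  rw [hs, hc] at h
  have h2 := restZ (k := 16) (by norm_num) h x16.2
  norm_num at h2 ⊢
  exact h2

theorem vY14 (D : Dg (HO true) lab) :
    0 ≤ Real.exp (48 * e0) * zS D 14 ∧ Real.exp (48 * e0) * zS D 14 ≤ 36 * (12866396 / 10 ^ 16) := by
  have h := zS_le D 14 (-39) (restY_lo D 14 (by decide))
  have hc : cnt 8 14 = 36 := by decide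
  have hs : (((14 : Fin 17)) : ℕ) = 14 := rfl
  rw [hs, hc] at h
  have h2 := restZ (k := 16) (by norm_num) h x16.2
  norm_num at h2 ⊢
  exact h2

theorem vY15 (D : Dg (HO true) lab) :
    0 ≤ Real.exp (48 * e0) * zS D 15 ∧ Real.exp (48 * e0) * zS D 15 ≤ 8 * (12866396 / 10 ^ 16) := by
  have h := zS_le D 15 (-39) (restY_lo D 15 (by decide))
  have hc : cnt 8 15 = 8 := by decide
  have hs : (((15 : Fin 17)) : ℕ) = 15 := rfl
  rw [hs, hc] at h
  have h2 := restZ (k := 16) (by norm_num) h x16.2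
  norm_num at h2 ⊢
  exact h2

theorem vY16 (D : Dg (HO true) lab) :
    0 ≤ Real.exp (48 * e0) * zS D 16 ∧ Real.exp (48 * e0) * zS D 16 ≤ 1 * (12866396 / 10 ^ 16) := by
  have h := zS_le D 16 (-39) (restY_lo D 16 (by decide))
  have hc : cnt 8 16 = 1 := by decide
  have hs : (((16 : Fin 17)) : ℕ) = 16 := rfl
  rw [hs, hc] at h
  have h2 := restZ (k := 16) (by norm_num) h x16.2
  norm_num at h2 ⊢
  exact h2

theorem vX0 (D : Dg (HO false) lab) :
    0 ≤ Real.exp (48 * e0) * zS D 0 ∧ Real.exp (48 * e0) * zS D 0 ≤ 1 * (105888 / 10 ^ 16) := by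
  have h := zS_le D 0 (-35) (restX_lo D 0 (by decide))
  have hc : cnt 8 0 = 1 := by decide
  have hs : (((0 : Fin 17)) : ℕ) = 0 := rfl
  rw [hs, hc] at h
  have h2 := restZ (k := 20) (by norm_num) h x20.2
  norm_num at h2 ⊢
  exact h2

theorem vX1 (D : Dg (HO false) lab) :
    0 ≤ Real.exp (48 * e0) * zS D 1 ∧ Real.exp (48 * e0) * zS D 1 ≤ 8 * (105888 / 10 ^ 16) := by
  have h := zS_le D 1 (-35) (restX_lo D 1 (by decide))
  have hc : cnt 8 1 = 8 := by decide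
  have hs : (((1 : Fin 17)) : ℕ) = 1 := rfl
  rw [hs, hc] at h
  have h2 := restZ (k := 20) (by norm_num) h x20.2
  norm_num at h2 ⊢
  exact h2

theorem vX2 (D : Dg (HO false) lab) :
    0 ≤ Real.exp (48 * e0) * zS D 2 ∧ Real.exp (48 * e0) * zS D 2 ≤ 36 * (105888 / 10 ^ 16) := by
  have h := zS_le D 2 (-35) (restX_lo D 2 (by decide))
  have hc : cnt 8 2 = 36 := by decide
  have hs : (((2 : Fin 17)) : ℕ) = 2 := rfl
  rw [hs, hc] at h
  have h2 := restZ (k := 20) (by norm_num) h x20.2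
  norm_num at h2 ⊢
  exact h2

theorem vX3 (D : Dg (HO false) lab) :
    0 ≤ Real.exp (48 * e0) * zS D 3 ∧ Real.exp (48 * e0) * zS D 3 ≤ 112 * (105888 / 10 ^ 16) := by
  have h := zS_le D 3 (-35) (restX_lo D 3 (by decide))
  have hc : cnt 8 3 = 112 := by decide
  have hs : (((3 : Fin 17)) : ℕ) = 3 := rfl
  rw [hs, hc] at h
  have h2 := restZ (k := 20) (by norm_num) h x20.2
  norm_num at h2 ⊢
  exact h2

theorem vX4 (D : Dg (HO false) lab) :
    0 ≤ Real.exp (48 * e0) * zS D 4 ∧ Real.exp (48 * e0) * zS D 4 ≤ 266 * (105888 / 10 ^ 16) := by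
  have h := zS_le D 4 (-35) (restX_lo D 4 (by decide))
  have hc : cnt 8 4 = 266 := by decide
  have hs : (((4 : Fin 17)) : ℕ) = 4 := rfl
  rw [hs, hc] at h
  have h2 := restZ (k := 20) (by norm_num) h x20.2
  norm_num at h2 ⊢
  exact h2

theorem vX11 (D : Dg (HO false) lab) :
    0 ≤ Real.exp (48 * e0) * zS D 11 ∧ Real.exp (48 * e0) * zS D 11 ≤ 504 * (105888 / 10 ^ 16) := by
  have h := zS_le D 11 (-35) (restX_lo D 11 (by decide))
  have hc : cnt 8 11 = 504 := by decide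
  have hs : (((11 : Fin 17)) : ℕ) = 11 := rfl
  rw [hs, hc] at h
  have h2 := restZ (k := 20) (by norm_num) h x20.2
  norm_num at h2 ⊢
  exact h2

theorem vX12 (D : Dg (HO false) lab) :
    0 ≤ Real.exp (48 * e0) * zS D 12 ∧ Real.exp (48 * e0) * zS D 12 ≤ 266 * (105888 / 10 ^ 16) := by
  have h := zS_le D 12 (-35) (restX_lo D 12 (by decide))
  have hc : cnt 8 12 = 266 := by decide
  have hs : (((12 : Fin 17)) : ℕ) = 12 := rfl
  rw [hs, hc] at h
  have h2 := restZ (k := 20) (by norm_num) h x20.2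
  norm_num at h2 ⊢
  exact h2

theorem vX13 (D : Dg (HO false) lab) :
    0 ≤ Real.exp (48 * e0) * zS D 13 ∧ Real.exp (48 * e0) * zS D 13 ≤ 112 * (105888 / 10 ^ 16) := by
  have h := zS_le D 13 (-35) (restX_lo D 13 (by decide))
  have hc : cnt 8 13 = 112 := by decide
  have hs : (((13 : Fin 17)) : ℕ) = 13 := rfl
  rw [hs, hc] at h
  have h2 := restZ (k := 20) (by norm_num) h x20.2
  norm_num at h2 ⊢
  exact h2

theorem vX14 (D : Dg (HO false) lab) :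
    0 ≤ Real.exp (48 * e0) * zS D 14 ∧ Real.exp (48 * e0) * zS D 14 ≤ 36 * (105888 / 10 ^ 16) := by
  have h := zS_le D 14 (-35) (restX_lo D 14 (by decide))
  have hc : cnt 8 14 = 36 := by decide
  have hs : (((14 : Fin 17)) : ℕ) = 14 := rfl
  rw [hs, hc] at h
  have h2 := restZ (k := 20) (by norm_num) h x20.2
  norm_num at h2 ⊢
  exact h2

theorem vX15 (D : Dg (HO false) lab) :
    0 ≤ Real.exp (48 * e0) * zS D 15 ∧ Real.exp (48 * e0) * zS D 15 ≤ 8 * (105888 / 10 ^ 16) := by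
  have h := zS_le D 15 (-35) (restX_lo D 15 (by decide))
  have hc : cnt 8 15 = 8 := by decide
  have hs : (((15 : Fin 17)) : ℕ) = 15 := rfl
  rw [hs, hc] at h
  have h2 := restZ (k := 20) (by norm_num) h x20.2
  norm_num at h2 ⊢
  exact h2

theorem vX16 (D : Dg (HO false) lab) :
    0 ≤ Real.exp (48 * e0) * zS D 16 ∧ Real.exp (48 * e0) * zS D 16 ≤ 1 * (105888 / 10 ^ 16) := by
  have h := zS_le D 16 (-35) (restX_lo D 16 (by decide))
  have hc : cnt 8 16 = 1 := by decide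
  have hs : (((16 : Fin 17)) : ℕ) = 16 := rfl
  rw [hs, hc] at h
  have h2 := restZ (k := 20) (by norm_num) h x20.2
  norm_num at h2 ⊢
  exact h2

theorem sum17 (f : Fin 17 → ℝ) : ∑ s, f s = f 0 + f 1 + f 2 + f 3 + f 4 + f 5 + f 6 + f 7 + f 8 +
    f 9 + f 10 + f 11 + f 12 + f 13 + f 14 + f 15 + f 16 := by
  simp only [Fin.sum_univ_castSucc, Fin.sum_univ_zero, zero_add]
  rfl

theorem nO_eq (f : ℝ → ℕ → ℝ) : nO f 8 = Real.exp (48 * e0) * f 6 8 := by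
  unfold nO
  congr 2
  push_cast
  ring

theorem cert_Yo : |nO Yo 8 - 14632918 / 100000000| ≤ 2 / 100000 := by
  obtain ⟨D⟩ := exists_Dg true
  have h : Yo 6 8 = ∑ s : Fin 17, zS D s := trace_zero true D
  rw [nO_eq, h, Finset.mul_sum, sum17 (fun s => Real.exp (48 * e0) * zS D s)]
  obtain ⟨a0, b0⟩ := vY0 D
  obtain ⟨a1, b1⟩ := vY1 D
  obtain ⟨a2, b2⟩ := vY2 D
  obtain ⟨a3, b3⟩ := vY3 D
  obtain ⟨a4, b4⟩ := vY4 D
  obtain ⟨a5, b5⟩ := vY5 D
  obtain ⟨a6, b6⟩ := vY6 D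
  obtain ⟨a7, b7⟩ := vY7 D
  obtain ⟨a8, b8⟩ := vY8 D
  obtain ⟨a9, b9⟩ := vY9 D
  obtain ⟨a10, b10⟩ := vY10 D
  obtain ⟨a11, b11⟩ := vY11 D
  obtain ⟨a12, b12⟩ := vY12 D
  obtain ⟨a13, b13⟩ := vY13 D
  obtain ⟨a14, b14⟩ := vY14 D
  obtain ⟨a15, b15⟩ := vY15 D
  obtain ⟨a16, b16⟩ := vY16 D
  rw [abs_le]
  constructor <;> linarith [a0, a1, a2, a3, a4, a5, a6, a7, a8, a9, a10, a11, a12, a13, a14, a15, a16, b0, b1, b2, b3, b4, b5, b6, b7, b8, b9, b10, b11, b12, b13, b14, b15, b16]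

theorem cert_Yp : |nO Yp 8 - 13811772 / 100000000| ≤ 2 / 100000 := by
  obtain ⟨D⟩ := exists_Dg true
  have h : Yp 6 8 = ∑ s : Fin 17, (-1) ^ (s : ℕ) * zS D s := trace_three true D
  have h' : Real.exp (48 * e0) * ∑ s : Fin 17, (-1) ^ (s : ℕ) * zS D s =
      ∑ s : Fin 17, (-1) ^ (s : ℕ) * (Real.exp (48 * e0) * zS D s) := by
    rw [Finset.mul_sum]
    refine Finset.sum_congr rfl fun s _ => ?_
    ring
  rw [nO_eq, h, h', sum17 (fun s : Fin 17 => (-1) ^ (s : ℕ) * (Real.exp (48 * e0) * zS D s))]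
  obtain ⟨a0, b0⟩ := vY0 D
  obtain ⟨a1, b1⟩ := vY1 D
  obtain ⟨a2, b2⟩ := vY2 D
  obtain ⟨a3, b3⟩ := vY3 D
  obtain ⟨a4, b4⟩ := vY4 D
  obtain ⟨a5, b5⟩ := vY5 D
  obtain ⟨a6, b6⟩ := vY6 D
  obtain ⟨a7, b7⟩ := vY7 D
  obtain ⟨a8, b8⟩ := vY8 D
  obtain ⟨a9, b9⟩ := vY9 D
  obtain ⟨a10, b10⟩ := vY10 D
  obtain ⟨a11, b11⟩ := vY11 D
  obtain ⟨a12, b12⟩ := vY12 D
  obtain ⟨a13, b13⟩ := vY13 D
  obtain ⟨a14, b14⟩ := vY14 D
  obtain ⟨a15, b15⟩ := vY15 D
  obtain ⟨a16, b16⟩ := vY16 D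
  have p0 : ∀ s : Fin 17, (s : ℕ) % 2 = 0 → (-1 : ℝ) ^ (s : ℕ) = 1 := fun s hs =>
    Even.neg_one_pow (Nat.even_iff.mpr hs)
  have p1 : ∀ s : Fin 17, (s : ℕ) % 2 = 1 → (-1 : ℝ) ^ (s : ℕ) = -1 := fun s hs =>
    Odd.neg_one_pow (Nat.odd_iff.mpr hs)
  rw [p0 0 rfl, p1 1 rfl, p0 2 rfl, p1 3 rfl, p0 4 rfl, p1 5 rfl, p0 6 rfl, p1 7 rfl, p0 8 rfl,
    p1 9 rfl, p0 10 rfl, p1 11 rfl, p0 12 rfl, p1 13 rfl, p0 14 rfl, p1 15 rfl, p0 16 rfl]
  rw [abs_le]
  constructor <;> linarith [a0, a1, a2, a3, a4, a5, a6, a7, a8, a9, a10, a11, a12, a13, a14, a15, a16, b0, b1, b2, b3, b4, b5, b6, b7, b8, b9, b10, b11, b12, b13, b14, b15, b16]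

theorem cert_Xo : |nO Xo 8 - 4684215 / 100000000| ≤ 2 / 100000 := by
  obtain ⟨D⟩ := exists_Dg false
  have h : Xo 6 8 = ∑ s : Fin 17, zS D s := trace_zero false D
  rw [nO_eq, h, Finset.mul_sum, sum17 (fun s => Real.exp (48 * e0) * zS D s)]
  obtain ⟨a0, b0⟩ := vX0 D
  obtain ⟨a1, b1⟩ := vX1 D
  obtain ⟨a2, b2⟩ := vX2 D
  obtain ⟨a3, b3⟩ := vX3 D
  obtain ⟨a4, b4⟩ := vX4 D
  obtain ⟨a5, b5⟩ := vX5 D
  obtain ⟨a6, b6⟩ := vX6 D
  obtain ⟨a7, b7⟩ := vX7 D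
  obtain ⟨a8, b8⟩ := vX8 D
  obtain ⟨a9, b9⟩ := vX9 D
  obtain ⟨a10, b10⟩ := vX10 D
  obtain ⟨a11, b11⟩ := vX11 D
  obtain ⟨a12, b12⟩ := vX12 D
  obtain ⟨a13, b13⟩ := vX13 D
  obtain ⟨a14, b14⟩ := vX14 D
  obtain ⟨a15, b15⟩ := vX15 D
  obtain ⟨a16, b16⟩ := vX16 D
  rw [abs_le]
  constructor <;> linarith [a0, a1, a2, a3, a4, a5, a6, a7, a8, a9, a10, a11, a12, a13, a14, a15, a16, b0, b1, b2, b3, b4, b5, b6, b7, b8, b9, b10, b11, b12, b13, b14, b15, b16]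

theorem cert_Xp : |nO Xp 8 - (-3341867) / 100000000| ≤ 2 / 100000 := by
  obtain ⟨D⟩ := exists_Dg false
  have h : Xp 6 8 = ∑ s : Fin 17, (-1) ^ (s : ℕ) * zS D s := trace_three false D
  have h' : Real.exp (48 * e0) * ∑ s : Fin 17, (-1) ^ (s : ℕ) * zS D s =
      ∑ s : Fin 17, (-1) ^ (s : ℕ) * (Real.exp (48 * e0) * zS D s) := by
    rw [Finset.mul_sum]
    refine Finset.sum_congr rfl fun s _ => ?_
    ring
  rw [nO_eq, h, h', sum17 (fun s : Fin 17 => (-1) ^ (s : ℕ) * (Real.exp (48 * e0) * zS D s))]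
  obtain ⟨a0, b0⟩ := vX0 D
  obtain ⟨a1, b1⟩ := vX1 D
  obtain ⟨a2, b2⟩ := vX2 D
  obtain ⟨a3, b3⟩ := vX3 D
  obtain ⟨a4, b4⟩ := vX4 D
  obtain ⟨a5, b5⟩ := vX5 D
  obtain ⟨a6, b6⟩ := vX6 D
  obtain ⟨a7, b7⟩ := vX7 D
  obtain ⟨a8, b8⟩ := vX8 D
  obtain ⟨a9, b9⟩ := vX9 D
  obtain ⟨a10, b10⟩ := vX10 D
  obtain ⟨a11, b11⟩ := vX11 D
  obtain ⟨a12, b12⟩ := vX12 D
  obtain ⟨a13, b13⟩ := vX13 D
  obtain ⟨a14, b14⟩ := vX14 D
  obtain ⟨a15, b15⟩ := vX15 D
  obtain ⟨a16, b16⟩ := vX16 D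
  have p0 : ∀ s : Fin 17, (s : ℕ) % 2 = 0 → (-1 : ℝ) ^ (s : ℕ) = 1 := fun s hs =>
    Even.neg_one_pow (Nat.even_iff.mpr hs)
  have p1 : ∀ s : Fin 17, (s : ℕ) % 2 = 1 → (-1 : ℝ) ^ (s : ℕ) = -1 := fun s hs =>
    Odd.neg_one_pow (Nat.odd_iff.mpr hs)
  rw [p0 0 rfl, p1 1 rfl, p0 2 rfl, p1 3 rfl, p0 4 rfl, p1 5 rfl, p0 6 rfl, p1 7 rfl, p0 8 rfl,
    p1 9 rfl, p0 10 rfl, p1 11 rfl, p0 12 rfl, p1 13 rfl, p0 14 rfl, p1 15 rfl, p0 16 rfl]
  rw [abs_le]
  constructor <;> linarith [a0, a1, a2, a3, a4, a5, a6, a7, a8, a9, a10, a11, a12, a13, a14, a15, a16, b0, b1, b2, b3, b4, b5, b6, b7, b8, b9, b10, b11, b12, b13, b14, b15, b16]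

end

end Crest.Agent.R347.OSec

namespace Crest.Agent.R347

/-- **the open chain certificate** -/
theorem openTraces : OpenTraces where
  y_8 := OSec.cert_Yo
  x_8 := OSec.cert_Xo
  yp_8 := OSec.cert_Yp
  xp_8 := OSec.cert_Xp

end Crest.Agent.R347
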