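import Crest.Agent.R347.PackedBase

/-!
# N3: kernel-efficient products of packed integer matrices

A matrix `a` (`n` columns) is stored as `A : ℕ → ℕ` (`A I` is the chunk of the rows
`8 I, ..., 8 I + 7`): `A I = ∑_{i < 8, j < n} (a (8 I + i) j + 2^45) 2^{104 (i + 8 j)}`.
-/

set_option exponentiation.threshold 2000

namespace Crest.Agent.R347.Packed

open Finset

/-! ## Trees and dot products -/

inductive BT where
  | leaf (b : ℕ) : BT
  | node (s m : ℕ) (l r : BT) : BT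

noncomputable def BT.dot (t : BT) : ℕ → ℕ :=
  BT.rec (motive := fun _ => ℕ → ℕ) (fun b c => Nat.mul c b)
    (fun s m _ _ ihl ihr c => Nat.add (ihl (Nat.land c m)) (ihr (Nat.shiftRight c s))) t

noncomputable def BT.sum (t : BT) : ℕ :=
  BT.rec (motive := fun _ => ℕ) (fun b => b) (fun _ _ _ _ sl sr => Nat.add sl sr) t

inductive IsTree : BT → ℕ → (ℕ → ℕ) → Prop where
  | leaf (f : ℕ → ℕ) : IsTree (BT.leaf (f 0)) 1 f
  | node {l r : BT} {m₁ m₂ : ℕ} {f : ℕ → ℕ} (hl : IsTree l m₁ f)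
      (hr : IsTree r m₂ (fun k => f (m₁ + k))) :
      IsTree (BT.node (832 * m₁) (2 ^ (832 * m₁) - 1) l r) (m₁ + m₂) f

lemma IsTree.sum_eq {t : BT} {m : ℕ} {f : ℕ → ℕ} (h : IsTree t m f) :
    t.sum = ∑ k ∈ range m, f k := by
  induction h with
  | leaf f => simp [BT.sum]
  | @node l r m₁ m₂ f hl hr ihl ihr =>
    show l.sum + r.sum = _
    rw [ihl, ihr, sum_range_add]

lemma IsTree.dot_eq {t : BT} {m : ℕ} {f : ℕ → ℕ} (h : IsTree t m f) (α : ℕ → ℕ)
    (hα : ∀ k < m, α k < 2 ^ 832) :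
    t.dot (pk 832 m α) = ∑ k ∈ range m, α k * f k := by
  induction h generalizing α with
  | leaf f =>
    show pk 832 1 α * f 0 = _
    simp [pk]
  | @node l r m₁ m₂ f hl hr ihl ihr =>
    show l.dot (pk 832 (m₁ + m₂) α &&& (2 ^ (832 * m₁) - 1)) +
      r.dot (pk 832 (m₁ + m₂) α >>> (832 * m₁)) = _
    have h1 : pk 832 m₁ α < 2 ^ (832 * m₁) := pk_lt (fun k hk => hα k (by omega))
    rw [Nat.and_two_pow_sub_one_eq_mod, Nat.shiftRight_eq_div_pow, pk_add,
      Nat.add_mul_mod_self_left, Nat.mod_eq_of_lt h1, Nat.add_mul_div_left _ _ (by positivity),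
      Nat.div_eq_of_lt h1, zero_add, ihl α (fun k hk => hα k (by omega)),
      ihr (fun s => α (m₁ + s)) (fun k hk => hα _ (by omega)), sum_range_add]

noncomputable def build (f : ℕ → ℕ) (d : ℕ) : ℕ → ℕ → BT :=
  Nat.rec (motive := fun _ => ℕ → ℕ → BT)
    (fun lo _ => BT.leaf (f lo))
    (fun _ ih lo len =>
      Bool.rec (motive := fun _ => BT)
        (BT.node (Nat.mul 832 (Nat.div len 2)) (Nat.sub (Nat.pow 2 (Nat.mul 832 (Nat.div len 2))) 1)
          (ih lo (Nat.div len 2)) (ih (Nat.add lo (Nat.div len 2)) (Nat.sub len (Nat.div len 2))))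
        (BT.leaf (f lo)) (Nat.ble len 1)) d

lemma build_succ (f : ℕ → ℕ) (d lo len : ℕ) :
    build f (d + 1) lo len = if len ≤ 1 then BT.leaf (f lo) else
      BT.node (832 * (len / 2)) (2 ^ (832 * (len / 2)) - 1)
          (build f d lo (len / 2)) (build f d (lo + len / 2) (len - len / 2)) := by
  have h1 : build f (d + 1) lo len = Bool.rec (motive := fun _ => BT)
        (BT.node (Nat.mul 832 (Nat.div len 2)) (Nat.sub (Nat.pow 2 (Nat.mul 832 (Nat.div len 2))) 1)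
          (build f d lo (Nat.div len 2))
          (build f d (Nat.add lo (Nat.div len 2)) (Nat.sub len (Nat.div len 2))))
        (BT.leaf (f lo)) (Nat.ble len 1) := rfl
  rw [h1]
  by_cases h : len ≤ 1
  · rw [if_pos h, Nat.ble_eq_true_of_le h]
  · rw [if_neg h, show Nat.ble len 1 = false by
      rw [← Bool.not_eq_true, Nat.ble_eq]; exact h]
    rfl

lemma build_spec (f : ℕ → ℕ) (d : ℕ) : ∀ lo len : ℕ, 1 ≤ len → len ≤ 2 ^ d →
    IsTree (build f d lo len) len (fun k => f (lo + k)) := by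
  induction d with
  | zero =>
    intro lo len h1 h2
    obtain rfl : len = 1 := by simpa using le_antisymm h2 h1
    exact IsTree.leaf (fun k => f (lo + k))
  | succ d ih =>
    intro lo len h1 h2
    rw [build_succ]
    split_ifs with h
    · obtain rfl : len = 1 := le_antisymm h h1
      exact IsTree.leaf (fun k => f (lo + k))
    · rw [pow_succ] at h2
      have e : len = len / 2 + (len - len / 2) := by omega
      have := IsTree.node (ih lo (len / 2) (by omega) (by omega))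
        (m₂ := len - len / 2) (r := build f d (lo + len / 2) (len - len / 2))
        (by
          have := ih (lo + len / 2) (len - len / 2) (by omega) (by omega)
          simpa [add_assoc] using this)
      rw [← e] at this
      exact this

/-! ## Chunks -/

/-- `A I` has `8 n` slots of `104` bits, with digits `< 2^46`, for all `I` with `8 I < n` -/
def Good (n : ℕ) (A : ℕ → ℕ) : Prop := ∀ I, 8 * I < n → lowDigits 104 46 (8 * n) (A I)

/-- unsigned digit -/
def udig (A : ℕ → ℕ) (i j : ℕ) : ℕ := dg 104 (A (i / 8)) (i % 8 + 8 * j)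

/-- the entry `(i, j)` of a packed matrix -/
def ent (A : ℕ → ℕ) (i j : ℕ) : ℤ := (udig A i j : ℤ) - 2 ^ 45

lemma Good.udig_lt {n : ℕ} {A : ℕ → ℕ} (h : Good n A) {i j : ℕ} (hi : i < n) (hj : j < n) :
    udig A i j < 2 ^ 46 :=
  (h (i / 8) (by omega)).2 _ (by omega)

/-- the row mask: the slots `8 j`, `j < n` -/
def maskRow (n : ℕ) : ℕ := Nat.mul (Nat.sub (Nat.pow 2 104) 1) (rep 832 n)

/-- row `k`, spaced by `832` bits, plus a final digit `1` in slot `n` -/
def rowOf (n : ℕ) (B : ℕ → ℕ) (k : ℕ) : ℕ :=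
  Nat.add (Nat.land (Nat.shiftRight (B (Nat.div k 8)) (Nat.mul 104 (Nat.mod k 8))) (maskRow n))
    (Nat.pow 2 (Nat.mul 832 n))

lemma dg_div (w U i s : ℕ) : dg w (U / 2 ^ (w * i)) s = dg w U (i + s) := by
  unfold dg
  rw [Nat.div_div_eq_div_mul, ← pow_add, ← mul_add]

lemma pk_single {w c : ℕ} (hc : 0 < c) (u : ℕ) :
    pk w c (fun i => if i = 0 then u else 0) = u := by
  unfold pk
  rw [sum_eq_single 0]
  · simp
  · intro b _ hb; simp [hb]
  · intro h; simp at h; omega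

lemma maskRow_eq (n : ℕ) :
    maskRow n = pk 104 (8 * n) (fun s => if s % 8 = 0 then 2 ^ 104 - 1 else 0) := by
  rw [pk_mul]
  have : maskRow n = pk (104 * 8) n (fun _ => 2 ^ 104 - 1) := by
    rw [pk_const' (by norm_num)]; rfl
  rw [this]
  apply pk_congr
  intro j _
  refine (pk_single (w := 104) (c := 8) (by norm_num) (2 ^ 104 - 1)).symm.trans ?_
  apply pk_congr
  intro i hi
  have : (i + 8 * j) % 8 = i := by omega
  simp only [this]

lemma rowOf_eq {n : ℕ} {B : ℕ → ℕ} (hB : Good n B) {k : ℕ} (hk : k < n) :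
    rowOf n B k = pk 832 n (fun j => udig B k j) + 2 ^ (832 * n) := by
  have h1 : rowOf n B k =
      (B (k / 8) >>> (104 * (k % 8)) &&& maskRow n) + 2 ^ (832 * n) := rfl
  rw [h1]
  congr 1
  rw [Nat.shiftRight_eq_div_pow]
  set U := B (k / 8) with hU
  have hg := hB (k / 8) (by omega)
  have hlt : U / 2 ^ (104 * (k % 8)) < 2 ^ (104 * (8 * n)) :=
    lt_of_le_of_lt (Nat.div_le_self _ _) hg.1
  rw [maskRow_eq]
  nth_rewrite 1 [← pk_dg hlt]
  rw [pk_land (fun s _ => dg_lt _ _ _) (fun s _ => by split_ifs <;> simp), pk_mul]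
  show pk 832 n _ = _
  apply pk_congr
  intro j _
  have e : udig B k j = pk 104 8 (fun i => if i = 0 then udig B k j else 0) :=
    (pk_single (by norm_num) _).symm
  rw [e]
  apply pk_congr
  intro i hi
  have h8 : (i + 8 * j) % 8 = i := by omega
  rw [h8]
  by_cases hi0 : i = 0
  · subst hi0
    simp only [if_true, zero_add]
    rw [Nat.and_two_pow_sub_one_eq_mod, dg_div, Nat.mod_eq_of_lt (dg_lt _ _ _)]
    rfl
  · simp [hi0]

/-- column blocks of a chunk -/
lemma chunk_eq {n : ℕ} {U : ℕ} (h : U < 2 ^ (104 * (8 * n))) :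
    U = pk 832 n (fun k => pk 104 8 (fun i => dg 104 U (i + 8 * k))) := by
  nth_rewrite 1 [← pk_dg h]
  rw [pk_mul]

lemma block_lt (U k : ℕ) : pk 104 8 (fun i => dg 104 U (i + 8 * k)) < 2 ^ 832 :=
  pk_lt (w := 104) (N := 8) (fun _ _ => dg_lt _ _ _)

/-- the tree of the rows of `B` -/
noncomputable def rowTree (n : ℕ) (B : ℕ → ℕ) : BT := build (rowOf n B) 10 0 n

lemma rowTree_spec {n : ℕ} (hn : 1 ≤ n) (hn2 : n ≤ 1024) (B : ℕ → ℕ) :
    IsTree (rowTree n B) n (rowOf n B) := by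
  have := build_spec (rowOf n B) 10 0 n hn (by simpa using hn2)
  simp only [zero_add] at this
  exact this

lemma pk_mul_pk_sum (n m : ℕ) (a : ℕ → ℕ → ℕ) (b : ℕ → ℕ → ℕ) :
    ∑ k ∈ range m, pk 104 8 (fun i => a i k) * pk 832 n (fun j => b k j) =
      pk 832 n (fun j => pk 104 8 (fun i => ∑ k ∈ range m, a i k * b k j)) := by
  unfold pk
  simp only [sum_mul, mul_sum]
  rw [sum_comm]
  apply sum_congr rfl
  intro j _
  rw [sum_comm]
  apply sum_congr rfl
  intro i _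
  apply sum_congr rfl
  intro k _
  ring

lemma sum_pk (w N m : ℕ) (a : ℕ → ℕ → ℕ) :
    ∑ k ∈ range m, pk w N (fun i => a i k) = pk w N (fun i => ∑ k ∈ range m, a i k) := by
  unfold pk
  rw [sum_comm]
  apply sum_congr rfl
  intro i _
  rw [sum_mul]

/-- value of `dot` on the row tree -/
lemma dot_rowTree {n : ℕ} (hn : 1 ≤ n) (hn2 : n ≤ 1024) {A B : ℕ → ℕ} (hA : Good n A)
    (hB : Good n B) {I : ℕ} (hI : 8 * I < n) :
    (rowTree n B).dot (A I) =
      pk 832 n (fun j => pk 104 8 (fun i => ∑ k ∈ range n,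
        dg 104 (A I) (i + 8 * k) * udig B k j)) +
      2 ^ (832 * n) * pk 104 8 (fun i => ∑ k ∈ range n, dg 104 (A I) (i + 8 * k)) := by
  have h1 := (hA I hI).1
  rw [chunk_eq h1, (rowTree_spec hn hn2 B).dot_eq _ (fun k _ => block_lt _ _), ← chunk_eq h1]
  have h2 : ∀ k ∈ range n, pk 104 8 (fun i => dg 104 (A I) (i + 8 * k)) * rowOf n B k =
      pk 104 8 (fun i => dg 104 (A I) (i + 8 * k)) * pk 832 n (fun j => udig B k j) +
      2 ^ (832 * n) * pk 104 8 (fun i => dg 104 (A I) (i + 8 * k)) := by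
    intro k hk
    rw [rowOf_eq hB (mem_range.mp hk)]
    ring
  rw [sum_congr rfl h2, sum_add_distrib,
    pk_mul_pk_sum n n (fun i k => dg 104 (A I) (i + 8 * k)) (fun k j => udig B k j), ← mul_sum,
    sum_pk 104 8 n (fun i k => dg 104 (A I) (i + 8 * k))]

/-- column sums -/
noncomputable def colSum (n : ℕ) (t : BT) : ℕ :=
  Nat.land t.sum (Nat.sub (Nat.pow 2 (Nat.mul 832 n)) 1)

lemma colSum_rowTree {n : ℕ} (hn : 1 ≤ n) (hn2 : n ≤ 1024) {B : ℕ → ℕ} (hB : Good n B) :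
    colSum n (rowTree n B) = pk 832 n (fun j => ∑ k ∈ range n, udig B k j) := by
  show (rowTree n B).sum &&& (2 ^ (832 * n) - 1) = _
  rw [Nat.and_two_pow_sub_one_eq_mod, (rowTree_spec hn hn2 B).sum_eq]
  have h2 : ∀ k ∈ range n, rowOf n B k = pk 832 n (fun j => udig B k j) + 2 ^ (832 * n) :=
    fun k hk => rowOf_eq hB (mem_range.mp hk)
  rw [sum_congr rfl h2, sum_add_distrib, sum_const, card_range, smul_eq_mul,
    sum_pk 832 n n (fun j k => udig B k j), Nat.add_mul_mod_self_right]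
  apply Nat.mod_eq_of_lt
  apply pk_lt
  intro j hj
  calc ∑ k ∈ range n, udig B k j ≤ ∑ _k ∈ range n, 2 ^ 46 :=
        sum_le_sum (fun k hk => (hB.udig_lt (mem_range.mp hk) hj).le)
    _ = n * 2 ^ 46 := by simp
    _ ≤ 1024 * 2 ^ 46 := Nat.mul_le_mul_right _ hn2
    _ = 2 ^ 56 := by norm_num
    _ < 2 ^ 832 := Nat.pow_lt_pow_right (by norm_num) (by norm_num)

/-! ## Finalization (rounding) -/

lemma pk_addf (w N : ℕ) (u v : ℕ → ℕ) : pk w N (fun s => u s + v s) = pk w N u + pk w N v := by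
  unfold pk
  rw [← sum_add_distrib]
  apply sum_congr rfl
  intro s _
  ring

lemma pk_cmul (w N c : ℕ) (u : ℕ → ℕ) : pk w N (fun s => c * u s) = c * pk w N u := by
  unfold pk
  rw [mul_sum]
  apply sum_congr rfl
  intro s _
  ring

lemma pk2 (n : ℕ) (f : ℕ → ℕ → ℕ) :
    pk 832 n (fun j => pk 104 8 (fun i => f i j)) = pk 104 (8 * n) (fun t => f (t % 8) (t / 8)) := by
  rw [pk_mul]
  show pk 832 n _ = pk 832 n _
  apply pk_congr
  intro j _
  apply pk_congr
  intro i hi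
  rw [show (i + 8 * j) % 8 = i by omega, show (i + 8 * j) / 8 = j by omega]

noncomputable def finD (n m S : ℕ) : ℕ :=
  Nat.add (Nat.land S (Nat.sub (Nat.pow 2 (Nat.mul 832 n)) 1))
    (Nat.mul (Nat.add (Nat.pow 2 89) (Nat.mul m (Nat.pow 2 90))) (rep 104 (Nat.mul 8 n)))

noncomputable def finT (n g S Cc : ℕ) : ℕ :=
  Nat.add (Nat.add (Nat.mul (Nat.mul (Nat.pow 2 45) g) (rep 104 8))
    (Nat.mul (Nat.mul (Nat.pow 2 45) (Nat.shiftRight S (Nat.mul 832 n))) (rep 832 n)))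
    (Nat.mul (Nat.pow 2 44) Cc)

/-- all `8 n` slots of `U` are `< 2^p` -/
noncomputable def lowOK (p n U : ℕ) : Bool :=
  Nat.beq (Nat.land U (Nat.mul (Nat.sub (Nat.pow 2 104) (Nat.pow 2 p)) (rep 104 (Nat.mul 8 n)))) 0

lemma lowOK_spec {p n U : ℕ} (hp : p ≤ 104) (hU : U < 2 ^ (832 * n)) (h : lowOK p n U = true) :
    lowDigits 104 p (8 * n) U := by
  refine lowDigits_of_land hp (by norm_num) ?_ ?_
  · rw [← mul_assoc]; exact hU
  · exact Nat.eq_of_beq_eq_true h

noncomputable def finOK (n m g S Cc : ℕ) : Bool :=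
  and (Nat.blt Cc (Nat.pow 2 (Nat.mul 832 n)))
   (and (lowOK 46 n Cc)
    (and (Nat.ble (finT n g S Cc) (finD n m S))
      (lowOK 44 n (Nat.sub (finD n m S) (finT n g S Cc)))))

lemma finOK_spec {n m g S Cc : ℕ} {s : ℕ → ℕ → ℕ} {γ ρ : ℕ → ℕ} (hm : m ≤ 1024)
    (hg : g = pk 832 n γ)
    (hS : S = pk 832 n (fun j => pk 104 8 (fun i => s i j)) + 2 ^ (832 * n) * pk 104 8 ρ)
    (hs : ∀ i < 8, ∀ j < n, s i j ≤ m * 2 ^ 92) (hγ : ∀ j < n, γ j ≤ m * 2 ^ 46)
    (hρ : ∀ i < 8, ρ i ≤ m * 2 ^ 46) (h : finOK n m g S Cc = true) :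
    lowDigits 104 46 (8 * n) Cc ∧ ∀ i < 8, ∀ j < n, ∃ e < 2 ^ 44,
      s i j + (2 ^ 89 + m * 2 ^ 90) =
        2 ^ 45 * γ j + 2 ^ 45 * ρ i + 2 ^ 44 * dg 104 Cc (i + 8 * j) + e := by
  unfold finOK at h
  rw [Bool.and_eq_true, Bool.and_eq_true, Bool.and_eq_true] at h
  obtain ⟨h1, h2, h3, h4⟩ := h
  have hC0 : Cc < 2 ^ (832 * n) := by
    have := Nat.blt_eq.mp h1
    exact this
  have hC := lowOK_spec (by norm_num) hC0 h2
  refine ⟨hC, ?_⟩
  have e1 : S = pk 104 (8 * n) (fun t => s (t % 8) (t / 8)) + 2 ^ (832 * n) * pk 104 8 ρ := by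
    rw [hS, pk2]
  have hslt : ∀ t < 8 * n, s (t % 8) (t / 8) ≤ m * 2 ^ 92 :=
    fun t ht => hs _ (by omega) _ (by omega)
  have hlow : pk 104 (8 * n) (fun t => s (t % 8) (t / 8)) < 2 ^ (832 * n) := by
    rw [show 832 * n = 104 * (8 * n) by ring]
    apply pk_lt
    intro t ht
    calc s (t % 8) (t / 8) ≤ m * 2 ^ 92 := hslt t ht
      _ ≤ 1024 * 2 ^ 92 := Nat.mul_le_mul_right _ hm
      _ < 2 ^ 104 := by norm_num
  have hD : finD n m S = pk 104 (8 * n) (fun t => s (t % 8) (t / 8) + (2 ^ 89 + m * 2 ^ 90)) := by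
    have : finD n m S = (S &&& (2 ^ (832 * n) - 1)) + (2 ^ 89 + m * 2 ^ 90) * rep 104 (8 * n) := rfl
    rw [this, Nat.and_two_pow_sub_one_eq_mod, pk_addf, pk_const' (by norm_num)]
    congr 1
    rw [e1, Nat.add_mul_mod_self_left, Nat.mod_eq_of_lt hlow]
  have hR : Nat.shiftRight S (Nat.mul 832 n) = pk 104 8 ρ := by
    show S >>> (832 * n) = _
    rw [Nat.shiftRight_eq_div_pow, e1, Nat.add_mul_div_left _ _ (by positivity),
      Nat.div_eq_of_lt hlow, zero_add]
  have hT : finT n g S Cc = pk 104 (8 * n) (fun t => 2 ^ 45 * γ (t / 8) + 2 ^ 45 * ρ (t % 8) +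
      2 ^ 44 * dg 104 Cc t) := by
    have e2 : finT n g S Cc = (2 ^ 45 * g) * rep 104 8 +
      (2 ^ 45 * (Nat.shiftRight S (Nat.mul 832 n))) * rep 832 n + 2 ^ 44 * Cc := rfl
    rw [e2, hR, pk_addf, pk_addf, pk_cmul 104 (8 * n) (2 ^ 44) (dg 104 Cc),
      pk_dg (by rw [← mul_assoc]; exact hC0)]
    refine congrArg₂ (· + ·) (congrArg₂ (· + ·) ?_ ?_) rfl
    · rw [← pk2 n (fun i j => 2 ^ 45 * γ j)]
      have : ∀ j, pk 104 8 (fun _ => 2 ^ 45 * γ j) = (2 ^ 45 * rep 104 8) * γ j := by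
        intro j
        rw [pk_const' (by norm_num)]; ring
      simp only [this]
      rw [pk_cmul, hg]; ring
    · rw [← pk2 n (fun i j => 2 ^ 45 * ρ i), pk_const' (by norm_num), pk_cmul]
  have hle : finT n g S Cc ≤ finD n m S := Nat.le_of_ble_eq_true h3
  have hDlt : finD n m S < 2 ^ (832 * n) := by
    rw [hD, show 832 * n = 104 * (8 * n) by ring]
    apply pk_lt
    intro t ht
    calc s (t % 8) (t / 8) + (2 ^ 89 + m * 2 ^ 90)
        ≤ m * 2 ^ 92 + (2 ^ 89 + m * 2 ^ 90) := Nat.add_le_add_right (hslt t ht) _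
      _ ≤ 1024 * 2 ^ 92 + (2 ^ 89 + 1024 * 2 ^ 90) := by gcongr
      _ < 2 ^ 104 := by norm_num
  set R := finD n m S - finT n g S Cc with hRdef
  have hRl : lowDigits 104 44 (8 * n) R :=
    lowOK_spec (by norm_num) (lt_of_le_of_lt (Nat.sub_le _ _) hDlt) h4
  have key : pk 104 (8 * n) (fun t => s (t % 8) (t / 8) + (2 ^ 89 + m * 2 ^ 90)) =
      pk 104 (8 * n) (fun t => 2 ^ 45 * γ (t / 8) + 2 ^ 45 * ρ (t % 8) +
      2 ^ 44 * dg 104 Cc t + dg 104 R t) := by
    rw [pk_addf 104 (8 * n) _ (dg 104 R), pk_dg hRl.1, ← hD, ← hT, hRdef]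
    omega
  intro i hi j hj
  have hinj := pk_inj (w := 104) (N := 8 * n) ?_ ?_ key (i + 8 * j) (by omega)
  · refine ⟨dg 104 R (i + 8 * j), hRl.2 _ (by omega), ?_⟩
    rw [show (i + 8 * j) % 8 = i by omega, show (i + 8 * j) / 8 = j by omega] at hinj
    exact hinj
  · intro t ht
    calc s (t % 8) (t / 8) + (2 ^ 89 + m * 2 ^ 90)
        ≤ m * 2 ^ 92 + (2 ^ 89 + m * 2 ^ 90) := Nat.add_le_add_right (hslt t ht) _
      _ ≤ 1024 * 2 ^ 92 + (2 ^ 89 + 1024 * 2 ^ 90) := by gcongr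
      _ < 2 ^ 104 := by norm_num
  · intro t ht
    have a1 := hγ (t / 8) (by omega)
    have a2 := hρ (t % 8) (by omega)
    have a3 := hC.2 t ht
    have a4 := hRl.2 t ht
    have a5 : γ (t / 8) ≤ 1024 * 2 ^ 46 := a1.trans (Nat.mul_le_mul_right _ hm)
    have a6 : ρ (t % 8) ≤ 1024 * 2 ^ 46 := a2.trans (Nat.mul_le_mul_right _ hm)
    calc 2 ^ 45 * γ (t / 8) + 2 ^ 45 * ρ (t % 8) + 2 ^ 44 * dg 104 Cc t + dg 104 R t
        ≤ 2 ^ 45 * (1024 * 2 ^ 46) + 2 ^ 45 * (1024 * 2 ^ 46) + 2 ^ 44 * 2 ^ 46 + 2 ^ 44 := by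
          gcongr
      _ < 2 ^ 104 := by norm_num

/-! ## Products -/

/-- run `f` on all chunk indices `I < N` -/
noncomputable def allI (f : ℕ → Bool) (N : ℕ) : Bool :=
  Nat.rec (motive := fun _ => Bool) true (fun I ih => and (f I) ih) N

lemma allI_spec {f : ℕ → Bool} {N : ℕ} (h : allI f N = true) : ∀ I < N, f I = true := by
  induction N with
  | zero => intro I hI; omega
  | succ N ih =>
    intro I hI
    have h' : (f N && allI f N) = true := h
    rw [Bool.and_eq_true] at h'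
    rcases Nat.lt_succ_iff_lt_or_eq.mp hI with h1 | h1
    · exact ih h'.2 I h1
    · rw [h1]; exact h'.1

/-- number of chunks -/
def nch (n : ℕ) : ℕ := Nat.div (Nat.add n 7) 8

lemma lt_nch {n I : ℕ} (h : 8 * I < n) : I < nch n := by
  show I < (n + 7) / 8
  omega

noncomputable def mulOK (n : ℕ) (A B C : ℕ → ℕ) : Bool :=
  allI (fun I => finOK n n (colSum n (rowTree n B)) ((rowTree n B).dot (A I)) (C I)) (nch n)

noncomputable def mul2OK (n : ℕ) (A B A' B' C : ℕ → ℕ) : Bool :=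
  allI (fun I => finOK n (Nat.mul 2 n)
    (Nat.add (colSum n (rowTree n B)) (colSum n (rowTree n B')))
    (Nat.add ((rowTree n B).dot (A I)) ((rowTree n B').dot (A' I))) (C I)) (nch n)

lemma sum_ent_mul (n : ℕ) (A B : ℕ → ℕ) (i j : ℕ) :
    ∑ k ∈ range n, ent A i k * ent B k j =
      ((∑ k ∈ range n, udig A i k * udig B k j : ℕ) : ℤ)
       - 2 ^ 45 * ((∑ k ∈ range n, udig B k j : ℕ) : ℤ)
       - 2 ^ 45 * ((∑ k ∈ range n, udig A i k : ℕ) : ℤ) + n * 2 ^ 90 := by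
  unfold ent
  simp only [Nat.cast_sum, Nat.cast_mul]
  rw [mul_sum, mul_sum, ← sum_sub_distrib, ← sum_sub_distrib]
  have : (n : ℤ) * 2 ^ 90 = ∑ _k ∈ range n, (2 : ℤ) ^ 90 := by simp
  rw [this, ← sum_add_distrib]
  apply sum_congr rfl
  intro k _
  ring

lemma udig_chunk (A : ℕ → ℕ) (i k : ℕ) :
    dg 104 (A (i / 8)) (i % 8 + 8 * k) = udig A i k := rfl

lemma sum_bound {n : ℕ} {f : ℕ → ℕ} {c : ℕ} (h : ∀ k < n, f k ≤ c) :
    ∑ k ∈ range n, f k ≤ n * c := by
  calc ∑ k ∈ range n, f k ≤ ∑ _k ∈ range n, c := sum_le_sum (fun k hk => h k (mem_range.mp hk))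
    _ = n * c := by simp

theorem mulOK_spec {n : ℕ} (hn : 1 ≤ n) (hn2 : n ≤ 1024) {A B C : ℕ → ℕ} (hA : Good n A)
    (hB : Good n B) (h : mulOK n A B C = true) :
    Good n C ∧ ∀ i < n, ∀ j < n,
      0 ≤ ∑ k ∈ range n, ent A i k * ent B k j - 2 ^ 44 * ent C i j ∧
      ∑ k ∈ range n, ent A i k * ent B k j - 2 ^ 44 * ent C i j < 2 ^ 44 := by
  have key : ∀ I, 8 * I < n → _ := fun I hI =>
    finOK_spec (n := n) (m := n) (g := colSum n (rowTree n B)) (S := (rowTree n B).dot (A I))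
      (Cc := C I) hn2 (colSum_rowTree hn hn2 hB) (dot_rowTree hn hn2 hA hB hI)
      (fun i hi j hj => by
        apply sum_bound
        intro k hk
        calc dg 104 (A I) (i + 8 * k) * udig B k j ≤ 2 ^ 46 * 2 ^ 46 :=
              Nat.mul_le_mul ((hA I hI).2 _ (by omega)).le (hB.udig_lt hk hj).le
          _ = 2 ^ 92 := by norm_num)
      (fun j hj => sum_bound (fun k hk => (hB.udig_lt hk hj).le))
      (fun i hi => sum_bound (fun k hk => ((hA I hI).2 _ (by omega)).le))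
      (allI_spec h I (lt_nch hI))
  refine ⟨fun I hI => (key I hI).1, ?_⟩
  intro i hi j hj
  obtain ⟨e, he, heq⟩ := (key (i / 8) (by omega)).2 (i % 8) (by omega) j hj
  simp only [udig_chunk] at heq
  rw [sum_ent_mul]
  have hz : (((∑ k ∈ range n, udig A i k * udig B k j : ℕ) : ℤ) + (2 ^ 89 + n * 2 ^ 90)) =
      2 ^ 45 * ((∑ k ∈ range n, udig B k j : ℕ) : ℤ) + 2 ^ 45 *
        ((∑ k ∈ range n, udig A i k : ℕ) : ℤ) + 2 ^ 44 * (udig C i j : ℤ) + (e : ℤ) := by
    exact_mod_cast heq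
  have he' : (e : ℤ) < 2 ^ 44 := by exact_mod_cast he
  have he0 : (0 : ℤ) ≤ e := by positivity
  unfold ent
  constructor <;> linarith

theorem mul2OK_spec {n : ℕ} (hn : 1 ≤ n) (hn2 : n ≤ 512) {A B A' B' C : ℕ → ℕ} (hA : Good n A)
    (hB : Good n B) (hA' : Good n A') (hB' : Good n B') (h : mul2OK n A B A' B' C = true) :
    Good n C ∧ ∀ i < n, ∀ j < n,
      0 ≤ ∑ k ∈ range n, ent A i k * ent B k j + ∑ k ∈ range n, ent A' i k * ent B' k j
        - 2 ^ 44 * ent C i j ∧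
      ∑ k ∈ range n, ent A i k * ent B k j + ∑ k ∈ range n, ent A' i k * ent B' k j
        - 2 ^ 44 * ent C i j < 2 ^ 44 := by
  have hn3 : n ≤ 1024 := by omega
  have key : ∀ I, 8 * I < n → _ := fun I hI =>
    finOK_spec (n := n) (m := 2 * n)
      (g := colSum n (rowTree n B) + colSum n (rowTree n B'))
      (S := (rowTree n B).dot (A I) + (rowTree n B').dot (A' I))
      (Cc := C I)
      (s := fun i j => ∑ k ∈ range n, dg 104 (A I) (i + 8 * k) * udig B k j +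
        ∑ k ∈ range n, dg 104 (A' I) (i + 8 * k) * udig B' k j)
      (γ := fun j => ∑ k ∈ range n, udig B k j + ∑ k ∈ range n, udig B' k j)
      (ρ := fun i => ∑ k ∈ range n, dg 104 (A I) (i + 8 * k) +
        ∑ k ∈ range n, dg 104 (A' I) (i + 8 * k))
      (by omega)
      (by rw [colSum_rowTree hn hn3 hB, colSum_rowTree hn hn3 hB', pk_addf])
      (by
        rw [dot_rowTree hn hn3 hA hB hI, dot_rowTree hn hn3 hA' hB' hI]
        simp only [pk_addf]
        ring)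
      (fun i hi j hj => by
        have h1 : ∑ k ∈ range n, dg 104 (A I) (i + 8 * k) * udig B k j ≤ n * 2 ^ 92 := by
          apply sum_bound
          intro k hk
          calc dg 104 (A I) (i + 8 * k) * udig B k j ≤ 2 ^ 46 * 2 ^ 46 :=
                Nat.mul_le_mul ((hA I hI).2 _ (by omega)).le (hB.udig_lt hk hj).le
            _ = 2 ^ 92 := by norm_num
        have h2 : ∑ k ∈ range n, dg 104 (A' I) (i + 8 * k) * udig B' k j ≤ n * 2 ^ 92 := by
          apply sum_bound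
          intro k hk
          calc dg 104 (A' I) (i + 8 * k) * udig B' k j ≤ 2 ^ 46 * 2 ^ 46 :=
                Nat.mul_le_mul ((hA' I hI).2 _ (by omega)).le (hB'.udig_lt hk hj).le
            _ = 2 ^ 92 := by norm_num
        omega)
      (fun j hj => by
        have h1 : ∑ k ∈ range n, udig B k j ≤ n * 2 ^ 46 :=
          sum_bound (fun k hk => (hB.udig_lt hk hj).le)
        have h2 : ∑ k ∈ range n, udig B' k j ≤ n * 2 ^ 46 :=
          sum_bound (fun k hk => (hB'.udig_lt hk hj).le)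
        omega)
      (fun i hi => by
        have h1 : ∑ k ∈ range n, dg 104 (A I) (i + 8 * k) ≤ n * 2 ^ 46 :=
          sum_bound (fun k hk => ((hA I hI).2 _ (by omega)).le)
        have h2 : ∑ k ∈ range n, dg 104 (A' I) (i + 8 * k) ≤ n * 2 ^ 46 :=
          sum_bound (fun k hk => ((hA' I hI).2 _ (by omega)).le)
        omega)
      (allI_spec h I (lt_nch hI))
  refine ⟨fun I hI => (key I hI).1, ?_⟩
  intro i hi j hj
  obtain ⟨e, he, heq⟩ := (key (i / 8) (by omega)).2 (i % 8) (by omega) j hj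
  simp only [udig_chunk] at heq
  rw [sum_ent_mul, sum_ent_mul]
  have hz : (((∑ k ∈ range n, udig A i k * udig B k j : ℕ) : ℤ) +
      ((∑ k ∈ range n, udig A' i k * udig B' k j : ℕ) : ℤ) + (2 ^ 89 + 2 * n * 2 ^ 90)) =
      2 ^ 45 * (((∑ k ∈ range n, udig B k j : ℕ) : ℤ) + ((∑ k ∈ range n, udig B' k j : ℕ) : ℤ))
      + 2 ^ 45 * (((∑ k ∈ range n, udig A i k : ℕ) : ℤ) + ((∑ k ∈ range n, udig A' i k : ℕ) : ℤ))
      + 2 ^ 44 * (udig C i j : ℤ) + (e : ℤ) := by
    exact_mod_cast heq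
  have he' : (e : ℤ) < 2 ^ 44 := by exact_mod_cast he
  have he0 : (0 : ℤ) ≤ e := by positivity
  unfold ent
  constructor <;> linarith

end Crest.Agent.R347.Packed
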