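import Mathlib

/-!
# Packed numbers: digit lemmas (base `2^w`)
-/

namespace Crest.Agent.R347.Packed

open Finset

/-- packed number `∑_{s<N} u s 2^{w s}` -/
def pk (w N : ℕ) (u : ℕ → ℕ) : ℕ := ∑ s ∈ range N, u s * 2 ^ (w * s)

@[simp] lemma pk_zero (w : ℕ) (u : ℕ → ℕ) : pk w 0 u = 0 := by simp [pk]

lemma pk_succ (w N : ℕ) (u : ℕ → ℕ) : pk w (N + 1) u = pk w N u + u N * 2 ^ (w * N) := by
  simp [pk, sum_range_succ]

lemma pk_succ' (w N : ℕ) (u : ℕ → ℕ) :
    pk w (N + 1) u = 2 ^ w * pk w N (fun s => u (s + 1)) + u 0 := by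
  unfold pk
  rw [sum_range_succ', mul_sum]
  simp only [mul_zero, pow_zero, mul_one, add_left_inj]
  apply sum_congr rfl
  intro s _
  rw [mul_add, pow_add, mul_one]; ring

lemma pk_congr {w N : ℕ} {u v : ℕ → ℕ} (h : ∀ s < N, u s = v s) : pk w N u = pk w N v := by
  unfold pk
  apply sum_congr rfl
  intro s hs
  rw [h s (mem_range.mp hs)]

lemma pk_add (w M N : ℕ) (u : ℕ → ℕ) :
    pk w (M + N) u = pk w M u + 2 ^ (w * M) * pk w N (fun s => u (M + s)) := by
  unfold pk
  rw [sum_range_add, mul_sum]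
  congr 1
  apply sum_congr rfl
  intro s _
  rw [mul_add, pow_add]; ring

lemma pk_lt {w : ℕ} {N : ℕ} {u : ℕ → ℕ} (h : ∀ s < N, u s < 2 ^ w) :
    pk w N u < 2 ^ (w * N) := by
  induction N with
  | zero => simp
  | succ N ih =>
    rw [pk_succ, mul_add, mul_one, pow_add]
    have h1 := ih (fun s hs => h s (Nat.lt_succ_of_lt hs))
    have h2 := h N (Nat.lt_succ_self N)
    have h3 : (u N + 1) * 2 ^ (w * N) ≤ 2 ^ w * 2 ^ (w * N) := Nat.mul_le_mul_right _ h2
    calc pk w N u + u N * 2 ^ (w * N) < 2 ^ (w * N) + u N * 2 ^ (w * N) := by omega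
      _ = (u N + 1) * 2 ^ (w * N) := by ring
      _ ≤ _ := h3
      _ = _ := by ring

/-- digit `s` in base `2^w` -/
def dg (w U s : ℕ) : ℕ := U / 2 ^ (w * s) % 2 ^ w

lemma dg_lt (w U s : ℕ) : dg w U s < 2 ^ w := Nat.mod_lt _ (by positivity)

lemma dg_pk {w N : ℕ} {u : ℕ → ℕ} (h : ∀ s < N, u s < 2 ^ w) {s : ℕ} (hs : s < N) :
    dg w (pk w N u) s = u s := by
  obtain ⟨M, rfl⟩ := Nat.exists_eq_add_of_lt hs
  unfold dg
  have e1 : pk w (s + M + 1) u = pk w s u + 2 ^ (w * s) *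
      (2 ^ w * pk w M (fun t => u (s + (t + 1))) + u s) := by
    rw [show s + M + 1 = s + (M + 1) by ring, pk_add, pk_succ']
    simp
  rw [e1, Nat.add_mul_div_left _ _ (by positivity),
    Nat.div_eq_of_lt (pk_lt (fun t ht => h t (by omega))), zero_add, Nat.mul_add_mod]
  exact Nat.mod_eq_of_lt (h s hs)

lemma pk_dg {w N U : ℕ} (h : U < 2 ^ (w * N)) : pk w N (dg w U) = U := by
  induction N generalizing U with
  | zero => simp at h; simp [h]
  | succ N ih =>
    rw [pk_succ']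
    have e : pk w N (fun s => dg w U (s + 1)) = U / 2 ^ w := by
      have hlt : U / 2 ^ w < 2 ^ (w * N) := by
        rw [Nat.div_lt_iff_lt_mul (by positivity), ← pow_add]
        calc U < _ := h
          _ = _ := by ring_nf
      rw [← ih hlt]
      apply pk_congr
      intro s _
      unfold dg
      rw [mul_add, mul_one, add_comm, pow_add, Nat.div_div_eq_div_mul]
    rw [e]
    unfold dg
    simp only [mul_zero, pow_zero, Nat.div_one]
    exact Nat.div_add_mod U (2 ^ w)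

lemma pk_inj {w N : ℕ} {u v : ℕ → ℕ} (hu : ∀ s < N, u s < 2 ^ w) (hv : ∀ s < N, v s < 2 ^ w)
    (h : pk w N u = pk w N v) : ∀ s < N, u s = v s := by
  intro s hs
  rw [← dg_pk hu hs, h, dg_pk hv hs]

lemma land_two_pow_mul_add {w a b c d : ℕ} (hb : b < 2 ^ w) (hd : d < 2 ^ w) :
    (2 ^ w * a + b) &&& (2 ^ w * c + d) = 2 ^ w * (a &&& c) + (b &&& d) := by
  apply Nat.eq_of_testBit_eq
  intro j
  rw [Nat.testBit_and, Nat.testBit_two_pow_mul_add _ hb, Nat.testBit_two_pow_mul_add _ hd,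
    Nat.testBit_two_pow_mul_add _ (lt_of_le_of_lt Nat.and_le_left hb)]
  split_ifs <;> simp [Nat.testBit_and]

lemma pk_land {w : ℕ} {N : ℕ} {u v : ℕ → ℕ} (hu : ∀ s < N, u s < 2 ^ w)
    (hv : ∀ s < N, v s < 2 ^ w) :
    pk w N u &&& pk w N v = pk w N (fun s => u s &&& v s) := by
  induction N generalizing u v with
  | zero => simp
  | succ N ih =>
    rw [pk_succ', pk_succ', pk_succ', land_two_pow_mul_add (hu 0 (by omega)) (hv 0 (by omega)),
      ih (fun s hs => hu (s + 1) (by omega)) (fun s hs => hv (s + 1) (by omega))]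

lemma pk_const (w N c : ℕ) : pk w N (fun _ => c) = c * ∑ s ∈ range N, (2 ^ w) ^ s := by
  unfold pk
  rw [mul_sum]
  apply sum_congr rfl
  intro s _
  rw [pow_mul]

/-- `∑_{j<n} 2^{w j}` as computed by the kernel -/
def rep (w n : ℕ) : ℕ := Nat.div (Nat.sub (Nat.pow 2 (Nat.mul w n)) 1) (Nat.sub (Nat.pow 2 w) 1)

lemma rep_eq {w : ℕ} (hw : 1 ≤ w) (n : ℕ) : rep w n = ∑ k ∈ range n, (2 ^ w) ^ k := by
  rw [Nat.geomSum_eq (by calc 2 = 2 ^ 1 := rfl
    _ ≤ 2 ^ w := Nat.pow_le_pow_right (by norm_num) hw)]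
  unfold rep
  rw [← pow_mul]; rfl

lemma pk_const' {w : ℕ} (hw : 1 ≤ w) (N c : ℕ) : pk w N (fun _ => c) = c * rep w N := by
  rw [pk_const, rep_eq hw]

/-- two-level packing: `N = c * n` slots of width `w`, grouped by `c` -/
lemma pk_mul (w c n : ℕ) (u : ℕ → ℕ) :
    pk w (c * n) u = pk (w * c) n (fun j => pk w c (fun i => u (i + c * j))) := by
  induction n with
  | zero => simp
  | succ n ih =>
    rw [mul_add, mul_one, pk_add, pk_succ, ih]
    have : pk w c (fun s => u (c * n + s)) = pk w c (fun i => u (i + c * n)) :=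
      pk_congr (fun s _ => by rw [add_comm])
    rw [this]
    ring_nf

/-- all digits of `U` (slots of width `w`, `N` slots) are `< 2^p` -/
def lowDigits (w p N U : ℕ) : Prop := U < 2 ^ (w * N) ∧ ∀ s < N, dg w U s < 2 ^ p

lemma lowDigits_of_land {w p N U : ℕ} (hp : p ≤ w) (hw : 1 ≤ w) (hU : U < 2 ^ (w * N))
    (h : U &&& ((2 ^ w - 2 ^ p) * rep w N) = 0) : lowDigits w p N U := by
  refine ⟨hU, ?_⟩
  have hpw : 2 ^ p ≤ 2 ^ w := Nat.pow_le_pow_right (by norm_num) hp
  have h1p : 0 < 2 ^ p := by positivity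
  rw [← pk_const' hw] at h
  nth_rewrite 1 [← pk_dg hU] at h
  rw [pk_land (fun s _ => dg_lt w U s) (fun s _ => by omega)] at h
  intro s hs
  have h0 : ∀ s < N, (fun s => dg w U s &&& (2 ^ w - 2 ^ p)) s = (fun _ => 0) s := by
    apply pk_inj (w := w)
    · intro s _
      exact lt_of_le_of_lt Nat.and_le_left (dg_lt w U s)
    · intro s _; positivity
    · rw [h]; simp [pk]
  have h1 := h0 s hs
  simp only at h1
  by_contra hcon
  push Not at hcon
  obtain ⟨j, hj, hjb⟩ : ∃ j, p ≤ j ∧ (dg w U s).testBit j = true := by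
    by_contra hne
    push Not at hne
    have : dg w U s < 2 ^ p := by
      apply Nat.lt_pow_two_of_testBit
      intro i hi
      simpa using hne i hi
    omega
  have hjw : j < w := by
    by_contra hjw
    push Not at hjw
    have : dg w U s < 2 ^ j := lt_of_lt_of_le (dg_lt w U s) (Nat.pow_le_pow_right (by norm_num) hjw)
    rw [Nat.testBit_lt_two_pow this] at hjb
    exact absurd hjb (by simp)
  have h2 : (dg w U s &&& (2 ^ w - 2 ^ p)).testBit j = true := by
    rw [Nat.testBit_and, hjb]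
    have e : 2 ^ w - 2 ^ p = 2 ^ p * (2 ^ (w - p) - 1) := by
      rw [Nat.mul_sub, ← pow_add, mul_one]
      congr 2; omega
    rw [e, Nat.testBit_two_pow_mul, Nat.testBit_two_pow_sub_one]
    simp; omega
  rw [h1] at h2
  simp at h2

end Crest.Agent.R347.Packed
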