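import Crest.Agent.R347.PackedOps
import Mathlib.Tactic.Eval

/-!
# Untrusted evaluators (used only inside `eval%` to produce literals), list access
-/

namespace Crest.Agent.R347.Packed

/-- list access, in kernel-friendly form -/
noncomputable def getN (l : List ℕ) : ℕ → ℕ :=
  List.rec (motive := fun _ => ℕ → ℕ) (fun _ => 0)
    (fun a _ ih i => Nat.rec (motive := fun _ => ℕ) a (fun j _ => ih j) i) l

lemma getN_eq (l : List ℕ) (i : ℕ) : getN l i = l.getD i 0 := by
  induction l generalizing i with
  | nil => rfl
  | cons a l ih =>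
    cases i with
    | zero => rfl
    | succ i => exact ih i

namespace Ev

def rep (w n : ℕ) : ℕ := (2 ^ (w * n) - 1) / (2 ^ w - 1)

/-- rows of a packed matrix, spaced by `832` -/
def rows (n : ℕ) (B : List ℕ) : Array ℕ := Id.run do
  let b := B.toArray
  let mask := (2 ^ 104 - 1) * rep 832 n
  let mut r := #[]
  for k in [0:n] do
    r := r.push ((((b.getD (k / 8) 0) >>> (104 * (k % 8))) &&& mask) + 2 ^ (832 * n))
  return r

/-- `∑ A_t B_t`, rounded to `44` bits -/
def mulN (n : ℕ) (ps : List (List ℕ × List ℕ)) : List ℕ := Id.run do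
  let m := n * ps.length
  let full := 2 ^ (832 * n) - 1
  let blk := 2 ^ 832 - 1
  let K := (2 ^ 89 + m * 2 ^ 90) * rep 104 (8 * n)
  let r8 := rep 104 8
  let rn := rep 832 n
  let mid := (2 ^ 90 - 2 ^ 44) * rep 104 (8 * n)
  let data := (ps.map fun p => (p.1.toArray, rows n p.2)).toArray
  let mut g := 0
  for d in data do
    for x in d.2 do
      g := g + x
  g := g &&& full
  let mut out := #[]
  for I in [0:(n + 7) / 8] do
    let mut S := 0
    for d in data do
      let mut c := d.1.getD I 0
      let mut k := 0
      -- process in pieces of 16 blocks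
      let pieceMask := 2 ^ (832 * 16) - 1
      for x in d.2 do
        if k % 16 == 0 then
          c := d.1.getD I 0 >>> (832 * k)
          c := c &&& pieceMask
        S := S + (c &&& blk) * x
        c := c >>> 832
        k := k + 1
    let D := (S &&& full) + K - (2 ^ 45 * g * r8 + 2 ^ 45 * (S >>> (832 * n)) * rn)
    out := out.push ((D &&& mid) >>> 44)
  return out.toList

def mul (n : ℕ) (A B : List ℕ) : List ℕ := mulN n [(A, B)]
def mul2 (n : ℕ) (A B A' B' : List ℕ) : List ℕ := mulN n [(A, B), (A', B')]

/-- decoded entries -/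
def ents (n : ℕ) (A : List ℕ) : Array (Array ℤ) := Id.run do
  let a := A.toArray
  let mut out := #[]
  for i in [0:n] do
    let mut c := (a.getD (i / 8) 0) >>> (104 * (i % 8))
    let mut row := #[]
    for _ in [0:n] do
      row := row.push (((c &&& (2 ^ 104 - 1) : ℕ) : ℤ) - 2 ^ 45)
      c := c >>> 832
    out := out.push row
  return out

/-- `tr (A B)` (scale `2^88`) -/
def traceZ (n : ℕ) (A B : List ℕ) : ℤ := Id.run do
  let a := ents n A
  let b := ents n B
  let mut t : ℤ := 0
  for i in [0:n] do
    let r := a.getD i #[]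
    for k in [0:n] do
      t := t + r.getD k 0 * (b.getD k #[]).getD i 0
  return t

/-- argument `tp` for `traceOK` -/
def trace (n : ℕ) (A B : List ℕ) : ℕ := (traceZ n A B + 2 ^ 120).toNat

/-- `∑ ent^2` (scale `2^88`) -/
def sq (n : ℕ) (A : List ℕ) : ℕ := Id.run do
  let a := ents n A
  let mut t : ℤ := 0
  for i in [0:n] do
    let r := a.getD i #[]
    for k in [0:n] do
      t := t + r.getD k 0 * r.getD k 0
  return t.toNat

/-- rounding of the exact rows (slot width 832, offset `2^200`), cf. `roundOK n u s` -/
def roundRows (n u s : ℕ) (R : ℕ → ℕ) : List ℕ := Id.run do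
  let rn := rep 832 n
  let mask := (2 ^ (s + 46) - 2 ^ s) * rn
  let mut out := #[]
  for I in [0:(n + 7) / 8] do
    let mut c := 0
    for i in [0:8] do
      let r := 8 * I + i
      if r < n then
        let D := 2 ^ u * R r + 2 ^ (45 + s) * rn - 2 ^ (u + 200) * rn
        c := c + (((D &&& mask) >>> s) <<< (104 * i))
      else
        c := c + ((2 ^ 45 * rn) <<< (104 * i))
    out := out.push c
  return out.toList

/-- pack a matrix of integers given as function -/
def pack (n : ℕ) (f : ℕ → ℕ → ℤ) : List ℕ := Id.run do
  let mut out := #[]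
  for I in [0:(n + 7) / 8] do
    let mut c := 0
    for jj in [0:n] do
      let j := n - 1 - jj
      for ii in [0:8] do
        let i := 7 - ii
        let r := 8 * I + i
        let d : ℕ := if r < n then (f r j + 2 ^ 45).toNat else 2 ^ 45
        c := (c <<< 104) ||| d
    out := out.push c
  return out.toList

end Ev

end Crest.Agent.R347.Packed
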