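import Crest.Agent.R347.Packed

/-!
# N3, second part: range check, rounding of exact rows, traces of products, sums of squares
-/

set_option exponentiation.threshold 10000

namespace Crest.Agent.R347.Packed

open Finset

/-! ## Range check -/

noncomputable def goodOK (n : ℕ) (A : ℕ → ℕ) : Bool :=
  allI (fun I => and (Nat.blt (A I) (Nat.pow 2 (Nat.mul 832 n))) (lowOK 46 n (A I))) (nch n)

lemma goodOK_spec {n : ℕ} {A : ℕ → ℕ} (h : goodOK n A = true) : Good n A := by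
  intro I hI
  have := allI_spec h I (lt_nch hI)
  rw [Bool.and_eq_true] at this
  exact lowOK_spec (by norm_num) (Nat.blt_eq.mp this.1) this.2

/-! ## Rounding of exact rows (slot width 832, offset `2^200`) -/

/-- row `r` spaced by 832 bits -/
def rowPure (n : ℕ) (B : ℕ → ℕ) (k : ℕ) : ℕ :=
  Nat.land (Nat.shiftRight (B (Nat.div k 8)) (Nat.mul 104 (Nat.mod k 8))) (maskRow n)

lemma rowPure_eq {n : ℕ} {B : ℕ → ℕ} (hB : Good n B) {k : ℕ} (hk : k < n) :
    rowPure n B k = pk 832 n (fun j => udig B k j) := by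
  have h := rowOf_eq hB hk
  have h2 : rowOf n B k = rowPure n B k + 2 ^ (832 * n) := rfl
  omega

noncomputable def rowRoundOK (n u s R c : ℕ) : Bool :=
  and (Nat.ble (Nat.add (Nat.mul (Nat.pow 2 s) c) (Nat.mul (Nat.pow 2 (Nat.add u 200)) (rep 832 n)))
        (Nat.add (Nat.mul (Nat.pow 2 u) R) (Nat.mul (Nat.pow 2 (Nat.add 45 s)) (rep 832 n))))
    (Nat.beq (Nat.land (Nat.sub
        (Nat.add (Nat.mul (Nat.pow 2 u) R) (Nat.mul (Nat.pow 2 (Nat.add 45 s)) (rep 832 n)))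
        (Nat.add (Nat.mul (Nat.pow 2 s) c) (Nat.mul (Nat.pow 2 (Nat.add u 200)) (rep 832 n))))
      (Nat.mul (Nat.sub (Nat.pow 2 832) (Nat.pow 2 s)) (rep 832 n))) 0)

lemma rowRoundOK_spec {n u s R c : ℕ} {d e : ℕ → ℕ} (hu : u ≤ 100) (hs : s ≤ 200)
    (hR : R = pk 832 n d) (hc : c = pk 832 n e) (hd : ∀ j < n, d j < 2 ^ 201)
    (he : ∀ j < n, e j < 2 ^ 46) (h : rowRoundOK n u s R c = true) :
    ∀ j < n, ∃ r < 2 ^ s, 2 ^ u * d j + 2 ^ (45 + s) = 2 ^ s * e j + 2 ^ (u + 200) + r := by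
  unfold rowRoundOK at h
  rw [Bool.and_eq_true] at h
  obtain ⟨h1, h2⟩ := h
  have h1' : 2 ^ s * c + 2 ^ (u + 200) * rep 832 n ≤ 2 ^ u * R + 2 ^ (45 + s) * rep 832 n :=
    Nat.le_of_ble_eq_true h1
  have h2' : (2 ^ u * R + 2 ^ (45 + s) * rep 832 n - (2 ^ s * c + 2 ^ (u + 200) * rep 832 n)) &&&
      ((2 ^ 832 - 2 ^ s) * rep 832 n) = 0 := Nat.eq_of_beq_eq_true h2
  have hD : 2 ^ u * R + 2 ^ (45 + s) * rep 832 n =
      pk 832 n (fun j => 2 ^ u * d j + 2 ^ (45 + s)) := by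
    rw [pk_addf, pk_cmul, pk_const' (by norm_num), hR]
  have hT : 2 ^ s * c + 2 ^ (u + 200) * rep 832 n =
      pk 832 n (fun j => 2 ^ s * e j + 2 ^ (u + 200)) := by
    rw [pk_addf, pk_cmul, pk_const' (by norm_num), hc]
  have p1 : 2 ^ u ≤ 2 ^ 100 := Nat.pow_le_pow_right (by norm_num) hu
  have p2 : 2 ^ (45 + s) ≤ 2 ^ 245 := Nat.pow_le_pow_right (by norm_num) (by omega)
  have p3 : 2 ^ s ≤ 2 ^ 200 := Nat.pow_le_pow_right (by norm_num) hs
  have p4 : 2 ^ (u + 200) ≤ 2 ^ 300 := Nat.pow_le_pow_right (by norm_num) (by omega)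
  have hDd : ∀ j < n, 2 ^ u * d j + 2 ^ (45 + s) < 2 ^ 832 := by
    intro j hj
    have := hd j hj
    calc 2 ^ u * d j + 2 ^ (45 + s) ≤ 2 ^ 100 * 2 ^ 201 + 2 ^ 245 := by gcongr
      _ < 2 ^ 832 := by norm_num
  set X := 2 ^ u * R + 2 ^ (45 + s) * rep 832 n with hX
  set Y := 2 ^ s * c + 2 ^ (u + 200) * rep 832 n with hY
  have hXlt : X < 2 ^ (832 * n) := by
    rw [hD]; exact pk_lt hDd
  have hR' : lowDigits 832 s n (X - Y) :=
    lowDigits_of_land (by omega) (by norm_num) (lt_of_le_of_lt (Nat.sub_le _ _) hXlt) h2'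
  have key : pk 832 n (fun j => 2 ^ u * d j + 2 ^ (45 + s)) =
      pk 832 n (fun j => 2 ^ s * e j + 2 ^ (u + 200) + dg 832 (X - Y) j) := by
    rw [pk_addf 832 n _ (dg 832 (X - Y)), pk_dg hR'.1, ← hD, ← hT]
    omega
  intro j hj
  refine ⟨dg 832 (X - Y) j, hR'.2 j hj, ?_⟩
  refine pk_inj hDd ?_ key j hj
  intro i hi
  have a1 := he i hi
  have a2 := hR'.2 i hi
  calc 2 ^ s * e i + 2 ^ (u + 200) + dg 832 (X - Y) i
      ≤ 2 ^ 200 * 2 ^ 46 + 2 ^ 300 + 2 ^ 200 := by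
        have : dg 832 (X - Y) i ≤ 2 ^ 200 := by omega
        gcongr
    _ < 2 ^ 832 := by norm_num

/-- `C` is the rounding of the exact rows `R` -/
noncomputable def roundOK (n u s : ℕ) (R C : ℕ → ℕ) : Bool :=
  and (goodOK n C) (allI (fun r => rowRoundOK n u s (R r) (rowPure n C r)) n)

theorem roundOK_spec200 {n u s : ℕ} (hu : u ≤ 100) (hs : s ≤ 200) {R C : ℕ → ℕ} {x : ℕ → ℕ → ℤ}
    (hR : ∀ r < n, ((R r : ℕ) : ℤ) = ∑ j ∈ range n, (x r j + 2 ^ 200) * 2 ^ (832 * j))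
    (hx : ∀ r < n, ∀ j < n, |x r j| < 2 ^ 200) (h : roundOK n u s R C = true) :
    Good n C ∧ ∀ r < n, ∀ j < n,
      0 ≤ 2 ^ u * x r j - 2 ^ s * ent C r j ∧ 2 ^ u * x r j - 2 ^ s * ent C r j < 2 ^ s := by
  unfold roundOK at h
  rw [Bool.and_eq_true] at h
  have hC := goodOK_spec h.1
  refine ⟨hC, ?_⟩
  intro r hr j hj
  have hnn : ∀ j < n, 0 ≤ x r j + 2 ^ 200 := by
    intro j hj
    have := abs_lt.mp (hx r hr j hj)
    linarith [this.1]
  have hpk : R r = pk 832 n (fun j => (x r j + 2 ^ 200).toNat) := by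
    have : ((R r : ℕ) : ℤ) = ((pk 832 n (fun j => (x r j + 2 ^ 200).toNat) : ℕ) : ℤ) := by
      rw [hR r hr]
      unfold pk
      rw [Nat.cast_sum]
      apply sum_congr rfl
      intro j hj
      rw [Nat.cast_mul, Int.toNat_of_nonneg (hnn j (mem_range.mp hj))]
      simp
    exact_mod_cast this
  obtain ⟨e, he, heq⟩ := rowRoundOK_spec hu hs hpk (rowPure_eq hC hr) (fun j hj => by
      have := abs_lt.mp (hx r hr j hj)
      have h2 : x r j + 2 ^ 200 < 2 ^ 201 := by linarith [this.2]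
      have h3 := Int.toNat_of_nonneg (hnn j hj)
      have h4 : (((x r j + 2 ^ 200).toNat : ℕ) : ℤ) < ((2 ^ 201 : ℕ) : ℤ) := by
        rw [h3]; exact_mod_cast h2
      exact_mod_cast h4)
    (fun j hj => hC.udig_lt hr hj) (allI_spec h.2 r hr) j hj
  have hz : (2 : ℤ) ^ u * (x r j + 2 ^ 200) + 2 ^ (45 + s) =
      2 ^ s * (udig C r j : ℤ) + 2 ^ (u + 200) + (e : ℤ) := by
    have h3 := Int.toNat_of_nonneg (hnn j hj)
    rw [← h3]
    exact_mod_cast heq
  have he' : (e : ℤ) < 2 ^ s := by exact_mod_cast he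
  have he0 : (0 : ℤ) ≤ e := by positivity
  have h5 : (2 : ℤ) ^ u * x r j - 2 ^ s * ent C r j = e := by
    unfold ent
    have e1 : (2 : ℤ) ^ (u + 200) = 2 ^ u * 2 ^ 200 := pow_add _ _ _
    have e2 : (2 : ℤ) ^ (45 + s) = 2 ^ s * 2 ^ 45 := by rw [pow_add]; ring
    rw [e1, e2] at hz
    linear_combination hz
  rw [h5]
  exact ⟨he0, he'⟩

theorem roundOK_spec {n u s : ℕ} (hu : u ≤ 100) (hs : s ≤ 200) {R C : ℕ → ℕ} {x : ℕ → ℕ → ℤ}
    (hR : ∀ r < n, ((R r : ℕ) : ℤ) = ∑ j ∈ range n, (x r j + 2 ^ 200) * 2 ^ (832 * j))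
    (hx : ∀ r < n, ∀ j < n, |x r j| < 2 ^ 190) (h : roundOK n u s R C = true) :
    Good n C ∧ ∀ r < n, ∀ j < n,
      0 ≤ 2 ^ u * x r j - 2 ^ s * ent C r j ∧ 2 ^ u * x r j - 2 ^ s * ent C r j < 2 ^ s :=
  roundOK_spec200 hu hs hR (fun r hr j hj => (hx r hr j hj).trans (by norm_num)) h

/-! ## Generic tree recursion -/

noncomputable def BT.app (q : ℕ → ℕ → ℕ) (t : BT) : ℕ → ℕ :=
  BT.rec (motive := fun _ => ℕ → ℕ) (fun b c => q b c)
    (fun s m _ _ ihl ihr c => Nat.add (ihl (Nat.land c m)) (ihr (Nat.shiftRight c s))) t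

lemma IsTree.app_eq {q : ℕ → ℕ → ℕ} {t : BT} {m : ℕ} {f : ℕ → ℕ} (h : IsTree t m f) (α : ℕ → ℕ)
    (hα : ∀ k < m, α k < 2 ^ 832) :
    t.app q (pk 832 m α) = ∑ k ∈ range m, q (f k) (α k) := by
  induction h generalizing α with
  | leaf f =>
    show q (f 0) (pk 832 1 α) = _
    simp [pk]
  | @node l r m₁ m₂ f hl hr ihl ihr =>
    show l.app q (pk 832 (m₁ + m₂) α &&& (2 ^ (832 * m₁) - 1)) +
      r.app q (pk 832 (m₁ + m₂) α >>> (832 * m₁)) = _
    have h1 : pk 832 m₁ α < 2 ^ (832 * m₁) := pk_lt (fun k hk => hα k (by omega))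
    rw [Nat.and_two_pow_sub_one_eq_mod, Nat.shiftRight_eq_div_pow, pk_add,
      Nat.add_mul_mod_self_left, Nat.mod_eq_of_lt h1, Nat.add_mul_div_left _ _ (by positivity),
      Nat.div_eq_of_lt h1, zero_add, ihl α (fun k hk => hα k (by omega)),
      ihr (fun s => α (m₁ + s)) (fun k hk => hα _ (by omega)), sum_range_add]

/-- the index tree -/
noncomputable def shape (n : ℕ) : BT := build (fun k => k) 10 0 n

lemma shape_spec {n : ℕ} (hn : 1 ≤ n) (hn2 : n ≤ 1024) : IsTree (shape n) n (fun k => k) := by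
  have := build_spec (fun k => k) 10 0 n hn (by simpa using hn2)
  simp only [zero_add] at this
  exact this

lemma pk_dg_mod (w N U : ℕ) : pk w N (dg w U) = U % 2 ^ (w * N) := by
  induction N generalizing U with
  | zero => simp [Nat.mod_one]
  | succ N ih =>
    rw [pk_succ']
    have e : (fun s => dg w U (s + 1)) = dg w (U / 2 ^ w) := by
      funext s
      unfold dg
      rw [mul_add, mul_one, add_comm, pow_add, Nat.div_div_eq_div_mul]
    rw [e, ih, mul_add, mul_one, add_comm (w * N) w, pow_add, Nat.mod_mul, add_comm]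
    congr 1
    unfold dg
    simp

lemma land_of_lt {U M N : ℕ} (hM : M < 2 ^ N) : U &&& M = (U % 2 ^ N) &&& M := by
  apply Nat.eq_of_testBit_eq
  intro j
  rw [Nat.testBit_and, Nat.testBit_and, Nat.testBit_mod_two_pow]
  by_cases hj : j < N
  · simp [hj]
  · have : M.testBit j = false := Nat.testBit_lt_two_pow
      (lt_of_lt_of_le hM (Nat.pow_le_pow_right (by norm_num) (by omega)))
    simp [this]

/-- `U &&& maskRow n` selects the slots `8 j` -/
lemma land_maskRow (U n : ℕ) : U &&& maskRow n = pk 832 n (fun j => dg 104 U (8 * j)) := by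
  have hm : maskRow n < 2 ^ (104 * (8 * n)) := by
    rw [maskRow_eq]
    apply pk_lt
    intro s _
    split_ifs <;> simp
  rw [land_of_lt hm, ← pk_dg_mod, maskRow_eq,
    pk_land (fun s _ => dg_lt _ _ _) (fun s _ => by split_ifs <;> simp), pk_mul]
  show pk 832 n _ = _
  apply pk_congr
  intro j _
  refine Eq.trans ?_ (pk_single (w := 104) (c := 8) (by norm_num) (dg 104 U (8 * j)))
  apply pk_congr
  intro i hi
  have h8 : (i + 8 * j) % 8 = i := by omega
  rw [h8]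
  by_cases hi0 : i = 0
  · subst hi0
    simp only [if_true, zero_add]
    rw [Nat.and_two_pow_sub_one_eq_mod, Nat.mod_eq_of_lt (dg_lt _ _ _)]
  · simp [hi0]

/-- columns `8 I, ..., 8 I + 7` of the row `k` -/
def subRow (B : ℕ → ℕ) (I k : ℕ) : ℕ :=
  Nat.land (Nat.shiftRight (B (Nat.div k 8))
    (Nat.add (Nat.mul 104 (Nat.mod k 8)) (Nat.mul 6656 I))) (maskRow 8)

lemma subRow_eq (B : ℕ → ℕ) (I k : ℕ) :
    subRow B I k = pk 832 8 (fun j => udig B k (8 * I + j)) := by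
  have h1 : subRow B I k = (B (k / 8) >>> (104 * (k % 8) + 6656 * I)) &&& maskRow 8 := rfl
  rw [h1, land_maskRow, Nat.shiftRight_eq_div_pow,
    show 104 * (k % 8) + 6656 * I = 104 * (k % 8 + 64 * I) by ring]
  apply pk_congr
  intro j _
  rw [dg_div]
  unfold udig
  congr 1
  ring

/-- sum of the diagonal slots `9 i`, `i < cnt` -/
noncomputable def diag (cnt S : ℕ) : ℕ :=
  Nat.rec (motive := fun _ => ℕ) 0
    (fun i ih => Nat.add ih (Nat.mod (Nat.shiftRight S (Nat.mul 936 i)) (Nat.pow 2 104))) cnt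

lemma diag_eq (cnt S : ℕ) : diag cnt S = ∑ i ∈ range cnt, dg 104 S (9 * i) := by
  induction cnt with
  | zero => rfl
  | succ c ih =>
    rw [sum_range_succ, ← ih]
    show diag c S + (S >>> (936 * c)) % 2 ^ 104 = _
    rw [Nat.shiftRight_eq_div_pow]
    unfold dg
    rw [show 936 * c = 104 * (9 * c) by ring]

/-- total of the unsigned digits -/
noncomputable def tot (n : ℕ) (A : ℕ → ℕ) : ℕ :=
  Nat.mod (colSum n (rowTree n A)) (Nat.sub (Nat.pow 2 832) 1)

lemma pk_modEq (w N : ℕ) (u : ℕ → ℕ) : pk w N u ≡ ∑ s ∈ range N, u s [MOD (2 ^ w - 1)] := by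
  unfold pk
  induction N with
  | zero => simp; rfl
  | succ N ih =>
    rw [sum_range_succ, sum_range_succ]
    apply Nat.ModEq.add ih
    have h1 : 2 ^ w ≡ 1 [MOD (2 ^ w - 1)] :=
      ((Nat.modEq_iff_dvd' Nat.one_le_two_pow).mpr (dvd_refl _)).symm
    have h2 : 2 ^ (w * N) ≡ 1 [MOD (2 ^ w - 1)] := by
      rw [pow_mul]
      simpa using h1.pow N
    simpa using h2.mul_left (u N)

lemma tot_eq {n : ℕ} (hn : 1 ≤ n) (hn2 : n ≤ 1024) {A : ℕ → ℕ} (hA : Good n A) :
    tot n A = ∑ i ∈ range n, ∑ j ∈ range n, udig A i j := by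
  have h1 : tot n A = colSum n (rowTree n A) % (2 ^ 832 - 1) := rfl
  rw [h1, colSum_rowTree hn hn2 hA]
  have h2 := pk_modEq 832 n (fun j => ∑ k ∈ range n, udig A k j)
  rw [h2, Nat.mod_eq_of_lt, sum_comm]
  calc ∑ j ∈ range n, ∑ k ∈ range n, udig A k j ≤ n * (n * 2 ^ 46) :=
        sum_bound (fun j hj => sum_bound (fun k hk => (hA.udig_lt hk hj).le))
    _ ≤ 1024 * (1024 * 2 ^ 46) := by gcongr
    _ < 2 ^ 832 - 1 := by norm_num

/-- number of rows of the chunk `I` -/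
def cnt (n I : ℕ) : ℕ := Nat.sub 8 (Nat.sub 8 (Nat.sub n (Nat.mul 8 I)))

lemma cnt_eq (n I : ℕ) : cnt n I = min 8 (n - 8 * I) := by
  show 8 - (8 - (n - 8 * I)) = _
  omega

lemma sum_chunks (n : ℕ) (f : ℕ → ℕ) (m : ℕ) :
    ∑ I ∈ range m, ∑ i ∈ range (cnt n I), f (8 * I + i) = ∑ r ∈ range (min (8 * m) n), f r := by
  induction m with
  | zero => simp
  | succ m ih =>
    rw [sum_range_succ, ih, cnt_eq]
    have : min (8 * (m + 1)) n = min (8 * m) n + min 8 (n - 8 * m) := by omega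
    rw [this, sum_range_add]
    congr 1
    by_cases h : 8 * m ≤ n
    · rw [show min (8 * m) n = 8 * m by omega]
    · rw [show n - 8 * m = 0 by omega]; simp

lemma sum_chunks' (n : ℕ) (f : ℕ → ℕ) :
    ∑ I ∈ range (nch n), ∑ i ∈ range (cnt n I), f (8 * I + i) = ∑ r ∈ range n, f r := by
  rw [sum_chunks]
  have : min (8 * nch n) n = n := by
    have : nch n = (n + 7) / 8 := rfl
    omega
  rw [this]

/-- `∑_{I < N} f I` -/
noncomputable def sumI (f : ℕ → ℕ) (N : ℕ) : ℕ :=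
  Nat.rec (motive := fun _ => ℕ) 0 (fun I ih => Nat.add ih (f I)) N

lemma sumI_eq (f : ℕ → ℕ) (N : ℕ) : sumI f N = ∑ I ∈ range N, f I := by
  induction N with
  | zero => rfl
  | succ N ih =>
    rw [sum_range_succ, ← ih]
    rfl

noncomputable def trSum (n : ℕ) (A B : ℕ → ℕ) : ℕ :=
  sumI (fun I => diag (cnt n I) ((shape n).app (fun k c => Nat.mul c (subRow B I k)) (A I))) (nch n)

/-- kernel check that `tr (A B) = tp - 2^120` -/
noncomputable def traceOK (n : ℕ) (A B : ℕ → ℕ) (tp : ℕ) : Bool :=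
  Nat.beq (Nat.add (Nat.add (trSum n A B) (Nat.mul (Nat.mul n n) (Nat.pow 2 90))) (Nat.pow 2 120))
    (Nat.add tp (Nat.mul (Nat.pow 2 45) (Nat.add (tot n A) (tot n B))))

lemma trSum_eq {n : ℕ} (hn : 1 ≤ n) (hn2 : n ≤ 1024) {A B : ℕ → ℕ} (hA : Good n A)
    (hB : Good n B) :
    trSum n A B = ∑ i ∈ range n, ∑ k ∈ range n, udig A i k * udig B k i := by
  unfold trSum
  rw [sumI_eq, ← sum_chunks' n (fun i => ∑ k ∈ range n, udig A i k * udig B k i)]
  apply sum_congr rfl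
  intro I hI
  have hI' : 8 * I < n := by
    have h1 := mem_range.mp hI
    have h2 : nch n = (n + 7) / 8 := rfl
    omega
  rw [diag_eq]
  apply sum_congr rfl
  intro i hi
  have hi2 := mem_range.mp hi
  rw [cnt_eq] at hi2
  have hi8 : i < 8 := by omega
  have hin : 8 * I + i < n := by omega
  rw [chunk_eq (hA I hI').1, (shape_spec hn hn2).app_eq _ (fun k _ => block_lt _ _)]
  have e1 : ∀ k ∈ range n, (fun k c => Nat.mul c (subRow B I k)) k
      (pk 104 8 (fun i => dg 104 (A I) (i + 8 * k))) =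
      pk 104 8 (fun i => dg 104 (A I) (i + 8 * k)) * pk 832 8 (fun j => udig B k (8 * I + j)) := by
    intro k _
    show _ * subRow B I k = _
    rw [subRow_eq]
  rw [sum_congr rfl e1, pk_mul_pk_sum 8 n (fun i k => dg 104 (A I) (i + 8 * k))
    (fun k j => udig B k (8 * I + j)), pk2, show (9 * i) = i + 8 * i by ring]
  by_cases hcol : True
  · rw [dg_pk]
    · simp only [show (i + 8 * i) % 8 = i by omega, show (i + 8 * i) / 8 = i by omega]
      apply sum_congr rfl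
      intro k _
      congr 1
      unfold udig
      rw [show (8 * I + i) / 8 = I by omega, show (8 * I + i) % 8 = i by omega]
    · intro s hs
      have hb : ∀ k < n, dg 104 (A I) (s % 8 + 8 * k) * udig B k (8 * I + s / 8) ≤
          2 ^ 46 * 2 ^ 46 := by
        intro k hk
        apply Nat.mul_le_mul ((hA I hI').2 _ (by omega)).le
        by_cases hc : 8 * I + s / 8 < n
        · exact (hB.udig_lt hk hc).le
        · have : udig B k (8 * I + s / 8) = 0 := by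
            unfold udig dg
            rw [Nat.div_eq_of_lt]
            · simp
            · calc B (k / 8) < 2 ^ (104 * (8 * n)) := (hB (k / 8) (by omega)).1
                _ ≤ _ := Nat.pow_le_pow_right (by norm_num) (by omega)
          rw [this]; positivity
      calc _ ≤ n * (2 ^ 46 * 2 ^ 46) := sum_bound hb
        _ ≤ 1024 * (2 ^ 46 * 2 ^ 46) := Nat.mul_le_mul_right _ hn2
        _ < 2 ^ 104 := by norm_num
    · omega
  · exact absurd trivial hcol

theorem traceOK_spec {n : ℕ} (hn : 1 ≤ n) (hn2 : n ≤ 1024) {A B : ℕ → ℕ} (hA : Good n A)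
    (hB : Good n B) {tp : ℕ} (h : traceOK n A B tp = true) :
    ∑ i ∈ range n, ∑ k ∈ range n, ent A i k * ent B k i = (tp : ℤ) - 2 ^ 120 := by
  have h1 : trSum n A B + n * n * 2 ^ 90 + 2 ^ 120 = tp + 2 ^ 45 * (tot n A + tot n B) :=
    Nat.eq_of_beq_eq_true h
  rw [trSum_eq hn hn2 hA hB, tot_eq hn hn2 hA, tot_eq hn hn2 hB] at h1
  have h2 : ∑ i ∈ range n, ∑ k ∈ range n, ent A i k * ent B k i =
      ((∑ i ∈ range n, ∑ k ∈ range n, udig A i k * udig B k i : ℕ) : ℤ)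
       - 2 ^ 45 * ((∑ i ∈ range n, ∑ j ∈ range n, udig B i j : ℕ) : ℤ)
       - 2 ^ 45 * ((∑ i ∈ range n, ∑ j ∈ range n, udig A i j : ℕ) : ℤ) + n * n * 2 ^ 90 := by
    have e : ∑ i ∈ range n, ∑ j ∈ range n, udig B i j = ∑ i ∈ range n, ∑ k ∈ range n, udig B k i :=
      sum_comm
    rw [e]
    simp only [sum_ent_mul]
    rw [sum_add_distrib, sum_sub_distrib, sum_sub_distrib]
    simp only [Nat.cast_sum, ← mul_sum, sum_const, card_range, nsmul_eq_mul]
    ring
  rw [h2]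
  have h3 : ((∑ i ∈ range n, ∑ k ∈ range n, udig A i k * udig B k i : ℕ) : ℤ) +
      n * n * 2 ^ 90 + 2 ^ 120 = tp + 2 ^ 45 *
      (((∑ i ∈ range n, ∑ j ∈ range n, udig A i j : ℕ) : ℤ) +
        ((∑ i ∈ range n, ∑ j ∈ range n, udig B i j : ℕ) : ℤ)) := by
    exact_mod_cast h1
  linarith

/-! ## Sums of squares -/

/-- spread the 8 slots of a block to distance 8 -/
def spread (c : ℕ) : ℕ := Nat.land (Nat.mul c (rep 728 8)) (maskRow 8)

lemma spread_def (c : ℕ) : spread c = (c * rep 728 8) &&& maskRow 8 := rfl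

lemma spread_eq {a : ℕ → ℕ} (ha : ∀ i < 8, a i < 2 ^ 46) :
    spread (pk 104 8 a) = pk 832 8 a := by
  -- the product `(∑ a_i X^i) (∑ X^{7t})`
  set e : ℕ → ℕ := fun s => ∑ i ∈ range 8, ∑ t ∈ range 8, if s = i + 7 * t then a i else 0 with he
  have hprod : pk 104 8 a * rep 728 8 = pk 104 64 e := by
    rw [rep_eq (by norm_num)]
    unfold pk
    rw [sum_mul_sum]
    have h1 : ∀ s ∈ range 64, e s * 2 ^ (104 * s) = ∑ i ∈ range 8, ∑ t ∈ range 8,
        if s = i + 7 * t then a i * 2 ^ (104 * s) else 0 := by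
      intro s _
      rw [he]
      simp only [sum_mul, ite_mul, zero_mul]
    rw [sum_congr rfl h1]
    conv_rhs => rw [sum_comm]
    apply sum_congr rfl
    intro i hi
    conv_rhs => rw [sum_comm]
    apply sum_congr rfl
    intro t ht
    have hi' := mem_range.mp hi
    have ht' := mem_range.mp ht
    rw [sum_ite_eq' (range 64) (i + 7 * t) (fun s => a i * 2 ^ (104 * s)),
      if_pos (mem_range.mpr (by omega))]
    have e3 : 104 * (i + 7 * t) = 104 * i + 728 * t := by ring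
    rw [e3, pow_add, pow_mul 2 728 t, mul_assoc]
  have helt : ∀ s < 64, e s < 2 ^ 104 := by
    intro s _
    calc e s ≤ 8 * (8 * 2 ^ 46) := by
          apply sum_bound
          intro i hi
          apply sum_bound
          intro t _
          split_ifs
          · exact (ha i hi).le
          · positivity
      _ < 2 ^ 104 := by norm_num
  rw [spread_def, land_maskRow, hprod]
  apply pk_congr
  intro j hj
  rw [dg_pk helt (by omega), he]
  have h3 : ∀ i ∈ range 8, ∑ t ∈ range 8, (if 8 * j = i + 7 * t then a i else 0) =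
      if i = j then a i else 0 := by
    intro i hi
    have hi' := mem_range.mp hi
    by_cases hij : i = j
    · subst hij
      rw [if_pos rfl, sum_eq_single i]
      · rw [if_pos (by ring)]
      · intro t ht hne
        have ht' := mem_range.mp ht
        rw [if_neg (by omega)]
      · intro h
        exact absurd (mem_range.mpr hi') h
    · rw [if_neg hij]
      apply sum_eq_zero
      intro t ht
      have ht' := mem_range.mp ht
      rw [if_neg (by omega)]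
  show ∑ i ∈ range 8, ∑ t ∈ range 8, (if 8 * j = i + 7 * t then a i else 0) = a j
  rw [sum_congr rfl h3, sum_ite_eq' (range 8) j a, if_pos (mem_range.mpr hj)]

noncomputable def sqSum (n : ℕ) (A : ℕ → ℕ) : ℕ :=
  sumI (fun I => diag (cnt n I) ((shape n).app (fun _ c => Nat.mul c (spread c)) (A I))) (nch n)

lemma sqSum_eq {n : ℕ} (hn : 1 ≤ n) (hn2 : n ≤ 1024) {A : ℕ → ℕ} (hA : Good n A) :
    sqSum n A = ∑ i ∈ range n, ∑ k ∈ range n, udig A i k * udig A i k := by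
  unfold sqSum
  rw [sumI_eq, ← sum_chunks' n (fun i => ∑ k ∈ range n, udig A i k * udig A i k)]
  apply sum_congr rfl
  intro I hI
  have hI' : 8 * I < n := by
    have h1 := mem_range.mp hI
    have h2 : nch n = (n + 7) / 8 := rfl
    omega
  rw [diag_eq]
  apply sum_congr rfl
  intro i hi
  have hi2 := mem_range.mp hi
  rw [cnt_eq] at hi2
  have hi8 : i < 8 := by omega
  rw [chunk_eq (hA I hI').1, (shape_spec hn hn2).app_eq _ (fun k _ => block_lt _ _)]
  have e1 : ∀ k ∈ range n, (fun (_ : ℕ) c => Nat.mul c (spread c)) k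
      (pk 104 8 (fun i => dg 104 (A I) (i + 8 * k))) =
      pk 104 8 (fun i => dg 104 (A I) (i + 8 * k)) *
        pk 832 8 (fun j => dg 104 (A I) (j + 8 * k)) := by
    intro k hk
    have hk' := mem_range.mp hk
    show _ * spread _ = _
    rw [spread_eq (fun i hi => (hA I hI').2 _ (by omega))]
  rw [sum_congr rfl e1, pk_mul_pk_sum 8 n (fun i k => dg 104 (A I) (i + 8 * k))
    (fun k j => dg 104 (A I) (j + 8 * k)), pk2, show (9 * i) = i + 8 * i by ring]
  rw [dg_pk]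
  · simp only [show (i + 8 * i) % 8 = i by omega, show (i + 8 * i) / 8 = i by omega]
    apply sum_congr rfl
    intro k _
    unfold udig
    rw [show (8 * I + i) / 8 = I by omega, show (8 * I + i) % 8 = i by omega]
  · intro s hs
    have hb : ∀ k < n, dg 104 (A I) (s % 8 + 8 * k) * dg 104 (A I) (s / 8 + 8 * k) ≤
        2 ^ 46 * 2 ^ 46 := by
      intro k hk
      exact Nat.mul_le_mul ((hA I hI').2 _ (by omega)).le ((hA I hI').2 _ (by omega)).le
    calc _ ≤ n * (2 ^ 46 * 2 ^ 46) := sum_bound hb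
      _ ≤ 1024 * (2 ^ 46 * 2 ^ 46) := Nat.mul_le_mul_right _ hn2
      _ < 2 ^ 104 := by norm_num
  · omega

/-- kernel check that `∑ (ent A i j)^2 ≤ s` -/
noncomputable def sqOK (n : ℕ) (A : ℕ → ℕ) (s : ℕ) : Bool :=
  Nat.ble (Nat.add (sqSum n A) (Nat.mul (Nat.mul n n) (Nat.pow 2 90)))
    (Nat.add s (Nat.mul (Nat.pow 2 46) (tot n A)))

theorem sqOK_spec {n : ℕ} (hn : 1 ≤ n) (hn2 : n ≤ 1024) {A : ℕ → ℕ} (hA : Good n A)
    {s : ℕ} (h : sqOK n A s = true) :
    ∑ i ∈ range n, ∑ k ∈ range n, ent A i k ^ 2 ≤ (s : ℤ) := by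
  have h1 : sqSum n A + n * n * 2 ^ 90 ≤ s + 2 ^ 46 * tot n A := Nat.le_of_ble_eq_true h
  rw [sqSum_eq hn hn2 hA, tot_eq hn hn2 hA] at h1
  have h2 : ∑ i ∈ range n, ∑ k ∈ range n, ent A i k ^ 2 =
      ((∑ i ∈ range n, ∑ k ∈ range n, udig A i k * udig A i k : ℕ) : ℤ)
       - 2 ^ 46 * ((∑ i ∈ range n, ∑ j ∈ range n, udig A i j : ℕ) : ℤ) + n * n * 2 ^ 90 := by
    have e2 : (n : ℤ) * n * 2 ^ 90 = ∑ _i ∈ range n, ∑ _k ∈ range n, (2 : ℤ) ^ 90 := by
      simp; ring
    rw [e2]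
    simp only [Nat.cast_sum, Nat.cast_mul, mul_sum]
    rw [← sum_sub_distrib, ← sum_add_distrib]
    apply sum_congr rfl
    intro i _
    rw [← sum_sub_distrib, ← sum_add_distrib]
    apply sum_congr rfl
    intro k _
    unfold ent
    ring
  rw [h2]
  have h3 : ((∑ i ∈ range n, ∑ k ∈ range n, udig A i k * udig A i k : ℕ) : ℤ) +
      n * n * 2 ^ 90 ≤ s + 2 ^ 46 * ((∑ i ∈ range n, ∑ j ∈ range n, udig A i j : ℕ) : ℤ) := by
    exact_mod_cast h1
  linarith

/-! ## Matrix versions -/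

/-- the integer matrix of a packed matrix -/
def mat (n : ℕ) (A : ℕ → ℕ) : Matrix (Fin n) (Fin n) ℤ := Matrix.of fun i j => ent A i j

@[simp] lemma mat_apply (n : ℕ) (A : ℕ → ℕ) (i j : Fin n) : mat n A i j = ent A i j := rfl

theorem mat_mul {n : ℕ} (hn : 1 ≤ n) (hn2 : n ≤ 1024) {A B C : ℕ → ℕ} (hA : Good n A)
    (hB : Good n B) (h : mulOK n A B C = true) :
    Good n C ∧ ∀ i j, |(mat n A * mat n B) i j - 2 ^ 44 * mat n C i j| ≤ 2 ^ 44 := by
  obtain ⟨hC, h2⟩ := mulOK_spec hn hn2 hA hB h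
  refine ⟨hC, fun i j => ?_⟩
  obtain ⟨h3, h4⟩ := h2 i i.2 j j.2
  rw [Matrix.mul_apply]
  simp only [mat_apply]
  rw [Fin.sum_univ_eq_sum_range (fun k => ent A i k * ent B k j) n, abs_of_nonneg h3]
  exact h4.le

theorem mat_mul2 {n : ℕ} (hn : 1 ≤ n) (hn2 : n ≤ 512) {A B A' B' C : ℕ → ℕ} (hA : Good n A)
    (hB : Good n B) (hA' : Good n A') (hB' : Good n B') (h : mul2OK n A B A' B' C = true) :
    Good n C ∧ ∀ i j, |(mat n A * mat n B + mat n A' * mat n B') i j - 2 ^ 44 * mat n C i j|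
      ≤ 2 ^ 44 := by
  obtain ⟨hC, h2⟩ := mul2OK_spec hn hn2 hA hB hA' hB' h
  refine ⟨hC, fun i j => ?_⟩
  obtain ⟨h3, h4⟩ := h2 i i.2 j j.2
  rw [Matrix.add_apply, Matrix.mul_apply, Matrix.mul_apply]
  simp only [mat_apply]
  rw [Fin.sum_univ_eq_sum_range (fun k => ent A i k * ent B k j) n,
    Fin.sum_univ_eq_sum_range (fun k => ent A' i k * ent B' k j) n, abs_of_nonneg h3]
  exact h4.le

theorem mat_trace {n : ℕ} (hn : 1 ≤ n) (hn2 : n ≤ 1024) {A B : ℕ → ℕ} (hA : Good n A)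
    (hB : Good n B) {tp : ℕ} (h : traceOK n A B tp = true) :
    (mat n A * mat n B).trace = (tp : ℤ) - 2 ^ 120 := by
  rw [← traceOK_spec hn hn2 hA hB h, Matrix.trace]
  simp only [Matrix.diag_apply, Matrix.mul_apply, mat_apply]
  rw [← Fin.sum_univ_eq_sum_range (fun i => ∑ k ∈ range n, ent A i k * ent B k i) n]
  apply sum_congr rfl
  intro i _
  rw [← Fin.sum_univ_eq_sum_range (fun k => ent A i k * ent B k i) n]

theorem mat_sq {n : ℕ} (hn : 1 ≤ n) (hn2 : n ≤ 1024) {A : ℕ → ℕ} (hA : Good n A)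
    {s : ℕ} (h : sqOK n A s = true) : ∑ i, ∑ j, mat n A i j ^ 2 ≤ (s : ℤ) := by
  refine le_trans (le_of_eq ?_) (sqOK_spec hn hn2 hA h)
  simp only [mat_apply]
  rw [← Fin.sum_univ_eq_sum_range (fun i => ∑ k ∈ range n, ent A i k ^ 2) n]
  apply sum_congr rfl
  intro i _
  rw [← Fin.sum_univ_eq_sum_range (fun k => ent A i k ^ 2) n]

end Crest.Agent.R347.Packed
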