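import Crest.Agent.R347.Basic

/-! Exchange of space and time directions for a matrix product operator on a ring. -/

set_option autoImplicit false

namespace Crest.Agent.R347

open Matrix

section
variable {K κ R : Type*} [Fintype K] [DecidableEq K] [Fintype κ] [DecidableEq κ]
  [CommRing R]

/-- Matrix product operator with site tensor `M` on a ring of `L + 1` sites; the label of the
last bond (between site `L` and site `0`) carries the weight `s`. -/
def Gop (s : K → R) (M : K → K → Matrix κ κ R) (L : ℕ) :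
    Matrix (Fin (L + 1) → κ) (Fin (L + 1) → κ) R :=
  ∑ a : Fin (L + 1) → K, s (a (Fin.last L)) •
    piK (fun j => M (a ((finRotate (L + 1)).symm j)) (a j))

/-- Column (space-direction) transfer matrix. -/
def tau (Q : Matrix κ κ R) (M : K → K → Matrix κ κ R) (n : ℕ) :
    Matrix (Fin n → K) (Fin n → K) R :=
  Matrix.of fun ω ω' => (Q * (List.ofFn fun k => M (ω k) (ω' k)).prod).trace

/-- Open-chain MPO: `L` sites, boundary labels weighted by `v` (left) and `w` (right). -/
def Gopen (v w : K → R) (M : K → K → Matrix κ κ R) (L : ℕ) :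
    Matrix (Fin L → κ) (Fin L → κ) R :=
  ∑ a : Fin (L + 1) → K, (v (a 0) * w (a (Fin.last L))) •
    piK (fun j : Fin L => M (a j.castSucc) (a j.succ))

/-- Power of a finite sum as a sum over words. -/
theorem sum_pow_eq_sum_ofFn {S ι : Type*} [Semiring S] [Fintype ι] (X : ι → S) (n : ℕ) :
    (∑ a, X a) ^ n = ∑ A : Fin n → ι, (List.ofFn fun k => X (A k)).prod := by
  induction n with
  | zero => simp
  | succ n ih =>
    rw [pow_succ', ih, ← (Fin.consEquiv (fun _ => ι)).sum_comp, Fintype.sum_prod_type,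
      Finset.sum_mul]
    refine Finset.sum_congr rfl fun a _ => ?_
    rw [Finset.mul_sum]
    refine Finset.sum_congr rfl fun A _ => ?_
    simp [List.ofFn_succ, Fin.consEquiv]

/-- Product of scaled tensor-product operators. -/
theorem ofFn_smul_piK_prod {ι : Type*} [Fintype ι] [DecidableEq ι] (n : ℕ) (c : Fin n → R)
    (A : Fin n → ι → Matrix κ κ R) :
    (List.ofFn fun k => c k • piK (A k)).prod =
      (∏ k, c k) • piK (fun j => (List.ofFn fun k => A k j).prod) := by
  induction n with
  | zero => simp [piK_one]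
  | succ n ih =>
    rw [List.ofFn_succ, List.prod_cons, ih, Fin.prod_univ_succ]
    rw [smul_mul_assoc, mul_smul_comm, smul_smul, piK_mul]
    simp [List.ofFn_succ]

/-- Sum over open paths. -/
theorem dotProduct_pow_mulVec {X : Type*} [Fintype X] [DecidableEq X] (T : Matrix X X R)
    (L : ℕ) (f g : X → R) :
    f ⬝ᵥ (T ^ L).mulVec g =
      ∑ B : Fin (L + 1) → X, f (B 0) * g (B (Fin.last L)) *
        ∏ j : Fin L, T (B j.castSucc) (B j.succ) := by
  induction L generalizing f with
  | zero =>
    rw [← (Equiv.funUnique (Fin 1) X).symm.sum_comp]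
    simp [dotProduct]
  | succ L ih =>
    have h : f ⬝ᵥ (T ^ (L + 1)).mulVec g = (f ᵥ* T) ⬝ᵥ (T ^ L).mulVec g := by
      rw [pow_succ', ← Matrix.mulVec_mulVec, Matrix.dotProduct_mulVec]
    have hR : (∑ B : Fin (L + 1 + 1) → X, f (B 0) * g (B (Fin.last (L + 1))) *
        ∏ j : Fin (L + 1), T (B j.castSucc) (B j.succ)) =
        ∑ B : Fin (L + 1) → X, ∑ x : X,
          f ((Fin.consEquiv (fun _ => X)) (x, B) 0) *
            g ((Fin.consEquiv (fun _ => X)) (x, B) (Fin.last (L + 1))) *
          ∏ j : Fin (L + 1), T ((Fin.consEquiv (fun _ => X)) (x, B) j.castSucc)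
            ((Fin.consEquiv (fun _ => X)) (x, B) j.succ) := by
      rw [← (Fin.consEquiv (fun _ : Fin (L + 1 + 1) => X)).sum_comp, Fintype.sum_prod_type,
        Finset.sum_comm]
    rw [h, ih, hR]
    refine Finset.sum_congr rfl fun B _ => ?_
    simp only [Matrix.vecMul, dotProduct, Finset.sum_mul]
    refine Finset.sum_congr rfl fun x _ => ?_
    rw [Fin.prod_univ_succ]
    have e1 : (Fin.consEquiv (fun _ => X)) (x, B) 0 = x := rfl
    have e2 : ∀ j : Fin (L + 1), (Fin.consEquiv (fun _ => X)) (x, B) j.succ = B j := fun j => rfl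
    have e3 : (Fin.consEquiv (fun _ => X)) (x, B) (Fin.last (L + 1)) = B (Fin.last L) := by
      rw [← Fin.succ_last]; exact e2 _
    have e4 : (Fin.consEquiv (fun _ => X)) (x, B) (Fin.castSucc 0) = x := rfl
    have e5 : ∀ j : Fin L, (Fin.consEquiv (fun _ => X)) (x, B) j.succ.castSucc = B j.castSucc :=
      fun j => by rw [← Fin.succ_castSucc]; exact e2 _
    rw [e1, e3, e4, e2 0]
    simp only [e5, e2]
    ring

/-- Trace over closed paths. -/
theorem trace_diagonal_mul_pow {X : Type*} [Fintype X] [DecidableEq X] (T : Matrix X X R)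
    (d : X → R) (L : ℕ) :
    (Matrix.diagonal d * T ^ (L + 1)).trace =
      ∑ B : Fin (L + 1) → X, d (B (Fin.last L)) *
        ∏ j : Fin (L + 1), T (B ((finRotate (L + 1)).symm j)) (B j) := by
  have h1 : (Matrix.diagonal d * T ^ (L + 1)).trace =
      ∑ x, d x * ((T x) ⬝ᵥ (T ^ L).mulVec (Pi.single x 1)) := by
    simp only [Matrix.trace, Matrix.diag, Matrix.diagonal_mul]
    refine Finset.sum_congr rfl fun x _ => ?_
    congr 1
    rw [pow_succ', Matrix.mul_apply]
    simp [dotProduct, Matrix.mulVec_single]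
  rw [h1]
  simp only [dotProduct_pow_mulVec, Finset.mul_sum]
  rw [Finset.sum_comm]
  refine Finset.sum_congr rfl fun B _ => ?_
  rw [Finset.sum_eq_single (B (Fin.last L))]
  · rw [Fin.prod_univ_succ]
    have e0 : (finRotate (L + 1)).symm 0 = Fin.last L := by
      rw [Equiv.symm_apply_eq, finRotate_last]
    have e1 : ∀ j : Fin L, (finRotate (L + 1)).symm j.succ = j.castSucc := fun j => by
      rw [Equiv.symm_apply_eq, finRotate_apply]
      simp
    rw [e0]
    simp only [e1, Pi.single_eq_same]
    ring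
  · intro x _ hx
    rw [Pi.single_eq_of_ne (Ne.symm hx)]
    ring
  · simp

/-- Row/column exchange on the torus. -/
theorem transfer_identity (Q : Matrix κ κ R) (s : K → R) (M : K → K → Matrix κ κ R) (L n : ℕ) :
    (piK (fun _ : Fin (L + 1) => Q) * (Gop s M L) ^ n).trace =
      (Matrix.diagonal (fun ω : Fin n → K => ∏ k, s (ω k)) * (tau Q M n) ^ (L + 1)).trace := by
  rw [trace_diagonal_mul_pow, Gop, sum_pow_eq_sum_ofFn, Finset.mul_sum, Matrix.trace_sum]
  rw [← (Equiv.piComm (fun (_ : Fin (L + 1)) (_ : Fin n) => K)).sum_comp]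
  refine Finset.sum_congr rfl fun B _ => ?_
  rw [ofFn_smul_piK_prod, mul_smul_comm, Matrix.trace_smul, piK_mul, trace_piK, smul_eq_mul]
  rfl

/-- Row/column exchange on the cylinder (open chain). -/
theorem transfer_identity_open (Q : Matrix κ κ R) (v w : K → R) (M : K → K → Matrix κ κ R)
    (L n : ℕ) :
    (piK (fun _ : Fin L => Q) * (Gopen v w M L) ^ n).trace =
      (fun ω : Fin n → K => ∏ k, v (ω k)) ⬝ᵥ
        ((tau Q M n) ^ L).mulVec (fun ω : Fin n → K => ∏ k, w (ω k)) := by
  rw [dotProduct_pow_mulVec, Gopen, sum_pow_eq_sum_ofFn, Finset.mul_sum, Matrix.trace_sum]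
  rw [← (Equiv.piComm (fun (_ : Fin (L + 1)) (_ : Fin n) => K)).sum_comp]
  refine Finset.sum_congr rfl fun B _ => ?_
  rw [ofFn_smul_piK_prod, mul_smul_comm, Matrix.trace_smul, piK_mul, trace_piK, smul_eq_mul,
    Finset.prod_mul_distrib]
  rfl

end

end Crest.Agent.R347
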