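import Mathlib

/-! Row 347 (Haldane gap), F1: tensor products of site matrices and the crossed-channel identity. -/

set_option autoImplicit false
set_option linter.unusedSectionVars false

namespace Crest.Agent.R347

open Matrix Finset

section piT

variable {ι n R : Type*} [Fintype ι] [DecidableEq ι] [Fintype n] [DecidableEq n] [CommRing R]

/-- tensor product over the sites `ι` of single-site matrices -/
def piT (A : ι → Matrix n n R) : Matrix (ι → n) (ι → n) R :=
  Matrix.of fun σ τ => ∏ j, A j (σ j) (τ j)

theorem piT_apply (A : ι → Matrix n n R) (σ τ : ι → n) : piT A σ τ = ∏ j, A j (σ j) (τ j) := rfl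

theorem piT_mul (A B : ι → Matrix n n R) : piT A * piT B = piT (fun j => A j * B j) := by
  ext σ τ
  rw [Matrix.mul_apply, piT_apply]
  simp only [piT_apply, ← Finset.prod_mul_distrib, Matrix.mul_apply]
  rw [Finset.prod_univ_sum, Fintype.piFinset_univ]

theorem piT_one : piT (fun _ : ι => (1 : Matrix n n R)) = 1 := by
  ext σ τ
  rw [piT_apply]
  by_cases h : σ = τ
  · subst h; simp
  · rw [Matrix.one_apply_ne h]
    obtain ⟨j, hj⟩ : ∃ j, σ j ≠ τ j := by
      by_contra hc
      push Not at hc
      exact h (funext hc)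
    exact Finset.prod_eq_zero (Finset.mem_univ j) (Matrix.one_apply_ne hj)

theorem piT_trace (A : ι → Matrix n n R) : (piT A).trace = ∏ j, (A j).trace := by
  simp only [Matrix.trace, Matrix.diag_apply, piT_apply]
  rw [Finset.prod_univ_sum, Fintype.piFinset_univ]

theorem piT_ofFn_prod (N : ℕ) (B : Fin N → ι → Matrix n n R) :
    (List.ofFn fun k => piT (B k)).prod = piT (fun j => (List.ofFn fun k => B k j).prod) := by
  induction N with
  | zero => simp [piT_one]
  | succ N ih =>
    rw [List.ofFn_succ, List.prod_cons, ih (fun k => B k.succ), piT_mul]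
    congr 1
    funext j
    rw [List.ofFn_succ, List.prod_cons]

end piT

section paths

variable {R : Type*} [Ring R]

/-- expansion of a power of a sum -/
theorem sum_pow_eq {β : Type*} [Fintype β] (K : β → R) (N : ℕ) :
    (∑ w, K w) ^ N = ∑ W : Fin N → β, (List.ofFn fun k => K (W k)).prod := by
  induction N with
  | zero => simp
  | succ N ih =>
    rw [pow_succ', ih, Finset.sum_mul_sum, ← (Fin.consEquiv (fun _ : Fin (N + 1) => β)).sum_comp,
      Fintype.sum_prod_type]
    refine Finset.sum_congr rfl fun w _ => Finset.sum_congr rfl fun W _ => ?_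
    simp [List.ofFn_succ, Fin.consEquiv]

end paths

theorem ofFn_smul_prod {R A : Type*} [CommRing R] [Ring A] [Algebra R A] (N : ℕ) (c : Fin N → R)
    (P : Fin N → A) : (List.ofFn fun k => c k • P k).prod = (∏ k, c k) • (List.ofFn P).prod := by
  induction N with
  | zero => simp
  | succ N ih =>
    rw [List.ofFn_succ, List.prod_cons, ih, List.ofFn_succ, List.prod_cons,
      Fin.prod_univ_succ, smul_mul_smul_comm]

section closed

variable {ι R : Type*} [Fintype ι] [DecidableEq ι] [CommRing R]

/-- open walks -/
theorem pow_apply_walk (T : Matrix ι ι R) (m : ℕ) (i k : ι) :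
    (T ^ m) i k = ∑ U : Fin m → ι, (if (Fin.cons i U : Fin (m + 1) → ι) (Fin.last m) = k then
      ∏ j : Fin m, T ((Fin.cons i U : Fin (m + 1) → ι) j.castSucc)
        ((Fin.cons i U : Fin (m + 1) → ι) j.succ) else 0) := by
  induction m generalizing i with
  | zero => simp [Matrix.one_apply]
  | succ m ih =>
    rw [pow_succ', Matrix.mul_apply,
      ← (Fin.consEquiv (fun _ : Fin (m + 1) => ι)).sum_comp, Fintype.sum_prod_type]
    refine Finset.sum_congr rfl fun l _ => ?_
    rw [ih, Finset.mul_sum]
    refine Finset.sum_congr rfl fun U _ => ?_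
    have e1 : ((Fin.consEquiv fun _ : Fin (m + 1) => ι) (l, U) : Fin (m + 1) → ι) =
      Fin.cons l U := rfl
    rw [e1]
    have hl : (Fin.cons i (Fin.cons l U : Fin (m + 1) → ι) : Fin (m + 2) → ι) (Fin.last (m + 1)) =
      (Fin.cons l U : Fin (m + 1) → ι) (Fin.last m) := by
        rw [← Fin.succ_last, Fin.cons_succ]
    by_cases h : (Fin.cons l U : Fin (m + 1) → ι) (Fin.last m) = k
    · rw [if_pos h, if_pos (hl.trans h), Fin.prod_univ_succ]
      congr 1
    · rw [if_neg h, if_neg (fun h' => h (hl.symm.trans h')), mul_zero]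

/-- closed walks on the ring `Fin (m+1)` -/
theorem sum_closed_walk (T : Matrix ι ι R) (d : ι → R) (m : ℕ) :
    ∑ U : Fin (m + 1) → ι, (∏ j, T (U ((finRotate (m + 1)).symm j)) (U j)) * d (U (Fin.last m)) =
      (T ^ (m + 1) * diagonal d).trace := by
  rw [Matrix.trace]
  simp only [Matrix.diag_apply, Matrix.mul_diagonal, pow_apply_walk, Finset.sum_mul]
  rw [Finset.sum_comm]
  refine Finset.sum_congr rfl fun U _ => ?_
  simp only [ite_mul, zero_mul]
  have hl : ∀ i : ι, (Fin.cons i U : Fin (m + 2) → ι) (Fin.last (m + 1)) = U (Fin.last m) := by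
    intro i
    rw [← Fin.succ_last, Fin.cons_succ]
  simp only [hl]
  rw [Finset.sum_ite_eq Finset.univ (U (Fin.last m))]
  simp only [Finset.mem_univ, if_true]
  congr 1
  refine Finset.prod_congr rfl fun j _ => ?_
  rw [Fin.cons_succ]
  congr 1
  refine Fin.cases ?_ (fun j => ?_) j
  · rw [show (finRotate (m + 1)).symm 0 = Fin.last m from by
      rw [Equiv.symm_apply_eq]; simp]
    rfl
  · rw [show (finRotate (m + 1)).symm j.succ = j.castSucc from by
      rw [Equiv.symm_apply_eq, finRotate_apply]; simp]
    rfl

end closed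

section crossing

variable {n R : Type*} [Fintype n] [DecidableEq n] [CommRing R]
variable {α : Type*} [Fintype α] [DecidableEq α]

/-- one time slice on the ring with `m+1` sites; `M a b` = site matrix with left bond label `a`
and right bond label `b`; `χ` = weight of the label of the last bond (twist). -/
def slice (M : α → α → Matrix n n R) (χ : α → R) (m : ℕ) :
    Matrix (Fin (m + 1) → n) (Fin (m + 1) → n) R :=
  ∑ w : Fin (m + 1) → α, χ (w (Fin.last m)) •
    piT (fun j => M (w ((finRotate (m + 1)).symm j)) (w j))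

/-- the crossed transfer matrix over `N` time slices with time twist `Q` -/
def crossT (M : α → α → Matrix n n R) (Q : Matrix n n R) (N : ℕ) :
    Matrix (Fin N → α) (Fin N → α) R :=
  Matrix.of fun u v => (Q * (List.ofFn fun k => M (u k) (v k)).prod).trace

/-- the twist weight of a label history -/
def twistW (χ : α → R) (N : ℕ) (u : Fin N → α) : R := ∏ k, χ (u k)

/-- **crossed-channel identity** -/
theorem crossing (M : α → α → Matrix n n R) (χ : α → R) (Q : Matrix n n R) (m N : ℕ) :
    (piT (fun _ : Fin (m + 1) => Q) * slice M χ m ^ N).trace =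
      (crossT M Q N ^ (m + 1) * diagonal (twistW χ N)).trace := by
  rw [← sum_closed_walk, slice, sum_pow_eq, Finset.mul_sum, Matrix.trace_sum,
    ← (Equiv.piComm (fun (_ : Fin N) (_ : Fin (m + 1)) => α)).sum_comp]
  refine Finset.sum_congr rfl fun W _ => ?_
  have h1 : (List.ofFn fun k => χ (W k (Fin.last m)) •
      piT (fun j => M (W k ((finRotate (m + 1)).symm j)) (W k j))).prod =
      (∏ k, χ (W k (Fin.last m))) • piT (fun j => (List.ofFn fun k =>
        M (W k ((finRotate (m + 1)).symm j)) (W k j)).prod) := by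
    rw [← piT_ofFn_prod, ofFn_smul_prod]
  rw [h1, mul_smul_comm, piT_mul, Matrix.trace_smul, piT_trace, smul_eq_mul, mul_comm]
  rfl

end crossing

end Crest.Agent.R347
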