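import Crest.Agent.R347.RowKernel
import Mathlib.Tactic.Eval

/-!
Computable twins of the kernel rows (only used to produce literals, no correctness claims).
`rowsTC k`, `rowsTKC k`, `rowsTKKC k`, `rowsT3C k : List ℕ` are the lists of all rows of sector `k`
in the format of `rowT k r` etc.
-/

set_option autoImplicit false

namespace Crest.Agent.R347

namespace Row

/-- sparse rows of the tensor: for each `s`, `i` the nonzero entries -/
def tenC : Array (Array (Array (ℕ × ℤ))) :=
  (rtA.map fun M => (M.map fun r => ((r.zipIdx.filter fun p => p.1 != 0).map fun p =>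
    (p.2, p.1)).toArray).toArray).toArray

def mvC (M : Array (Array (ℕ × ℤ))) (v : Array ℤ) : Array ℤ :=
  M.map fun r => r.foldl (fun acc p => acc + p.2 * v.getD p.1 0) 0

/-- all word vectors of length `L`, words in lexicographic order -/
def wvC (X : Array ℤ) : ℕ → Array (Array ℤ)
  | 0 => #[X]
  | L + 1 =>
    let V := wvC X L
    (Array.range 3).flatMap fun s => V.map fun v => mvC (tenC.getD s #[]) v

def xC (k : ℕ) : Array ℤ := (Array.range 36).map fun j => (2 : ℤ) ^ (832 * posX k j)
def yC : Array ℤ := (Array.range 36).map fun j => (2 : ℤ) ^ (832 * posY j)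

/-- all rows of sector `k` for the `L`-site operator with coefficient table `O` -/
def rowsC (L : ℕ) (O : ℕ → ℕ → ℕ) (k : ℕ) : List ℕ :=
  let W := 3 ^ L
  let VX := wvC (xC k) L
  let VY := wvC yC L
  let U : Array (Array ℤ) := (Array.range W).map fun w => (Array.range 36).map fun i =>
    (List.range W).foldl (fun acc w' =>
      let c := O w w'
      if c = 0 then acc else acc + (c : ℤ) * (VY.getD w' #[]).getD i 0) 0
  (List.range (sN k)).map fun r =>
    let i := iA k r
    let i' := iB k r
    let z : ℤ := (List.range W).foldl (fun acc w =>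
      acc + (VX.getD w #[]).getD i 0 * (U.getD w #[]).getD i' 0) 0
    (z + 2 ^ 200 * (ones (sN k) : ℤ)).toNat

def rowsTC (k : ℕ) : List ℕ := rowsC 1 (fun a b => OT K1lit 1 3 a b) k
def rowsTKC (k : ℕ) : List ℕ := rowsC 2 (fun a b => OT K2lit 16 9 a b) k
def rowsTKKC (k : ℕ) : List ℕ := rowsC 2 (fun a b => OT KKlit 32 9 a b) k
def rowsT3C (k : ℕ) : List ℕ := rowsC 3 (fun a b => OT K3lit 32 27 a b) k

end Row
end Crest.Agent.R347
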