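import Crest.Agent.R347.RowProof2

/-!
Specification of the kernel rows (task N5, part 6).
-/

set_option autoImplicit false

namespace Crest.Agent.R347

open Matrix

namespace Row

/-- two-site coefficients -/
def c2 (s t s' t' : Fin 3) : ℤ := ∑ a, uK 132 (-185) a s s' * vK a t t'

theorem c2_OK (s t s' t' : Fin 3) : c2 s t s' t' = (OK [s.val, t.val] [s'.val, t'.val] : ℤ) :=
  (OK_eq (s, t) (s', t')).symm

theorem c3_eq (w w' : Fin 3 × Fin 3 × Fin 3) :
    ∑ a, ∑ b, (uK 132 (-185) a w.1 w'.1 * (vK a * uK 132 (-185) b) w.2.1 w'.2.1 *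
        vK b w.2.2 w'.2.2 +
      uK 132 (-185) a w.1 w'.1 * (uK 132 (-185) b * vK a) w.2.1 w'.2.1 * vK b w.2.2 w'.2.2) =
    ∑ y, (c2 w.1 w.2.1 w'.1 y * c2 y w.2.2 w'.2.1 w'.2.2 +
      c2 w.2.1 w.2.2 y w'.2.2 * c2 w.1 y w'.1 w'.2.1) := by
  simp only [Finset.sum_add_distrib]
  congr 1
  · simp only [c2, Matrix.mul_apply, Finset.mul_sum, Finset.sum_mul]
    rw [Finset.sum_congr rfl fun a _ => Finset.sum_comm, Finset.sum_comm]
    refine Finset.sum_congr rfl fun y _ => ?_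
    rw [Finset.sum_comm]
    refine Finset.sum_congr rfl fun b _ => Finset.sum_congr rfl fun a _ => ?_
    ring
  · simp only [c2, Matrix.mul_apply, Finset.mul_sum, Finset.sum_mul]
    rw [Finset.sum_congr rfl fun a _ => Finset.sum_comm, Finset.sum_comm]
    refine Finset.sum_congr rfl fun y _ => Finset.sum_congr rfl fun b _ =>
      Finset.sum_congr rfl fun a _ => ?_
    ring

/-- natural number form of the three-site coefficients -/
noncomputable def c3N (s t r s' t' r' : ℕ) : ℕ :=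
  sumL [0, 1, 2] fun y => Nat.add (Nat.mul (OK [s, t] [s', y]) (OK [y, r] [t', r']))
    (Nat.mul (OK [t, r] [y, r']) (OK [s, y] [s', t']))

theorem c3N_eq (w w' : Fin 3 × Fin 3 × Fin 3) :
    (O3 [w.1.val, w.2.1.val, w.2.2.val] [w'.1.val, w'.2.1.val, w'.2.2.val]) =
      c3N w.1.val w.2.1.val w.2.2.val w'.1.val w'.2.1.val w'.2.2.val := by
  revert w w'
  decide +kernel

theorem O3_eq (w w' : Fin 3 × Fin 3 × Fin 3) :
    (O3 [w.1.val, w.2.1.val, w.2.2.val] [w'.1.val, w'.2.1.val, w'.2.2.val] : ℤ) =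
    ∑ a, ∑ b, (uK 132 (-185) a w.1 w'.1 * (vK a * uK 132 (-185) b) w.2.1 w'.2.1 *
        vK b w.2.2 w'.2.2 +
      uK 132 (-185) a w.1 w'.1 * (uK 132 (-185) b * vK a) w.2.1 w'.2.1 * vK b w.2.2 w'.2.2) := by
  rw [c3_eq, c3N_eq, c3N, sumL_cast, Fin.sum_univ_three]
  simp only [sumI, c2_OK]
  show ((_ * _ + _ * _ : ℕ) : ℤ) + (((_ * _ + _ * _ : ℕ) : ℤ) + (((_ * _ + _ * _ : ℕ) : ℤ) + 0)) = _
  push_cast
  simp only [Fin.val_zero, Fin.val_one, Fin.val_two]
  ring

/-- vectors on `Fin 36` -/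
def xV (k : ℕ) (j : Fin 36) : ℤ := 2 ^ (832 * posX k j.val)
def yV (j : Fin 36) : ℤ := 2 ^ (832 * posY j.val)

theorem val_vX (k : ℕ) (j : Fin 36) : val (vX k) j.val = xV k j := by
  show ((2 ^ (832 * posX k j.val) : ℕ) : ℤ) - ((0 : ℕ) : ℤ) = _
  rw [xV]; push_cast; ring

theorem val_vY (j : Fin 36) : val vY j.val = yV j := by
  show ((2 ^ (832 * posY j.val) : ℕ) : ℤ) - ((0 : ℕ) : ℤ) = _
  rw [yV]; push_cast; ring

theorem wX_val (k : ℕ) (w : List (Fin 3)) (i : Fin 36) :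
    val (wF (vX k) (w.map Fin.val)) i.val = wV rtM (xV k) w i := by
  rw [wF_val, show (fun j : Fin 36 => val (vX k) j.val) = xV k from funext (val_vX k)]

theorem wY_val (w : List (Fin 3)) (i : Fin 36) :
    val (wF vY (w.map Fin.val)) i.val = wV rtM yV w i := by
  rw [wF_val, show (fun j : Fin 36 => val vY j.val) = yV from funext val_vY]

theorem row_T (k : ℕ) (p : Fin 36 × Fin 36) :
    (rowP w1 O1 k p.1.val p.2.val : ℤ) - rowN w1 O1 k p.1.val p.2.val =
      (Eop rtM 1 *ᵥ tens (xV k) yV) p := by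
  rw [row_val, one_word, sumI_w1, Finset.sum_apply]
  refine Finset.sum_congr rfl fun w _ => ?_
  rw [sumI_w1, Finset.mul_sum, Finset.sum_apply]
  refine Finset.sum_congr rfl fun w' _ => ?_
  have h1 := wX_val k [w] p.1
  have h2 := wY_val [w'] p.2
  simp only [List.map_cons, List.map_nil] at h1 h2
  rw [h1, h2, O1_eq, Pi.smul_apply, smul_eq_mul, tens]
  ring

theorem row_TK (k : ℕ) (p : Fin 36 × Fin 36) :
    (rowP w2 OK k p.1.val p.2.val : ℤ) - rowN w2 OK k p.1.val p.2.val =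
      (TK rtM (uK 132 (-185)) vK *ᵥ tens (xV k) yV) p := by
  rw [row_val, TK_word, sumI_w2, Finset.sum_apply]
  refine Finset.sum_congr rfl fun w _ => ?_
  rw [sumI_w2, Finset.mul_sum, Finset.sum_apply]
  refine Finset.sum_congr rfl fun w' _ => ?_
  have h1 := wX_val k [w.1, w.2] p.1
  have h2 := wY_val [w'.1, w'.2] p.2
  simp only [List.map_cons, List.map_nil] at h1 h2
  rw [h1, h2, OK_eq, Pi.smul_apply, smul_eq_mul, tens]
  ring

theorem row_TKK (k : ℕ) (p : Fin 36 × Fin 36) :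
    (rowP w2 OKK k p.1.val p.2.val : ℤ) - rowN w2 OKK k p.1.val p.2.val =
      (TKK rtM (uK 132 (-185)) vK *ᵥ tens (xV k) yV) p := by
  rw [row_val, TKK_word, sumI_w2, Finset.sum_apply]
  refine Finset.sum_congr rfl fun w _ => ?_
  rw [sumI_w2, Finset.mul_sum, Finset.sum_apply]
  refine Finset.sum_congr rfl fun w' _ => ?_
  have h1 := wX_val k [w.1, w.2] p.1
  have h2 := wY_val [w'.1, w'.2] p.2
  simp only [List.map_cons, List.map_nil] at h1 h2
  rw [h1, h2, OKK_eq, Pi.smul_apply, smul_eq_mul, tens]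
  ring

theorem row_T3 (k : ℕ) (p : Fin 36 × Fin 36) :
    (rowP w3 O3 k p.1.val p.2.val : ℤ) - rowN w3 O3 k p.1.val p.2.val =
      (T3 rtM (uK 132 (-185)) vK *ᵥ tens (xV k) yV) p := by
  rw [row_val, T3_word, sumI_w3, Finset.sum_apply]
  refine Finset.sum_congr rfl fun w _ => ?_
  rw [sumI_w3, Finset.mul_sum, Finset.sum_apply]
  refine Finset.sum_congr rfl fun w' _ => ?_
  have h1 := wX_val k [w.1, w.2.1, w.2.2] p.1
  have h2 := wY_val [w'.1, w'.2.1, w'.2.2] p.2
  simp only [List.map_cons, List.map_nil] at h1 h2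
  rw [h1, h2, O3_eq, Pi.smul_apply, smul_eq_mul, tens]
  ring

/-- column positions -/
theorem pos_secE (k : Fin 6) (j : Fin (secN k)) :
    posX k.val (secE k j).1.val + posY (secE k j).2.val = j.val := by
  have h : ∀ k : Fin 6, (secF k.val).map (fun p => posX k.val p.1.val + posY p.2.val) =
      List.range (secN k) := by
    decide +kernel
  have h2 := h k
  rw [← secL_eq] at h2
  have h3 : (secL k.val).length = secN k := secL_length k
  have h4 : ((secL k.val).map (fun p => posX k.val p.1.val + posY p.2.val)).getD j.val 0 =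
      (List.range (secN k)).getD j.val 0 := by rw [h2]
  rw [List.getD_eq_getElem _ _ (by rw [List.length_map, h3]; exact j.isLt),
    List.getD_eq_getElem _ _ (by rw [List.length_range]; exact j.isLt), List.getElem_map,
    List.getElem_range] at h4
  exact h4

theorem mulVec_secE (k : Fin 6) {X : Matrix (Fin 36 × Fin 36) (Fin 36 × Fin 36) ℤ}
    (hX : ShiftBy (qC rc) 0 X) (r : Fin (secN k)) :
    (X *ᵥ tens (xV k.val) yV) (secE k r) = ∑ j, secR k X r j * 2 ^ (832 * j.val) := by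
  classical
  rw [Matrix.mulVec, dotProduct]
  have h1 : ∀ j : Fin (secN k), secR k X r j * 2 ^ (832 * j.val) =
      X (secE k r) (secE k j) * tens (xV k.val) yV (secE k j) := by
    intro j
    rw [tens, xV, yV, ← pow_add, ← mul_add, pos_secE]
    rfl
  simp only [h1]
  rw [← Finset.sum_image (f := fun x => X (secE k r) x * tens (xV k.val) yV x)
    (s := Finset.univ) (g := secE k) (fun x _ y _ h => secE_injective k h)]
  symm
  refine Finset.sum_subset (Finset.subset_univ _) fun x _ hx => ?_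
  by_contra h
  have h2 : X (secE k r) x ≠ 0 := fun h0 => h (by rw [h0, zero_mul])
  have h3 := hX _ _ h2
  rw [add_zero] at h3
  have h4 : qC rc x = 2 * (k.val : ℤ) := by
    rw [h3]
    exact (secE_range k _).2 ⟨r, rfl⟩
  obtain ⟨c, hc⟩ := (secE_range k x).1 h4
  exact hx (Finset.mem_image.2 ⟨c, Finset.mem_univ _, hc⟩)

theorem idx_secE (k : Fin 6) (j : Fin (secN k)) :
    iA k.val j.val = (secE k j).1.val ∧ iB k.val j.val = (secE k j).2.val := by
  have h : ∀ k : Fin 6, (secF k.val).map (fun p => (p.1.val, p.2.val)) =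
      (List.range (secN k)).map (fun r => (iA k.val r, iB k.val r)) := by
    decide +kernel
  have h2 := h k
  rw [← secL_eq] at h2
  have h3 : (secL k.val).length = secN k := secL_length k
  have h4 : ((secL k.val).map (fun p => (p.1.val, p.2.val))).getD j.val (0, 0) =
      ((List.range (secN k)).map (fun r => (iA k.val r, iB k.val r))).getD j.val (0, 0) := by
    rw [h2]
  rw [List.getD_eq_getElem _ _ (by rw [List.length_map, h3]; exact j.isLt),
    List.getD_eq_getElem _ _ (by rw [List.length_map, List.length_range]; exact j.isLt),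
    List.getElem_map, List.getElem_map, List.getElem_range] at h4
  have h5 := Prod.ext_iff.1 h4
  exact ⟨h5.1.symm, h5.2.symm⟩

theorem sN_eq (k : Fin 6) : sN k.val = secN k := by
  revert k
  decide

/-- entrywise bound -/
def Bd {p : Type*} (X : Matrix p p ℤ) (B : ℤ) : Prop := ∀ a b, |X a b| ≤ B

theorem Bd.nonneg {p : Type*} [Nonempty p] {X : Matrix p p ℤ} {B : ℤ} (h : Bd X B) : 0 ≤ B :=
  (abs_nonneg _).trans (h (Classical.arbitrary p) (Classical.arbitrary p))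

theorem Bd.mul {p : Type*} [Fintype p] {X Y : Matrix p p ℤ} {B C : ℤ} (hB : 0 ≤ B)
    (hX : Bd X B) (hY : Bd Y C) : Bd (X * Y) (Fintype.card p * (B * C)) := by
  intro a b
  rw [Matrix.mul_apply]
  refine (Finset.abs_sum_le_sum_abs _ _).trans ?_
  have h : ∀ x ∈ (Finset.univ : Finset p), |X a x * Y x b| ≤ B * C := by
    intro x _
    rw [abs_mul]
    exact mul_le_mul (hX a x) (hY x b) (abs_nonneg _) hB
  refine (Finset.sum_le_card_nsmul _ _ _ h).trans ?_
  rw [nsmul_eq_mul]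
  exact le_of_eq rfl

theorem Bd.sum {p ι : Type*} [Fintype ι] {X : ι → Matrix p p ℤ} {B : ℤ}
    (hX : ∀ i, Bd (X i) B) : Bd (∑ i, X i) (Fintype.card ι * B) := by
  intro a b
  rw [Matrix.sum_apply]
  refine (Finset.abs_sum_le_sum_abs _ _).trans ?_
  refine (Finset.sum_le_card_nsmul _ _ _ fun i _ => hX i a b).trans ?_
  rw [nsmul_eq_mul]
  exact le_of_eq rfl

theorem Bd.add {p : Type*} {X Y : Matrix p p ℤ} {B C : ℤ} (hX : Bd X B) (hY : Bd Y C) :
    Bd (X + Y) (B + C) := fun a b => by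
  rw [Matrix.add_apply]
  exact (abs_add_le _ _).trans (add_le_add (hX a b) (hY a b))

theorem Bd.mono {p : Type*} {X : Matrix p p ℤ} {B C : ℤ} (hX : Bd X B) (h : B ≤ C) : Bd X C :=
  fun a b => (hX a b).trans h

theorem rtM_Bd (s : Fin 3) : Bd (rtM s) (2 ^ 14) := by
  have h : ∀ s : Fin 3, ∀ i j : Fin 36, |rtM s i j| ≤ 2 ^ 14 := by decide +kernel
  exact h s

theorem Eop_Bd {o : Matrix (Fin 3) (Fin 3) ℤ} {B : ℤ} (ho : Bd o B) :
    Bd (Eop rtM o) (9 * (B * 2 ^ 28)) := by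
  intro a b
  have hB : 0 ≤ B := ho.nonneg
  rw [Eop_apply]
  refine (Finset.abs_sum_le_sum_abs _ _).trans ?_
  have h1 : ∀ s ∈ (Finset.univ : Finset (Fin 3)),
      |∑ s', o s s' * (rtM s a.1 b.1 * rtM s' a.2 b.2)| ≤ 3 * (B * 2 ^ 28) := by
    intro s _
    refine (Finset.abs_sum_le_sum_abs _ _).trans ?_
    have h2 : ∀ s' ∈ (Finset.univ : Finset (Fin 3)),
        |o s s' * (rtM s a.1 b.1 * rtM s' a.2 b.2)| ≤ B * 2 ^ 28 := by
      intro s' _
      rw [abs_mul, abs_mul]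
      refine mul_le_mul (ho s s') ?_ (by positivity) hB
      calc |rtM s a.1 b.1| * |rtM s' a.2 b.2| ≤ 2 ^ 14 * 2 ^ 14 :=
            mul_le_mul (rtM_Bd s _ _) (rtM_Bd s' _ _) (abs_nonneg _) (by norm_num)
        _ = 2 ^ 28 := by norm_num
    refine (Finset.sum_le_card_nsmul _ _ _ h2).trans ?_
    rw [nsmul_eq_mul]
    simp
  refine (Finset.sum_le_card_nsmul _ _ _ h1).trans ?_
  rw [nsmul_eq_mul]
  simp only [Finset.card_univ, Fintype.card_fin]
  push_cast
  linarith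

theorem uK_Bd (a : Fin 4) : Bd (uK 132 (-185) a) 256 := by
  have h : ∀ a : Fin 4, ∀ s s' : Fin 3, |uK 132 (-185) a s s'| ≤ 256 := by decide
  exact h a

theorem vK_Bd (a : Fin 4) : Bd (vK a) 1 := by
  have h : ∀ a : Fin 4, ∀ s s' : Fin 3, |vK a s s'| ≤ 1 := by decide
  exact h a

theorem T_Bd : Bd (Eop rtM 1) (2 ^ 189) :=
  (Eop_Bd (o := 1) (B := 1) (by
    intro a b
    rw [Matrix.one_apply]
    split_ifs <;> norm_num)).mono (by norm_num)

theorem TK_Bd : Bd (TK rtM (uK 132 (-185)) vK) (2 ^ 189) := by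
  have h : ∀ a : Fin 4, Bd (Eop rtM (uK 132 (-185) a) * Eop rtM (vK a)) _ :=
    fun a => (Eop_Bd (uK_Bd a)).mul (by norm_num) (Eop_Bd (vK_Bd a))
  refine (Bd.sum h).mono ?_
  simp only [Fintype.card_prod, Fintype.card_fin]
  norm_num

theorem TKK_Bd : Bd (TKK rtM (uK 132 (-185)) vK) (2 ^ 189) := by
  have h : ∀ a b : Fin 4, Bd (Eop rtM (uK 132 (-185) a * uK 132 (-185) b) *
      Eop rtM (vK a * vK b)) _ :=
    fun a b => (Eop_Bd ((uK_Bd a).mul (by norm_num) (uK_Bd b))).mul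
      (by simp only [Fintype.card_fin]; norm_num)
      (Eop_Bd ((vK_Bd a).mul (by norm_num) (vK_Bd b)))
  refine (Bd.sum fun a => Bd.sum (h a)).mono ?_
  simp only [Fintype.card_prod, Fintype.card_fin]
  norm_num

theorem T3_Bd : Bd (T3 rtM (uK 132 (-185)) vK) (2 ^ 189) := by
  have h : ∀ a b : Fin 4, Bd (Eop rtM (uK 132 (-185) a) *
      Eop rtM (vK a * uK 132 (-185) b) * Eop rtM (vK b) +
      Eop rtM (uK 132 (-185) a) * Eop rtM (uK 132 (-185) b * vK a) * Eop rtM (vK b)) _ :=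
    fun a b => (((Eop_Bd (uK_Bd a)).mul (by norm_num) (Eop_Bd ((vK_Bd a).mul (by norm_num)
        (uK_Bd b)))).mul
      (by simp only [Fintype.card_prod, Fintype.card_fin]; norm_num) (Eop_Bd (vK_Bd b))).add
      (((Eop_Bd (uK_Bd a)).mul (by norm_num) (Eop_Bd ((uK_Bd b).mul (by norm_num)
        (vK_Bd a)))).mul
      (by simp only [Fintype.card_prod, Fintype.card_fin]; norm_num) (Eop_Bd (vK_Bd b)))
  refine (Bd.sum fun a => Bd.sum (h a)).mono ?_
  simp only [Fintype.card_prod, Fintype.card_fin]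
  norm_num

theorem ones_geom (b n : ℕ) (hb : 2 ≤ b) : (b ^ n - 1) / (b - 1) = ∑ j ∈ Finset.range n, b ^ j :=
  (Nat.geomSum_eq hb n).symm

theorem ones_eq (n : ℕ) : (ones n : ℤ) = ∑ j : Fin n, 2 ^ (832 * j.val) := by
  have hb : 2 ≤ 2 ^ 832 := by
    calc 2 = 2 ^ 1 := rfl
      _ ≤ 2 ^ 832 := Nat.pow_le_pow_right (by norm_num) (by norm_num)
  have h2 : ones n = ∑ j ∈ Finset.range n, (2 ^ 832) ^ j := by
    rw [← ones_geom (2 ^ 832) n hb, ← pow_mul]
    have hd : ∀ a b : ℕ, Nat.div a b = a / b := fun _ _ => rfl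
    simp only [ones, hd, Nat.sub_eq, Nat.pow_eq]
  rw [h2, Fin.sum_univ_eq_sum_range (fun j => (2 : ℤ) ^ (832 * j)) n, Nat.cast_sum]
  refine Finset.sum_congr rfl fun j _ => ?_
  rw [Nat.cast_pow, Nat.cast_pow, ← pow_mul, Nat.cast_ofNat]

/-- Master specification. -/
theorem rowX_spec (ws : List (List ℕ)) (O : List ℕ → List ℕ → ℕ)
    {X : Matrix (Fin 36 × Fin 36) (Fin 36 × Fin 36) ℤ}
    (hX : ShiftBy (qC rc) 0 X) (hB : Bd X (2 ^ 189))
    (hr : ∀ (k : ℕ) (p : Fin 36 × Fin 36),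
      (rowP ws O k p.1.val p.2.val : ℤ) - rowN ws O k p.1.val p.2.val =
        (X *ᵥ tens (xV k) yV) p) (k : Fin 6) (r : Fin (secN k)) :
    ((rowX ws O k.val r.val : ℕ) : ℤ) = ∑ j, (secR k X r j + 2 ^ 200) * 2 ^ (832 * j.val) := by
  obtain ⟨e1, e2⟩ := idx_secE k r
  have h1 : rowX ws O k.val r.val =
      rowP ws O k.val (secE k r).1.val (secE k r).2.val + 2 ^ 200 * ones (secN k) -
        rowN ws O k.val (secE k r).1.val (secE k r).2.val := by
    rw [rowX, fN_eq, fN_eq, e1, e2, sN_eq]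
    rfl
  have h2 := hr k.val (secE k r)
  rw [mulVec_secE k hX r] at h2
  have h3 : ∑ j, (secR k X r j + 2 ^ 200) * 2 ^ (832 * j.val) =
      ∑ j, secR k X r j * 2 ^ (832 * j.val) + 2 ^ 200 * (ones (secN k) : ℤ) := by
    rw [ones_eq, Finset.mul_sum, ← Finset.sum_add_distrib]
    exact Finset.sum_congr rfl fun j _ => by ring
  have h4 : 0 ≤ ∑ j, (secR k X r j + 2 ^ 200) * 2 ^ (832 * j.val) := by
    refine Finset.sum_nonneg fun j _ => mul_nonneg ?_ (by positivity)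
    have := (abs_le.1 (hB (secE k r) (secE k j))).1
    have h5 : secR k X r j = X (secE k r) (secE k j) := rfl
    rw [h5]
    linarith [show (2 : ℤ) ^ 189 ≤ 2 ^ 200 by norm_num]
  rw [h1, Nat.cast_sub, h3, ← h2]
  · push_cast
    ring
  · rw [h3, ← h2] at h4
    have : (rowN ws O k.val (secE k r).1.val (secE k r).2.val : ℤ) ≤
        ((rowP ws O k.val (secE k r).1.val (secE k r).2.val + 2 ^ 200 * ones (secN k) : ℕ) : ℤ) := by
      push_cast
      linarith
    exact_mod_cast this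

theorem rowT_spec (k : Fin 6) (r : Fin (secN k)) :
    ((rowT k.val r.val : ℕ) : ℤ) = ∑ j, (sT k r j + 2 ^ 200) * 2 ^ (832 * j.val) :=
  rowX_spec w1 O1 (T_shift rtM_rule) T_Bd row_T k r

theorem rowTK_spec (k : Fin 6) (r : Fin (secN k)) :
    ((rowTK k.val r.val : ℕ) : ℤ) =
      ∑ j, (sTK 132 (-185) k r j + 2 ^ 200) * 2 ^ (832 * j.val) :=
  rowX_spec w2 OK (TK_shift rtM_rule 132 (-185)) TK_Bd row_TK k r

theorem rowTKK_spec (k : Fin 6) (r : Fin (secN k)) :
    ((rowTKK k.val r.val : ℕ) : ℤ) =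
      ∑ j, (sTKK 132 (-185) k r j + 2 ^ 200) * 2 ^ (832 * j.val) :=
  rowX_spec w2 OKK (TKK_shift rtM_rule 132 (-185)) TKK_Bd row_TKK k r

theorem rowT3_spec (k : Fin 6) (r : Fin (secN k)) :
    ((rowT3 k.val r.val : ℕ) : ℤ) =
      ∑ j, (sT3 132 (-185) k r j + 2 ^ 200) * 2 ^ (832 * j.val) :=
  rowX_spec w3 O3 (T3_shift rtM_rule 132 (-185)) T3_Bd row_T3 k r

/-- crude entrywise bounds -/
theorem sT_bd (k : Fin 6) (r j : Fin (secN k)) : |sT k r j| < 2 ^ 190 :=
  lt_of_le_of_lt (T_Bd _ _) (by norm_num)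
theorem sTK_bd (k : Fin 6) (r j : Fin (secN k)) : |sTK 132 (-185) k r j| < 2 ^ 190 :=
  lt_of_le_of_lt (TK_Bd _ _) (by norm_num)
theorem sTKK_bd (k : Fin 6) (r j : Fin (secN k)) : |sTKK 132 (-185) k r j| < 2 ^ 190 :=
  lt_of_le_of_lt (TKK_Bd _ _) (by norm_num)
theorem sT3_bd (k : Fin 6) (r j : Fin (secN k)) : |sT3 132 (-185) k r j| < 2 ^ 190 :=
  lt_of_le_of_lt (T3_Bd _ _) (by norm_num)

end Row
end Crest.Agent.R347
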