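import Crest.Agent.R347.RingMk
import Crest.Agent.R347.RingNums
import Crest.Agent.R347.RowSpec
import Crest.Agent.R347.RowEval

/-!
R347: base facts of a sector (rounded exact rows of `T`, `TK`, `TKK`, `T3`).
-/

set_option autoImplicit false
set_option exponentiation.threshold 2000

namespace Crest.Agent.R347.RingErr

open Matrix Packed

theorem base_of {n u s : ℕ} (hu : u ≤ 100) (hs : s ≤ 200) {X : Matrix (Fin n) (Fin n) ℤ}
    {R : ℕ → ℕ} {C : ℕ → ℕ}
    (hR : ∀ r : Fin n, ((R r : ℕ) : ℤ) = ∑ j : Fin n, (X r j + 2 ^ 200) * 2 ^ (832 * j.val))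
    (hX : ∀ r j, |X r j| < 2 ^ 190)
    (h : roundOK n u s (fun r => Row.fN r R) C = true) :
    Good n C ∧ ∀ i j : Fin n, 0 ≤ 2 ^ u * X i j - 2 ^ s * mat n C i j ∧
      2 ^ u * X i j - 2 ^ s * mat n C i j < 2 ^ s := by
  let x : ℕ → ℕ → ℤ := fun r j => if h : r < n ∧ j < n then X ⟨r, h.1⟩ ⟨j, h.2⟩ else 0
  have hx : ∀ i j : Fin n, x i j = X i j := by
    intro i j
    simp [x]
  obtain ⟨hC, h2⟩ := roundOK_spec (n := n) (u := u) (s := s) (x := x) hu hs (by
    intro r hr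
    show ((R r : ℕ) : ℤ) = _
    have := hR ⟨r, hr⟩
    rw [← Fin.sum_univ_eq_sum_range (fun j => (x r j + 2 ^ 200) * 2 ^ (832 * j)) n, this]
    refine Finset.sum_congr rfl fun j _ => ?_
    rw [← hx]) (by
    intro r hr j hj
    have := hX ⟨r, hr⟩ ⟨j, hj⟩
    rw [← hx] at this
    exact this) h
  refine ⟨hC, fun i j => ?_⟩
  have := h2 i i.2 j j.2
  rw [hx] at this
  exact this

theorem baseT (k : Fin 6) {C : ℕ → ℕ}
    (h : roundOK (secN k) 16 0 (fun r => Row.fN r (Row.rowT k.val)) C = true) :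
    Good (secN k) C ∧ ∀ i j : Fin (secN k), mat (secN k) C i j = 2 ^ 16 * sT k i j := by
  obtain ⟨hC, h2⟩ := base_of (by norm_num) (by norm_num) (Row.rowT_spec k) (Row.sT_bd k) h
  refine ⟨hC, fun i j => ?_⟩
  have := h2 i j
  omega

theorem baseK (k : Fin 6) {C : ℕ → ℕ}
    (h : roundOK (secN k) 0 19 (fun r => Row.fN r (Row.rowTK k.val)) C = true) :
    Good (secN k) C ∧ RndS 19 (sTK 132 (-185) k) (mat (secN k) C) := by
  obtain ⟨hC, h2⟩ := base_of (by norm_num) (by norm_num) (Row.rowTK_spec k) (Row.sTK_bd k) h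
  refine ⟨hC, fun i j => ?_⟩
  have := h2 i j
  rw [abs_le]
  constructor <;> linarith

theorem baseKK (k : Fin 6) {C : ℕ → ℕ}
    (h : roundOK (secN k) 0 26 (fun r => Row.fN r (Row.rowTKK k.val)) C = true) :
    Good (secN k) C ∧ RndS 26 (sTKK 132 (-185) k) (mat (secN k) C) := by
  obtain ⟨hC, h2⟩ := base_of (by norm_num) (by norm_num) (Row.rowTKK_spec k) (Row.sTKK_bd k) h
  refine ⟨hC, fun i j => ?_⟩
  have := h2 i j
  rw [abs_le]
  constructor <;> linarith

theorem baseT3 (k : Fin 6) {C : ℕ → ℕ}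
    (h : roundOK (secN k) 0 54 (fun r => Row.fN r (Row.rowT3 k.val)) C = true) :
    Good (secN k) C ∧ RndS 54 (sT3 132 (-185) k) (mat (secN k) C) := by
  obtain ⟨hC, h2⟩ := base_of (by norm_num) (by norm_num) (Row.rowT3_spec k) (Row.sT3_bd k) h
  refine ⟨hC, fun i j => ?_⟩
  have := h2 i j
  rw [abs_le]
  constructor <;> linarith

end Crest.Agent.R347.RingErr
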