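import Crest.Agent.R347.RingEv

/-!
R347: the literals of the ring certificate are stored in pieces of `2048` bits.
-/

set_option autoImplicit false

namespace Crest.Agent.R347.Packed

/-- the number with the given base `2^2048` digits, kernel friendly -/
noncomputable def cat (l : List ℕ) : ℕ :=
  List.rec (motive := fun _ => ℕ) 0 (fun a _ ih => Nat.add a (Nat.shiftLeft ih 2048)) l

/-- entrywise `cat` -/
noncomputable def catL (l : List (List ℕ)) : List ℕ :=
  List.rec (motive := fun _ => List ℕ) [] (fun a _ ih => cat a :: ih) l

/-- access to a list of matrices, kernel friendly -/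
noncomputable def nthC (l : List (List (List ℕ))) : ℕ → List ℕ :=
  List.rec (motive := fun _ => ℕ → List ℕ) (fun _ => [])
    (fun a _ ih i => Nat.rec (motive := fun _ => List ℕ) (catL a) (fun j _ => ih j) i) l

namespace Ev

/-- base `2^2048` digits -/
def cut (n : ℕ) : List ℕ :=
  (List.range (Nat.log2 n / 2048 + 1)).map fun i => (n >>> (2048 * i)) &&& (2 ^ 2048 - 1)

def cutL (l : List (List ℕ)) : List (List (List ℕ)) := l.map fun r => r.map cut

end Ev

end Crest.Agent.R347.Packed
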