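import Crest.Agent.R347.RingErr

/-!
R347, task N4 (part 2): the doubling chain for `T^n` and `G_n = ∑ T^d K T^(n-1-d)`, and the
resulting certified traces in one charge sector.
-/

set_option autoImplicit false

namespace Crest.Agent.R347.RingErr

open Matrix

section gg
variable {R : Type*} [Ring R]

/-- `∑_{d<n} T^d K T^(n-1-d)` -/
def GG (T K : R) (n : ℕ) : R := ∑ d ∈ Finset.range n, T ^ d * K * T ^ (n - 1 - d)

theorem GG_one (T K : R) : GG T K 1 = K := by simp [GG]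

theorem GG_add (T K : R) (m n : ℕ) : GG T K (m + n) = GG T K m * T ^ n + T ^ m * GG T K n := by
  rw [GG, Finset.sum_range_add, GG, GG, Finset.sum_mul, Finset.mul_sum]
  congr 1
  · refine Finset.sum_congr rfl fun d hd => ?_
    have hd' := Finset.mem_range.mp hd
    rw [mul_assoc _ _ (T ^ n), ← pow_add]
    congr 2
    omega
  · refine Finset.sum_congr rfl fun d hd => ?_
    have hd' := Finset.mem_range.mp hd
    rw [pow_add, ← mul_assoc, ← mul_assoc]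
    congr 2
    omega

end gg

section tr
variable {n : ℕ}

theorem trace_GG (T K : Matrix (Fin n) (Fin n) ℝ) :
    ∑ d ∈ Finset.range 37, (K * T ^ d * K * T ^ (36 - d)).trace =
      ((T ^ 18 * (T * K) + (T * K) * T ^ 18) * GG T K 18).trace + (K * T ^ 36 * K).trace := by
  have h1 : ∑ d ∈ Finset.range 37, (K * T ^ d * K * T ^ (36 - d)).trace = (K * GG T K 37).trace := by
    rw [GG, Finset.mul_sum, Matrix.trace_sum]
    refine Finset.sum_congr rfl fun d _ => ?_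
    rw [show 37 - 1 - d = 36 - d by omega]
    simp only [mul_assoc]
  rw [h1, show 37 = 36 + 1 by norm_num, GG_add, GG_one, pow_one, show 36 = 18 + 18 by norm_num,
    GG_add, pow_add]
  rw [mul_add, Matrix.trace_add]
  congr 1
  · rw [← mul_assoc, Matrix.trace_mul_comm, ← mul_assoc, mul_add, Matrix.trace_add, add_mul,
      Matrix.trace_add]
    congr 1
    · rw [← mul_assoc, Matrix.trace_mul_comm]
      simp only [mul_assoc]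
    · simp only [mul_assoc]
  · simp only [mul_assoc]

theorem trace_GG_pow (T K : Matrix (Fin n) (Fin n) ℝ) (k m : ℕ) (hk : 0 < k) :
    (GG T K k * T ^ m).trace = k * (K * T ^ (k - 1 + m)).trace := by
  rw [GG, Finset.sum_mul, Matrix.trace_sum]
  have h : ∀ d ∈ Finset.range k, (T ^ d * K * T ^ (k - 1 - d) * T ^ m).trace =
      (K * T ^ (k - 1 + m)).trace := by
    intro d hd
    have hd' := Finset.mem_range.mp hd
    rw [mul_assoc, mul_assoc, ← pow_add, Matrix.trace_mul_comm, mul_assoc, ← pow_add]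
    congr 3
    omega
  rw [Finset.sum_congr rfl h, Finset.sum_const, Finset.card_range, nsmul_eq_mul]

end tr

theorem Ap.mono {n : ℕ} {M : Matrix (Fin n) (Fin n) ℝ} {X : Matrix (Fin n) (Fin n) ℤ}
    {b e e' : ℕ} (h : Ap M X b e) (he : e ≤ e') : Ap M X b e' := by
  refine ⟨h.hb, h.he.trans ?_⟩
  have : (e : ℝ) ≤ e' := by exact_mod_cast he
  gcongr

/-- integer approximants of the chain (44 fractional bits) -/
structure Chain (n : ℕ) where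
  T : Matrix (Fin n) (Fin n) ℤ
  K : Matrix (Fin n) (Fin n) ℤ
  KK : Matrix (Fin n) (Fin n) ℤ
  T3 : Matrix (Fin n) (Fin n) ℤ
  T2 : Matrix (Fin n) (Fin n) ℤ
  T4 : Matrix (Fin n) (Fin n) ℤ
  T5 : Matrix (Fin n) (Fin n) ℤ
  T9 : Matrix (Fin n) (Fin n) ℤ
  T18 : Matrix (Fin n) (Fin n) ℤ
  T36 : Matrix (Fin n) (Fin n) ℤ
  T37 : Matrix (Fin n) (Fin n) ℤ
  T38 : Matrix (Fin n) (Fin n) ℤ
  T75 : Matrix (Fin n) (Fin n) ℤ
  U : Matrix (Fin n) (Fin n) ℤ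
  G2 : Matrix (Fin n) (Fin n) ℤ
  G4 : Matrix (Fin n) (Fin n) ℤ
  G5 : Matrix (Fin n) (Fin n) ℤ
  G9 : Matrix (Fin n) (Fin n) ℤ
  G18 : Matrix (Fin n) (Fin n) ℤ
  W : Matrix (Fin n) (Fin n) ℤ
  V : Matrix (Fin n) (Fin n) ℤ

/-- natural numbers attached to the matrices of the chain (norms or errors, units `2^-64`) -/
structure Nrms where
  T : ℕ
  K : ℕ
  KK : ℕ
  T3 : ℕ
  T2 : ℕ
  T4 : ℕ
  T5 : ℕ
  T9 : ℕ
  T18 : ℕ
  T36 : ℕ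
  T37 : ℕ
  T38 : ℕ
  T75 : ℕ
  U : ℕ
  G2 : ℕ
  G4 : ℕ
  G5 : ℕ
  G9 : ℕ
  G18 : ℕ
  W : ℕ
  V : ℕ

/-- traces (units `2^-88`) -/
structure Trs where
  t40 : ℤ
  k38 : ℤ
  kk38 : ℤ
  t3 : ℤ
  wg : ℤ
  vk : ℤ
  t80 : ℤ
  k78 : ℤ

/-- kernel facts of one sector -/
structure Cert {n : ℕ} (sT sK sKK sT3 : Matrix (Fin n) (Fin n) ℤ) (X : Chain n) (b : Nrms)
    (t : Trs) : Prop where
  hT : ∀ i j, X.T i j = 2 ^ 16 * sT i j
  hK : RndS 19 sK X.K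
  hKK : RndS 26 sKK X.KK
  hT3 : RndS 54 sT3 X.T3
  rT2 : Rnd1 X.T X.T X.T2
  rT4 : Rnd1 X.T2 X.T2 X.T4
  rT5 : Rnd1 X.T4 X.T X.T5
  rT9 : Rnd1 X.T5 X.T4 X.T9
  rT18 : Rnd1 X.T9 X.T9 X.T18
  rT36 : Rnd1 X.T18 X.T18 X.T36
  rT37 : Rnd1 X.T36 X.T X.T37
  rT38 : Rnd1 X.T36 X.T2 X.T38
  rT75 : Rnd1 X.T37 X.T38 X.T75
  rU : Rnd1 X.T X.K X.U
  rG2 : Rnd2 X.K X.T X.T X.K X.G2
  rG4 : Rnd2 X.G2 X.T2 X.T2 X.G2 X.G4
  rG5 : Rnd2 X.G4 X.T X.T4 X.K X.G5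
  rG9 : Rnd2 X.G5 X.T4 X.T5 X.G4 X.G9
  rG18 : Rnd2 X.G9 X.T9 X.T9 X.G9 X.G18
  rW : Rnd2 X.T18 X.U X.U X.T18 X.W
  rV : Rnd1 X.K X.T36 X.V
  nT : NB X.T b.T
  nK : NB X.K b.K
  nKK : NB X.KK b.KK
  nT3 : NB X.T3 b.T3
  nT2 : NB X.T2 b.T2
  nT4 : NB X.T4 b.T4
  nT5 : NB X.T5 b.T5
  nT9 : NB X.T9 b.T9
  nT18 : NB X.T18 b.T18
  nT36 : NB X.T36 b.T36
  nT37 : NB X.T37 b.T37
  nT38 : NB X.T38 b.T38
  nT75 : NB X.T75 b.T75
  nU : NB X.U b.U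
  nG2 : NB X.G2 b.G2
  nG4 : NB X.G4 b.G4
  nG5 : NB X.G5 b.G5
  nG9 : NB X.G9 b.G9
  nG18 : NB X.G18 b.G18
  nW : NB X.W b.W
  nV : NB X.V b.V
  t40 : (X.T36 * X.T4).trace = t.t40
  k38 : (X.K * X.T38).trace = t.k38
  kk38 : (X.KK * X.T38).trace = t.kk38
  t3 : (X.T3 * X.T37).trace = t.t3
  wg : (X.W * X.G18).trace = t.wg
  vk : (X.V * X.K).trace = t.vk
  t80 : (X.T75 * X.T5).trace = t.t80
  k78 : (X.G4 * X.T75).trace = t.k78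

/-- check of the error recursion -/
def chkErr (n : ℕ) (b e : Nrms) : Bool :=
  decide (e.T = 0) &&
    decide (n * 2 ^ 20 ≤ e.K) &&
    decide (n * 2 ^ 20 ≤ e.KK) &&
    decide (n * 2 ^ 20 ≤ e.T3) &&
    decide (eM n b.T e.T b.T e.T ≤ e.T2) &&
    decide (eM n b.T2 e.T2 b.T2 e.T2 ≤ e.T4) &&
    decide (eM n b.T4 e.T4 b.T e.T ≤ e.T5) &&
    decide (eM n b.T5 e.T5 b.T4 e.T4 ≤ e.T9) &&
    decide (eM n b.T9 e.T9 b.T9 e.T9 ≤ e.T18) &&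
    decide (eM n b.T18 e.T18 b.T18 e.T18 ≤ e.T36) &&
    decide (eM n b.T36 e.T36 b.T e.T ≤ e.T37) &&
    decide (eM n b.T36 e.T36 b.T2 e.T2 ≤ e.T38) &&
    decide (eM n b.T37 e.T37 b.T38 e.T38 ≤ e.T75) &&
    decide (eM n b.T e.T b.K e.K ≤ e.U) &&
    decide (eM2 n b.K e.K b.T e.T b.T e.T b.K e.K ≤ e.G2) &&
    decide (eM2 n b.G2 e.G2 b.T2 e.T2 b.T2 e.T2 b.G2 e.G2 ≤ e.G4) &&
    decide (eM2 n b.G4 e.G4 b.T e.T b.T4 e.T4 b.K e.K ≤ e.G5) &&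
    decide (eM2 n b.G5 e.G5 b.T4 e.T4 b.T5 e.T5 b.G4 e.G4 ≤ e.G9) &&
    decide (eM2 n b.G9 e.G9 b.T9 e.T9 b.T9 e.T9 b.G9 e.G9 ≤ e.G18) &&
    decide (eM2 n b.T18 e.T18 b.U e.U b.U e.U b.T18 e.T18 ≤ e.W) &&
    decide (eM n b.K e.K b.T36 e.T36 ≤ e.V)


theorem Cert.aps {n : ℕ} {sT sK sKK sT3 : Matrix (Fin n) (Fin n) ℤ} {X : Chain n} {b e : Nrms}
    {t : Trs} (h : Cert sT sK sKK sT3 X b t) (hc : chkErr n b e = true)
    {T K KK T3 : Matrix (Fin n) (Fin n) ℝ} (eT : T = scl 28 sT) (eK : K = scl 63 sK)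
    (eKK : KK = scl 70 sKK) (eT3 : T3 = scl 98 sT3) :
    Ap (T ^ 36) X.T36 b.T36 e.T36 ∧ Ap (T ^ 4) X.T4 b.T4 e.T4 ∧ Ap K X.K b.K e.K ∧
    Ap (T ^ 38) X.T38 b.T38 e.T38 ∧ Ap KK X.KK b.KK e.KK ∧ Ap T3 X.T3 b.T3 e.T3 ∧
    Ap (T ^ 37) X.T37 b.T37 e.T37 ∧
    Ap (T ^ 18 * (T * K) + T * K * T ^ 18) X.W b.W e.W ∧ Ap (GG T K 18) X.G18 b.G18 e.G18 ∧
    Ap (K * T ^ 36) X.V b.V e.V ∧ Ap (T ^ 75) X.T75 b.T75 e.T75 ∧ Ap (T ^ 5) X.T5 b.T5 e.T5 ∧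
    Ap (GG T K 4) X.G4 b.G4 e.G4 := by
  simp only [chkErr, Bool.and_eq_true, decide_eq_true_eq] at hc
  obtain ⟨⟨⟨⟨⟨⟨⟨⟨⟨⟨⟨⟨⟨⟨⟨⟨⟨⟨⟨⟨c0, cK⟩, cKK⟩, cT3⟩, cT2⟩, cT4⟩, cT5⟩, cT9⟩, cT18⟩, cT36⟩, cT37⟩, cT38⟩, cT75⟩, cU⟩, cG2⟩, cG4⟩, cG5⟩, cG9⟩, cG18⟩, cW⟩, cV⟩ := hc
  have aT : Ap T X.T b.T e.T := by rw [eT, c0]; exact Ap.exact h.hT h.nT
  have aK : Ap K X.K b.K e.K := by rw [eK]; exact (Ap.base h.hK h.nK).mono cK
  have aKK : Ap KK X.KK b.KK e.KK := by rw [eKK]; exact (Ap.base h.hKK h.nKK).mono cKK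
  have aT3 : Ap T3 X.T3 b.T3 e.T3 := by rw [eT3]; exact (Ap.base h.hT3 h.nT3).mono cT3
  have aT2 : Ap (T ^ 2) X.T2 b.T2 e.T2 := by
    have := (aT.mul aT h.rT2 h.nT2).mono cT2
    rwa [← pow_two] at this
  have aT4 : Ap (T ^ 4) X.T4 b.T4 e.T4 := by
    have := (aT2.mul aT2 h.rT4 h.nT4).mono cT4
    rwa [← pow_add] at this
  have aT5 : Ap (T ^ 5) X.T5 b.T5 e.T5 := by
    have := (aT4.mul aT h.rT5 h.nT5).mono cT5
    rwa [← pow_succ] at this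
  have aT9 : Ap (T ^ 9) X.T9 b.T9 e.T9 := by
    have := (aT5.mul aT4 h.rT9 h.nT9).mono cT9
    rwa [← pow_add] at this
  have aT18 : Ap (T ^ 18) X.T18 b.T18 e.T18 := by
    have := (aT9.mul aT9 h.rT18 h.nT18).mono cT18
    rwa [← pow_add] at this
  have aT36 : Ap (T ^ 36) X.T36 b.T36 e.T36 := by
    have := (aT18.mul aT18 h.rT36 h.nT36).mono cT36
    rwa [← pow_add] at this
  have aT37 : Ap (T ^ 37) X.T37 b.T37 e.T37 := by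
    have := (aT36.mul aT h.rT37 h.nT37).mono cT37
    rwa [← pow_succ] at this
  have aT38 : Ap (T ^ 38) X.T38 b.T38 e.T38 := by
    have := (aT36.mul aT2 h.rT38 h.nT38).mono cT38
    rwa [← pow_add] at this
  have aT75 : Ap (T ^ 75) X.T75 b.T75 e.T75 := by
    have := (aT37.mul aT38 h.rT75 h.nT75).mono cT75
    rwa [← pow_add] at this
  have aU : Ap (T * K) X.U b.U e.U := by
    have := (aT.mul aK h.rU h.nU).mono cU
    exact this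
  have aG2 : Ap (GG T K 2) X.G2 b.G2 e.G2 := by
    have := (aK.mul2 aT aT aK h.rG2 h.nG2).mono cG2
    have g := GG_add T K 1 1
    rw [GG_one, pow_one] at g
    rw [g]; exact this
  have aG4 : Ap (GG T K 4) X.G4 b.G4 e.G4 := by
    have := (aG2.mul2 aT2 aT2 aG2 h.rG4 h.nG4).mono cG4
    rw [show (4 : ℕ) = 2 + 2 by norm_num, GG_add]; exact this
  have aG5 : Ap (GG T K 5) X.G5 b.G5 e.G5 := by
    have := (aG4.mul2 aT aT4 aK h.rG5 h.nG5).mono cG5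
    rw [show (5 : ℕ) = 4 + 1 by norm_num, GG_add, GG_one, pow_one]; exact this
  have aG9 : Ap (GG T K 9) X.G9 b.G9 e.G9 := by
    have := (aG5.mul2 aT4 aT5 aG4 h.rG9 h.nG9).mono cG9
    rw [show (9 : ℕ) = 5 + 4 by norm_num, GG_add]; exact this
  have aG18 : Ap (GG T K 18) X.G18 b.G18 e.G18 := by
    have := (aG9.mul2 aT9 aT9 aG9 h.rG18 h.nG18).mono cG18
    rw [show (18 : ℕ) = 9 + 9 by norm_num, GG_add]; exact this
  have aW : Ap (T ^ 18 * (T * K) + T * K * T ^ 18) X.W b.W e.W := by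
    have := (aT18.mul2 aU aU aT18 h.rW h.nW).mono cW
    exact this
  have aV : Ap (K * T ^ 36) X.V b.V e.V := by
    have := (aK.mul aT36 h.rV h.nV).mono cV
    exact this
  exact ⟨aT36, aT4, aK, aT38, aKK, aT3, aT37, aW, aG18, aV, aT75, aT5, aG4⟩

end Crest.Agent.R347.RingErr
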