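import Mathlib

/-!
R347, task N4 (part 1): Frobenius-norm error propagation for rounded integer matrix products.
Fixed point: `44` fractional bits for matrices (`toR X = X / 2^44`), norms and errors are natural
numbers in units of `2^-64`.
-/

set_option autoImplicit false

namespace Crest.Agent.R347.RingErr

open Matrix

attribute [local instance] Matrix.frobeniusNormedAddCommGroup Matrix.frobeniusNormedSpace

section basic
variable {n : ℕ}

/-- the real matrix represented by the integer matrix `X` -/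
noncomputable def toR (X : Matrix (Fin n) (Fin n) ℤ) : Matrix (Fin n) (Fin n) ℝ :=
  Matrix.of fun i j => (X i j : ℝ) / 2 ^ 44

theorem toR_apply (X : Matrix (Fin n) (Fin n) ℤ) (i j : Fin n) :
    toR X i j = (X i j : ℝ) / 2 ^ 44 := rfl

theorem norm_sq (A : Matrix (Fin n) (Fin n) ℝ) : ‖A‖ ^ 2 = ∑ i, ∑ j, A i j ^ 2 := by
  rw [Matrix.frobenius_norm_def]
  have h : ∀ i j, ‖A i j‖ ^ (2 : ℝ) = A i j ^ 2 := by
    intro i j
    rw [Real.norm_eq_abs, Real.rpow_ofNat, sq_abs]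
  simp only [h]
  have h0 : (0 : ℝ) ≤ ∑ i, ∑ j, A i j ^ 2 :=
    Finset.sum_nonneg fun i _ => Finset.sum_nonneg fun j _ => sq_nonneg _
  rw [← Real.sqrt_eq_rpow, Real.sq_sqrt h0]

theorem norm_le_of_sq {A : Matrix (Fin n) (Fin n) ℝ} {c : ℝ} (hc : 0 ≤ c)
    (h : ∑ i, ∑ j, A i j ^ 2 ≤ c ^ 2) : ‖A‖ ≤ c := by
  rw [← norm_sq] at h
  exact abs_le_of_sq_le_sq' h hc |>.2

theorem norm_le_of_entry {A : Matrix (Fin n) (Fin n) ℝ} {c : ℝ} (hc : 0 ≤ c)
    (h : ∀ i j, |A i j| ≤ c) : ‖A‖ ≤ n * c := by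
  refine norm_le_of_sq (by positivity) ?_
  calc ∑ i, ∑ j, A i j ^ 2 ≤ ∑ _i : Fin n, ∑ _j : Fin n, c ^ 2 :=
        Finset.sum_le_sum fun i _ => Finset.sum_le_sum fun j _ => by
          rw [← sq_abs]
          exact pow_le_pow_left₀ (abs_nonneg _) (h i j) 2
    _ = (n * c) ^ 2 := by
        simp only [Finset.sum_const, Finset.card_univ, Fintype.card_fin, nsmul_eq_mul]
        ring

theorem norm_mul_le' (A B : Matrix (Fin n) (Fin n) ℝ) : ‖A * B‖ ≤ ‖A‖ * ‖B‖ :=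
  Matrix.frobenius_norm_mul A B

theorem abs_trace_mul_le (A B : Matrix (Fin n) (Fin n) ℝ) : |(A * B).trace| ≤ ‖A‖ * ‖B‖ := by
  have h1 : (A * B).trace = ∑ p : Fin n × Fin n, A p.1 p.2 * B p.2 p.1 := by
    rw [Fintype.sum_prod_type]
    rfl
  have hA : ∑ p : Fin n × Fin n, A p.1 p.2 ^ 2 = ‖A‖ ^ 2 := by
    rw [norm_sq, Fintype.sum_prod_type]
  have hB : ∑ p : Fin n × Fin n, B p.2 p.1 ^ 2 = ‖B‖ ^ 2 := by
    rw [norm_sq, Fintype.sum_prod_type, Finset.sum_comm]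
  refine abs_le_of_sq_le_sq ?_ (by positivity)
  rw [mul_pow, ← hA, ← hB, h1]
  exact Finset.sum_mul_sq_le_sq_mul_sq _ _ _

/-- norm bound of an integer matrix, `b` in units `2^-64` -/
def NB (X : Matrix (Fin n) (Fin n) ℤ) (b : ℕ) : Prop :=
  (∑ i, ∑ j, X i j ^ 2) * 2 ^ 40 ≤ (b : ℤ) ^ 2

theorem NB.norm_le {X : Matrix (Fin n) (Fin n) ℤ} {b : ℕ} (h : NB X b) :
    ‖toR X‖ ≤ (b : ℝ) / 2 ^ 64 := by
  refine norm_le_of_sq (by positivity) ?_
  have h1 : ((∑ i, ∑ j, X i j ^ 2 : ℤ) : ℝ) * 2 ^ 40 ≤ (b : ℝ) ^ 2 := by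
    unfold NB at h
    exact_mod_cast h
  have h2 : ∑ i, ∑ j, toR X i j ^ 2 = ((∑ i, ∑ j, X i j ^ 2 : ℤ) : ℝ) / 2 ^ 88 := by
    push_cast
    simp only [toR_apply, div_pow, Finset.sum_div]
    refine Finset.sum_congr rfl fun i _ => Finset.sum_congr rfl fun j _ => ?_
    norm_num
  rw [h2, div_pow, div_le_div_iff₀ (by positivity) (by positivity)]
  calc ((∑ i, ∑ j, X i j ^ 2 : ℤ) : ℝ) * (2 ^ 64) ^ 2
      = (((∑ i, ∑ j, X i j ^ 2 : ℤ) : ℝ) * 2 ^ 40) * 2 ^ 88 := by ring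
    _ ≤ (b : ℝ) ^ 2 * 2 ^ 88 := by gcongr

/-- rounded product -/
def Rnd1 (A B C : Matrix (Fin n) (Fin n) ℤ) : Prop :=
  ∀ i j, |(A * B) i j - 2 ^ 44 * C i j| ≤ 2 ^ 44

/-- rounded sum of two products -/
def Rnd2 (A B A' B' C : Matrix (Fin n) (Fin n) ℤ) : Prop :=
  ∀ i j, |(A * B + A' * B') i j - 2 ^ 44 * C i j| ≤ 2 ^ 44

/-- `X` is `A / 2^s`, rounded -/
def RndS (s : ℕ) (A X : Matrix (Fin n) (Fin n) ℤ) : Prop :=
  ∀ i j, |A i j - 2 ^ s * X i j| ≤ 2 ^ s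

/-- `M` is approximated by `X`: norm of `X` at most `b`, error at most `e` (units `2^-64`). -/
structure Ap (M : Matrix (Fin n) (Fin n) ℝ) (X : Matrix (Fin n) (Fin n) ℤ) (b e : ℕ) : Prop where
  hb : ‖toR X‖ ≤ (b : ℝ) / 2 ^ 64
  he : ‖M - toR X‖ ≤ (e : ℝ) / 2 ^ 64

/-- propagated error of a product -/
def eP (b e b' e' : ℕ) : ℕ := (e * b' + b * e' + e * e') / 2 ^ 64 + 1

theorem eP_le (b e b' e' : ℕ) :
    (e : ℝ) / 2 ^ 64 * ((b' : ℝ) / 2 ^ 64) + (b : ℝ) / 2 ^ 64 * ((e' : ℝ) / 2 ^ 64) +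
      (e : ℝ) / 2 ^ 64 * ((e' : ℝ) / 2 ^ 64) ≤ (eP b e b' e' : ℝ) / 2 ^ 64 := by
  have h : e * b' + b * e' + e * e' ≤ eP b e b' e' * 2 ^ 64 := by
    have := Nat.div_add_mod (e * b' + b * e' + e * e') (2 ^ 64)
    have h2 := Nat.mod_lt (e * b' + b * e' + e * e') (show 0 < 2 ^ 64 by norm_num)
    unfold eP
    rw [Nat.add_mul, one_mul]
    omega
  have h' : (e : ℝ) * b' + b * e' + e * e' ≤ eP b e b' e' * 2 ^ 64 := by exact_mod_cast h
  have : (e : ℝ) / 2 ^ 64 * ((b' : ℝ) / 2 ^ 64) + (b : ℝ) / 2 ^ 64 * ((e' : ℝ) / 2 ^ 64) +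
      (e : ℝ) / 2 ^ 64 * ((e' : ℝ) / 2 ^ 64) = ((e : ℝ) * b' + b * e' + e * e') / 2 ^ 64 / 2 ^ 64 := by
    ring
  rw [this]
  apply div_le_div_of_nonneg_right _ (by positivity)
  rw [div_le_iff₀ (by positivity)]
  exact h'

theorem toR_mul_apply (X Y : Matrix (Fin n) (Fin n) ℤ) (i j : Fin n) :
    (toR X * toR Y) i j = ((X * Y) i j : ℝ) / 2 ^ 88 := by
  rw [Matrix.mul_apply, Matrix.mul_apply]
  push_cast
  rw [Finset.sum_div]
  refine Finset.sum_congr rfl fun k _ => ?_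
  rw [toR_apply, toR_apply]
  ring

theorem Ap.mul_err {M M' : Matrix (Fin n) (Fin n) ℝ} {X X' : Matrix (Fin n) (Fin n) ℤ}
    {b e b' e' : ℕ} (h : Ap M X b e) (h' : Ap M' X' b' e') :
    ‖M * M' - toR X * toR X'‖ ≤ (eP b e b' e' : ℝ) / 2 ^ 64 := by
  have h1 : M * M' - toR X * toR X' =
      (M - toR X) * toR X' + toR X * (M' - toR X') + (M - toR X) * (M' - toR X') := by
    noncomm_ring
  rw [h1]
  refine le_trans ?_ (eP_le b e b' e')
  refine (norm_add_le _ _).trans (add_le_add ((norm_add_le _ _).trans (add_le_add ?_ ?_)) ?_)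
  · exact (norm_mul_le' _ _).trans (mul_le_mul h.he h'.hb (norm_nonneg _) (by positivity))
  · exact (norm_mul_le' _ _).trans (mul_le_mul h.hb h'.he (norm_nonneg _) (by positivity))
  · exact (norm_mul_le' _ _).trans (mul_le_mul h.he h'.he (norm_nonneg _) (by positivity))

/-- error of a rounded product -/
def eM (n b e b' e' : ℕ) : ℕ := eP b e b' e' + n * 2 ^ 20

theorem Ap.mul {M M' : Matrix (Fin n) (Fin n) ℝ} {X X' Z : Matrix (Fin n) (Fin n) ℤ}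
    {b e b' e' bz : ℕ} (h : Ap M X b e) (h' : Ap M' X' b' e') (hR : Rnd1 X X' Z) (hz : NB Z bz) :
    Ap (M * M') Z bz (eM n b e b' e') := by
  refine ⟨hz.norm_le, ?_⟩
  have h1 : M * M' - toR Z = (M * M' - toR X * toR X') + (toR X * toR X' - toR Z) := by abel
  rw [h1]
  have h2 : ‖toR X * toR X' - toR Z‖ ≤ n * (1 / 2 ^ 44) := by
    refine norm_le_of_entry (by positivity) fun i j => ?_
    rw [Matrix.sub_apply, toR_mul_apply, toR_apply]
    have := hR i j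
    have h3 : |((X * X') i j : ℝ) - 2 ^ 44 * (Z i j : ℝ)| ≤ 2 ^ 44 := by exact_mod_cast this
    have h4 : ((X * X') i j : ℝ) / 2 ^ 88 - (Z i j : ℝ) / 2 ^ 44 =
        (((X * X') i j : ℝ) - 2 ^ 44 * (Z i j : ℝ)) / 2 ^ 88 := by ring
    rw [h4, abs_div, abs_of_pos (show (0 : ℝ) < 2 ^ 88 by positivity),
      div_le_div_iff₀ (by positivity) (by positivity)]
    calc |((X * X') i j : ℝ) - 2 ^ 44 * (Z i j : ℝ)| * 2 ^ 44 ≤ 2 ^ 44 * 2 ^ 44 := by gcongr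
      _ = 1 * 2 ^ 88 := by norm_num
  refine (norm_add_le _ _).trans ((add_le_add (h.mul_err h') h2).trans (le_of_eq ?_))
  unfold eM
  push_cast
  ring

/-- error of a rounded sum of two products -/
def eM2 (n b e b' e' c f c' f' : ℕ) : ℕ := eP b e b' e' + eP c f c' f' + n * 2 ^ 20

theorem Ap.mul2 {M M' N N' : Matrix (Fin n) (Fin n) ℝ} {X X' Y Y' Z : Matrix (Fin n) (Fin n) ℤ}
    {b e b' e' c f c' f' bz : ℕ} (h : Ap M X b e) (h' : Ap M' X' b' e')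
    (g : Ap N Y c f) (g' : Ap N' Y' c' f') (hR : Rnd2 X X' Y Y' Z) (hz : NB Z bz) :
    Ap (M * M' + N * N') Z bz (eM2 n b e b' e' c f c' f') := by
  refine ⟨hz.norm_le, ?_⟩
  have h1 : M * M' + N * N' - toR Z = (M * M' - toR X * toR X') + (N * N' - toR Y * toR Y') +
      (toR X * toR X' + toR Y * toR Y' - toR Z) := by abel
  rw [h1]
  have h2 : ‖toR X * toR X' + toR Y * toR Y' - toR Z‖ ≤ n * (1 / 2 ^ 44) := by
    refine norm_le_of_entry (by positivity) fun i j => ?_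
    rw [Matrix.sub_apply, Matrix.add_apply, toR_mul_apply, toR_mul_apply, toR_apply]
    have := hR i j
    rw [Matrix.add_apply] at this
    have h3 : |(((X * X') i j : ℝ) + ((Y * Y') i j : ℝ)) - 2 ^ 44 * (Z i j : ℝ)| ≤ 2 ^ 44 := by
      exact_mod_cast this
    have h4 : ((X * X') i j : ℝ) / 2 ^ 88 + ((Y * Y') i j : ℝ) / 2 ^ 88 - (Z i j : ℝ) / 2 ^ 44 =
        ((((X * X') i j : ℝ) + ((Y * Y') i j : ℝ)) - 2 ^ 44 * (Z i j : ℝ)) / 2 ^ 88 := by ring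
    rw [h4, abs_div, abs_of_pos (show (0 : ℝ) < 2 ^ 88 by positivity),
      div_le_div_iff₀ (by positivity) (by positivity)]
    calc |(((X * X') i j : ℝ) + ((Y * Y') i j : ℝ)) - 2 ^ 44 * (Z i j : ℝ)| * 2 ^ 44
        ≤ 2 ^ 44 * 2 ^ 44 := by gcongr
      _ = 1 * 2 ^ 88 := by norm_num
  refine (norm_add_le _ _).trans ((add_le_add ((norm_add_le _ _).trans
    (add_le_add (h.mul_err h') (g.mul_err g'))) h2).trans (le_of_eq ?_))
  unfold eM2
  push_cast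
  ring

/-- the real matrix `A / 2^s` -/
noncomputable def scl (s : ℕ) (A : Matrix (Fin n) (Fin n) ℤ) : Matrix (Fin n) (Fin n) ℝ :=
  Matrix.of fun i j => (A i j : ℝ) / 2 ^ s

theorem Ap.base {s : ℕ} {A X : Matrix (Fin n) (Fin n) ℤ} {b : ℕ} (h : RndS s A X) (hb : NB X b) :
    Ap (scl (s + 44) A) X b (n * 2 ^ 20) := by
  refine ⟨hb.norm_le, ?_⟩
  have h2 : ‖scl (s + 44) A - toR X‖ ≤ n * (1 / 2 ^ 44) := by
    refine norm_le_of_entry (by positivity) fun i j => ?_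
    rw [Matrix.sub_apply, toR_apply]
    show |(A i j : ℝ) / 2 ^ (s + 44) - (X i j : ℝ) / 2 ^ 44| ≤ 1 / 2 ^ 44
    have h3 : |(A i j : ℝ) - 2 ^ s * (X i j : ℝ)| ≤ 2 ^ s := by exact_mod_cast h i j
    have h4 : (A i j : ℝ) / 2 ^ (s + 44) - (X i j : ℝ) / 2 ^ 44 =
        ((A i j : ℝ) - 2 ^ s * (X i j : ℝ)) / 2 ^ (s + 44) := by
      rw [pow_add]
      field_simp
    rw [h4, abs_div, abs_of_pos (show (0 : ℝ) < 2 ^ (s + 44) by positivity),
      div_le_div_iff₀ (by positivity) (by positivity), pow_add]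
    calc |(A i j : ℝ) - 2 ^ s * (X i j : ℝ)| * 2 ^ 44 ≤ 2 ^ s * 2 ^ 44 := by gcongr
      _ = 1 * (2 ^ s * 2 ^ 44) := by ring
  refine h2.trans (le_of_eq ?_)
  push_cast
  ring

theorem Ap.exact {A X : Matrix (Fin n) (Fin n) ℤ} {b : ℕ} (h : ∀ i j, X i j = 2 ^ 16 * A i j)
    (hb : NB X b) : Ap (scl 28 A) X b 0 := by
  refine ⟨hb.norm_le, ?_⟩
  have : scl 28 A - toR X = 0 := by
    ext i j
    rw [Matrix.sub_apply, toR_apply, h i j]
    show (A i j : ℝ) / 2 ^ 28 - _ = 0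
    push_cast
    ring
  rw [this, norm_zero]
  positivity

theorem Ap.trace {M M' : Matrix (Fin n) (Fin n) ℝ} {X X' : Matrix (Fin n) (Fin n) ℤ}
    {b e b' e' : ℕ} (h : Ap M X b e) (h' : Ap M' X' b' e') {t : ℤ} (ht : (X * X').trace = t) :
    |(M * M').trace - (t : ℝ) / 2 ^ 88| ≤ (eP b e b' e' : ℝ) / 2 ^ 64 := by
  have h1 : (M * M').trace - (t : ℝ) / 2 ^ 88 =
      ((M - toR X) * toR X').trace + (toR X * (M' - toR X')).trace +
        ((M - toR X) * (M' - toR X')).trace := by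
    have h2 : (toR X * toR X').trace = (t : ℝ) / 2 ^ 88 := by
      rw [← ht]
      simp only [Matrix.trace, Matrix.diag_apply, toR_mul_apply]
      push_cast
      rw [Finset.sum_div]
    rw [← h2, ← Matrix.trace_sub, ← Matrix.trace_add, ← Matrix.trace_add]
    congr 1
    noncomm_ring
  rw [h1]
  refine le_trans ?_ (eP_le b e b' e')
  refine (abs_add_le _ _).trans (add_le_add ((abs_add_le _ _).trans (add_le_add ?_ ?_)) ?_)
  · exact (abs_trace_mul_le _ _).trans (mul_le_mul h.he h'.hb (norm_nonneg _) (by positivity))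
  · exact (abs_trace_mul_le _ _).trans (mul_le_mul h.hb h'.he (norm_nonneg _) (by positivity))
  · exact (abs_trace_mul_le _ _).trans (mul_le_mul h.he h'.he (norm_nonneg _) (by positivity))

end basic

end Crest.Agent.R347.RingErr
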