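import Crest.Agent.R347.RowEval
import Crest.Agent.R347.PackedEval

/-!
R347: untrusted computable evaluators of the ring chain (used only inside `eval%`).
-/

set_option autoImplicit false

namespace Crest.Agent.R347.Packed

/-- list access, kernel friendly -/
noncomputable def nthL (l : List (List ℕ)) : ℕ → List ℕ :=
  List.rec (motive := fun _ => ℕ → List ℕ) (fun _ => [])
    (fun a _ ih i => Nat.rec (motive := fun _ => List ℕ) a (fun j _ => ih j) i) l

namespace Ev

def baseT (k n : ℕ) : List ℕ :=
  let L := (Row.rowsTC k).toArray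
  roundRows n 16 0 (fun r => L.getD r 0)

def baseK (k n : ℕ) : List ℕ :=
  let L := (Row.rowsTKC k).toArray
  roundRows n 0 19 (fun r => L.getD r 0)

def baseKK (k n : ℕ) : List ℕ :=
  let L := (Row.rowsTKKC k).toArray
  roundRows n 0 26 (fun r => L.getD r 0)

def baseT3 (k n : ℕ) : List ℕ :=
  let L := (Row.rowsT3C k).toArray
  roundRows n 0 54 (fun r => L.getD r 0)

/-- `T, K, KK, T3` -/
def base4 (k n : ℕ) : List (List ℕ) := [baseT k n, baseK k n, baseKK k n, baseT3 k n]

/-- `T2, T4, T5, T9, T18, T36, T37, T38, T75` -/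
def powT (k n : ℕ) : List (List ℕ) :=
  let T := baseT k n
  let T2 := mul n T T
  let T4 := mul n T2 T2
  let T5 := mul n T4 T
  let T9 := mul n T5 T4
  let T18 := mul n T9 T9
  let T36 := mul n T18 T18
  let T37 := mul n T36 T
  let T38 := mul n T36 T2
  let T75 := mul n T37 T38
  [T2, T4, T5, T9, T18, T36, T37, T38, T75]

/-- `U, G2, G4, G5, G9, G18, W, V` -/
def matG (k n : ℕ) : List (List ℕ) :=
  let T := baseT k n
  let K := baseK k n
  let T2 := mul n T T
  let T4 := mul n T2 T2
  let T5 := mul n T4 T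
  let T9 := mul n T5 T4
  let T18 := mul n T9 T9
  let T36 := mul n T18 T18
  let U := mul n T K
  let G2 := mul2 n K T T K
  let G4 := mul2 n G2 T2 T2 G2
  let G5 := mul2 n G4 T T4 K
  let G9 := mul2 n G5 T4 T5 G4
  let G18 := mul2 n G9 T9 T9 G9
  let W := mul2 n T18 U U T18
  let V := mul n K T36
  [U, G2, G4, G5, G9, G18, W, V]

end Ev

end Crest.Agent.R347.Packed
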