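import Crest.Agent.R347.SectorsRing
import Crest.Agent.R347.Data

/-!
Assembly: `RingMPS` from bounds on the (scaled) sector traces of the ring MPS.
-/

set_option autoImplicit false

namespace Crest.Agent.R347

open Matrix Crest.MathPhysics.SpinChain
open scoped Kronecker

/-- scaled trace of `T^(n+4)` in the sector `k` -/
noncomputable def secT0 (k : Fin 6) (n : ℕ) : ℝ :=
  (((sT k ^ (n + 4)).trace : ℤ) : ℝ) / 2 ^ (28 * (n + 4))

/-- scaled trace of `TK * T^(n+2)` in the sector `k` (`Q = 132`, `P = -185`) -/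
noncomputable def secT1 (k : Fin 6) (n : ℕ) : ℝ :=
  (((sTK 132 (-185) k * sT k ^ (n + 2)).trace : ℤ) : ℝ) / 2 ^ (28 * (n + 4))

/-- scaled second moment in the sector `k` -/
noncomputable def secT2 (k : Fin 6) (n : ℕ) : ℝ :=
  (((sTKK 132 (-185) k * sT k ^ (n + 2)).trace + (sT3 132 (-185) k * sT k ^ (n + 1)).trace +
    ∑ d ∈ Finset.range (n + 1),
      (sTK 132 (-185) k * sT k ^ d * sTK 132 (-185) k * sT k ^ (n - d)).trace : ℤ) : ℝ) /
    2 ^ (28 * (n + 4))

theorem ringN0_scaled (n : ℕ) :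
    (ringN0 rtM n : ℝ) = 2 ^ (28 * (n + 4)) * ∑ k : Fin 6, (secW k : ℝ) * secT0 k n := by
  rw [ringN0_sectors, Finset.mul_sum]
  push_cast
  refine Finset.sum_congr rfl fun k _ => ?_
  rw [secT0]
  field_simp

theorem ringN1_scaled (n : ℕ) :
    (ringN1 rtM 132 (-185) n : ℝ) =
      2 ^ (28 * (n + 4)) * (((n + 4 : ℕ) : ℝ) * ∑ k : Fin 6, (secW k : ℝ) * secT1 k n) := by
  rw [ringN1_sectors, Int.cast_mul, Int.cast_sum, Int.cast_natCast, mul_left_comm]
  congr 1
  rw [Finset.mul_sum]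
  refine Finset.sum_congr rfl fun k _ => ?_
  rw [secT1, Int.cast_mul]
  field_simp

theorem ringN2_scaled (n : ℕ) :
    (ringN2 rtM 132 (-185) n : ℝ) =
      2 ^ (28 * (n + 4)) * (((n + 4 : ℕ) : ℝ) * ∑ k : Fin 6, (secW k : ℝ) * secT2 k n) := by
  rw [ringN2_sectors, Int.cast_mul, Int.cast_sum, Int.cast_natCast, mul_left_comm]
  congr 1
  rw [Finset.mul_sum]
  refine Finset.sum_congr rfl fun k _ => ?_
  rw [secT2, Int.cast_mul]
  field_simp

theorem sum_secW_bound {f g : Fin 6 → ℝ} {e : ℝ} (h : ∀ k, |f k - g k| ≤ e) :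
    |∑ k, (secW k : ℝ) * f k - ∑ k, (secW k : ℝ) * g k| ≤ 11 * e := by
  rw [← Finset.sum_sub_distrib]
  refine (Finset.abs_sum_le_sum_abs _ _).trans ?_
  have h1 : ∀ k : Fin 6, |(secW k : ℝ) * f k - (secW k : ℝ) * g k| ≤ (secW k : ℝ) * e := by
    intro k
    have hw : (0 : ℝ) ≤ (secW k : ℝ) := by
      unfold secW; split_ifs <;> norm_num
    rw [← mul_sub, abs_mul, abs_of_nonneg hw]
    exact mul_le_mul_of_nonneg_left (h k) hw
  refine (Finset.sum_le_sum fun k _ => h1 k).trans ?_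
  rw [← Finset.sum_mul]
  have : ∑ k : Fin 6, (secW k : ℝ) = 11 := by
    simp [Fin.sum_univ_succ, secW]
    norm_num
  rw [this]

/-- The assembly. -/
theorem ringMPS_of_sec (t0 t1 t2 s0 s1 : Fin 6 → ℝ) (e : ℝ)
    (h0 : ∀ k, |secT0 k 36 - t0 k| ≤ e) (h1 : ∀ k, |secT1 k 36 - t1 k| ≤ e)
    (h2 : ∀ k, |secT2 k 36 - t2 k| ≤ e)
    (g0 : ∀ k, |secT0 k 76 - s0 k| ≤ e) (g1 : ∀ k, |secT1 k 76 - s1 k| ≤ e)
    (a0 : 11 * e < ∑ k, (secW k : ℝ) * t0 k)
    (a1 : 12884 / 100000 * (∑ k, (secW k : ℝ) * t0 k + 11 * e) ≤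
      40 * (∑ k, (secW k : ℝ) * t1 k - 11 * e))
    (a2 : 40 * (∑ k, (secW k : ℝ) * t1 k + 11 * e) ≤
      1328 / 10000 * (∑ k, (secW k : ℝ) * t0 k - 11 * e))
    (a3 : 40 * (∑ k, (secW k : ℝ) * t2 k + 11 * e) ≤
      1045 / 1000 * (∑ k, (secW k : ℝ) * t0 k - 11 * e))
    (b0 : 11 * e < ∑ k, (secW k : ℝ) * s0 k)
    (b1 : 80 * (∑ k, (secW k : ℝ) * s1 k + 11 * e) ≤
      33292 / 100000 * (∑ k, (secW k : ℝ) * s0 k - 11 * e)) : RingMPS := by
  have H0 := abs_le.mp (sum_secW_bound h0)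
  have H1 := abs_le.mp (sum_secW_bound h1)
  have H2 := abs_le.mp (sum_secW_bound h2)
  have G0 := abs_le.mp (sum_secW_bound g0)
  have G1 := abs_le.mp (sum_secW_bound g1)
  have p40 : (0 : ℝ) < 2 ^ (28 * (36 + 4)) := by positivity
  have p80 : (0 : ℝ) < 2 ^ (28 * (76 + 4)) := by positivity
  constructor
  · have hN0 : 0 < ringN0 rtM 36 := by
      have : (0 : ℝ) < (ringN0 rtM 36 : ℝ) := by
        rw [ringN0_scaled]
        exact mul_pos p40 (by linarith)
      exact_mod_cast this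
    obtain ⟨ψ, E, q1, q2, q3, q4, q5⟩ := ring_mps_hyps rtM (Q := 132) (P := -185) (by norm_num) 36
      (lo := 12884 / 100000) (hi := 1328 / 10000) (w := 1045 / 1000) hN0
      (by
        rw [ringN0_scaled, ringN1_scaled, mul_left_comm]
        refine mul_le_mul_of_nonneg_left ?_ p40.le
        push_cast
        linarith)
      (by
        rw [ringN0_scaled, ringN1_scaled, mul_left_comm (1328 / 10000 : ℝ)]
        refine mul_le_mul_of_nonneg_left ?_ p40.le
        push_cast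
        linarith)
      (by
        rw [ringN0_scaled, ringN2_scaled, mul_left_comm (1045 / 1000 : ℝ)]
        refine mul_le_mul_of_nonneg_left ?_ p40.le
        push_cast
        linarith)
    refine ⟨ψ, E, _, q1, q4, q5, ?_, ?_, ?_⟩
    · refine le_trans ?_ q2
      rw [e0]
      norm_num
    · refine le_trans q3 ?_
      rw [e0]
      norm_num
    · norm_num
  · have hN0 : 0 < ringN0 rtM 76 := by
      have : (0 : ℝ) < (ringN0 rtM 76 : ℝ) := by
        rw [ringN0_scaled]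
        exact mul_pos p80 (by linarith)
      exact_mod_cast this
    obtain ⟨ψ, q1, q2⟩ := ring_mps_var rtM (Q := 132) (P := -185) (by norm_num) 76
      (hi := 33292 / 100000) hN0
      (by
        rw [ringN0_scaled, ringN1_scaled, mul_left_comm (33292 / 100000 : ℝ)]
        refine mul_le_mul_of_nonneg_left ?_ p80.le
        push_cast
        linarith)
    refine ⟨ψ, q1, ?_⟩
    refine le_of_le_of_eq q2 ?_
    congr 1
    rw [e0]
    norm_num

end Crest.Agent.R347
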