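import Crest.Agent.R347.RingSec0c

/-! R347: ring certificate, sector 0: norms, traces, certificate. Generated. -/

set_option autoImplicit false
set_option Elab.async false

namespace Crest.Agent.R347.Sec0

open Packed RingErr

theorem qT : sqOK 280 (getN dT) (RingNums.b0.T ^ 2 / 2 ^ 40) = true := by decide +kernel
theorem qK : sqOK 280 (getN dK) (RingNums.b0.K ^ 2 / 2 ^ 40) = true := by decide +kernel
theorem qKK : sqOK 280 (getN dKK) (RingNums.b0.KK ^ 2 / 2 ^ 40) = true := by decide +kernel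
theorem qT3 : sqOK 280 (getN dT3) (RingNums.b0.T3 ^ 2 / 2 ^ 40) = true := by decide +kernel
theorem qT2 : sqOK 280 (getN dT2) (RingNums.b0.T2 ^ 2 / 2 ^ 40) = true := by decide +kernel
theorem qT4 : sqOK 280 (getN dT4) (RingNums.b0.T4 ^ 2 / 2 ^ 40) = true := by decide +kernel
theorem qT5 : sqOK 280 (getN dT5) (RingNums.b0.T5 ^ 2 / 2 ^ 40) = true := by decide +kernel
theorem qT9 : sqOK 280 (getN dT9) (RingNums.b0.T9 ^ 2 / 2 ^ 40) = true := by decide +kernel
theorem qT18 : sqOK 280 (getN dT18) (RingNums.b0.T18 ^ 2 / 2 ^ 40) = true := by decide +kernel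
theorem qT36 : sqOK 280 (getN dT36) (RingNums.b0.T36 ^ 2 / 2 ^ 40) = true := by decide +kernel
theorem qT37 : sqOK 280 (getN dT37) (RingNums.b0.T37 ^ 2 / 2 ^ 40) = true := by decide +kernel
theorem qT38 : sqOK 280 (getN dT38) (RingNums.b0.T38 ^ 2 / 2 ^ 40) = true := by decide +kernel
theorem qT75 : sqOK 280 (getN dT75) (RingNums.b0.T75 ^ 2 / 2 ^ 40) = true := by decide +kernel
theorem qU : sqOK 280 (getN dU) (RingNums.b0.U ^ 2 / 2 ^ 40) = true := by decide +kernel
theorem qG2 : sqOK 280 (getN dG2) (RingNums.b0.G2 ^ 2 / 2 ^ 40) = true := by decide +kernel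
theorem qG4 : sqOK 280 (getN dG4) (RingNums.b0.G4 ^ 2 / 2 ^ 40) = true := by decide +kernel
theorem qG5 : sqOK 280 (getN dG5) (RingNums.b0.G5 ^ 2 / 2 ^ 40) = true := by decide +kernel
theorem qG9 : sqOK 280 (getN dG9) (RingNums.b0.G9 ^ 2 / 2 ^ 40) = true := by decide +kernel
theorem qG18 : sqOK 280 (getN dG18) (RingNums.b0.G18 ^ 2 / 2 ^ 40) = true := by decide +kernel
theorem qW : sqOK 280 (getN dW) (RingNums.b0.W ^ 2 / 2 ^ 40) = true := by decide +kernel
theorem qV : sqOK 280 (getN dV) (RingNums.b0.V ^ 2 / 2 ^ 40) = true := by decide +kernel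

theorem rt40 : traceOK 280 (getN dT36) (getN dT4) (RingNums.t0.t40 + 2 ^ 120).toNat = true := by
  decide +kernel
theorem rk38 : traceOK 280 (getN dK) (getN dT38) (RingNums.t0.k38 + 2 ^ 120).toNat = true := by
  decide +kernel
theorem rkk38 : traceOK 280 (getN dKK) (getN dT38) (RingNums.t0.kk38 + 2 ^ 120).toNat = true := by
  decide +kernel
theorem rt3 : traceOK 280 (getN dT3) (getN dT37) (RingNums.t0.t3 + 2 ^ 120).toNat = true := by
  decide +kernel
theorem rwg : traceOK 280 (getN dW) (getN dG18) (RingNums.t0.wg + 2 ^ 120).toNat = true := by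
  decide +kernel
theorem rvk : traceOK 280 (getN dV) (getN dK) (RingNums.t0.vk + 2 ^ 120).toNat = true := by
  decide +kernel
theorem rt80 : traceOK 280 (getN dT75) (getN dT5) (RingNums.t0.t80 + 2 ^ 120).toNat = true := by
  decide +kernel
theorem rk78 : traceOK 280 (getN dG4) (getN dT75) (RingNums.t0.k78 + 2 ^ 120).toNat = true := by
  decide +kernel

/-- packed matrices of the sector -/
noncomputable def pk : PK := ⟨dT, dK, dKK, dT3, dT2, dT4, dT5, dT9, dT18, dT36, dT37, dT38, dT75, dU, dG2, dG4, dG5, dG9, dG18, dW, dV⟩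

theorem prods : Prods 280 pk := ⟨mT2, mT4, mT5, mT9, mT18, mT36, mT37, mT38, mT75, mU, mG2, mG4, mG5, mG9, mG18, mW, mV⟩

theorem sqs : Sqs 280 pk RingNums.b0 := ⟨qT, qK, qKK, qT3, qT2, qT4, qT5, qT9, qT18, qT36, qT37, qT38, qT75, qU, qG2, qG4, qG5, qG9, qG18, qW, qV⟩

theorem trcs : Trcs 280 pk RingNums.t0 := ⟨rt40, rk38, rkk38, rt3, rwg, rvk, rt80, rk78⟩

theorem trs : trsOK RingNums.t0 = true := by decide +kernel

theorem cert : Cert (sT 0) (sTK 132 (-185) 0) (sTKK 132 (-185) 0) (sT3 132 (-185) 0)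
    (pk.chain (secN 0)) RingNums.b0 RingNums.t0 :=
  cert_mk (n := secN 0) (by decide) (by decide) trs (baseT 0 oT) (baseK 0 oK) (baseKK 0 oKK)
    (baseT3 0 oT3) prods sqs trcs

end Crest.Agent.R347.Sec0
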