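import Crest.Agent.R347.RingBase
import Crest.Agent.R347.RingEv
import Crest.Agent.R347.RingSec5

/-! R347: ring certificate, sector 4 (size 24): exact rows, rounded. Generated. -/

set_option autoImplicit false
set_option Elab.async false

namespace Crest.Agent.R347.Sec4

open Packed RingErr

/-- literals -/
noncomputable def LB : List (List ℕ) := eval% (Ev.base4 4 24)

noncomputable def dT : List ℕ := nthL LB 0
noncomputable def dK : List ℕ := nthL LB 1
noncomputable def dKK : List ℕ := nthL LB 2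
noncomputable def dT3 : List ℕ := nthL LB 3

theorem oT : roundOK 24 16 0 (fun r => Row.fN r (Row.rowT 4)) (getN dT) = true := by
  decide +kernel

theorem oK : roundOK 24 0 19 (fun r => Row.fN r (Row.rowTK 4)) (getN dK) = true := by
  decide +kernel

theorem oKK : roundOK 24 0 26 (fun r => Row.fN r (Row.rowTKK 4)) (getN dKK) = true := by
  decide +kernel

theorem oT3 : roundOK 24 0 54 (fun r => Row.fN r (Row.rowT3 4)) (getN dT3) = true := by
  decide +kernel

/-- literals -/
noncomputable def LP : List (List ℕ) := eval% (Ev.powT 4 24)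

noncomputable def dT2 : List ℕ := nthL LP 0
noncomputable def dT4 : List ℕ := nthL LP 1
noncomputable def dT5 : List ℕ := nthL LP 2
noncomputable def dT9 : List ℕ := nthL LP 3
noncomputable def dT18 : List ℕ := nthL LP 4
noncomputable def dT36 : List ℕ := nthL LP 5
noncomputable def dT37 : List ℕ := nthL LP 6
noncomputable def dT38 : List ℕ := nthL LP 7
noncomputable def dT75 : List ℕ := nthL LP 8

theorem mT2 : mulOK 24 (getN dT) (getN dT) (getN dT2) = true := by decide +kernel

theorem mT4 : mulOK 24 (getN dT2) (getN dT2) (getN dT4) = true := by decide +kernel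

theorem mT5 : mulOK 24 (getN dT4) (getN dT) (getN dT5) = true := by decide +kernel

theorem mT9 : mulOK 24 (getN dT5) (getN dT4) (getN dT9) = true := by decide +kernel

theorem mT18 : mulOK 24 (getN dT9) (getN dT9) (getN dT18) = true := by decide +kernel

theorem mT36 : mulOK 24 (getN dT18) (getN dT18) (getN dT36) = true := by decide +kernel

theorem mT37 : mulOK 24 (getN dT36) (getN dT) (getN dT37) = true := by decide +kernel

theorem mT38 : mulOK 24 (getN dT36) (getN dT2) (getN dT38) = true := by decide +kernel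

theorem mT75 : mulOK 24 (getN dT37) (getN dT38) (getN dT75) = true := by decide +kernel

/-- literals -/
noncomputable def LG : List (List ℕ) := eval% (Ev.matG 4 24)

noncomputable def dU : List ℕ := nthL LG 0
noncomputable def dG2 : List ℕ := nthL LG 1
noncomputable def dG4 : List ℕ := nthL LG 2
noncomputable def dG5 : List ℕ := nthL LG 3
noncomputable def dG9 : List ℕ := nthL LG 4
noncomputable def dG18 : List ℕ := nthL LG 5
noncomputable def dW : List ℕ := nthL LG 6
noncomputable def dV : List ℕ := nthL LG 7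

theorem mU : mulOK 24 (getN dT) (getN dK) (getN dU) = true := by decide +kernel

theorem mG2 : mul2OK 24 (getN dK) (getN dT) (getN dT) (getN dK) (getN dG2) = true := by
  decide +kernel

theorem mG4 : mul2OK 24 (getN dG2) (getN dT2) (getN dT2) (getN dG2) (getN dG4) = true := by
  decide +kernel

theorem mG5 : mul2OK 24 (getN dG4) (getN dT) (getN dT4) (getN dK) (getN dG5) = true := by
  decide +kernel

theorem mG9 : mul2OK 24 (getN dG5) (getN dT4) (getN dT5) (getN dG4) (getN dG9) = true := by
  decide +kernel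

theorem mG18 : mul2OK 24 (getN dG9) (getN dT9) (getN dT9) (getN dG9) (getN dG18) = true := by
  decide +kernel

theorem mW : mul2OK 24 (getN dT18) (getN dU) (getN dU) (getN dT18) (getN dW) = true := by
  decide +kernel

theorem mV : mulOK 24 (getN dK) (getN dT36) (getN dV) = true := by decide +kernel


theorem qT : sqOK 24 (getN dT) (RingNums.b4.T ^ 2 / 2 ^ 40) = true := by decide +kernel
theorem qK : sqOK 24 (getN dK) (RingNums.b4.K ^ 2 / 2 ^ 40) = true := by decide +kernel
theorem qKK : sqOK 24 (getN dKK) (RingNums.b4.KK ^ 2 / 2 ^ 40) = true := by decide +kernel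
theorem qT3 : sqOK 24 (getN dT3) (RingNums.b4.T3 ^ 2 / 2 ^ 40) = true := by decide +kernel
theorem qT2 : sqOK 24 (getN dT2) (RingNums.b4.T2 ^ 2 / 2 ^ 40) = true := by decide +kernel
theorem qT4 : sqOK 24 (getN dT4) (RingNums.b4.T4 ^ 2 / 2 ^ 40) = true := by decide +kernel
theorem qT5 : sqOK 24 (getN dT5) (RingNums.b4.T5 ^ 2 / 2 ^ 40) = true := by decide +kernel
theorem qT9 : sqOK 24 (getN dT9) (RingNums.b4.T9 ^ 2 / 2 ^ 40) = true := by decide +kernel
theorem qT18 : sqOK 24 (getN dT18) (RingNums.b4.T18 ^ 2 / 2 ^ 40) = true := by decide +kernel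
theorem qT36 : sqOK 24 (getN dT36) (RingNums.b4.T36 ^ 2 / 2 ^ 40) = true := by decide +kernel
theorem qT37 : sqOK 24 (getN dT37) (RingNums.b4.T37 ^ 2 / 2 ^ 40) = true := by decide +kernel
theorem qT38 : sqOK 24 (getN dT38) (RingNums.b4.T38 ^ 2 / 2 ^ 40) = true := by decide +kernel
theorem qT75 : sqOK 24 (getN dT75) (RingNums.b4.T75 ^ 2 / 2 ^ 40) = true := by decide +kernel
theorem qU : sqOK 24 (getN dU) (RingNums.b4.U ^ 2 / 2 ^ 40) = true := by decide +kernel
theorem qG2 : sqOK 24 (getN dG2) (RingNums.b4.G2 ^ 2 / 2 ^ 40) = true := by decide +kernel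
theorem qG4 : sqOK 24 (getN dG4) (RingNums.b4.G4 ^ 2 / 2 ^ 40) = true := by decide +kernel
theorem qG5 : sqOK 24 (getN dG5) (RingNums.b4.G5 ^ 2 / 2 ^ 40) = true := by decide +kernel
theorem qG9 : sqOK 24 (getN dG9) (RingNums.b4.G9 ^ 2 / 2 ^ 40) = true := by decide +kernel
theorem qG18 : sqOK 24 (getN dG18) (RingNums.b4.G18 ^ 2 / 2 ^ 40) = true := by decide +kernel
theorem qW : sqOK 24 (getN dW) (RingNums.b4.W ^ 2 / 2 ^ 40) = true := by decide +kernel
theorem qV : sqOK 24 (getN dV) (RingNums.b4.V ^ 2 / 2 ^ 40) = true := by decide +kernel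

theorem rt40 : traceOK 24 (getN dT36) (getN dT4) (RingNums.t4.t40 + 2 ^ 120).toNat = true := by
  decide +kernel
theorem rk38 : traceOK 24 (getN dK) (getN dT38) (RingNums.t4.k38 + 2 ^ 120).toNat = true := by
  decide +kernel
theorem rkk38 : traceOK 24 (getN dKK) (getN dT38) (RingNums.t4.kk38 + 2 ^ 120).toNat = true := by
  decide +kernel
theorem rt3 : traceOK 24 (getN dT3) (getN dT37) (RingNums.t4.t3 + 2 ^ 120).toNat = true := by
  decide +kernel
theorem rwg : traceOK 24 (getN dW) (getN dG18) (RingNums.t4.wg + 2 ^ 120).toNat = true := by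
  decide +kernel
theorem rvk : traceOK 24 (getN dV) (getN dK) (RingNums.t4.vk + 2 ^ 120).toNat = true := by
  decide +kernel
theorem rt80 : traceOK 24 (getN dT75) (getN dT5) (RingNums.t4.t80 + 2 ^ 120).toNat = true := by
  decide +kernel
theorem rk78 : traceOK 24 (getN dG4) (getN dT75) (RingNums.t4.k78 + 2 ^ 120).toNat = true := by
  decide +kernel

/-- packed matrices of the sector -/
noncomputable def pk : PK := ⟨dT, dK, dKK, dT3, dT2, dT4, dT5, dT9, dT18, dT36, dT37, dT38, dT75, dU, dG2, dG4, dG5, dG9, dG18, dW, dV⟩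

theorem prods : Prods 24 pk := ⟨mT2, mT4, mT5, mT9, mT18, mT36, mT37, mT38, mT75, mU, mG2, mG4, mG5, mG9, mG18, mW, mV⟩

theorem sqs : Sqs 24 pk RingNums.b4 := ⟨qT, qK, qKK, qT3, qT2, qT4, qT5, qT9, qT18, qT36, qT37, qT38, qT75, qU, qG2, qG4, qG5, qG9, qG18, qW, qV⟩

theorem trcs : Trcs 24 pk RingNums.t4 := ⟨rt40, rk38, rkk38, rt3, rwg, rvk, rt80, rk78⟩

theorem trs : trsOK RingNums.t4 = true := by decide +kernel

theorem cert : Cert (sT 4) (sTK 132 (-185) 4) (sTKK 132 (-185) 4) (sT3 132 (-185) 4)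
    (pk.chain (secN 4)) RingNums.b4 RingNums.t4 :=
  cert_mk (n := secN 4) (by decide) (by decide) trs (baseT 4 oT) (baseK 4 oK) (baseKK 4 oKK)
    (baseT3 4 oT3) prods sqs trcs

end Crest.Agent.R347.Sec4
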