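import Crest.Agent.R347.RingSec5
import Crest.Agent.R347.RingSec4
import Crest.Agent.R347.RingSec3
import Crest.Agent.R347.RingSec2
import Crest.Agent.R347.RingSec1
import Crest.Agent.R347.RingSec0

/-! R347: the certified ring matrix product states. -/

set_option autoImplicit false

namespace Crest.Agent.R347

open RingErr

/-- the chains of the six sectors -/
noncomputable def ringChains : ∀ k : Fin 6, Chain (secN k)
  | ⟨0, _⟩ => Sec0.pk.chain (secN 0)
  | ⟨1, _⟩ => Sec1.pk.chain (secN 1)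
  | ⟨2, _⟩ => Sec2.pk.chain (secN 2)
  | ⟨3, _⟩ => Sec3.pk.chain (secN 3)
  | ⟨4, _⟩ => Sec4.pk.chain (secN 4)
  | ⟨5, _⟩ => Sec5.pk.chain (secN 5)

/-- The certified matrix product states on the rings of 40 and 80 sites. -/
theorem ringMPS : RingMPS := by
  refine ringMPS_of_facts ringChains ?_
  intro k
  match k with
  | ⟨0, _⟩ => exact Sec0.cert
  | ⟨1, _⟩ => exact Sec1.cert
  | ⟨2, _⟩ => exact Sec2.cert
  | ⟨3, _⟩ => exact Sec3.cert
  | ⟨4, _⟩ => exact Sec4.cert
  | ⟨5, _⟩ => exact Sec5.cert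

end Crest.Agent.R347
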