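import Crest.Agent.R347.Sectors

/-!
Charge sectors for the ring tensor `rtA` (D = 36) (task N5, part 2).
-/

set_option autoImplicit false

namespace Crest.Agent.R347

open Matrix
open scoped Kronecker

/-- twice the bond charge -/
def rc (i : Fin 36) : ℤ := rtC.getD i.val 0

/-- the ring tensor -/
def rtM (s : Fin 3) : Matrix (Fin 36) (Fin 36) ℤ :=
  Matrix.of fun i j => ((rtA.getD s.val []).getD i.val []).getD j.val 0

theorem rtM_rule : ChargeRule rtM rc := by
  have h : ∀ s : Fin 3, ∀ i j : Fin 36, rtM s i j ≠ 0 → rc j = rc i + 2 - wS s := by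
    decide +kernel
  exact h

theorem rc_mem (i : Fin 36) : rc i ∈ ({5, 3, 1, -1, -3, -5} : Finset ℤ) := by
  revert i
  decide +kernel

/-- sector sizes -/
def secN : Fin 6 → ℕ := ![280, 244, 160, 76, 24, 4]

/-- sector index lists (lexicographic) -/
def secL (k : ℕ) : List (Fin 36 × Fin 36) :=
  ((List.finRange 36) ×ˢ (List.finRange 36)).filter fun p => qC rc p = 2 * (k : ℤ)

/-- block number of a bond index (packed table) -/
def blk36 (j : ℕ) : ℕ := Nat.land (Nat.shiftRight 0x554444443333333333222222222211111100 (4 * j)) 15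

theorem rc_blk (i : Fin 36) : rc i = 5 - 2 * (blk36 i.val : ℤ) := by
  revert i
  decide +kernel

/-- fast form of `secL` -/
def secF (k : ℕ) : List (Fin 36 × Fin 36) :=
  ((List.finRange 36) ×ˢ (List.finRange 36)).filter fun p =>
    Nat.beq (blk36 p.2.val) (Nat.add (blk36 p.1.val) k)

theorem secL_eq (k : ℕ) : secL k = secF k := by
  rw [secL, secF]
  refine List.filter_congr fun p _ => ?_
  have h1 := rc_blk p.1
  have h2 := rc_blk p.2
  rw [qC, h1, h2]
  rw [Bool.eq_iff_iff, decide_eq_true_iff, Nat.beq_eq]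
  show _ ↔ blk36 p.2.val = blk36 p.1.val + k
  omega

theorem secL_length (k : Fin 6) : (secL k.val).length = secN k := by
  rw [secL_eq]
  revert k
  decide +kernel

theorem secL_nodup (k : ℕ) : (secL k).Nodup :=
  ((List.nodup_finRange 36).product (List.nodup_finRange 36)).filter _

theorem mem_secL (k : ℕ) (x : Fin 36 × Fin 36) : x ∈ secL k ↔ qC rc x = 2 * (k : ℤ) := by
  rw [secL, List.mem_filter]
  constructor
  · rintro ⟨-, h⟩
    exact of_decide_eq_true h
  · intro h
    exact ⟨List.mem_product.2 ⟨List.mem_finRange _, List.mem_finRange _⟩, decide_eq_true h⟩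

/-- sector embedding -/
def secE (k : Fin 6) (a : Fin (secN k)) : Fin 36 × Fin 36 :=
  (secL k.val).get (Fin.cast (secL_length k).symm a)

theorem secE_injective (k : Fin 6) : Function.Injective (secE k) := by
  intro a b h
  have := (List.nodup_iff_injective_get.1 (secL_nodup k.val)) h
  exact Fin.cast_injective _ this

theorem secE_range (k : Fin 6) (x : Fin 36 × Fin 36) :
    qC rc x = 2 * (k.val : ℤ) ↔ ∃ a, secE k a = x := by
  rw [← mem_secL, List.mem_iff_get]
  constructor
  · rintro ⟨n, hn⟩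
    exact ⟨Fin.cast (secL_length k) n, hn⟩
  · rintro ⟨a, ha⟩
    exact ⟨_, ha⟩

/-- restriction to a sector -/
def secR (k : Fin 6) (X : Matrix (Fin 36 × Fin 36) (Fin 36 × Fin 36) ℤ) :
    Matrix (Fin (secN k)) (Fin (secN k)) ℤ := X.submatrix (secE k) (secE k)

theorem secR_mul (k : Fin 6) {X Y : Matrix (Fin 36 × Fin 36) (Fin 36 × Fin 36) ℤ}
    (hX : ShiftBy (qC rc) 0 X) : secR k (X * Y) = secR k X * secR k Y :=
  hX.submatrix_mul (secE k) (secE_injective k) _ (secE_range k)

theorem secR_pow (k : Fin 6) {X : Matrix (Fin 36 × Fin 36) (Fin 36 × Fin 36) ℤ}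
    (hX : ShiftBy (qC rc) 0 X) (n : ℕ) : secR k (X ^ n) = secR k X ^ n := by
  induction n with
  | zero =>
    rw [pow_zero, pow_zero]
    exact Matrix.submatrix_one _ (secE_injective k)
  | succ n ih => rw [pow_succ, pow_succ, secR_mul k (hX.pow n), ih]

theorem sum_sector (k : Fin 6) (f : Fin 36 × Fin 36 → ℤ) :
    ∑ x ∈ Finset.univ.filter (fun x => qC rc x = 2 * (k.val : ℤ)), f x = ∑ a, f (secE k a) := by
  rw [← Finset.sum_image (f := f) (s := Finset.univ) (g := secE k)
    (fun x _ y _ h => secE_injective k h)]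
  refine Finset.sum_congr ?_ fun _ _ => rfl
  ext x
  rw [Finset.mem_filter, Finset.mem_image, secE_range]
  simp

theorem sum_swap (f : Fin 36 × Fin 36 → ℤ) (hf : ∀ x, f x.swap = f x) (v : ℤ) :
    ∑ x ∈ Finset.univ.filter (fun x => qC rc x = -v), f x =
      ∑ x ∈ Finset.univ.filter (fun x => qC rc x = v), f x := by
  refine Finset.sum_bij' (fun x _ => x.swap) (fun x _ => x.swap) ?_ ?_ ?_ ?_ ?_
  · intro x hx
    rw [Finset.mem_filter] at hx ⊢
    refine ⟨Finset.mem_univ _, ?_⟩
    have := hx.2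
    simp only [qC, Prod.fst_swap, Prod.snd_swap] at this ⊢
    linarith
  · intro x hx
    rw [Finset.mem_filter] at hx ⊢
    refine ⟨Finset.mem_univ _, ?_⟩
    have := hx.2
    simp only [qC, Prod.fst_swap, Prod.snd_swap] at this ⊢
    linarith
  · intro x _; exact Prod.swap_swap x
  · intro x _; exact Prod.swap_swap x
  · intro x _; exact (hf x).symm

/-- multiplicity of a sector -/
def secW (k : Fin 6) : ℤ := if k = 0 then 1 else 2

/-- The trace as a sum over the nonnegative charge sectors. -/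
theorem trace_sectors {X : Matrix (Fin 36 × Fin 36) (Fin 36 × Fin 36) ℤ} (hX : SwapInv X) :
    X.trace = ∑ k : Fin 6, secW k * (secR k X).trace := by
  have h1 : ∀ x ∈ (Finset.univ : Finset (Fin 36 × Fin 36)),
      qC rc x ∈ ({0, 2, 4, 6, 8, 10, -2, -4, -6, -8, -10} : Finset ℤ) := by
    intro x _
    have h1 := rc_mem x.1
    have h2 := rc_mem x.2
    simp only [Finset.mem_insert, Finset.mem_singleton, qC] at h1 h2 ⊢
    rcases h1 with h | h | h | h | h | h <;> rcases h2 with g | g | g | g | g | g <;>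
      rw [h, g] <;> norm_num
  have h2 : X.trace = ∑ v ∈ ({0, 2, 4, 6, 8, 10, -2, -4, -6, -8, -10} : Finset ℤ),
      ∑ x ∈ Finset.univ.filter (fun x => qC rc x = v), X x x := by
    rw [Finset.sum_fiberwise_of_maps_to h1 (fun x => X x x)]
    rfl
  have hf : ∀ x, X x.swap x.swap = X x x := fun x => hX.apply x x
  have hneg := sum_swap (fun x => X x x) hf
  have hsec := fun k : Fin 6 => sum_sector k (fun x => X x x)
  have htr : ∀ k : Fin 6, (secR k X).trace = ∑ a, X (secE k a) (secE k a) := fun k => rfl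
  rw [h2]
  rw [Finset.sum_insert (by decide), Finset.sum_insert (by decide), Finset.sum_insert (by decide),
    Finset.sum_insert (by decide), Finset.sum_insert (by decide), Finset.sum_insert (by decide),
    Finset.sum_insert (by decide), Finset.sum_insert (by decide), Finset.sum_insert (by decide),
    Finset.sum_insert (by decide), Finset.sum_singleton]
  rw [hneg 2, hneg 4, hneg 6, hneg 8, hneg 10]
  have e0 := hsec 0
  have e1 := hsec 1
  have e2 := hsec 2
  have e3 := hsec 3
  have e4 := hsec 4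
  have e5 := hsec 5
  rw [← htr] at e0 e1 e2 e3 e4 e5
  norm_num at e0 e1 e2 e3 e4 e5
  rw [e0, e1, e2, e3, e4, e5]
  simp only [Fin.sum_univ_succ, Fin.sum_univ_zero]
  simp [secW]
  ring

/-- `T` in a sector -/
def sT (k : Fin 6) : Matrix (Fin (secN k)) (Fin (secN k)) ℤ := secR k (Eop rtM 1)
/-- `TK` in a sector -/
def sTK (Q P : ℤ) (k : Fin 6) : Matrix (Fin (secN k)) (Fin (secN k)) ℤ :=
  secR k (TK rtM (uK Q P) vK)
/-- `TKK` in a sector -/
def sTKK (Q P : ℤ) (k : Fin 6) : Matrix (Fin (secN k)) (Fin (secN k)) ℤ :=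
  secR k (TKK rtM (uK Q P) vK)
/-- `T3` in a sector -/
def sT3 (Q P : ℤ) (k : Fin 6) : Matrix (Fin (secN k)) (Fin (secN k)) ℤ :=
  secR k (T3 rtM (uK Q P) vK)

theorem ringN0_sectors (n : ℕ) :
    ringN0 rtM n = ∑ k : Fin 6, secW k * (sT k ^ (n + 4)).trace := by
  rw [ringN0, trace_sectors (T_swap.pow _)]
  refine Finset.sum_congr rfl fun k _ => ?_
  rw [secR_pow k (T_shift rtM_rule), sT]

theorem ringN1_sectors (Q P : ℤ) (n : ℕ) :
    ringN1 rtM Q P n =
      ((n + 4 : ℕ) : ℤ) * ∑ k : Fin 6, secW k * (sTK Q P k * sT k ^ (n + 2)).trace := by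
  rw [ringN1, trace_sectors ((TK_swap Q P).mul (T_swap.pow _))]
  refine congrArg (fun z => ((n + 4 : ℕ) : ℤ) * z) (Finset.sum_congr rfl fun k _ => ?_)
  rw [secR_mul k (TK_shift rtM_rule Q P), secR_pow k (T_shift rtM_rule), sT, sTK]

theorem ringN2_sectors (Q P : ℤ) (n : ℕ) :
    ringN2 rtM Q P n =
      ((n + 4 : ℕ) : ℤ) * ∑ k : Fin 6, secW k *
        ((sTKK Q P k * sT k ^ (n + 2)).trace + (sT3 Q P k * sT k ^ (n + 1)).trace +
          ∑ d ∈ Finset.range (n + 1),
            (sTK Q P k * sT k ^ d * sTK Q P k * sT k ^ (n - d)).trace) := by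
  have hT := T_shift rtM_rule
  have hTK := TK_shift rtM_rule Q P
  rw [ringN2, trace_sectors ((TKK_swap Q P).mul (T_swap.pow _)),
    trace_sectors ((T3_swap Q P).mul (T_swap.pow _))]
  refine congrArg (fun z => ((n + 4 : ℕ) : ℤ) * z) ?_
  have h3 : ∀ d ∈ Finset.range (n + 1),
      (TK rtM (uK Q P) vK * Eop rtM 1 ^ d * TK rtM (uK Q P) vK * Eop rtM 1 ^ (n - d)).trace =
      ∑ k : Fin 6, secW k * (sTK Q P k * sT k ^ d * sTK Q P k * sT k ^ (n - d)).trace := by
    intro d _
    rw [trace_sectors ((((TK_swap Q P).mul (T_swap.pow _)).mul (TK_swap Q P)).mul (T_swap.pow _))]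
    refine Finset.sum_congr rfl fun k _ => ?_
    rw [secR_mul k ((hTK.mul0 (hT.pow d)).mul0 hTK), secR_mul k (hTK.mul0 (hT.pow d)),
      secR_mul k hTK, secR_pow k hT, secR_pow k hT]
    rfl
  rw [Finset.sum_congr rfl h3, Finset.sum_comm, ← Finset.sum_add_distrib,
    ← Finset.sum_add_distrib]
  refine Finset.sum_congr rfl fun k _ => ?_
  rw [secR_mul k (TKK_shift rtM_rule Q P), secR_mul k (T3_shift rtM_rule Q P), secR_pow k hT,
    secR_pow k hT, ← Finset.mul_sum]
  unfold sT sTK sTKK sT3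
  ring

end Crest.Agent.R347
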