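import Crest.Agent.R347.RingChain
import Crest.Agent.R347.SectorsRing
import Crest.Agent.R347.Data

/-!
R347, task N4 (part 3): from the kernel facts of the six charge sectors to `RingMPS`.
-/

set_option autoImplicit false

namespace Crest.Agent.R347

open Matrix RingErr Crest.MathPhysics.SpinChain

namespace RingErr

section scl
variable {n : ℕ}

theorem scl_mul (s t : ℕ) (A B : Matrix (Fin n) (Fin n) ℤ) :
    scl s A * scl t B = scl (s + t) (A * B) := by
  ext i j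
  rw [Matrix.mul_apply]
  show ∑ k, (A i k : ℝ) / 2 ^ s * ((B k j : ℝ) / 2 ^ t) = (((A * B) i j : ℤ) : ℝ) / 2 ^ (s + t)
  rw [Matrix.mul_apply]
  push_cast
  rw [Finset.sum_div]
  refine Finset.sum_congr rfl fun k _ => ?_
  rw [pow_add]
  field_simp

theorem scl_one : scl 0 (1 : Matrix (Fin n) (Fin n) ℤ) = 1 := by
  ext i j
  show (((1 : Matrix (Fin n) (Fin n) ℤ) i j : ℤ) : ℝ) / 2 ^ 0 = _
  by_cases h : i = j
  · subst h; simp
  · simp [h]

theorem scl_pow (s : ℕ) (A : Matrix (Fin n) (Fin n) ℤ) (m : ℕ) :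
    scl s A ^ m = scl (s * m) (A ^ m) := by
  induction m with
  | zero => rw [pow_zero, pow_zero, mul_zero, scl_one]
  | succ m ih => rw [pow_succ, ih, scl_mul, pow_succ, mul_add, mul_one]

theorem trace_scl (s : ℕ) (A : Matrix (Fin n) (Fin n) ℤ) :
    (scl s A).trace = (A.trace : ℝ) / 2 ^ s := by
  simp only [Matrix.trace, Matrix.diag_apply]
  push_cast
  rw [Finset.sum_div]
  rfl

end scl

/-- `x` lies within `d` (units `2^-88`) of `s` (units `2^-88`). -/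
def Itv (x : ℝ) (s : ℤ) (d : ℤ) : Prop := |x * 2 ^ 88 - (s : ℝ)| ≤ (d : ℝ)

theorem Itv.of {x : ℝ} {s : ℤ} {d : ℕ} (h : |x - (s : ℝ) / 2 ^ 88| ≤ (d : ℝ) / 2 ^ 64) :
    Itv x s ((d : ℤ) * 2 ^ 24) := by
  unfold Itv
  have h1 : x * 2 ^ 88 - s = (x - (s : ℝ) / 2 ^ 88) * 2 ^ 88 := by ring
  rw [h1, abs_mul, abs_of_pos (show (0 : ℝ) < 2 ^ 88 by positivity)]
  calc |x - (s : ℝ) / 2 ^ 88| * 2 ^ 88 ≤ (d : ℝ) / 2 ^ 64 * 2 ^ 88 := by gcongr
    _ = _ := by push_cast; ring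

theorem Itv.add {x y : ℝ} {s t c d : ℤ} (h : Itv x s c) (h' : Itv y t d) :
    Itv (x + y) (s + t) (c + d) := by
  unfold Itv at *
  have : (x + y) * 2 ^ 88 - ((s + t : ℤ) : ℝ) = (x * 2 ^ 88 - s) + (y * 2 ^ 88 - t) := by
    push_cast; ring
  rw [this]
  push_cast
  exact (abs_add_le _ _).trans (add_le_add h h')

theorem Itv.smul {x : ℝ} {s d : ℤ} (h : Itv x s d) {w : ℤ} (hw : 0 ≤ w) :
    Itv (w * x) (w * s) (w * d) := by
  unfold Itv at *
  have : (w * x) * 2 ^ 88 - ((w * s : ℤ) : ℝ) = w * (x * 2 ^ 88 - s) := by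
    push_cast; ring
  have hw' : (0 : ℝ) ≤ w := by exact_mod_cast hw
  rw [this, abs_mul, abs_of_nonneg hw']
  push_cast
  gcongr

theorem Itv.zero : Itv 0 0 0 := by simp [Itv]

theorem Itv.sum {ι : Type*} (S : Finset ι) {x : ι → ℝ} {s d : ι → ℤ} {w : ι → ℤ}
    (h : ∀ k ∈ S, Itv (x k) (s k) (d k)) (hw : ∀ k ∈ S, 0 ≤ w k) :
    Itv (∑ k ∈ S, w k * x k) (∑ k ∈ S, w k * s k) (∑ k ∈ S, w k * d k) := by
  classical
  induction S using Finset.induction_on with
  | empty => simp [Itv]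
  | insert a S ha ih =>
    rw [Finset.sum_insert ha, Finset.sum_insert ha, Finset.sum_insert ha]
    exact ((h a (Finset.mem_insert_self _ _)).smul (hw a (Finset.mem_insert_self _ _))).add
      (ih (fun k hk => h k (Finset.mem_insert_of_mem hk))
        (fun k hk => hw k (Finset.mem_insert_of_mem hk)))

/-- combined traces of a sector -/
def Trs.s2 (t : Trs) : ℤ := t.kk38 + t.t3 + (t.wg + t.vk)

/-- error bounds (units `2^-88`) -/
def dd0 (b e : Nrms) : ℤ := (eP b.T36 e.T36 b.T4 e.T4 : ℕ) * 2 ^ 24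
def dd1 (b e : Nrms) : ℤ := (eP b.K e.K b.T38 e.T38 : ℕ) * 2 ^ 24
def dd2 (b e : Nrms) : ℤ := (eP b.KK e.KK b.T38 e.T38 : ℕ) * 2 ^ 24 +
  (eP b.T3 e.T3 b.T37 e.T37 : ℕ) * 2 ^ 24 + ((eP b.W e.W b.G18 e.G18 : ℕ) * 2 ^ 24 +
  (eP b.V e.V b.K e.K : ℕ) * 2 ^ 24)
def dd3 (b e : Nrms) : ℤ := (eP b.T75 e.T75 b.T5 e.T5 : ℕ) * 2 ^ 24
def dd4 (b e : Nrms) : ℤ := (eP b.G4 e.G4 b.T75 e.T75 : ℕ) * 2 ^ 24

theorem Cert.out {n : ℕ} {sT sK sKK sT3 : Matrix (Fin n) (Fin n) ℤ} {X : Chain n} {b e : Nrms}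
    {t : Trs} (h : Cert sT sK sKK sT3 X b t) (hc : chkErr n b e = true) :
    Itv (((sT ^ 40).trace : ℤ) / 2 ^ 1120) t.t40 (dd0 b e) ∧
    Itv (((sK * sT ^ 38).trace : ℤ) / 2 ^ 1127) t.k38 (dd1 b e) ∧
    Itv ((((sKK * sT ^ 38).trace + (sT3 * sT ^ 37).trace +
      ∑ d ∈ Finset.range 37, (sK * sT ^ d * sK * sT ^ (36 - d)).trace : ℤ) : ℝ) / 2 ^ 1134)
      t.s2 (dd2 b e) ∧
    Itv (((sT ^ 80).trace : ℤ) / 2 ^ 2240) t.t80 (dd3 b e) ∧
    Itv (4 * (((sK * sT ^ 78).trace : ℤ) / 2 ^ 2247)) t.k78 (dd4 b e) := by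
  obtain ⟨aT36, aT4, aK, aT38, aKK, aT3, aT37, aW, aG18, aV, aT75, aT5, aG4⟩ :=
    h.aps hc rfl rfl rfl rfl
  refine ⟨?_, ?_, ?_, ?_, ?_⟩
  · have := Itv.of (aT36.trace aT4 h.t40)
    rw [← pow_add, scl_pow, trace_scl] at this
    exact this
  · have := Itv.of (aK.trace aT38 h.k38)
    rw [scl_pow, scl_mul, trace_scl] at this
    exact this
  · have h1 := Itv.of (aKK.trace aT38 h.kk38)
    have h2 := Itv.of (aT3.trace aT37 h.t3)
    have h3 := Itv.of (aW.trace aG18 h.wg)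
    have h4 := Itv.of (aV.trace aK h.vk)
    have h5 := h3.add h4
    rw [← trace_GG] at h5
    have h6 : ∑ d ∈ Finset.range 37, (scl 63 sK * scl 28 sT ^ d * scl 63 sK *
        scl 28 sT ^ (36 - d)).trace =
        ((∑ d ∈ Finset.range 37, (sK * sT ^ d * sK * sT ^ (36 - d)).trace : ℤ) : ℝ) / 2 ^ 1134 := by
      push_cast
      rw [Finset.sum_div]
      refine Finset.sum_congr rfl fun d hd => ?_
      have hd' := Finset.mem_range.mp hd
      rw [scl_pow, scl_pow, scl_mul, scl_mul, scl_mul, trace_scl]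
      congr 2
      omega
    rw [h6] at h5
    rw [scl_pow, scl_mul, trace_scl] at h1 h2
    have h7 := (h1.add h2).add h5
    have h8 : ((sKK * sT ^ 38).trace : ℝ) / 2 ^ (70 + 28 * 38) +
        ((sT3 * sT ^ 37).trace : ℝ) / 2 ^ (98 + 28 * 37) +
        ((∑ d ∈ Finset.range 37, (sK * sT ^ d * sK * sT ^ (36 - d)).trace : ℤ) : ℝ) / 2 ^ 1134 =
        (((sKK * sT ^ 38).trace + (sT3 * sT ^ 37).trace +
          ∑ d ∈ Finset.range 37, (sK * sT ^ d * sK * sT ^ (36 - d)).trace : ℤ) : ℝ) / 2 ^ 1134 := by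
      rw [show 70 + 28 * 38 = 1134 by norm_num, ← add_div, ← add_div]
      congr 1
      push_cast
      ring
    rw [h8] at h7
    exact h7
  · have := Itv.of (aT75.trace aT5 h.t80)
    rw [← pow_add, scl_pow, trace_scl] at this
    exact this
  · have := Itv.of (aG4.trace aT75 h.k78)
    rw [trace_GG_pow _ _ _ _ (by norm_num), scl_pow, scl_mul, trace_scl] at this
    exact this

/-- a number known up to an error: value and error in units `2^-88` -/
def sumW (f : Fin 6 → ℤ) : ℤ := ∑ k, secW k * f k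

theorem secW_nonneg (k : Fin 6) : 0 ≤ secW k := by
  unfold secW
  split_ifs <;> norm_num

/-- The final numeric inequalities between the certified traces. -/
structure FinOK (b e : Fin 6 → Nrms) (t : Fin 6 → Trs) : Prop where
  c0 : 0 < sumW (fun k => (t k).t40) - sumW (fun k => dd0 (b k) (e k))
  c1 : 12884 * (sumW (fun k => (t k).t40) + sumW (fun k => dd0 (b k) (e k))) ≤
    512000000 * (sumW (fun k => (t k).k38) - sumW (fun k => dd1 (b k) (e k)))
  c2 : 512000000 * (sumW (fun k => (t k).k38) + sumW (fun k => dd1 (b k) (e k))) ≤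
    13280 * (sumW (fun k => (t k).t40) - sumW (fun k => dd0 (b k) (e k)))
  c3 : 65536000000 * (sumW (fun k => (t k).s2) + sumW (fun k => dd2 (b k) (e k))) ≤
    104544 * (sumW (fun k => (t k).t40) - sumW (fun k => dd0 (b k) (e k)))
  c4 : 0 < sumW (fun k => (t k).t80) - sumW (fun k => dd3 (b k) (e k))
  c5 : 256000000 * (sumW (fun k => (t k).k78) + sumW (fun k => dd4 (b k) (e k))) ≤
    33292 * (sumW (fun k => (t k).t80) - sumW (fun k => dd3 (b k) (e k)))

end RingErr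

open RingErr

/-- From the kernel facts of the six sectors to the certified ring MPS. -/
theorem ringMPS_of_certs (X : ∀ k : Fin 6, Chain (secN k)) (b e : Fin 6 → Nrms)
    (t : Fin 6 → Trs)
    (h : ∀ k, Cert (sT k) (sTK 132 (-185) k) (sTKK 132 (-185) k) (sT3 132 (-185) k) (X k) (b k) (t k))
    (hc : ∀ k, chkErr (secN k) (b k) (e k) = true) (hf : FinOK b e t) : RingMPS := by
  have ho := fun k => (h k).out (hc k)
  obtain ⟨c0, c1, c2, c3, c4, c5⟩ := hf
  have e0' : ((ringN0 rtM 36 : ℤ) : ℝ) = 2 ^ 1120 *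
      ∑ k : Fin 6, (secW k : ℝ) * (((sT k ^ 40).trace : ℤ) / 2 ^ 1120 : ℝ) := by
    rw [ringN0_sectors]
    push_cast
    rw [Finset.mul_sum]
    refine Finset.sum_congr rfl fun k _ => ?_
    field_simp
  have e1' : ((ringN1 rtM 132 (-185) 36 : ℤ) : ℝ) = 2 ^ 1120 * (5120 *
      ∑ k : Fin 6, (secW k : ℝ) *
        (((sTK 132 (-185) k * sT k ^ 38).trace : ℤ) / 2 ^ 1127 : ℝ)) := by
    rw [ringN1_sectors]
    push_cast
    rw [Finset.mul_sum, Finset.mul_sum, Finset.mul_sum]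
    refine Finset.sum_congr rfl fun k _ => ?_
    rw [show 1127 = 1120 + 7 by norm_num, pow_add]
    field_simp
    norm_num
    ring
  have e2' : ((ringN2 rtM 132 (-185) 36 : ℤ) : ℝ) = 2 ^ 1120 * (655360 *
      ∑ k : Fin 6, (secW k : ℝ) *
        (((((sTKK 132 (-185) k) * sT k ^ 38).trace + ((sT3 132 (-185) k) * sT k ^ 37).trace +
          ∑ d ∈ Finset.range 37, ((sTK 132 (-185) k) * sT k ^ d * (sTK 132 (-185) k) *
            sT k ^ (36 - d)).trace : ℤ) : ℝ) / 2 ^ 1134)) := by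
    rw [ringN2_sectors]
    rw [show 36 + 2 = 38 by norm_num, show 36 + 1 = 37 by norm_num]
    simp only [Int.cast_mul, Int.cast_sum]
    rw [Finset.mul_sum, Finset.mul_sum, Finset.mul_sum]
    refine Finset.sum_congr rfl fun k _ => ?_
    rw [show 1134 = 1120 + 14 by norm_num, pow_add]
    field_simp
    push_cast
    norm_num
    ring
  have e3' : ((ringN0 rtM 76 : ℤ) : ℝ) = 2 ^ 2240 *
      ∑ k : Fin 6, (secW k : ℝ) * (((sT k ^ 80).trace : ℤ) / 2 ^ 2240 : ℝ) := by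
    rw [ringN0_sectors]
    push_cast
    rw [Finset.mul_sum]
    refine Finset.sum_congr rfl fun k _ => ?_
    field_simp
  have e4' : ((ringN1 rtM 132 (-185) 76 : ℤ) : ℝ) = 2 ^ 2240 * (2560 *
      ∑ k : Fin 6, (secW k : ℝ) *
        (4 * (((sTK 132 (-185) k * sT k ^ 78).trace : ℤ) / 2 ^ 2247 : ℝ))) := by
    rw [ringN1_sectors]
    push_cast
    rw [Finset.mul_sum, Finset.mul_sum, Finset.mul_sum]
    refine Finset.sum_congr rfl fun k _ => ?_
    rw [show 2247 = 2240 + 7 by norm_num, pow_add]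
    field_simp
    norm_num
    ring
  have i0 : Itv _ (sumW fun k => (t k).t40) (sumW fun k => dd0 (b k) (e k)) :=
    Itv.sum Finset.univ (fun k _ => (ho k).1) (fun k _ => secW_nonneg k)
  have i1 : Itv _ (sumW fun k => (t k).k38) (sumW fun k => dd1 (b k) (e k)) :=
    Itv.sum Finset.univ (fun k _ => (ho k).2.1) (fun k _ => secW_nonneg k)
  have i2 : Itv _ (sumW fun k => (t k).s2) (sumW fun k => dd2 (b k) (e k)) :=
    Itv.sum Finset.univ (fun k _ => (ho k).2.2.1) (fun k _ => secW_nonneg k)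
  have i3 : Itv _ (sumW fun k => (t k).t80) (sumW fun k => dd3 (b k) (e k)) :=
    Itv.sum Finset.univ (fun k _ => (ho k).2.2.2.1) (fun k _ => secW_nonneg k)
  have i4 : Itv _ (sumW fun k => (t k).k78) (sumW fun k => dd4 (b k) (e k)) :=
    Itv.sum Finset.univ (fun k _ => (ho k).2.2.2.2) (fun k _ => secW_nonneg k)
  clear ho h hc
  set S0 := ∑ k : Fin 6, (secW k : ℝ) * (((sT k ^ 40).trace : ℤ) / 2 ^ 1120 : ℝ)
  set S1 := ∑ k : Fin 6, (secW k : ℝ) * (((sTK 132 (-185) k * sT k ^ 38).trace : ℤ) / 2 ^ 1127 : ℝ)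
  set S2 := ∑ k : Fin 6, (secW k : ℝ) *
        (((((sTKK 132 (-185) k) * sT k ^ 38).trace + ((sT3 132 (-185) k) * sT k ^ 37).trace +
          ∑ d ∈ Finset.range 37, ((sTK 132 (-185) k) * sT k ^ d * (sTK 132 (-185) k) *
            sT k ^ (36 - d)).trace : ℤ) : ℝ) / 2 ^ 1134)
  set S3 := ∑ k : Fin 6, (secW k : ℝ) * (((sT k ^ 80).trace : ℤ) / 2 ^ 2240 : ℝ)
  set S4 := ∑ k : Fin 6, (secW k : ℝ) *
        (4 * (((sTK 132 (-185) k * sT k ^ 78).trace : ℤ) / 2 ^ 2247 : ℝ))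
  set s0 := sumW fun k => (t k).t40
  set s1 := sumW fun k => (t k).k38
  set s2 := sumW fun k => (t k).s2
  set s3 := sumW fun k => (t k).t80
  set s4 := sumW fun k => (t k).k78
  set d0 := sumW fun k => dd0 (b k) (e k)
  set d1 := sumW fun k => dd1 (b k) (e k)
  set d2 := sumW fun k => dd2 (b k) (e k)
  set d3 := sumW fun k => dd3 (b k) (e k)
  set d4 := sumW fun k => dd4 (b k) (e k)
  unfold Itv at i0 i1 i2 i3 i4
  rw [abs_le] at i0 i1 i2 i3 i4
  obtain ⟨i0l, i0u⟩ := i0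
  obtain ⟨i1l, i1u⟩ := i1
  obtain ⟨i2l, i2u⟩ := i2
  obtain ⟨i3l, i3u⟩ := i3
  obtain ⟨i4l, i4u⟩ := i4
  have r0 : (0 : ℝ) < s0 - d0 := by exact_mod_cast c0
  have r1 : (12884 : ℝ) * (s0 + d0) ≤ 512000000 * (s1 - d1) := by exact_mod_cast c1
  have r2 : (512000000 : ℝ) * (s1 + d1) ≤ 13280 * (s0 - d0) := by exact_mod_cast c2
  have r3 : (65536000000 : ℝ) * (s2 + d2) ≤ 104544 * (s0 - d0) := by exact_mod_cast c3
  have r4 : (0 : ℝ) < s3 - d3 := by exact_mod_cast c4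
  have r5 : (256000000 : ℝ) * (s4 + d4) ≤ 33292 * (s3 - d3) := by exact_mod_cast c5
  have p0 : 0 < S0 := by linarith
  have p3 : 0 < S3 := by linarith
  have q1 : (12884 / 100000 : ℝ) * S0 ≤ 5120 * S1 := by linarith
  have q2 : 5120 * S1 ≤ (1328 / 10000 : ℝ) * S0 := by linarith
  have q3 : 655360 * S2 ≤ (104544 / 100000 : ℝ) * S0 := by linarith
  have q5 : 2560 * S4 ≤ (33292 / 100000 : ℝ) * S3 := by linarith
  have hP : (0 : ℝ) < 2 ^ 1120 := by positivity
  have hP' : (0 : ℝ) < 2 ^ 2240 := by positivity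
  refine ⟨?_, ?_⟩
  · have n0 : 0 < ringN0 rtM 36 := by
      have : (0 : ℝ) < (ringN0 rtM 36 : ℝ) := by rw [e0']; exact mul_pos hP p0
      exact_mod_cast this
    obtain ⟨ψ, E, hψ, hlo, hhi, hE, hv⟩ := ring_mps_hyps rtM (Q := 132) (P := -185) (by norm_num) 36
      (lo := 12884 / 100000) (hi := 1328 / 10000) (w := 104544 / 100000) n0
      (by
        rw [e0', e1', mul_left_comm]
        exact mul_le_mul_of_nonneg_left q1 hP.le)
      (by
        rw [e0', e1', mul_left_comm (1328 / 10000 : ℝ)]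
        exact mul_le_mul_of_nonneg_left q2 hP.le)
      (by
        rw [e0', e2', mul_left_comm (104544 / 100000 : ℝ)]
        exact mul_le_mul_of_nonneg_left q3 hP.le)
    refine ⟨ψ, E, 6 / 100000, hψ, hE, ?_, ?_, ?_, le_refl _⟩
    · have : (6 / 100000 : ℝ) = 104544 / 100000 / ((132 : ℤ) : ℝ) ^ 2 := by norm_num
      rw [this]
      exact hv
    · refine le_trans ?_ hlo
      rw [e0]
      norm_num
    · refine le_trans hhi ?_
      rw [e0]
      norm_num
  · have n0 : 0 < ringN0 rtM 76 := by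
      have : (0 : ℝ) < (ringN0 rtM 76 : ℝ) := by rw [e3']; exact mul_pos hP' p3
      exact_mod_cast this
    obtain ⟨ψ, hψ, hE⟩ := ring_mps_var rtM (Q := 132) (P := -185) (by norm_num) 76
      (hi := 33292 / 100000) n0
      (by
        rw [e3', e4', mul_left_comm (33292 / 100000 : ℝ)]
        exact mul_le_mul_of_nonneg_left q5 hP'.le)
    refine ⟨ψ, hψ, ?_⟩
    have : (80 * Crest.Agent.R347.e0 + 3 / 100000 : ℝ) =
        (((76 + 4 : ℕ) : ℝ) * ((-185 : ℤ) : ℝ) + 33292 / 100000) / ((132 : ℤ) : ℝ) := by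
      rw [Crest.Agent.R347.e0]
      norm_num
    rw [this]
    exact hE

end Crest.Agent.R347
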