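import Crest.Agent.R347.RingChain
import Crest.Agent.R347.PackedOps
import Crest.Agent.R347.PackedEval

/-!
R347: from the kernel checks of the packed engine to `Cert` (one charge sector).
-/

set_option autoImplicit false

namespace Crest.Agent.R347.RingErr

open Matrix Packed

/-- packed matrices of the chain -/
structure PK where
  T : List ℕ
  K : List ℕ
  KK : List ℕ
  T3 : List ℕ
  T2 : List ℕ
  T4 : List ℕ
  T5 : List ℕ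
  T9 : List ℕ
  T18 : List ℕ
  T36 : List ℕ
  T37 : List ℕ
  T38 : List ℕ
  T75 : List ℕ
  U : List ℕ
  G2 : List ℕ
  G4 : List ℕ
  G5 : List ℕ
  G9 : List ℕ
  G18 : List ℕ
  W : List ℕ
  V : List ℕ

/-- the decoded chain -/
noncomputable def PK.chain (n : ℕ) (p : PK) : Chain n :=
  ⟨mat n (getN p.T), mat n (getN p.K), mat n (getN p.KK), mat n (getN p.T3), mat n (getN p.T2), mat n (getN p.T4), mat n (getN p.T5), mat n (getN p.T9), mat n (getN p.T18), mat n (getN p.T36), mat n (getN p.T37), mat n (getN p.T38), mat n (getN p.T75), mat n (getN p.U), mat n (getN p.G2), mat n (getN p.G4), mat n (getN p.G5), mat n (getN p.G9), mat n (getN p.G18), mat n (getN p.W), mat n (getN p.V)⟩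

/-- kernel checks: the products -/
structure Prods (n : ℕ) (p : PK) : Prop where
  T2 : mulOK n (getN p.T) (getN p.T) (getN p.T2) = true
  T4 : mulOK n (getN p.T2) (getN p.T2) (getN p.T4) = true
  T5 : mulOK n (getN p.T4) (getN p.T) (getN p.T5) = true
  T9 : mulOK n (getN p.T5) (getN p.T4) (getN p.T9) = true
  T18 : mulOK n (getN p.T9) (getN p.T9) (getN p.T18) = true
  T36 : mulOK n (getN p.T18) (getN p.T18) (getN p.T36) = true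
  T37 : mulOK n (getN p.T36) (getN p.T) (getN p.T37) = true
  T38 : mulOK n (getN p.T36) (getN p.T2) (getN p.T38) = true
  T75 : mulOK n (getN p.T37) (getN p.T38) (getN p.T75) = true
  U : mulOK n (getN p.T) (getN p.K) (getN p.U) = true
  G2 : mul2OK n (getN p.K) (getN p.T) (getN p.T) (getN p.K) (getN p.G2) = true
  G4 : mul2OK n (getN p.G2) (getN p.T2) (getN p.T2) (getN p.G2) (getN p.G4) = true
  G5 : mul2OK n (getN p.G4) (getN p.T) (getN p.T4) (getN p.K) (getN p.G5) = true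
  G9 : mul2OK n (getN p.G5) (getN p.T4) (getN p.T5) (getN p.G4) (getN p.G9) = true
  G18 : mul2OK n (getN p.G9) (getN p.T9) (getN p.T9) (getN p.G9) (getN p.G18) = true
  W : mul2OK n (getN p.T18) (getN p.U) (getN p.U) (getN p.T18) (getN p.W) = true
  V : mulOK n (getN p.K) (getN p.T36) (getN p.V) = true

/-- kernel checks: the norms -/
structure Sqs (n : ℕ) (p : PK) (b : Nrms) : Prop where
  T : sqOK n (getN p.T) (b.T ^ 2 / 2 ^ 40) = true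
  K : sqOK n (getN p.K) (b.K ^ 2 / 2 ^ 40) = true
  KK : sqOK n (getN p.KK) (b.KK ^ 2 / 2 ^ 40) = true
  T3 : sqOK n (getN p.T3) (b.T3 ^ 2 / 2 ^ 40) = true
  T2 : sqOK n (getN p.T2) (b.T2 ^ 2 / 2 ^ 40) = true
  T4 : sqOK n (getN p.T4) (b.T4 ^ 2 / 2 ^ 40) = true
  T5 : sqOK n (getN p.T5) (b.T5 ^ 2 / 2 ^ 40) = true
  T9 : sqOK n (getN p.T9) (b.T9 ^ 2 / 2 ^ 40) = true
  T18 : sqOK n (getN p.T18) (b.T18 ^ 2 / 2 ^ 40) = true
  T36 : sqOK n (getN p.T36) (b.T36 ^ 2 / 2 ^ 40) = true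
  T37 : sqOK n (getN p.T37) (b.T37 ^ 2 / 2 ^ 40) = true
  T38 : sqOK n (getN p.T38) (b.T38 ^ 2 / 2 ^ 40) = true
  T75 : sqOK n (getN p.T75) (b.T75 ^ 2 / 2 ^ 40) = true
  U : sqOK n (getN p.U) (b.U ^ 2 / 2 ^ 40) = true
  G2 : sqOK n (getN p.G2) (b.G2 ^ 2 / 2 ^ 40) = true
  G4 : sqOK n (getN p.G4) (b.G4 ^ 2 / 2 ^ 40) = true
  G5 : sqOK n (getN p.G5) (b.G5 ^ 2 / 2 ^ 40) = true
  G9 : sqOK n (getN p.G9) (b.G9 ^ 2 / 2 ^ 40) = true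
  G18 : sqOK n (getN p.G18) (b.G18 ^ 2 / 2 ^ 40) = true
  W : sqOK n (getN p.W) (b.W ^ 2 / 2 ^ 40) = true
  V : sqOK n (getN p.V) (b.V ^ 2 / 2 ^ 40) = true

/-- kernel checks: the traces (shifted by `2^120`) -/
structure Trcs (n : ℕ) (p : PK) (t : Trs) : Prop where
  t40 : traceOK n (getN p.T36) (getN p.T4) (t.t40 + 2 ^ 120).toNat = true
  k38 : traceOK n (getN p.K) (getN p.T38) (t.k38 + 2 ^ 120).toNat = true
  kk38 : traceOK n (getN p.KK) (getN p.T38) (t.kk38 + 2 ^ 120).toNat = true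
  t3 : traceOK n (getN p.T3) (getN p.T37) (t.t3 + 2 ^ 120).toNat = true
  wg : traceOK n (getN p.W) (getN p.G18) (t.wg + 2 ^ 120).toNat = true
  vk : traceOK n (getN p.V) (getN p.K) (t.vk + 2 ^ 120).toNat = true
  t80 : traceOK n (getN p.T75) (getN p.T5) (t.t80 + 2 ^ 120).toNat = true
  k78 : traceOK n (getN p.G4) (getN p.T75) (t.k78 + 2 ^ 120).toNat = true

/-- all shifted traces are nonnegative -/
def trsOK (t : Trs) : Bool :=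
  decide (0 ≤ t.t40 + 2 ^ 120) &&
    decide (0 ≤ t.k38 + 2 ^ 120) &&
    decide (0 ≤ t.kk38 + 2 ^ 120) &&
    decide (0 ≤ t.t3 + 2 ^ 120) &&
    decide (0 ≤ t.wg + 2 ^ 120) &&
    decide (0 ≤ t.vk + 2 ^ 120) &&
    decide (0 ≤ t.t80 + 2 ^ 120) &&
    decide (0 ≤ t.k78 + 2 ^ 120)

theorem NB.of_sq {n : ℕ} (hn : 1 ≤ n) (hn2 : n ≤ 1024) {A : ℕ → ℕ} (hA : Good n A) {b : ℕ}
    (h : sqOK n A (b ^ 2 / 2 ^ 40) = true) : NB (mat n A) b := by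
  have h1 := mat_sq hn hn2 hA h
  unfold NB
  have h2 : ((b ^ 2 / 2 ^ 40 : ℕ) : ℤ) * 2 ^ 40 ≤ (b : ℤ) ^ 2 := by
    exact_mod_cast Nat.div_mul_le_self (b ^ 2) (2 ^ 40)
  calc (∑ i, ∑ j, mat n A i j ^ 2) * 2 ^ 40 ≤ ((b ^ 2 / 2 ^ 40 : ℕ) : ℤ) * 2 ^ 40 := by gcongr
    _ ≤ _ := h2

theorem tr_of {n : ℕ} (hn : 1 ≤ n) (hn2 : n ≤ 1024) {A B : ℕ → ℕ} (hA : Good n A)
    (hB : Good n B) {t : ℤ} (h0 : 0 ≤ t + 2 ^ 120) (h : traceOK n A B (t + 2 ^ 120).toNat = true) :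
    (mat n A * mat n B).trace = t := by
  rw [mat_trace hn hn2 hA hB h, Int.toNat_of_nonneg h0]
  ring

/-- Assembly of the certificate of one sector. -/
theorem cert_mk {n : ℕ} (hn : 1 ≤ n) (hn2 : n ≤ 512) {sT sK sKK sT3 : Matrix (Fin n) (Fin n) ℤ}
    {p : PK} {b : Nrms} {t : Trs} (ht : trsOK t = true)
    (bT : Good n (getN p.T) ∧ ∀ i j : Fin n, mat n (getN p.T) i j = 2 ^ 16 * sT i j)
    (bK : Good n (getN p.K) ∧ RndS 19 sK (mat n (getN p.K)))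
    (bKK : Good n (getN p.KK) ∧ RndS 26 sKK (mat n (getN p.KK)))
    (bT3 : Good n (getN p.T3) ∧ RndS 54 sT3 (mat n (getN p.T3)))
    (m : Prods n p) (q : Sqs n p b) (r : Trcs n p t) :
    Cert sT sK sKK sT3 (p.chain n) b t := by
  have hn3 : n ≤ 1024 := by omega
  obtain ⟨gT, hT⟩ := bT
  obtain ⟨gK, hK⟩ := bK
  obtain ⟨gKK, hKK⟩ := bKK
  obtain ⟨gT3, hT3⟩ := bT3
  simp only [trsOK, Bool.and_eq_true, decide_eq_true_eq] at ht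
  obtain ⟨⟨⟨⟨⟨⟨⟨zt40, zk38⟩, zkk38⟩, zt3⟩, zwg⟩, zvk⟩, zt80⟩, zk78⟩ := ht
  obtain ⟨gT2, hT2⟩ := mat_mul hn hn3 gT gT m.T2
  obtain ⟨gT4, hT4⟩ := mat_mul hn hn3 gT2 gT2 m.T4
  obtain ⟨gT5, hT5⟩ := mat_mul hn hn3 gT4 gT m.T5
  obtain ⟨gT9, hT9⟩ := mat_mul hn hn3 gT5 gT4 m.T9
  obtain ⟨gT18, hT18⟩ := mat_mul hn hn3 gT9 gT9 m.T18
  obtain ⟨gT36, hT36⟩ := mat_mul hn hn3 gT18 gT18 m.T36
  obtain ⟨gT37, hT37⟩ := mat_mul hn hn3 gT36 gT m.T37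
  obtain ⟨gT38, hT38⟩ := mat_mul hn hn3 gT36 gT2 m.T38
  obtain ⟨gT75, hT75⟩ := mat_mul hn hn3 gT37 gT38 m.T75
  obtain ⟨gU, hU⟩ := mat_mul hn hn3 gT gK m.U
  obtain ⟨gG2, hG2⟩ := mat_mul2 hn hn2 gK gT gT gK m.G2
  obtain ⟨gG4, hG4⟩ := mat_mul2 hn hn2 gG2 gT2 gT2 gG2 m.G4
  obtain ⟨gG5, hG5⟩ := mat_mul2 hn hn2 gG4 gT gT4 gK m.G5
  obtain ⟨gG9, hG9⟩ := mat_mul2 hn hn2 gG5 gT4 gT5 gG4 m.G9
  obtain ⟨gG18, hG18⟩ := mat_mul2 hn hn2 gG9 gT9 gT9 gG9 m.G18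
  obtain ⟨gW, hW⟩ := mat_mul2 hn hn2 gT18 gU gU gT18 m.W
  obtain ⟨gV, hV⟩ := mat_mul hn hn3 gK gT36 m.V
  exact ⟨hT,
    hK,
    hKK,
    hT3,
    hT2,
    hT4,
    hT5,
    hT9,
    hT18,
    hT36,
    hT37,
    hT38,
    hT75,
    hU,
    hG2,
    hG4,
    hG5,
    hG9,
    hG18,
    hW,
    hV,
    NB.of_sq hn hn3 gT q.T,
    NB.of_sq hn hn3 gK q.K,
    NB.of_sq hn hn3 gKK q.KK,
    NB.of_sq hn hn3 gT3 q.T3,
    NB.of_sq hn hn3 gT2 q.T2,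
    NB.of_sq hn hn3 gT4 q.T4,
    NB.of_sq hn hn3 gT5 q.T5,
    NB.of_sq hn hn3 gT9 q.T9,
    NB.of_sq hn hn3 gT18 q.T18,
    NB.of_sq hn hn3 gT36 q.T36,
    NB.of_sq hn hn3 gT37 q.T37,
    NB.of_sq hn hn3 gT38 q.T38,
    NB.of_sq hn hn3 gT75 q.T75,
    NB.of_sq hn hn3 gU q.U,
    NB.of_sq hn hn3 gG2 q.G2,
    NB.of_sq hn hn3 gG4 q.G4,
    NB.of_sq hn hn3 gG5 q.G5,
    NB.of_sq hn hn3 gG9 q.G9,
    NB.of_sq hn hn3 gG18 q.G18,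
    NB.of_sq hn hn3 gW q.W,
    NB.of_sq hn hn3 gV q.V,
    tr_of hn hn3 gT36 gT4 zt40 r.t40,
    tr_of hn hn3 gK gT38 zk38 r.k38,
    tr_of hn hn3 gKK gT38 zkk38 r.kk38,
    tr_of hn hn3 gT3 gT37 zt3 r.t3,
    tr_of hn hn3 gW gG18 zwg r.wg,
    tr_of hn hn3 gV gK zvk r.vk,
    tr_of hn hn3 gT75 gT5 zt80 r.t80,
    tr_of hn hn3 gG4 gT75 zk78 r.k78⟩

end Crest.Agent.R347.RingErr
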