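import Crest.Agent.R347.RingBase
import Crest.Agent.R347.RingCat
import Crest.Agent.R347.RingSec1

/-! R347: ring certificate, sector 0 (size 280): exact rows, rounded. Generated. -/

set_option autoImplicit false
set_option Elab.async false

namespace Crest.Agent.R347.Sec0

open Packed RingErr

/-- literals -/
noncomputable def LB : List (List (List ℕ)) := eval% (Ev.cutL (Ev.base4 0 280))

noncomputable def dT : List ℕ := nthC LB 0
noncomputable def dK : List ℕ := nthC LB 1
noncomputable def dKK : List ℕ := nthC LB 2
noncomputable def dT3 : List ℕ := nthC LB 3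

theorem oT : roundOK 280 16 0 (fun r => Row.fN r (Row.rowT 0)) (getN dT) = true := by
  decide +kernel

theorem oK : roundOK 280 0 19 (fun r => Row.fN r (Row.rowTK 0)) (getN dK) = true := by
  decide +kernel

theorem oKK : roundOK 280 0 26 (fun r => Row.fN r (Row.rowTKK 0)) (getN dKK) = true := by
  decide +kernel

theorem oT3 : roundOK 280 0 54 (fun r => Row.fN r (Row.rowT3 0)) (getN dT3) = true := by
  decide +kernel

end Crest.Agent.R347.Sec0
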