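import Crest.Agent.R347.RingSec1a

/-! R347: ring certificate, sector 1: powers of `T`. Generated. -/

set_option autoImplicit false
set_option Elab.async false

namespace Crest.Agent.R347.Sec1

open Packed RingErr

/-- literals -/
noncomputable def LP : List (List (List ℕ)) := eval% (Ev.cutL (Ev.powT 1 244))

noncomputable def dT2 : List ℕ := nthC LP 0
noncomputable def dT4 : List ℕ := nthC LP 1
noncomputable def dT5 : List ℕ := nthC LP 2
noncomputable def dT9 : List ℕ := nthC LP 3
noncomputable def dT18 : List ℕ := nthC LP 4
noncomputable def dT36 : List ℕ := nthC LP 5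
noncomputable def dT37 : List ℕ := nthC LP 6
noncomputable def dT38 : List ℕ := nthC LP 7
noncomputable def dT75 : List ℕ := nthC LP 8

theorem mT2 : mulOK 244 (getN dT) (getN dT) (getN dT2) = true := by decide +kernel

theorem mT4 : mulOK 244 (getN dT2) (getN dT2) (getN dT4) = true := by decide +kernel

theorem mT5 : mulOK 244 (getN dT4) (getN dT) (getN dT5) = true := by decide +kernel

theorem mT9 : mulOK 244 (getN dT5) (getN dT4) (getN dT9) = true := by decide +kernel

theorem mT18 : mulOK 244 (getN dT9) (getN dT9) (getN dT18) = true := by decide +kernel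

theorem mT36 : mulOK 244 (getN dT18) (getN dT18) (getN dT36) = true := by decide +kernel

theorem mT37 : mulOK 244 (getN dT36) (getN dT) (getN dT37) = true := by decide +kernel

theorem mT38 : mulOK 244 (getN dT36) (getN dT2) (getN dT38) = true := by decide +kernel

theorem mT75 : mulOK 244 (getN dT37) (getN dT38) (getN dT75) = true := by decide +kernel

end Crest.Agent.R347.Sec1
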