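import Crest.Agent.R347.RingSec1b

/-! R347: ring certificate, sector 1: the matrices `G_n`. Generated. -/

set_option autoImplicit false
set_option Elab.async false

namespace Crest.Agent.R347.Sec1

open Packed RingErr

/-- literals -/
noncomputable def LG : List (List (List ℕ)) := eval% (Ev.cutL (Ev.matG 1 244))

noncomputable def dU : List ℕ := nthC LG 0
noncomputable def dG2 : List ℕ := nthC LG 1
noncomputable def dG4 : List ℕ := nthC LG 2
noncomputable def dG5 : List ℕ := nthC LG 3
noncomputable def dG9 : List ℕ := nthC LG 4
noncomputable def dG18 : List ℕ := nthC LG 5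
noncomputable def dW : List ℕ := nthC LG 6
noncomputable def dV : List ℕ := nthC LG 7

theorem mU : mulOK 244 (getN dT) (getN dK) (getN dU) = true := by decide +kernel

theorem mG2 : mul2OK 244 (getN dK) (getN dT) (getN dT) (getN dK) (getN dG2) = true := by
  decide +kernel

theorem mG4 : mul2OK 244 (getN dG2) (getN dT2) (getN dT2) (getN dG2) (getN dG4) = true := by
  decide +kernel

theorem mG5 : mul2OK 244 (getN dG4) (getN dT) (getN dT4) (getN dK) (getN dG5) = true := by
  decide +kernel

theorem mG9 : mul2OK 244 (getN dG5) (getN dT4) (getN dT5) (getN dG4) (getN dG9) = true := by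
  decide +kernel

theorem mG18 : mul2OK 244 (getN dG9) (getN dT9) (getN dT9) (getN dG9) (getN dG18) = true := by
  decide +kernel

theorem mW : mul2OK 244 (getN dT18) (getN dU) (getN dU) (getN dT18) (getN dW) = true := by
  decide +kernel

theorem mV : mulOK 244 (getN dK) (getN dT36) (getN dV) = true := by decide +kernel

end Crest.Agent.R347.Sec1
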