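import Crest.Agent.R347.NumT4
import Crest.Agent.R347.NumT6
import Crest.Agent.R347.NumT8

/-! Certified ring traces on 4, 6 and 8 sites. -/

set_option autoImplicit false

namespace Crest.Agent.R347

/-- The certified twisted ring traces at `β = 6`. -/
theorem ringTraces : RingTraces where
  z00_4 := Num.z00_4
  z30_4 := Num.z30_4
  z03_4 := Num.z03_4
  z33_4 := Num.z33_4
  z13_4 := Num.z13_4
  z00_6 := Num.z00_6
  z30_6 := Num.z30_6
  z03_6 := Num.z03_6
  z33_6 := Num.z33_6
  z13_6 := Num.z13_6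
  z00_8 := Num.z00_8
  z30_8 := Num.z30_8
  z03_8 := Num.z03_8
  z33_8 := Num.z33_8
  z13_8 := Num.z13_8

end Crest.Agent.R347
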