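import Crest.Agent.R347.RowKernel

/-!
Correctness of the kernel rows (task N5, part 4).
-/

set_option autoImplicit false

namespace Crest.Agent.R347

open Matrix
open scoped Kronecker

namespace Row

/-! ### operator side -/

section op
variable {m κ : Type*} [Fintype m] [DecidableEq m] [Fintype κ] [DecidableEq κ]

/-- tensor product of two vectors -/
def tens (x y : m → ℤ) : m × m → ℤ := fun p => x p.1 * y p.2

omit [DecidableEq m] in
theorem kron_tens (X Y : Matrix m m ℤ) (f g : m → ℤ) :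
    (X ⊗ₖ Y) *ᵥ tens f g = tens (X *ᵥ f) (Y *ᵥ g) := by
  funext p
  simp only [Matrix.mulVec, dotProduct, tens, Fintype.sum_prod_type, Finset.sum_mul_sum,
    Matrix.kroneckerMap_apply]
  refine Finset.sum_congr rfl fun i _ => Finset.sum_congr rfl fun j _ => ?_
  ring

omit [DecidableEq m] [DecidableEq κ] in
theorem Eop_tens (A : κ → Matrix m m ℤ) (o : Matrix κ κ ℤ) (f g : m → ℤ) :
    Eop A o *ᵥ tens f g = ∑ s, ∑ s', o s s' • tens (A s *ᵥ f) (A s' *ᵥ g) := by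
  rw [Eop, Matrix.sum_mulVec]
  refine Finset.sum_congr rfl fun s _ => ?_
  rw [Matrix.sum_mulVec]
  refine Finset.sum_congr rfl fun s' _ => ?_
  rw [Matrix.smul_mulVec, kron_tens]

omit [DecidableEq m] [DecidableEq κ] in
theorem Eop_sum {ι : Type*} [Fintype ι] (A : κ → Matrix m m ℤ) (o : Matrix κ κ ℤ)
    (c : ι → ℤ) (f g : ι → m → ℤ) :
    Eop A o *ᵥ (∑ α, c α • tens (f α) (g α)) = ∑ β : ι × (κ × κ),
      (c β.1 * o β.2.1 β.2.2) • tens (A β.2.1 *ᵥ f β.1) (A β.2.2 *ᵥ g β.1) := by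
  rw [Matrix.mulVec_sum, Fintype.sum_prod_type]
  refine Finset.sum_congr rfl fun α _ => ?_
  rw [Matrix.mulVec_smul, Eop_tens, Finset.smul_sum, Fintype.sum_prod_type]
  refine Finset.sum_congr rfl fun s _ => ?_
  rw [Finset.smul_sum]
  refine Finset.sum_congr rfl fun s' _ => ?_
  rw [smul_smul]

/-- word vectors -/
def wV (A : κ → Matrix m m ℤ) (x : m → ℤ) : List κ → m → ℤ
  | [] => x
  | s :: w => A s *ᵥ wV A x w

omit [DecidableEq m] [DecidableEq κ] in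
theorem one_word (A : κ → Matrix m m ℤ) (o : Matrix κ κ ℤ) (x y : m → ℤ) :
    Eop A o *ᵥ tens x y = ∑ s, ∑ s', o s s' • tens (wV A x [s]) (wV A y [s']) :=
  Eop_tens A o x y

omit [DecidableEq m] [DecidableEq κ] in
theorem two_word (A : κ → Matrix m m ℤ) (o o' : Matrix κ κ ℤ) (x y : m → ℤ) :
    (Eop A o * Eop A o') *ᵥ tens x y = ∑ w : κ × κ, ∑ w' : κ × κ,
      (o w.1 w'.1 * o' w.2 w'.2) • tens (wV A x [w.1, w.2]) (wV A y [w'.1, w'.2]) := by
  rw [← Matrix.mulVec_mulVec, Eop_tens]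
  have h : (∑ s, ∑ s', o' s s' • tens (A s *ᵥ x) (A s' *ᵥ y)) =
      ∑ α : κ × κ, o' α.1 α.2 • tens (A α.1 *ᵥ x) (A α.2 *ᵥ y) := by
    rw [Fintype.sum_prod_type]
  rw [h, Eop_sum, ← Fintype.sum_prod_type']
  refine Fintype.sum_equiv
    ⟨fun β : (κ × κ) × (κ × κ) => ((β.2.1, β.1.1), (β.2.2, β.1.2)),
     fun γ => ((γ.1.2, γ.2.2), (γ.1.1, γ.2.1)), fun _ => rfl, fun _ => rfl⟩ _ _ fun β => ?_
  simp only [Equiv.coe_fn_mk, wV]
  rw [mul_comm]

omit [DecidableEq m] [DecidableEq κ] in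
theorem three_word (A : κ → Matrix m m ℤ) (o o' o'' : Matrix κ κ ℤ) (x y : m → ℤ) :
    (Eop A o * Eop A o' * Eop A o'') *ᵥ tens x y = ∑ w : κ × κ × κ, ∑ w' : κ × κ × κ,
      (o w.1 w'.1 * o' w.2.1 w'.2.1 * o'' w.2.2 w'.2.2) •
        tens (wV A x [w.1, w.2.1, w.2.2]) (wV A y [w'.1, w'.2.1, w'.2.2]) := by
  rw [mul_assoc, ← Matrix.mulVec_mulVec, two_word, ← Fintype.sum_prod_type']
  rw [Eop_sum (ι := (κ × κ) × (κ × κ)) A o
    (fun α => o' α.1.1 α.2.1 * o'' α.1.2 α.2.2)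
    (fun α => wV A x [α.1.1, α.1.2]) (fun α => wV A y [α.2.1, α.2.2]), ← Fintype.sum_prod_type']
  refine Fintype.sum_equiv
    ⟨fun β : ((κ × κ) × (κ × κ)) × (κ × κ) =>
        ((β.2.1, β.1.1.1, β.1.1.2), (β.2.2, β.1.2.1, β.1.2.2)),
     fun γ => (((γ.1.2.1, γ.1.2.2), (γ.2.2.1, γ.2.2.2)), (γ.1.1, γ.2.1)),
     fun _ => rfl, fun _ => rfl⟩ _ _ fun β => ?_
  simp only [Equiv.coe_fn_mk, wV]
  congr 1
  ring

/-- contraction of the coefficient -/
theorem TK_word (A : κ → Matrix m m ℤ) {I : Type*} [Fintype I] (u v : I → Matrix κ κ ℤ)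
    (x y : m → ℤ) :
    TK A u v *ᵥ tens x y = ∑ w : κ × κ, ∑ w' : κ × κ,
      (∑ a, u a w.1 w'.1 * v a w.2 w'.2) • tens (wV A x [w.1, w.2]) (wV A y [w'.1, w'.2]) := by
  rw [TK, Matrix.sum_mulVec]
  simp only [two_word, Finset.sum_smul]
  rw [Finset.sum_comm]
  refine Finset.sum_congr rfl fun w _ => ?_
  rw [Finset.sum_comm]

theorem TKK_word (A : κ → Matrix m m ℤ) {I : Type*} [Fintype I] (u v : I → Matrix κ κ ℤ)
    (x y : m → ℤ) :
    TKK A u v *ᵥ tens x y = ∑ w : κ × κ, ∑ w' : κ × κ,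
      (∑ a, ∑ b, (u a * u b) w.1 w'.1 * (v a * v b) w.2 w'.2) •
        tens (wV A x [w.1, w.2]) (wV A y [w'.1, w'.2]) := by
  rw [TKK]
  simp only [Matrix.sum_mulVec, two_word, Finset.sum_smul]
  rw [Finset.sum_congr rfl fun a _ => Finset.sum_comm, Finset.sum_comm]
  refine Finset.sum_congr rfl fun w _ => ?_
  rw [Finset.sum_congr rfl fun a _ => Finset.sum_comm, Finset.sum_comm]

theorem T3_word (A : κ → Matrix m m ℤ) {I : Type*} [Fintype I] (u v : I → Matrix κ κ ℤ)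
    (x y : m → ℤ) :
    T3 A u v *ᵥ tens x y = ∑ w : κ × κ × κ, ∑ w' : κ × κ × κ,
      (∑ a, ∑ b, (u a w.1 w'.1 * (v a * u b) w.2.1 w'.2.1 * v b w.2.2 w'.2.2 +
        u a w.1 w'.1 * (u b * v a) w.2.1 w'.2.1 * v b w.2.2 w'.2.2)) •
        tens (wV A x [w.1, w.2.1, w.2.2]) (wV A y [w'.1, w'.2.1, w'.2.2]) := by
  rw [T3]
  simp only [Matrix.sum_mulVec, Matrix.add_mulVec, three_word, Finset.sum_smul, add_smul,
    ← Finset.sum_add_distrib]
  rw [Finset.sum_congr rfl fun a _ => Finset.sum_comm, Finset.sum_comm]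
  refine Finset.sum_congr rfl fun w _ => ?_
  rw [Finset.sum_congr rfl fun a _ => Finset.sum_comm, Finset.sum_comm]

end op
end Row
end Crest.Agent.R347
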