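import Crest.Agent.R347.RowProof

/-!
Correctness of the kernel rows (task N5, part 5): the natural number side.
-/

set_option autoImplicit false

namespace Crest.Agent.R347

open Matrix

namespace Row

/-- value of a sparse row -/
def valS (x : ℕ → ℤ) : SRow → ℤ
  | SRow.nil => 0
  | SRow.pos j a t => (a : ℤ) * x j + valS x t
  | SRow.neg j a t => -((a : ℤ) * x j) + valS x t

theorem dotS_nil (f g : ℕ → ℕ) : dotS SRow.nil f g = 0 := rfl
theorem dotS_pos (j a : ℕ) (t : SRow) (f g : ℕ → ℕ) :
    dotS (SRow.pos j a t) f g = a * f j + dotS t f g := rfl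
theorem dotS_neg (j a : ℕ) (t : SRow) (f g : ℕ → ℕ) :
    dotS (SRow.neg j a t) f g = a * g j + dotS t f g := rfl

theorem dotS_sub (r : SRow) (f g : ℕ → ℕ) :
    (dotS r f g : ℤ) - dotS r g f = valS (fun j => (f j : ℤ) - g j) r := by
  induction r with
  | nil => simp [dotS_nil, valS]
  | pos j a t ih => rw [dotS_pos, dotS_pos, valS, ← ih]; push_cast; ring
  | neg j a t ih => rw [dotS_neg, dotS_neg, valS, ← ih]; push_cast; ring

/-- dense dot product -/
def dotF (x : ℕ → ℤ) : List ℤ → ℕ → ℤ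
  | [], _ => 0
  | a :: t, k => a * x k + dotF x t (k + 1)

theorem sparse_nil (k : ℕ) : sparse [] k = SRow.nil := rfl
theorem sparse_zero (t : List ℤ) (k : ℕ) : sparse (Int.ofNat 0 :: t) k = sparse t (k + 1) := rfl
theorem sparse_pos (m : ℕ) (t : List ℤ) (k : ℕ) :
    sparse (Int.ofNat (m + 1) :: t) k = SRow.pos k (m + 1) (sparse t (k + 1)) := rfl
theorem sparse_neg (m : ℕ) (t : List ℤ) (k : ℕ) :
    sparse (Int.negSucc m :: t) k = SRow.neg k (m + 1) (sparse t (k + 1)) := rfl

theorem valS_sparse (x : ℕ → ℤ) (l : List ℤ) (k : ℕ) : valS x (sparse l k) = dotF x l k := by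
  induction l generalizing k with
  | nil => rfl
  | cons a t ih =>
    rw [dotF]
    cases a with
    | ofNat m =>
      cases m with
      | zero =>
        rw [sparse_zero, ih]
        show _ = (0 : ℤ) * x k + _
        rw [zero_mul, zero_add]
      | succ m =>
        rw [sparse_pos, valS, ih]
        rfl
    | negSucc m =>
      rw [sparse_neg, valS, ih, Int.negSucc_eq]
      push_cast
      ring

theorem dotF_eq (x : ℕ → ℤ) (n : ℕ) (l : List ℤ) (k : ℕ) (hl : l.length ≤ n) :
    dotF x l k = ∑ j ∈ Finset.range n, l.getD j 0 * x (k + j) := by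
  induction l generalizing k n with
  | nil => simp [dotF]
  | cons a t ih =>
    cases n with
    | zero => simp at hl
    | succ n =>
      rw [dotF, Finset.sum_range_succ', ih n (k + 1) (by simpa using hl)]
      simp only [List.getD_cons_succ, List.getD_cons_zero, add_zero]
      rw [add_comm]
      congr 1
      refine Finset.sum_congr rfl fun j _ => ?_
      rw [show k + 1 + j = k + (j + 1) by ring]

theorem rt_len (s : Fin 3) (i : Fin 36) : ((rtA.getD s.val []).getD i.val []).length ≤ 36 := by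
  revert s i
  decide +kernel

theorem wF_nil (X : PF) : wF X [] = X := rfl
theorem wF_cons (X : PF) (s : ℕ) (w : List ℕ) : wF X (s :: w) = step s (wF X w) := rfl
theorem step_p (s : ℕ) (F : PF) (i : ℕ) : (step s F).p i = dotS (rowS s i) F.p F.n := rfl
theorem step_n (s : ℕ) (F : PF) (i : ℕ) : (step s F).n i = dotS (rowS s i) F.n F.p := rfl

/-- integer value of a pair -/
def val (F : PF) (j : ℕ) : ℤ := (F.p j : ℤ) - F.n j

theorem wF_val (X : PF) (w : List (Fin 3)) (i : Fin 36) :
    val (wF X (w.map Fin.val)) i.val = wV rtM (fun j : Fin 36 => val X j.val) w i := by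
  induction w generalizing i with
  | nil => rfl
  | cons s w ih =>
    rw [List.map_cons, wF_cons, val, step_p, step_n, dotS_sub, rowS, valS_sparse,
      dotF_eq _ 36 _ _ (rt_len s i), wV, Matrix.mulVec, dotProduct, ← Fin.sum_univ_eq_sum_range
        (fun j => ((rtA.getD s.val []).getD i.val []).getD j 0 *
          (((wF X (w.map Fin.val)).p (0 + j) : ℤ) - (wF X (w.map Fin.val)).n (0 + j))) 36]
    refine Finset.sum_congr rfl fun j _ => ?_
    rw [zero_add, ← ih j]
    rfl

theorem sumL_nil {α : Type} (f : α → ℕ) : sumL ([] : List α) f = 0 := rfl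
theorem sumL_cons {α : Type} (a : α) (l : List α) (f : α → ℕ) :
    sumL (a :: l) f = f a + sumL l f := rfl

/-- integer sums over lists -/
def sumI {α : Type} (f : α → ℤ) : List α → ℤ
  | [] => 0
  | a :: l => f a + sumI f l

theorem sumL_cast {α : Type} (l : List α) (f : α → ℕ) :
    (sumL l f : ℤ) = sumI (fun a => (f a : ℤ)) l := by
  induction l with
  | nil => rfl
  | cons a l ih => rw [sumL_cons, sumI, ← ih]; push_cast; ring

theorem sumI_sub {α : Type} (l : List α) (f g : α → ℤ) :
    sumI f l - sumI g l = sumI (fun a => f a - g a) l := by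
  induction l with
  | nil => rfl
  | cons a l ih => rw [sumI, sumI, sumI, ← ih]; ring

theorem sumI_congr {α : Type} (l : List α) {f g : α → ℤ} (h : ∀ a, f a = g a) :
    sumI f l = sumI g l := by
  rw [show f = g from funext h]

theorem uF_val (ws : List (List ℕ)) (O : List ℕ → List ℕ → ℕ) (w : List ℕ) (i : ℕ) :
    val (uF ws O w) i = sumI (fun w' => (O w w' : ℤ) * val (wF vY w') i) ws := by
  rw [val]
  show ((sumL ws fun w' => Nat.mul (O w w') ((wF vY w').p i) : ℕ) : ℤ) -
    ((sumL ws fun w' => Nat.mul (O w w') ((wF vY w').n i) : ℕ) : ℤ) = _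
  rw [sumL_cast, sumL_cast, sumI_sub]
  refine sumI_congr _ fun w' => ?_
  show ((O w w' * (wF vY w').p i : ℕ) : ℤ) - ((O w w' * (wF vY w').n i : ℕ) : ℤ) = _
  rw [val]; push_cast; ring

theorem row_val (ws : List (List ℕ)) (O : List ℕ → List ℕ → ℕ) (k i i' : ℕ) :
    (rowP ws O k i i' : ℤ) - rowN ws O k i i' =
      sumI (fun w => val (wF (vX k) w) i *
        sumI (fun w' => (O w w' : ℤ) * val (wF vY w') i') ws) ws := by
  rw [rowP, rowN, sumL_cast, sumL_cast, sumI_sub]
  refine sumI_congr _ fun w => ?_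
  rw [← uF_val, val, val]
  show (((wF (vX k) w).p i * (uF ws O w).p i' + (wF (vX k) w).n i * (uF ws O w).n i' : ℕ) : ℤ) -
    (((wF (vX k) w).p i * (uF ws O w).n i' + (wF (vX k) w).n i * (uF ws O w).p i' : ℕ) : ℤ) = _
  push_cast; ring

theorem sumI_w1 (g : List ℕ → ℤ) : sumI g w1 = ∑ w : Fin 3, g [w.val] := by
  simp only [w1, sumI, Fin.sum_univ_three]
  simp only [Fin.val_zero, Fin.val_one, Fin.val_two]
  ring

theorem sumI_w2 (g : List ℕ → ℤ) : sumI g w2 = ∑ w : Fin 3 × Fin 3, g [w.1.val, w.2.val] := by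
  simp only [w2, sumI, Fintype.sum_prod_type, Fin.sum_univ_three]
  simp only [Fin.val_zero, Fin.val_one, Fin.val_two]
  ring

theorem sumI_w3 (g : List ℕ → ℤ) :
    sumI g w3 = ∑ w : Fin 3 × Fin 3 × Fin 3, g [w.1.val, w.2.1.val, w.2.2.val] := by
  simp only [w3, sumI, Fintype.sum_prod_type, Fin.sum_univ_three]
  simp only [Fin.val_zero, Fin.val_one, Fin.val_two]
  ring

/-! ### coefficient tables -/

theorem O1_eq (w w' : Fin 3) : (O1 [w.val] [w'.val] : ℤ) = (1 : Matrix (Fin 3) (Fin 3) ℤ) w w' := by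
  revert w w'
  decide +kernel

theorem OK_eq (w w' : Fin 3 × Fin 3) : (OK [w.1.val, w.2.val] [w'.1.val, w'.2.val] : ℤ) =
    ∑ a, uK 132 (-185) a w.1 w'.1 * vK a w.2 w'.2 := by
  revert w w'
  decide +kernel

theorem OKK_eq (w w' : Fin 3 × Fin 3) : (OKK [w.1.val, w.2.val] [w'.1.val, w'.2.val] : ℤ) =
    ∑ a, ∑ b, (uK 132 (-185) a * uK 132 (-185) b) w.1 w'.1 * (vK a * vK b) w.2 w'.2 := by
  revert w w'
  decide +kernel

end Row
end Crest.Agent.R347
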