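import Crest.Agent.R347.MPSRing
import Crest.Agent.R347.RingTensor

/-!
Charge sectors of the ring transfer matrices (task N5, part 1).
For an integer tensor `A` with charges `c` (`A s i j ≠ 0 → c j = c i + 2 - 2 s`) the matrices
`Eop A 1`, `TK`, `TKK`, `T3` preserve `q (i, i') = c i - c i'` and are invariant under the swap
`(i, i') ↦ (i', i)`.
-/

set_option autoImplicit false

namespace Crest.Agent.R347

open Matrix
open scoped Kronecker

section shift
variable {p R : Type*} [CommRing R]

/-- `X a b ≠ 0 → q b = q a + d`. -/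
def ShiftBy (q : p → ℤ) (d : ℤ) (X : Matrix p p R) : Prop :=
  ∀ a b, X a b ≠ 0 → q b = q a + d

theorem ShiftBy.mul [Fintype p] {q : p → ℤ} {d d' : ℤ} {X Y : Matrix p p R}
    (hX : ShiftBy q d X) (hY : ShiftBy q d' Y) : ShiftBy q (d + d') (X * Y) := by
  intro a b h
  rw [Matrix.mul_apply] at h
  obtain ⟨x, -, hx⟩ := Finset.exists_ne_zero_of_sum_ne_zero h
  have h1 : X a x ≠ 0 := fun h0 => hx (by rw [h0, zero_mul])
  have h2 : Y x b ≠ 0 := fun h0 => hx (by rw [h0, mul_zero])
  rw [hY x b h2, hX a x h1]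
  ring

theorem ShiftBy.add {q : p → ℤ} {d : ℤ} {X Y : Matrix p p R}
    (hX : ShiftBy q d X) (hY : ShiftBy q d Y) : ShiftBy q d (X + Y) := by
  intro a b h
  by_cases h1 : X a b = 0
  · refine hY a b fun h2 => h ?_
    rw [Matrix.add_apply, h1, h2, add_zero]
  · exact hX a b h1

theorem ShiftBy.zero {q : p → ℤ} {d : ℤ} : ShiftBy q d (0 : Matrix p p R) :=
  fun _ _ h => absurd rfl h

theorem ShiftBy.sum {q : p → ℤ} {d : ℤ} {ι : Type*} (s : Finset ι) {X : ι → Matrix p p R}
    (hX : ∀ i ∈ s, ShiftBy q d (X i)) : ShiftBy q d (∑ i ∈ s, X i) := by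
  classical
  induction s using Finset.induction_on with
  | empty => rw [Finset.sum_empty]; exact ShiftBy.zero
  | insert i s hi ih =>
    rw [Finset.sum_insert hi]
    exact (hX i (Finset.mem_insert_self _ _)).add
      (ih fun j hj => hX j (Finset.mem_insert_of_mem hj))

theorem ShiftBy.smul {q : p → ℤ} {d : ℤ} {X : Matrix p p R} (c : R)
    (hX : ShiftBy q d X) : ShiftBy q d (c • X) := by
  intro a b h
  refine hX a b fun h0 => h ?_
  rw [Matrix.smul_apply, h0, smul_zero]

theorem ShiftBy.one [DecidableEq p] {q : p → ℤ} : ShiftBy q 0 (1 : Matrix p p R) := by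
  intro a b h
  rw [Matrix.one_apply] at h
  split_ifs at h with hab
  · rw [hab, add_zero]
  · exact absurd rfl h

theorem ShiftBy.pow [Fintype p] [DecidableEq p] {q : p → ℤ} {X : Matrix p p R}
    (hX : ShiftBy q 0 X) (n : ℕ) : ShiftBy q 0 (X ^ n) := by
  induction n with
  | zero => rw [pow_zero]; exact ShiftBy.one
  | succ n ih =>
    rw [pow_succ]
    have := ih.mul hX
    rwa [add_zero] at this

theorem ShiftBy.mul0 [Fintype p] {q : p → ℤ} {X Y : Matrix p p R}
    (hX : ShiftBy q 0 X) (hY : ShiftBy q 0 Y) : ShiftBy q 0 (X * Y) := by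
  have := hX.mul hY
  rwa [add_zero] at this

/-- restriction of a product to a sector -/
theorem ShiftBy.submatrix_mul [Fintype p] {q : p → ℤ} {X Y : Matrix p p R}
    (hX : ShiftBy q 0 X) {n : Type*} [Fintype n] (e : n → p) (he : Function.Injective e)
    (v : ℤ) (hr : ∀ x, q x = v ↔ ∃ a, e a = x) :
    (X * Y).submatrix e e = X.submatrix e e * Y.submatrix e e := by
  classical
  ext a b
  rw [Matrix.submatrix_apply, Matrix.mul_apply, Matrix.mul_apply]
  simp only [Matrix.submatrix_apply]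
  symm
  rw [← Finset.sum_image (f := fun x => X (e a) x * Y x (e b)) (s := Finset.univ) (g := e)
    (fun x _ y _ h => he h)]
  refine Finset.sum_subset (Finset.subset_univ _) fun x _ hx => ?_
  by_contra h
  have h1 : X (e a) x ≠ 0 := fun h0 => h (by rw [h0, zero_mul])
  have h2 : q x = v := by
    rw [hX _ _ h1, add_zero]
    exact (hr _).2 ⟨a, rfl⟩
  obtain ⟨c, hc⟩ := (hr x).1 h2
  exact hx (Finset.mem_image.2 ⟨c, Finset.mem_univ _, hc⟩)

end shift

section swap
variable {m R : Type*} [CommRing R]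

/-- invariance under the swap of the two layers -/
def SwapInv (X : Matrix (m × m) (m × m) R) : Prop := X.submatrix Prod.swap Prod.swap = X

omit [CommRing R] in
theorem SwapInv.apply {X : Matrix (m × m) (m × m) R} (h : SwapInv X) (a b : m × m) :
    X a.swap b.swap = X a b := by
  have := congrFun (congrFun h a) b
  simpa using this

theorem submatrix_swap_mul [Fintype m] (X Y : Matrix (m × m) (m × m) R) :
    (X * Y).submatrix Prod.swap Prod.swap =
      X.submatrix Prod.swap Prod.swap * Y.submatrix Prod.swap Prod.swap := by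
  have := Matrix.submatrix_mul_equiv X Y (Prod.swap : m × m → m × m) (Equiv.prodComm m m)
    (Prod.swap : m × m → m × m)
  rw [← this]
  rfl

theorem SwapInv.mul [Fintype m] {X Y : Matrix (m × m) (m × m) R} (hX : SwapInv X)
    (hY : SwapInv Y) : SwapInv (X * Y) := by
  rw [SwapInv, submatrix_swap_mul, hX, hY]

theorem SwapInv.one [DecidableEq m] : SwapInv (1 : Matrix (m × m) (m × m) R) := by
  rw [SwapInv]
  exact Matrix.submatrix_one _ Prod.swap_injective

theorem SwapInv.pow [Fintype m] [DecidableEq m] {X : Matrix (m × m) (m × m) R}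
    (hX : SwapInv X) (n : ℕ) : SwapInv (X ^ n) := by
  induction n with
  | zero => rw [pow_zero]; exact SwapInv.one
  | succ n ih => rw [pow_succ]; exact ih.mul hX

end swap

section eop
variable {m κ R : Type*} [Fintype m] [DecidableEq m] [Fintype κ] [DecidableEq κ] [CommRing R]

omit [Fintype m] [DecidableEq m] [DecidableEq κ] in
theorem Eop_apply (A : κ → Matrix m m R) (o : Matrix κ κ R) (a b : m × m) :
    Eop A o a b = ∑ s, ∑ s', o s s' * (A s a.1 b.1 * A s' a.2 b.2) := by
  simp [Eop, Matrix.sum_apply, Matrix.kroneckerMap_apply]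

omit [Fintype m] [DecidableEq m] [DecidableEq κ] in
theorem Eop_swap (A : κ → Matrix m m R) (o : Matrix κ κ R) :
    (Eop A o).submatrix Prod.swap Prod.swap = Eop A oᵀ := by
  ext a b
  rw [Matrix.submatrix_apply, Eop_apply, Eop_apply, Finset.sum_comm]
  refine Finset.sum_congr rfl fun s _ => Finset.sum_congr rfl fun s' _ => ?_
  rw [Matrix.transpose_apply]
  simp only [Prod.fst_swap, Prod.snd_swap]
  ring

omit [Fintype m] [DecidableEq m] [DecidableEq κ] in
theorem Eop_shift (A : κ → Matrix m m R) (o : Matrix κ κ R) (c : m → ℤ) (w : κ → ℤ)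
    (hA : ∀ s i j, A s i j ≠ 0 → c j = c i + 2 - w s) {d : ℤ} (ho : ShiftBy w d o) :
    ShiftBy (fun a : m × m => c a.1 - c a.2) d (Eop A o) := by
  intro a b h
  rw [Eop_apply] at h
  obtain ⟨s, -, hs⟩ := Finset.exists_ne_zero_of_sum_ne_zero h
  obtain ⟨s', -, hs'⟩ := Finset.exists_ne_zero_of_sum_ne_zero hs
  have h1 : o s s' ≠ 0 := fun h0 => hs' (by rw [h0, zero_mul])
  have h2 : A s a.1 b.1 ≠ 0 := fun h0 => hs' (by rw [h0, zero_mul, mul_zero])
  have h3 : A s' a.2 b.2 ≠ 0 := fun h0 => hs' (by rw [h0, mul_zero, mul_zero])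
  have e1 := hA _ _ _ h2
  have e2 := hA _ _ _ h3
  have e3 := ho _ _ h1
  show c b.1 - c b.2 = c a.1 - c a.2 + d
  rw [e1, e2, e3]
  ring

end eop

/-- physical weight: `2 s` -/
def wS (s : Fin 3) : ℤ := 2 * (s.val : ℤ)

/-- charge shift of the factors of `K` -/
def dK (a : Fin 4) : ℤ := if a = 0 then 2 else if a = 1 then -2 else 0

theorem spI_shift : ShiftBy wS 2 spI := by unfold ShiftBy; decide
theorem smI_shift : ShiftBy wS (-2) smI := by unfold ShiftBy; decide
theorem szI_shift : ShiftBy wS 0 szI := by unfold ShiftBy; decide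
theorem oneI_shift : ShiftBy wS 0 (1 : Matrix (Fin 3) (Fin 3) ℤ) := ShiftBy.one

theorem uK_shift (Q P : ℤ) (a : Fin 4) : ShiftBy wS (dK a) (uK Q P a) := by
  fin_cases a
  · exact spI_shift.smul Q
  · exact smI_shift.smul Q
  · exact szI_shift.smul Q
  · exact oneI_shift.smul (-P)

theorem vK_shift (a : Fin 4) : ShiftBy wS (-dK a) (vK a) := by
  fin_cases a
  · exact smI_shift
  · exact spI_shift
  · exact szI_shift
  · exact oneI_shift

section ops
variable {m : Type*} [Fintype m] [DecidableEq m]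

/-- charge rule of a tensor -/
def ChargeRule (A : Fin 3 → Matrix m m ℤ) (c : m → ℤ) : Prop :=
  ∀ s i j, A s i j ≠ 0 → c j = c i + 2 - wS s

/-- the relative charge -/
def qC (c : m → ℤ) (a : m × m) : ℤ := c a.1 - c a.2

variable {A : Fin 3 → Matrix m m ℤ} {c : m → ℤ}

omit [Fintype m] [DecidableEq m] in
theorem T_shift (hA : ChargeRule A c) : ShiftBy (qC c) 0 (Eop A 1) :=
  Eop_shift A 1 c wS hA ShiftBy.one

omit [DecidableEq m] in
theorem TK_shift (hA : ChargeRule A c) (Q P : ℤ) : ShiftBy (qC c) 0 (TK A (uK Q P) vK) := by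
  refine ShiftBy.sum _ fun a _ => ?_
  have := (Eop_shift A _ c wS hA (uK_shift Q P a)).mul (Eop_shift A _ c wS hA (vK_shift a))
  rwa [add_neg_cancel] at this

omit [DecidableEq m] in
theorem TKK_shift (hA : ChargeRule A c) (Q P : ℤ) : ShiftBy (qC c) 0 (TKK A (uK Q P) vK) := by
  refine ShiftBy.sum _ fun a _ => ShiftBy.sum _ fun b _ => ?_
  have := (Eop_shift A _ c wS hA ((uK_shift Q P a).mul (uK_shift Q P b))).mul
    (Eop_shift A _ c wS hA ((vK_shift a).mul (vK_shift b)))
  rwa [show dK a + dK b + (-dK a + -dK b) = 0 by ring] at this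

omit [DecidableEq m] in
theorem T3_shift (hA : ChargeRule A c) (Q P : ℤ) : ShiftBy (qC c) 0 (T3 A (uK Q P) vK) := by
  refine ShiftBy.sum _ fun a _ => ShiftBy.sum _ fun b _ => ShiftBy.add ?_ ?_
  · have := ((Eop_shift A _ c wS hA (uK_shift Q P a)).mul
      (Eop_shift A _ c wS hA ((vK_shift a).mul (uK_shift Q P b)))).mul
      (Eop_shift A _ c wS hA (vK_shift b))
    rwa [show dK a + (-dK a + dK b) + -dK b = 0 by ring] at this
  · have := ((Eop_shift A _ c wS hA (uK_shift Q P a)).mul
      (Eop_shift A _ c wS hA ((uK_shift Q P b).mul (vK_shift a)))).mul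
      (Eop_shift A _ c wS hA (vK_shift b))
    rwa [show dK a + (dK b + -dK a) + -dK b = 0 by ring] at this

/-- relabelling of the factors under transposition -/
def sig (a : Fin 4) : Fin 4 := Equiv.swap 0 1 a

theorem uK_transpose (Q P : ℤ) (a : Fin 4) : (uK Q P a)ᵀ = uK Q P (sig a) := by
  fin_cases a
  · show (Q • spI)ᵀ = Q • smI
    rw [Matrix.transpose_smul, spI_transpose]
  · show (Q • smI)ᵀ = Q • spI
    rw [Matrix.transpose_smul, smI_transpose]
  · show (Q • szI)ᵀ = Q • szI
    rw [Matrix.transpose_smul, szI_transpose]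
  · show ((-P) • (1 : Matrix (Fin 3) (Fin 3) ℤ))ᵀ = (-P) • 1
    rw [Matrix.transpose_smul, Matrix.transpose_one]

theorem vK_transpose (a : Fin 4) : (vK a)ᵀ = vK (sig a) := by
  fin_cases a
  · exact smI_transpose
  · exact spI_transpose
  · exact szI_transpose
  · exact Matrix.transpose_one

theorem sum_sig {M : Type*} [AddCommMonoid M] (f : Fin 4 → M) : ∑ a, f (sig a) = ∑ a, f a :=
  Equiv.sum_comp (Equiv.swap 0 1) f

omit [Fintype m] [DecidableEq m] in
theorem T_swap : SwapInv (Eop A 1) := by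
  rw [SwapInv, Eop_swap, Matrix.transpose_one]

theorem submatrix_sum' {ι n' p' : Type*} (s : Finset ι) (f : ι → Matrix p' p' ℤ) (e : n' → p') :
    (∑ i ∈ s, f i).submatrix e e = ∑ i ∈ s, (f i).submatrix e e := by
  ext a b
  simp [Matrix.sum_apply]

omit [DecidableEq m] in
theorem TK_swap (Q P : ℤ) : SwapInv (TK A (uK Q P) vK) := by
  rw [SwapInv, TK, submatrix_sum']
  simp only [submatrix_swap_mul, Eop_swap, uK_transpose, vK_transpose]
  exact sum_sig (fun a => Eop A (uK Q P a) * Eop A (vK a))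

omit [DecidableEq m] in
theorem TKK_swap (Q P : ℤ) : SwapInv (TKK A (uK Q P) vK) := by
  rw [SwapInv, TKK, submatrix_sum']
  simp only [submatrix_sum', submatrix_swap_mul, Eop_swap, Matrix.transpose_mul, uK_transpose,
    vK_transpose]
  rw [Finset.sum_comm]
  rw [sum_sig (fun b => ∑ a, Eop A (uK Q P b * uK Q P (sig a)) * Eop A (vK b * vK (sig a)))]
  refine Finset.sum_congr rfl fun b _ => ?_
  exact sum_sig (fun a => Eop A (uK Q P b * uK Q P a) * Eop A (vK b * vK a))

omit [DecidableEq m] in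
theorem T3_swap (Q P : ℤ) : SwapInv (T3 A (uK Q P) vK) := by
  rw [SwapInv, T3, submatrix_sum']
  simp only [submatrix_sum', Matrix.submatrix_add, Pi.add_apply, submatrix_swap_mul, Eop_swap,
    Matrix.transpose_mul, uK_transpose, vK_transpose]
  rw [sum_sig (fun a => ∑ b,
    (Eop A (uK Q P a) * Eop A (uK Q P (sig b) * vK a) * Eop A (vK (sig b)) +
      Eop A (uK Q P a) * Eop A (vK a * uK Q P (sig b)) * Eop A (vK (sig b))))]
  refine Finset.sum_congr rfl fun a _ => ?_
  rw [sum_sig (fun b => (Eop A (uK Q P a) * Eop A (uK Q P b * vK a) * Eop A (vK b) +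
      Eop A (uK Q P a) * Eop A (vK a * uK Q P b) * Eop A (vK b)))]
  refine Finset.sum_congr rfl fun b _ => ?_
  rw [add_comm]

end ops

end Crest.Agent.R347
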